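import Vale.Agent.P334.MathlibUsed
import Vale.Agent.P334.Defs
import Vale.Agent.Lib.PolyTime.Lists3
import Vale.Agent.Lib.PolyTime.Lists2

set_option linter.all false

section

/-!
Deterministic pipage rounding for a laminar family of depth two with a cardinality constraint.
-/

namespace Vale.Agent.P334

open Finset

set_option linter.unusedSectionVars false
set_option linter.unusedVariables false

section Pipage

variable {A : Type} [Fintype A] [DecidableEq A]

/-- Move `t` units of mass from `b` to `a`. -/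
def exch (z : A → ℝ) (a b : A) (t : ℝ) : A → ℝ :=
  fun c => z c + (if c = a then t else 0) - (if c = b then t else 0)

lemma sum_exch (z : A → ℝ) (a b : A) (t : ℝ) (W : Finset A) :
    ∑ c ∈ W, exch z a b t c
      = ∑ c ∈ W, z c + (if a ∈ W then t else 0) - (if b ∈ W then t else 0) := by
  simp only [exch, sum_sub_distrib, sum_add_distrib, sum_ite_eq']

lemma exch_left (z : A → ℝ) {a b : A} (hab : a ≠ b) (t : ℝ) : exch z a b t a = z a + t := by
  simp [exch, hab]

lemma exch_right (z : A → ℝ) {a b : A} (hab : a ≠ b) (t : ℝ) : exch z a b t b = z b - t := by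
  simp [exch, hab.symm]

lemma exch_other (z : A → ℝ) {a b c : A} (t : ℝ) (h1 : c ≠ a) (h2 : c ≠ b) :
    exch z a b t c = z c := by
  simp [exch, h1, h2]

/-- Feasibility for the families of packing sets `Up` and covering sets `Lo`. -/
structure Feas (Up Lo : Set (Finset A)) (z : A → ℝ) : Prop where
  nonneg : ∀ c, 0 ≤ z c
  le_one : ∀ c, z c ≤ 1
  up : ∀ U ∈ Up, ∑ c ∈ U, z c ≤ 1
  lo : ∀ L ∈ Lo, 1 ≤ ∑ c ∈ L, z c
  tot : ∃ n : ℕ, ∑ c, z c = n

/-- Concavity along exchange directions inside the unit cube. -/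
def ExConcave (G : (A → ℝ) → ℝ) : Prop :=
  ∀ (z : A → ℝ) (a b : A), a ≠ b → (∀ c, 0 ≤ z c) → (∀ c, z c ≤ 1) →
    ∀ s t : ℝ, 0 ≤ s → 0 ≤ t →
    z a + t ≤ 1 → 0 ≤ z b - t → 0 ≤ z a - s → z b + s ≤ 1 →
    s * G (exch z a b t) + t * G (exch z a b (-s)) ≤ (s + t) * G z

/-- The fractional coordinates. -/
noncomputable def frac (z : A → ℝ) : Finset A := univ.filter (fun c => 0 < z c ∧ z c < 1)

lemma mem_frac (z : A → ℝ) (c : A) : c ∈ frac z ↔ 0 < z c ∧ z c < 1 := by
  simp only [frac, mem_filter, mem_univ, true_and]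

/-- A sum of zero/one values is a natural number. -/
lemma sum_nat_of_not_frac (z : A → ℝ) (W : Finset A)
    (h : ∀ c ∈ W, z c = 0 ∨ z c = 1) : ∃ n : ℕ, ∑ c ∈ W, z c = n := by
  refine ⟨(W.filter (fun c => z c = 1)).card, ?_⟩
  rw [Finset.card_filter]
  push_cast
  refine Finset.sum_congr rfl (fun c hc => ?_)
  rcases h c hc with h0 | h1
  · simp [h0]
  · simp [h1]

lemma zero_or_one_of_not_mem_frac {z : A → ℝ} (h0 : ∀ c, 0 ≤ z c) (h1 : ∀ c, z c ≤ 1)
    {c : A} (hc : c ∉ frac z) : z c = 0 ∨ z c = 1 := by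
  rw [mem_frac] at hc
  rcases (h0 c).lt_or_eq with h | h
  · right
    by_contra h2
    exact hc ⟨h, lt_of_le_of_ne (h1 c) h2⟩
  · left; exact h.symm

/-- packing constraint survives when only one coordinate of the set is fractional -/
lemma up_aux {z : A → ℝ} (h0 : ∀ c, 0 ≤ z c) (h1 : ∀ c, z c ≤ 1) {W : Finset A} {a : A}
    (ha : a ∈ W) (hfa : a ∈ frac z) (hW : ∑ c ∈ W, z c ≤ 1)
    (hone : ∀ c ∈ W, c ∈ frac z → c = a) : ∑ c ∈ W, z c = z a := by
  have hs : ∑ c ∈ W, z c = z a + ∑ c ∈ W.erase a, z c := (Finset.add_sum_erase W z ha).symm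
  obtain ⟨n, hn⟩ := sum_nat_of_not_frac z (W.erase a) (fun c hc => by
    apply zero_or_one_of_not_mem_frac h0 h1
    intro hcf
    exact (Finset.mem_erase.mp hc).1 (hone c (Finset.mem_erase.mp hc).2 hcf))
  have hpos := ((mem_frac z a).mp hfa).1
  have hn1 : (n : ℝ) < 1 := by linarith only [hW, hs, hn, hpos]
  have hn0 : n = 0 := by
    have : n < 1 := by exact_mod_cast hn1
    omega
  rw [hs, hn, hn0]; simp

lemma lo_aux {z : A → ℝ} (h0 : ∀ c, 0 ≤ z c) (h1 : ∀ c, z c ≤ 1) {W : Finset A} {a : A}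
    (ha : a ∈ W) (hfa : a ∈ frac z) (hW : 1 ≤ ∑ c ∈ W, z c)
    (hone : ∀ c ∈ W, c ∈ frac z → c = a) : 1 + z a ≤ ∑ c ∈ W, z c := by
  have hs : ∑ c ∈ W, z c = z a + ∑ c ∈ W.erase a, z c := (Finset.add_sum_erase W z ha).symm
  obtain ⟨n, hn⟩ := sum_nat_of_not_frac z (W.erase a) (fun c hc => by
    apply zero_or_one_of_not_mem_frac h0 h1
    intro hcf
    exact (Finset.mem_erase.mp hc).1 (hone c (Finset.mem_erase.mp hc).2 hcf))
  have hlt := ((mem_frac z a).mp hfa).2
  have hn1 : (0 : ℝ) < n := by linarith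
  have hn0 : 1 ≤ n := by
    have : 0 < n := by exact_mod_cast hn1
    omega
  have : (1 : ℝ) ≤ n := by exact_mod_cast hn0
  linarith only [hs, hn, this]

/-- An admissible exchange pair exists at every fractional feasible point. -/
lemma exists_pair {Up Lo : Set (Finset A)}
    (hUp : ∀ U ∈ Up, ∀ U' ∈ Up, U ≠ U' → Disjoint U U')
    (hLo : ∀ L ∈ Lo, ∀ L' ∈ Lo, L ≠ L' → Disjoint L L')
    (hUL : ∀ U ∈ Up, ∀ L ∈ Lo, U ⊆ L ∨ Disjoint U L)
    {z : A → ℝ} (hz : Feas Up Lo z) (hfr : (frac z).Nonempty) :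
    ∃ a b : A, a ≠ b ∧ a ∈ frac z ∧ b ∈ frac z ∧
      ∀ t : ℝ, 0 ≤ z a + t → z a + t ≤ 1 → 0 ≤ z b - t → z b - t ≤ 1 →
        Feas Up Lo (exch z a b t) := by
  have key : ∀ a b : A, a ≠ b → ∀ t : ℝ, 0 ≤ z a + t → z a + t ≤ 1 → 0 ≤ z b - t → z b - t ≤ 1 →
      (∀ U ∈ Up, ∑ c ∈ U, exch z a b t c ≤ 1) → (∀ L ∈ Lo, 1 ≤ ∑ c ∈ L, exch z a b t c) →
      Feas Up Lo (exch z a b t) := by
    intro a b hab t h1 h2 h3 h4 h5 h6
    refine ⟨?_, ?_, h5, h6, ?_⟩
    · intro c
      by_cases hca : c = a
      · subst hca; rw [exch_left z hab]; exact h1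
      · by_cases hcb : c = b
        · subst hcb; rw [exch_right z hab]; exact h3
        · rw [exch_other z t hca hcb]; exact hz.nonneg c
    · intro c
      by_cases hca : c = a
      · subst hca; rw [exch_left z hab]; exact h2
      · by_cases hcb : c = b
        · subst hcb; rw [exch_right z hab]; exact h4
        · rw [exch_other z t hca hcb]; exact hz.le_one c
    · obtain ⟨n, hn⟩ := hz.tot
      refine ⟨n, ?_⟩
      rw [sum_exch]; simp only [hn, mem_univ, ↓reduceIte, add_sub_cancel_right]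
  by_cases c1 : ∃ U ∈ Up, ∃ a ∈ U, ∃ b ∈ U, a ≠ b ∧ a ∈ frac z ∧ b ∈ frac z
  · obtain ⟨U, hU, a, haU, b, hbU, hab, hfa, hfb⟩ := c1
    refine ⟨a, b, hab, hfa, hfb, fun t h1 h2 h3 h4 => key a b hab t h1 h2 h3 h4 ?_ ?_⟩
    · intro U' hU'
      rw [sum_exch]
      by_cases he : U = U'
      · subst he; simp only [haU, hbU, if_true]; linarith [hz.up U hU]
      · have hd := hUp U hU U' hU' he
        have ha' : a ∉ U' := fun h => Finset.disjoint_left.mp hd haU h
        have hb' : b ∉ U' := fun h => Finset.disjoint_left.mp hd hbU h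
        simp only [ha', hb', if_false]; linarith only [hz.up U' hU']
    · intro L hL
      rw [sum_exch]
      rcases hUL U hU L hL with hs | hd
      · simp only [hs haU, hs hbU, if_true]; linarith only [hz.lo L hL]
      · have ha' : a ∉ L := fun h => Finset.disjoint_left.mp hd haU h
        have hb' : b ∉ L := fun h => Finset.disjoint_left.mp hd hbU h
        simp only [ha', hb', if_false]; linarith [hz.lo L hL]
  · -- every packing set has at most one fractional coordinate
    have one : ∀ U ∈ Up, ∀ a ∈ U, ∀ b ∈ U, a ∈ frac z → b ∈ frac z → b = a := by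
      intro U hU a ha b hb hfa hfb
      by_contra hne
      exact c1 ⟨U, hU, a, ha, b, hb, fun h => hne h.symm, hfa, hfb⟩
    have upok : ∀ a b : A, a ≠ b → a ∈ frac z → b ∈ frac z → ∀ t : ℝ, 0 ≤ z a + t →
        z a + t ≤ 1 → 0 ≤ z b - t → z b - t ≤ 1 → ∀ U ∈ Up, ∑ c ∈ U, exch z a b t c ≤ 1 := by
      intro a b hab hfa hfb t h1 h2 h3 h4 U hU
      rw [sum_exch]
      by_cases haU : a ∈ U
      · have hbU : b ∉ U := fun h => hab (one U hU b h a haU hfb hfa)
        have := up_aux hz.nonneg hz.le_one haU hfa (hz.up U hU)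
          (fun c hc hfc => one U hU a haU c hc hfa hfc)
        simp only [haU, hbU, if_true, if_false]; linarith only [h2, this]
      · by_cases hbU : b ∈ U
        · have := up_aux hz.nonneg hz.le_one hbU hfb (hz.up U hU)
            (fun c hc hfc => one U hU b hbU c hc hfb hfc)
          simp only [haU, hbU, if_true, if_false]; linarith
        · simp only [haU, hbU, if_false]; linarith only [hz.up U hU]
    by_cases c2 : ∃ L ∈ Lo, ∃ a ∈ L, ∃ b ∈ L, a ≠ b ∧ a ∈ frac z ∧ b ∈ frac z
    · obtain ⟨L, hL, a, haL, b, hbL, hab, hfa, hfb⟩ := c2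
      refine ⟨a, b, hab, hfa, hfb, fun t h1 h2 h3 h4 => key a b hab t h1 h2 h3 h4
        (upok a b hab hfa hfb t h1 h2 h3 h4) ?_⟩
      intro L' hL'
      rw [sum_exch]
      by_cases he : L = L'
      · subst he; simp only [haL, hbL, if_true]; linarith only [hz.lo L hL]
      · have hd := hLo L hL L' hL' he
        have ha' : a ∉ L' := fun h => Finset.disjoint_left.mp hd haL h
        have hb' : b ∉ L' := fun h => Finset.disjoint_left.mp hd hbL h
        simp only [ha', hb', if_false]; linarith only [hz.lo L' hL']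
    · have one' : ∀ L ∈ Lo, ∀ a ∈ L, ∀ b ∈ L, a ∈ frac z → b ∈ frac z → b = a := by
        intro L hL a ha b hb hfa hfb
        by_contra hne
        exact c2 ⟨L, hL, a, ha, b, hb, fun h => hne h.symm, hfa, hfb⟩
      obtain ⟨a, hfa⟩ := hfr
      have hb : ∃ b, b ≠ a ∧ b ∈ frac z := by
        by_contra hno
        push Not at hno
        obtain ⟨n, hn⟩ := hz.tot
        obtain ⟨m, hm⟩ := sum_nat_of_not_frac z (univ.erase a) (fun c hc => by
          apply zero_or_one_of_not_mem_frac hz.nonneg hz.le_one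
          exact hno c (Finset.mem_erase.mp hc).1)
        have hs : ∑ c, z c = z a + ∑ c ∈ univ.erase a, z c :=
          (Finset.add_sum_erase univ z (mem_univ a)).symm
        obtain ⟨hp, hl⟩ := (mem_frac z a).mp hfa
        have e1 : (n : ℝ) = z a + m := by rw [← hn, hs, hm]
        have e2 : (m : ℝ) < n := by linarith
        have e3 : (n : ℝ) < m + 1 := by linarith only [hn, hm, hs, hl]
        have e2' : m < n := by exact_mod_cast e2
        have e3' : n < m + 1 := by exact_mod_cast e3
        omega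
      obtain ⟨b, hba, hfb⟩ := hb
      refine ⟨a, b, hba.symm, hfa, hfb, fun t h1 h2 h3 h4 => key a b hba.symm t h1 h2 h3 h4
        (upok a b hba.symm hfa hfb t h1 h2 h3 h4) ?_⟩
      intro L hL
      rw [sum_exch]
      by_cases haL : a ∈ L
      · have hbL : b ∉ L := fun h => hba (one' L hL a haL b h hfa hfb)
        have := lo_aux hz.nonneg hz.le_one haL hfa (hz.lo L hL)
          (fun c hc hfc => one' L hL a haL c hc hfa hfc)
        simp only [haL, hbL, if_true, if_false]; linarith only [h1, this]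
      · by_cases hbL : b ∈ L
        · have := lo_aux hz.nonneg hz.le_one hbL hfb (hz.lo L hL)
            (fun c hc hfc => one' L hL b hbL c hc hfb hfc)
          simp only [haL, hbL, if_true, if_false]; linarith only [h3, this]
        · simp only [haL, hbL, if_false]; linarith [hz.lo L hL]

lemma frac_exch_subset {z : A → ℝ} {a b : A} (hab : a ≠ b) (t : ℝ) :
    ∀ c ∈ frac (exch z a b t), c = a ∨ c = b ∨ c ∈ frac z := by
  intro c hc
  by_cases hca : c = a
  · left; exact hca
  · by_cases hcb : c = b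
    · right; left; exact hcb
    · right; right
      rw [mem_frac] at hc ⊢
      rwa [exch_other z t hca hcb] at hc

/-- Pipage rounding. -/
theorem pipage {Up Lo : Set (Finset A)}
    (hUp : ∀ U ∈ Up, ∀ U' ∈ Up, U ≠ U' → Disjoint U U')
    (hLo : ∀ L ∈ Lo, ∀ L' ∈ Lo, L ≠ L' → Disjoint L L')
    (hUL : ∀ U ∈ Up, ∀ L ∈ Lo, U ⊆ L ∨ Disjoint U L)
    {G : (A → ℝ) → ℝ} (hG : ExConcave G) :
    ∀ (n : ℕ) (z : A → ℝ), (frac z).card = n → Feas Up Lo z →
      ∃ z' : A → ℝ, Feas Up Lo z' ∧ (∀ c, z' c = 0 ∨ z' c = 1) ∧ ∑ c, z' c = ∑ c, z c ∧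
        G z' ≤ G z := by
  intro n
  induction n using Nat.strong_induction_on with
  | _ n ih =>
    intro z hcard hz
    by_cases hfr : (frac z).Nonempty
    · obtain ⟨a, b, hab, hfa, hfb, hex⟩ := exists_pair hUp hLo hUL hz hfr
      obtain ⟨ha0, ha1⟩ := (mem_frac z a).mp hfa
      obtain ⟨hb0, hb1⟩ := (mem_frac z b).mp hfb
      set t := min (1 - z a) (z b) with ht
      set s := min (z a) (1 - z b) with hs
      have htpos : 0 < t := lt_min (by linarith only [ha1]) hb0
      have hspos : 0 < s := lt_min ha0 (by linarith only [hb1])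
      have ht1 : t ≤ 1 - z a := min_le_left _ _
      have ht2 : t ≤ z b := min_le_right _ _
      have hs1 : s ≤ z a := min_le_left _ _
      have hs2 : s ≤ 1 - z b := min_le_right _ _
      have hconc := hG z a b hab hz.nonneg hz.le_one s t hspos.le htpos.le (by linarith only [ht1])
        (by linarith only [ht2]) (by linarith only [hs1]) (by linarith only [hs2])
      -- both end points have fewer fractional coordinates
      have hsum : ∀ u : ℝ, ∑ c, exch z a b u c = ∑ c, z c := by
        intro u; rw [sum_exch]; simp only [mem_univ, ↓reduceIte, add_sub_cancel_right]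
      have hsub : ∀ u : ℝ, (exch z a b u a = 0 ∨ exch z a b u a = 1 ∨
          exch z a b u b = 0 ∨ exch z a b u b = 1) → (frac (exch z a b u)).card < n := by
        intro u hu
        rw [← hcard]
        apply Finset.card_lt_card
        rw [Finset.ssubset_iff_of_subset]
        · rcases hu with h | h | h | h
          · refine ⟨a, hfa, ?_⟩
            rw [mem_frac, h]; (clear * -; norm_num)
          · refine ⟨a, hfa, ?_⟩
            rw [mem_frac, h]; norm_num
          · refine ⟨b, hfb, ?_⟩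
            rw [mem_frac, h]; norm_num
          · refine ⟨b, hfb, ?_⟩
            rw [mem_frac, h]; norm_num
        · intro c hc
          rcases frac_exch_subset hab u c hc with h | h | h
          · rw [h]; exact hfa
          · rw [h]; exact hfb
          · exact h
      by_cases hle : G (exch z a b t) ≤ G z
      · have hfe : Feas Up Lo (exch z a b t) := hex t (by linarith only [ha0, htpos]) (by linarith only [ht1]) (by linarith only [ht2])
          (by linarith only [hb1, htpos])
        have hlt : (frac (exch z a b t)).card < n := by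
          apply hsub
          rcases min_choice (1 - z a) (z b) with h | h
          · right; left; rw [exch_left z hab, ht, h]; ring
          · right; right; left; rw [exch_right z hab, ht, h]; ring
        obtain ⟨z', h1, h2, h3, h4⟩ := ih _ hlt (exch z a b t) rfl hfe
        exact ⟨z', h1, h2, by rw [h3, hsum], h4.trans hle⟩
      · push Not at hle
        have hle2 : G (exch z a b (-s)) ≤ G z := by
          by_contra hcon
          push Not at hcon
          have e1 : s * G z < s * G (exch z a b t) := mul_lt_mul_of_pos_left hle hspos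
          have e2 : t * G z < t * G (exch z a b (-s)) := mul_lt_mul_of_pos_left hcon htpos
          linarith only [e1, e2, hconc]
        have hfe : Feas Up Lo (exch z a b (-s)) := hex (-s) (by linarith only [hs1]) (by linarith only [ha1, hspos])
          (by linarith only [hb0, hspos]) (by linarith only [hs2])
        have hlt : (frac (exch z a b (-s))).card < n := by
          apply hsub
          rcases min_choice (z a) (1 - z b) with h | h
          · left; rw [exch_left z hab, hs, h]; ring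
          · right; right; right; rw [exch_right z hab, hs, h]; ring
        obtain ⟨z', h1, h2, h3, h4⟩ := ih _ hlt (exch z a b (-s)) rfl hfe
        exact ⟨z', h1, h2, by rw [h3, hsum], h4.trans hle2⟩
    · rw [Finset.not_nonempty_iff_eq_empty] at hfr
      refine ⟨z, hz, ?_, rfl, le_rfl⟩
      intro c
      apply zero_or_one_of_not_mem_frac hz.nonneg hz.le_one
      rw [hfr]; simp

end Pipage

end Vale.Agent.P334
end

section

/-!
The truncated expected distance, written as a layer integral of products, is concave along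
exchange directions.
-/

namespace Vale.Agent.P334

open Finset

set_option linter.unusedSectionVars false
set_option linter.unusedVariables false

section Concave

variable {A : Type} [Fintype A] [DecidableEq A]

/-- Probability that no element of `N` is chosen. -/
noncomputable def miss (N : Finset A) (z : A → ℝ) : ℝ := ∏ c ∈ N, (1 - z c)

lemma miss_nonneg (N : Finset A) {z : A → ℝ} (h1 : ∀ c, z c ≤ 1) : 0 ≤ miss N z :=
  Finset.prod_nonneg (fun c _ => by linarith [h1 c])

lemma miss_le_one (N : Finset A) {z : A → ℝ} (h0 : ∀ c, 0 ≤ z c) (h1 : ∀ c, z c ≤ 1) :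
    miss N z ≤ 1 :=
  Finset.prod_le_one (fun c _ => by linarith only [h1 c]) (fun c _ => by linarith only [h0 c])

lemma miss_anti {N M : Finset A} (h : N ⊆ M) {z : A → ℝ} (h0 : ∀ c, 0 ≤ z c)
    (h1 : ∀ c, z c ≤ 1) : miss M z ≤ miss N z := by
  have : miss M z = miss (M \ N) z * miss N z := (Finset.prod_sdiff h).symm
  rw [this]
  calc miss (M \ N) z * miss N z ≤ 1 * miss N z :=
        mul_le_mul_of_nonneg_right (miss_le_one _ h0 h1) (miss_nonneg _ h1)
    _ = miss N z := one_mul _

lemma miss_split (N : Finset A) {a b : A} (hab : a ≠ b) (z : A → ℝ) :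
    miss N z = (if a ∈ N then 1 - z a else 1) * ((if b ∈ N then 1 - z b else 1) *
      miss ((N.erase a).erase b) z) := by
  have h1 : miss N z = (if a ∈ N then 1 - z a else 1) * miss (N.erase a) z := by
    by_cases ha : a ∈ N
    · simp only [ha, if_true, miss]
      rw [Finset.mul_prod_erase N (fun c => 1 - z c) ha]
    · simp only [ha, if_false, one_mul]
      rw [Finset.erase_eq_of_notMem ha]
  have h2 : miss (N.erase a) z = (if b ∈ N then 1 - z b else 1) * miss ((N.erase a).erase b) z := by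
    by_cases hb : b ∈ N
    · have hb' : b ∈ N.erase a := Finset.mem_erase.mpr ⟨hab.symm, hb⟩
      simp only [hb, if_true, miss]
      rw [Finset.mul_prod_erase (N.erase a) (fun c => 1 - z c) hb']
    · have hb' : b ∉ N.erase a := fun h => hb (Finset.mem_erase.mp h).2
      simp only [hb, if_false, one_mul]
      rw [Finset.erase_eq_of_notMem hb']
  rw [h1, h2]

lemma miss_rest_exch (N : Finset A) {a b : A} (hab : a ≠ b) (z : A → ℝ) (t : ℝ) :
    miss ((N.erase a).erase b) (exch z a b t) = miss ((N.erase a).erase b) z := by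
  refine Finset.prod_congr rfl (fun c hc => ?_)
  have hcb : c ≠ b := (Finset.mem_erase.mp hc).1
  have hca : c ≠ a := (Finset.mem_erase.mp (Finset.mem_erase.mp hc).2).1
  rw [exch_other z t hca hcb]

lemma miss_exch_concave (N : Finset A) (z : A → ℝ) (a b : A) (hab : a ≠ b)
    (h1 : ∀ c, z c ≤ 1) (s t : ℝ) (hs : 0 ≤ s) (ht : 0 ≤ t) :
    s * miss N (exch z a b t) + t * miss N (exch z a b (-s)) ≤ (s + t) * miss N z := by
  rw [miss_split N hab z, miss_split N hab (exch z a b t), miss_split N hab (exch z a b (-s)),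
    miss_rest_exch N hab, miss_rest_exch N hab, exch_left z hab, exch_right z hab,
    exch_left z hab, exch_right z hab]
  have hR : 0 ≤ miss ((N.erase a).erase b) z := miss_nonneg _ h1
  set R := miss ((N.erase a).erase b) z with hRdef
  have hst : 0 ≤ s * t * (s + t) * R := by (clear * - hs ht hR; positivity)
  by_cases ha : a ∈ N <;> by_cases hb : b ∈ N <;> simp only [ha, hb, if_true, if_false]
  · linarith
  · apply le_of_eq; ring
  · apply le_of_eq; ring
  · apply le_of_eq; ring

lemma exch_nonneg {z : A → ℝ} (h0 : ∀ c, 0 ≤ z c) {a b : A} (hab : a ≠ b) {t : ℝ}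
    (h1 : 0 ≤ z a + t) (h2 : 0 ≤ z b - t) : ∀ c, 0 ≤ exch z a b t c := by
  intro c
  by_cases hca : c = a
  · subst hca; rw [exch_left z hab]; exact h1
  · by_cases hcb : c = b
    · subst hcb; rw [exch_right z hab]; exact h2
    · rw [exch_other z t hca hcb]; exact h0 c

lemma exch_le_one {z : A → ℝ} (h0 : ∀ c, z c ≤ 1) {a b : A} (hab : a ≠ b) {t : ℝ}
    (h1 : z a + t ≤ 1) (h2 : z b - t ≤ 1) : ∀ c, exch z a b t c ≤ 1 := by
  intro c
  by_cases hca : c = a
  · subst hca; rw [exch_left z hab]; exact h1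
  · by_cases hcb : c = b
    · subst hcb; rw [exch_right z hab]; exact h2
    · rw [exch_other z t hca hcb]; exact h0 c

/-- Elements at distance at most `s`. -/
noncomputable def nbr (δ : A → ℝ) (s : ℝ) : Finset A := univ.filter (fun c => δ c ≤ s)

lemma mem_nbr (δ : A → ℝ) (s : ℝ) (c : A) : c ∈ nbr δ s ↔ δ c ≤ s := by
  simp only [nbr, mem_filter, mem_univ, true_and]

lemma nbr_mono (δ : A → ℝ) {s s' : ℝ} (h : s ≤ s') : nbr δ s ⊆ nbr δ s' := by
  intro c hc
  rw [mem_nbr] at hc ⊢
  exact hc.trans h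

/-- Truncated expected distance to the random set with marginals `z`. -/
noncomputable def trunc (δ : A → ℝ) (T : ℝ) (z : A → ℝ) : ℝ :=
  ∫ s in (0 : ℝ)..T, miss (nbr δ s) z

lemma miss_nbr_integrable (δ : A → ℝ) {z : A → ℝ} (h0 : ∀ c, 0 ≤ z c)
    (h1 : ∀ c, z c ≤ 1) (u v : ℝ) :
    IntervalIntegrable (fun s => miss (nbr δ s) z) MeasureTheory.volume u v := by
  apply Antitone.intervalIntegrable
  intro s s' hss
  exact miss_anti (nbr_mono δ hss) h0 h1

lemma trunc_exConcave (δ : A → ℝ) {T : ℝ} (hT : 0 ≤ T) : ExConcave (trunc δ T) := by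
  intro z a b hab h0 h1 s t hs ht hat hbt has hbs
  have p0 : ∀ c, 0 ≤ exch z a b t c := exch_nonneg h0 hab (by linarith [h0 a]) hbt
  have p1 : ∀ c, exch z a b t c ≤ 1 := exch_le_one h1 hab hat (by linarith only [hs, ht, hbs])
  have q0 : ∀ c, 0 ≤ exch z a b (-s) c := exch_nonneg h0 hab (by linarith) (by linarith [h0 b])
  have q1 : ∀ c, exch z a b (-s) c ≤ 1 := exch_le_one h1 hab (by linarith only [hs, ht, hat]) (by linarith only [hbs])
  unfold trunc
  rw [← intervalIntegral.integral_const_mul, ← intervalIntegral.integral_const_mul,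
    ← intervalIntegral.integral_const_mul, ← intervalIntegral.integral_add]
  · apply intervalIntegral.integral_mono_on hT
    · exact ((miss_nbr_integrable δ p0 p1 0 T).const_mul s).add
        ((miss_nbr_integrable δ q0 q1 0 T).const_mul t)
    · exact (miss_nbr_integrable δ h0 h1 0 T).const_mul (s + t)
    · intro u _
      exact miss_exch_concave (nbr δ u) z a b hab h1 s t hs ht
  · exact (miss_nbr_integrable δ p0 p1 0 T).const_mul s
  · exact (miss_nbr_integrable δ q0 q1 0 T).const_mul t

lemma ExConcave.add {G H : (A → ℝ) → ℝ} (hG : ExConcave G) (hH : ExConcave H) :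
    ExConcave (fun z => G z + H z) := by
  intro z a b hab h0 h1 s t hs ht hat hbt has hbs
  have e1 := hG z a b hab h0 h1 s t hs ht hat hbt has hbs
  have e2 := hH z a b hab h0 h1 s t hs ht hat hbt has hbs
  simp only
  linarith

lemma ExConcave.sum {ι : Type} (I : Finset ι) {G : ι → (A → ℝ) → ℝ}
    (hG : ∀ i ∈ I, ExConcave (G i)) : ExConcave (fun z => ∑ i ∈ I, G i z) := by
  intro z a b hab h0 h1 s t hs ht hat hbt has hbs
  simp only [Finset.mul_sum]
  rw [← Finset.sum_add_distrib]
  exact Finset.sum_le_sum (fun i hi => hG i hi z a b hab h0 h1 s t hs ht hat hbt has hbs)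

lemma exConcave_const (C : ℝ) : ExConcave (fun _ : A → ℝ => C) := by
  intro z a b hab h0 h1 s t hs ht hat hbt has hbs
  apply le_of_eq; ring

/-- A weighted sum over a set is affine along exchanges. -/
lemma exConcave_linear (W : Finset A) (w : A → ℝ) :
    ExConcave (fun z : A → ℝ => ∑ c ∈ W, z c * w c) := by
  intro z a b hab h0 h1 s t hs ht hat hbt has hbs
  have key : ∀ u : ℝ, ∑ c ∈ W, exch z a b u c * w c
      = ∑ c ∈ W, z c * w c + u * (if a ∈ W then w a else 0) - u * (if b ∈ W then w b else 0) := by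
    intro u
    have : ∀ c ∈ W, exch z a b u c * w c
        = z c * w c + (if c = a then u * w c else 0) - (if c = b then u * w c else 0) := by
      intro c _
      unfold exch
      split_ifs <;> ring
    rw [Finset.sum_congr rfl this, Finset.sum_sub_distrib, Finset.sum_add_distrib,
      Finset.sum_ite_eq', Finset.sum_ite_eq']
    split_ifs <;> ring
  simp only [key]
  apply le_of_eq; ring

end Concave

end Vale.Agent.P334
end

section

/-!
Upper and lower bounds for the truncated expected distance.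
-/

namespace Vale.Agent.P334

open Finset

set_option linter.unusedSectionVars false
set_option linter.unusedVariables false

section Trunc

variable {A : Type} [Fintype A] [DecidableEq A]

lemma miss_le_exp (N : Finset A) {z : A → ℝ} (h1 : ∀ c, z c ≤ 1) :
    miss N z ≤ Real.exp (-∑ c ∈ N, z c) := by
  unfold miss
  rw [← Finset.sum_neg_distrib, Real.exp_sum]
  apply Finset.prod_le_prod
  · intro c _; linarith only [h1 c]
  · intro c _; exact Real.one_sub_le_exp_neg (z c)

lemma exp_neg_le_chord {X : ℝ} (h0 : 0 ≤ X) (h1 : X ≤ 1) :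
    Real.exp (-X) ≤ 1 - (1 - Real.exp (-1)) * X := by
  have h := convexOn_exp.2 (Set.mem_univ (0 : ℝ)) (Set.mem_univ (-1 : ℝ))
    (by linarith : (0 : ℝ) ≤ 1 - X) h0 (by ring)
  simp only [smul_eq_mul, Real.exp_zero] at h
  have e : (1 - X) * 0 + X * -1 = -X := by ring
  rw [e] at h
  linarith only [h]

lemma integral_step {T d : ℝ} (hT : 0 ≤ T) (hd : 0 ≤ d) :
    T - d ≤ ∫ s in (0 : ℝ)..T, (if d ≤ s then (1 : ℝ) else 0) := by
  have hmono : Monotone (fun s : ℝ => if d ≤ s then (1 : ℝ) else 0) := by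
    intro s s' hss
    by_cases h : d ≤ s
    · have h' : d ≤ s' := h.trans hss
      simp only [h, ↓reduceIte, h', Std.le_refl]
    · simp only [h, if_false]
      split_ifs <;> norm_num
  have hint : ∀ u v : ℝ, IntervalIntegrable (fun s : ℝ => if d ≤ s then (1 : ℝ) else 0)
      MeasureTheory.volume u v := fun u v => hmono.intervalIntegrable
  have hnn : ∀ s : ℝ, 0 ≤ (if d ≤ s then (1 : ℝ) else 0) := by
    intro s; split_ifs <;> norm_num
  by_cases hdT : d ≤ T
  · rw [← intervalIntegral.integral_add_adjacent_intervals (hint 0 d) (hint d T)]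
    have e1 : 0 ≤ ∫ s in (0 : ℝ)..d, (if d ≤ s then (1 : ℝ) else 0) :=
      intervalIntegral.integral_nonneg hd (fun s _ => hnn s)
    have e2 : ∫ s in d..T, (1 : ℝ) ≤ ∫ s in d..T, (if d ≤ s then (1 : ℝ) else 0) := by
      apply intervalIntegral.integral_mono_on hdT
      · exact intervalIntegrable_const
      · exact hint d T
      · intro s hs
        have : d ≤ s := hs.1
        simp [this]
    rw [intervalIntegral.integral_const] at e2
    simp only [smul_eq_mul, mul_one] at e2
    linarith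
  · have : 0 ≤ ∫ s in (0 : ℝ)..T, (if d ≤ s then (1 : ℝ) else 0) :=
      intervalIntegral.integral_nonneg hT (fun s _ => hnn s)
    linarith only [hdT, this]

/-- The `1 - 1/e` bound. -/
lemma trunc_le {X : Type} (F : Finset X) (x d : X → ℝ) (hx : ∀ i ∈ F, 0 ≤ x i)
    (hx1 : ∑ i ∈ F, x i = 1) (hd : ∀ i ∈ F, 0 ≤ d i)
    (δ : A → ℝ) {T : ℝ} (hT : 0 ≤ T) {z : A → ℝ} (h0 : ∀ c, 0 ≤ z c) (h1 : ∀ c, z c ≤ 1)
    (hdom : ∀ s : ℝ, ∑ i ∈ F, (if d i ≤ s then x i else 0) ≤ ∑ c ∈ nbr δ s, z c) :
    trunc δ T z ≤ (1 - Real.exp (-1)) * (∑ i ∈ F, x i * d i) + Real.exp (-1) * T := by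
  have hstep : ∀ i u v, IntervalIntegrable (fun s : ℝ => if d i ≤ s then (1 : ℝ) else 0)
      MeasureTheory.volume u v := by
    intro i u v
    apply Monotone.intervalIntegrable
    intro s s' hss
    by_cases h : d i ≤ s
    · have h' : d i ≤ s' := h.trans hss
      simp only [h, ↓reduceIte, h', Std.le_refl]
    · simp only [h, if_false]
      split_ifs <;> norm_num
  have hXint : ∀ i u v, IntervalIntegrable (fun s : ℝ => x i * (if d i ≤ s then (1 : ℝ) else 0))
      MeasureTheory.volume u v := fun i u v => (hstep i u v).const_mul (x i)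
  have hsumint : IntervalIntegrable (fun s : ℝ => ∑ i ∈ F, x i * (if d i ≤ s then (1 : ℝ) else 0))
      MeasureTheory.volume 0 T := by
    have := IntervalIntegrable.sum F (fun i _ => hXint i 0 T)
    simpa only [mul_ite, mul_one, mul_zero, sum_fn] using this
  have hexp : Real.exp (-1) ≤ 1 := by
    rw [Real.exp_le_one_iff]; norm_num
  have hle : trunc δ T z ≤ ∫ s in (0 : ℝ)..T,
      (1 - (1 - Real.exp (-1)) * ∑ i ∈ F, x i * (if d i ≤ s then (1 : ℝ) else 0)) := by
    unfold trunc
    apply intervalIntegral.integral_mono_on hT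
    · exact miss_nbr_integrable δ h0 h1 0 T
    · exact intervalIntegrable_const.sub (hsumint.const_mul _)
    · intro s _
      have hX : ∑ i ∈ F, x i * (if d i ≤ s then (1 : ℝ) else 0)
          = ∑ i ∈ F, (if d i ≤ s then x i else 0) := by
        refine Finset.sum_congr rfl (fun i _ => ?_)
        split_ifs <;> simp
      have hX0 : 0 ≤ ∑ i ∈ F, (if d i ≤ s then x i else 0) :=
        Finset.sum_nonneg (fun i hi => by split_ifs; exacts [hx i hi, le_rfl])
      have hX1 : ∑ i ∈ F, (if d i ≤ s then x i else 0) ≤ 1 := by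
        rw [← hx1]
        exact Finset.sum_le_sum (fun i hi => by split_ifs; exacts [le_rfl, hx i hi])
      rw [hX]
      calc miss (nbr δ s) z ≤ Real.exp (-∑ c ∈ nbr δ s, z c) := miss_le_exp _ h1
        _ ≤ Real.exp (-∑ i ∈ F, (if d i ≤ s then x i else 0)) := by
            apply Real.exp_le_exp.mpr; linarith only [hdom s]
        _ ≤ _ := exp_neg_le_chord hX0 hX1
  have hint : ∫ s in (0 : ℝ)..T,
      (1 - (1 - Real.exp (-1)) * ∑ i ∈ F, x i * (if d i ≤ s then (1 : ℝ) else 0))
      = T - (1 - Real.exp (-1)) * ∑ i ∈ F, x i * ∫ s in (0 : ℝ)..T,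
        (if d i ≤ s then (1 : ℝ) else 0) := by
    rw [intervalIntegral.integral_sub intervalIntegrable_const (hsumint.const_mul _),
      intervalIntegral.integral_const, intervalIntegral.integral_const_mul,
      intervalIntegral.integral_finsetSum (fun i _ => hXint i 0 T)]
    simp only [intervalIntegral.integral_const_mul, smul_eq_mul, mul_one, sub_zero]
  have hlow : T - ∑ i ∈ F, x i * d i ≤ ∑ i ∈ F, x i * ∫ s in (0 : ℝ)..T,
        (if d i ≤ s then (1 : ℝ) else 0) := by
    have : T - ∑ i ∈ F, x i * d i = ∑ i ∈ F, x i * (T - d i) := by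
      simp only [mul_sub, Finset.sum_sub_distrib, ← Finset.sum_mul, hx1, one_mul]
    rw [this]
    exact Finset.sum_le_sum (fun i hi =>
      mul_le_mul_of_nonneg_left (integral_step hT (hd i hi)) (hx i hi))
  rw [hint] at hle
  have h2 := mul_le_mul_of_nonneg_left hlow (by linarith only [hexp] : 0 ≤ 1 - Real.exp (-1))
  linarith

/-- At an integral point the truncated expected distance dominates any common lower bound on the
distances of the chosen elements. -/
lemma le_trunc (δ : A → ℝ) {T m : ℝ} (hm : 0 ≤ m) (hmT : m ≤ T) {z : A → ℝ}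
    (h0 : ∀ c, 0 ≤ z c) (h1 : ∀ c, z c ≤ 1) (hz : ∀ c, z c ≠ 0 → m ≤ δ c) :
    m ≤ trunc δ T z := by
  have hint := fun u v => miss_nbr_integrable δ h0 h1 u v
  have h2 : ∫ s in (0 : ℝ)..m, miss (nbr δ s) z ≤ ∫ s in (0 : ℝ)..T, miss (nbr δ s) z := by
    apply intervalIntegral.integral_mono_interval le_rfl hm hmT
    · exact Filter.Eventually.of_forall (fun s => miss_nonneg _ h1)
    · exact hint 0 T
  have h3 : ∫ s in (0 : ℝ)..m, (1 : ℝ) ≤ ∫ s in (0 : ℝ)..m, miss (nbr δ s) z := by
    apply intervalIntegral.integral_mono_on_of_le_Ioo hm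
    · exact intervalIntegrable_const
    · exact hint 0 m
    · intro s hs
      have : miss (nbr δ s) z = 1 := by
        unfold miss
        apply Finset.prod_eq_one
        intro c hc
        rw [mem_nbr] at hc
        have : z c = 0 := by
          by_contra hne
          exact absurd (hz c hne) (not_le.mpr (lt_of_le_of_lt hc hs.2))
        rw [this]; ring
      rw [this]
  rw [intervalIntegral.integral_const] at h3
  simp only [sub_zero, smul_eq_mul, mul_one] at h3
  unfold trunc
  linarith only [h2, h3]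

end Trunc

end Vale.Agent.P334
end

section

/-!
Radii from quantiles, filtering of centers, and a greedy matching of the centers.
-/

namespace Vale.Agent.P334

open Finset

section Radii

variable {X : Type}

/-- A `1/(1+δ)` quantile of the distance distribution of one client, and the reassignment of the
client to the nearest `1/(1+δ)` fraction of its distribution. -/
lemma quantile (F : Finset X) (x d : X → ℝ) (hx : ∀ i ∈ F, 0 ≤ x i)
    (hx1 : ∑ i ∈ F, x i = 1) (hd : ∀ i ∈ F, 0 ≤ d i) {δ : ℝ} (hδ : 0 < δ) :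
    ∃ (c : ℝ) (x' : X → ℝ), 0 ≤ c ∧ (∀ i ∈ F, 0 ≤ x' i) ∧ (∀ i ∈ F, x' i ≤ (1 + δ) * x i) ∧
      ∑ i ∈ F, x' i = 1 ∧
      ∑ i ∈ F, x i * d i = c + ∑ i ∈ F, x i * max (d i - c) 0 - ∑ i ∈ F, x i * max (c - d i) 0 ∧
      ∑ i ∈ F, x' i * d i = c - (1 + δ) * ∑ i ∈ F, x i * max (c - d i) 0 := by
  classical
  have hFne : F.Nonempty := by
    rw [Finset.nonempty_iff_ne_empty]
    intro h
    rw [h] at hx1
    simp only [sum_empty, zero_ne_one] at hx1
  set M : ℝ → ℝ := fun v => ∑ i ∈ F, (if d i ≤ v then x i else 0) with hM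
  obtain ⟨im, himF, him⟩ := Finset.exists_max_image F d hFne
  have hMim : M (d im) = 1 := by
    rw [hM, ← hx1]
    exact Finset.sum_congr rfl (fun i hi => by rw [if_pos (him i hi)])
  have hne : (F.filter (fun i => 1 ≤ (1 + δ) * M (d i))).Nonempty :=
    ⟨im, Finset.mem_filter.mpr ⟨himF, by rw [hMim]; linarith only [hδ]⟩⟩
  obtain ⟨i0, hi0, hmin⟩ := Finset.exists_min_image _ d hne
  rw [Finset.mem_filter] at hi0
  obtain ⟨hi0F, hi0M⟩ := hi0
  set c := d i0 with hc
  have hc0 : 0 ≤ c := hd i0 hi0F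
  set a : X → ℝ := fun i => if d i < c then (1 + δ) * x i else 0 with ha
  set b : X → ℝ := fun i => if d i ≤ c then (1 + δ) * x i else 0 with hb
  have hSb : 1 ≤ ∑ i ∈ F, b i := by
    have : ∑ i ∈ F, b i = (1 + δ) * M c := by
      rw [hM, Finset.mul_sum]
      exact Finset.sum_congr rfl (fun i _ => by simp only [hb]; split_ifs <;> simp)
    rw [this]; exact hi0M
  have hSa : ∑ i ∈ F, a i ≤ 1 := by
    by_cases hemp : (F.filter (fun i => d i < c)).Nonempty
    · obtain ⟨i1, hi1, hmax⟩ := Finset.exists_max_image _ d hemp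
      rw [Finset.mem_filter] at hi1
      have hnot : ¬ (1 ≤ (1 + δ) * M (d i1)) := by
        intro hcon
        have := hmin i1 (Finset.mem_filter.mpr ⟨hi1.1, hcon⟩)
        exact absurd hi1.2 (not_lt.mpr this)
      have : ∑ i ∈ F, a i = (1 + δ) * M (d i1) := by
        rw [hM, Finset.mul_sum]
        refine Finset.sum_congr rfl (fun i hi => ?_)
        simp only [ha]
        by_cases h : d i < c
        · have h2 : d i ≤ d i1 := hmax i (Finset.mem_filter.mpr ⟨hi, h⟩)
          simp [h, h2]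
        · have h2 : ¬ d i ≤ d i1 := fun h3 => h (lt_of_le_of_lt h3 hi1.2)
          simp [h, h2]
      rw [this]; linarith only [hnot]
    · rw [Finset.not_nonempty_iff_eq_empty, Finset.filter_eq_empty_iff] at hemp
      have : ∑ i ∈ F, a i = 0 := Finset.sum_eq_zero (fun i hi => by
        simp only [ha]; rw [if_neg (hemp hi)])
      rw [this]; norm_num
  obtain ⟨t, ht0, ht1, ht⟩ : ∃ t : ℝ, 0 ≤ t ∧ t ≤ 1 ∧
      (1 - t) * ∑ i ∈ F, a i + t * ∑ i ∈ F, b i = 1 := by
    by_cases heq : ∑ i ∈ F, b i = ∑ i ∈ F, a i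
    · refine ⟨0, le_rfl, zero_le_one, ?_⟩
      have : ∑ i ∈ F, a i = 1 := le_antisymm hSa (heq ▸ hSb)
      rw [this]; ring
    · have hlt : ∑ i ∈ F, a i < ∑ i ∈ F, b i :=
        lt_of_le_of_ne (hSa.trans hSb) (fun h => heq h.symm)
      have hpos : 0 < ∑ i ∈ F, b i - ∑ i ∈ F, a i := by linarith only [hlt]
      refine ⟨(1 - ∑ i ∈ F, a i) / (∑ i ∈ F, b i - ∑ i ∈ F, a i), ?_, ?_, ?_⟩
      · exact div_nonneg (by linarith only [hSa]) hpos.le
      · rw [div_le_one hpos]; linarith
      · field_simp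
        ring
  have hδ1 : 0 ≤ 1 + δ := by linarith only [hδ]
  refine ⟨c, fun i => (1 - t) * a i + t * b i, hc0, ?_, ?_, ?_, ?_, ?_⟩
  · intro i hi
    have h1 : 0 ≤ a i := by simp only [ha]; split_ifs; exacts [mul_nonneg hδ1 (hx i hi), le_rfl]
    have h2 : 0 ≤ b i := by simp only [hb]; split_ifs; exacts [mul_nonneg hδ1 (hx i hi), le_rfl]
    exact add_nonneg (mul_nonneg (by linarith only [ht1]) h1) (mul_nonneg ht0 h2)
  · intro i hi
    have h0 := mul_nonneg hδ1 (hx i hi)
    have h1 : a i ≤ (1 + δ) * x i := by simp only [ha]; split_ifs; exacts [le_rfl, h0]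
    have h2 : b i ≤ (1 + δ) * x i := by simp only [hb]; split_ifs; exacts [le_rfl, h0]
    have e1 := mul_le_mul_of_nonneg_left h1 (by linarith only [ht1] : 0 ≤ 1 - t)
    have e2 := mul_le_mul_of_nonneg_left h2 ht0
    simp only
    linarith only [e1, e2]
  · rw [Finset.sum_add_distrib, ← Finset.mul_sum, ← Finset.mul_sum]; exact ht
  · have : ∑ i ∈ F, x i * d i = ∑ i ∈ F, (x i * c + x i * max (d i - c) 0
        - x i * max (c - d i) 0) := by
      refine Finset.sum_congr rfl (fun i _ => ?_)
      rcases le_total (d i) c with h | h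
      · rw [max_eq_right (by linarith only [h] : d i - c ≤ 0), max_eq_left (by linarith only [h] : 0 ≤ c - d i)]
        ring
      · rw [max_eq_left (by linarith only [h] : 0 ≤ d i - c), max_eq_right (by linarith only [h] : c - d i ≤ 0)]
        ring
    rw [this, Finset.sum_sub_distrib, Finset.sum_add_distrib, ← Finset.sum_mul, hx1, one_mul]
  · have h1 : ∑ i ∈ F, ((1 - t) * a i + t * b i) = 1 := by
      rw [Finset.sum_add_distrib, ← Finset.mul_sum, ← Finset.mul_sum]; exact ht
    have : ∑ i ∈ F, ((1 - t) * a i + t * b i) * d i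
        = ∑ i ∈ F, (((1 - t) * a i + t * b i) * c - (1 + δ) * (x i * max (c - d i) 0)) := by
      refine Finset.sum_congr rfl (fun i _ => ?_)
      rcases lt_trichotomy (d i) c with h | h | h
      · simp only [ha, hb, h, h.le, if_true]
        rw [max_eq_left (by linarith only [h] : 0 ≤ c - d i)]
        ring
      · rw [h, max_eq_right (by linarith only [] : c - c ≤ 0)]
        ring
      · simp only [ha, hb, not_lt.mpr h.le, not_le.mpr h, if_false]
        rw [max_eq_right (by linarith only [h] : c - d i ≤ 0)]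
        ring
    rw [this, Finset.sum_sub_distrib, ← Finset.sum_mul, h1, one_mul, ← Finset.mul_sum]

/-- The radius of a client. -/
lemma radius (F : Finset X) (x d : X → ℝ) (hx : ∀ i ∈ F, 0 ≤ x i)
    (hx1 : ∑ i ∈ F, x i = 1) (hd : ∀ i ∈ F, 0 ≤ d i) {ε : ℝ} (hε : 0 < ε) :
    ∃ (r : ℝ) (x' : X → ℝ), 0 ≤ r ∧ (∀ i ∈ F, 0 ≤ x' i) ∧ (∀ i ∈ F, x' i ≤ (1 + ε) * x i) ∧
      ∑ i ∈ F, x' i = 1 ∧
      ∑ i ∈ F, (if r < d i then x i * d i else 0) ≤ ε * r ∧
      r ≤ ∑ i ∈ F, x i * d i + (∑ i ∈ F, x i * d i - ∑ i ∈ F, x' i * d i) / ε := by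
  obtain ⟨c, x', hc0, h1, h2, h3, h4, h5⟩ := quantile F x d hx hx1 hd hε
  set U := ∑ i ∈ F, x i * max (d i - c) 0 with hU
  set W := ∑ i ∈ F, x i * max (c - d i) 0 with hW
  have hU0 : 0 ≤ U := Finset.sum_nonneg (fun i hi => mul_nonneg (hx i hi) (le_max_right _ _))
  have hW0 : 0 ≤ W := Finset.sum_nonneg (fun i hi => mul_nonneg (hx i hi) (le_max_right _ _))
  have hr0 : 0 ≤ c + U / ε := add_nonneg hc0 (div_nonneg hU0 hε.le)
  refine ⟨c + U / ε, x', hr0, h1, h2, h3, ?_, ?_⟩
  · rcases hU0.lt_or_eq with hUpos | hUz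
    · have hdiv : 0 < U / ε := div_pos hUpos hε
      have key : (∑ i ∈ F, (if c + U / ε < d i then x i * d i else 0)) * (U / ε)
          ≤ (c + U / ε) * U := by
        rw [hU, Finset.sum_mul, Finset.mul_sum, ← hU]
        refine Finset.sum_le_sum (fun i hi => ?_)
        split_ifs with h
        · have hcd : c < d i := by linarith only [hdiv, h]
          rw [max_eq_left (by linarith only [hdiv, h] : 0 ≤ d i - c)]
          have hxi := hx i hi
          have hk : d i * (U / ε) ≤ (c + U / ε) * (d i - c) := by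
            nlinarith only [hc0, h]
          calc x i * d i * (U / ε) = x i * (d i * (U / ε)) := by ring
            _ ≤ x i * ((c + U / ε) * (d i - c)) := mul_le_mul_of_nonneg_left hk hxi
            _ = (c + U / ε) * (x i * (d i - c)) := by ring
        · rw [zero_mul]
          exact mul_nonneg hr0 (mul_nonneg (hx i hi) (le_max_right _ _))
      have key2 : (c + U / ε) * U = (ε * (c + U / ε)) * (U / ε) := by
        (clear * - hε hc0 hUpos; field_simp)
      rw [key2] at key
      exact le_of_mul_le_mul_right key hdiv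
    · have hall : ∀ i ∈ F, x i * max (d i - c) 0 = 0 := by
        have := (Finset.sum_eq_zero_iff_of_nonneg
          (fun i hi => mul_nonneg (hx i hi) (le_max_right (d i - c) 0))).mp hUz.symm
        exact this
      have hz : ∑ i ∈ F, (if c + U / ε < d i then x i * d i else 0) = 0 := by
        apply Finset.sum_eq_zero
        intro i hi
        split_ifs with h
        · have hcd : c < d i := lt_of_le_of_lt (by linarith only [div_nonneg hU0 hε.le]) h
          have := hall i hi
          rw [max_eq_left (by linarith only [hcd] : 0 ≤ d i - c)] at this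
          rcases mul_eq_zero.mp this with h0 | h0
          · rw [h0, zero_mul]
          · linarith only [hcd, h0]
        · rfl
      rw [hz]
      exact mul_nonneg hε.le hr0
  · have e1 : (∑ i ∈ F, x i * d i - ∑ i ∈ F, x' i * d i) / ε = U / ε + W := by
      rw [h4, h5]; field_simp; ring
    rw [e1, h4]
    linarith only [hU0]

end Radii

section Centers

variable {X : Type} [MetricSpace X]

/-- Filtering: well separated centers which serve every client. -/
lemma centers (J : Finset X) (r : X → ℝ) (hr : ∀ j ∈ J, 0 ≤ r j) :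
    ∃ P ⊆ J, (∀ p ∈ P, ∀ q ∈ P, p ≠ q → 2 * max (r p) (r q) < dist p q) ∧
      ∀ j ∈ J, ∃ p ∈ P, r p ≤ r j ∧ dist j p ≤ 2 * r j := by
  classical
  induction J using Finset.induction_on_max_value r with
  | empty => exact ⟨∅, by simp, by simp only [notMem_empty, ne_eq, IsEmpty.forall_iff, implies_true], by simp only [notMem_empty, false_and, exists_false, imp_self, implies_true]⟩
  | insert a s ha hmax ih =>
    obtain ⟨P, hPs, hsep, hcov⟩ := ih (fun j hj => hr j (Finset.mem_insert_of_mem hj))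
    by_cases h : ∃ p ∈ P, dist a p ≤ 2 * r a
    · refine ⟨P, hPs.trans (Finset.subset_insert a s), hsep, ?_⟩
      intro j hj
      rcases Finset.mem_insert.mp hj with hja | hjs
      · obtain ⟨p, hp, hpd⟩ := h
        subst hja
        exact ⟨p, hp, hmax p (hPs hp), hpd⟩
      · exact hcov j hjs
    · push Not at h
      refine ⟨insert a P, Finset.insert_subset_insert a hPs, ?_, ?_⟩
      · intro p hp q hq hpq
        rcases Finset.mem_insert.mp hp with hpa | hpP
        · rcases Finset.mem_insert.mp hq with hqa | hqP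
          · exact absurd (hpa.trans hqa.symm) hpq
          · have hm : max (r p) (r q) = r a := by
              rw [hpa]; exact max_eq_left (hmax q (hPs hqP))
            rw [hm, hpa]
            exact h q hqP
        · rcases Finset.mem_insert.mp hq with hqa | hqP
          · have hm : max (r p) (r q) = r a := by
              rw [hqa]; exact max_eq_right (hmax p (hPs hpP))
            rw [hm, hqa, dist_comm]
            exact h p hpP
          · exact hsep p hpP q hqP hpq
      · intro j hj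
        rcases Finset.mem_insert.mp hj with hja | hjs
        · refine ⟨a, Finset.mem_insert_self a P, ?_, ?_⟩
          · rw [hja]
          · rw [hja, dist_self]
            linarith only [hr a (Finset.mem_insert_self a s)]
        · obtain ⟨p, hp, h1, h2⟩ := hcov j hjs
          exact ⟨p, Finset.mem_insert_of_mem hp, h1, h2⟩

/-- Greedy matching by distance. -/
lemma matching : ∀ (n : ℕ) (P : Finset X), P.card = n →
    ∃ μ : X → X, (∀ p ∈ P, μ p ∈ P) ∧ (∀ p ∈ P, μ (μ p) = p) ∧
      ∀ p ∈ P, ∀ q ∈ P, p ≠ q →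
        (μ p ≠ p ∧ dist p (μ p) ≤ dist p q) ∨ (μ q ≠ q ∧ dist q (μ q) ≤ dist p q) := by
  classical
  intro n
  induction n using Nat.strong_induction_on with
  | _ n ih =>
    intro P hP
    by_cases hne : P.offDiag.Nonempty
    · obtain ⟨⟨p0, q0⟩, hpq, hmin⟩ := Finset.exists_min_image P.offDiag
        (fun pq : X × X => dist pq.1 pq.2) hne
      rw [Finset.mem_offDiag] at hpq
      obtain ⟨hp0, hq0, hne0⟩ := hpq
      simp only at hp0 hq0 hne0
      have hlt : ((P.erase p0).erase q0).card < n := by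
        rw [← hP]
        calc ((P.erase p0).erase q0).card ≤ (P.erase p0).card := Finset.card_erase_le
          _ < P.card := Finset.card_erase_lt_of_mem hp0
      obtain ⟨ν, h1, h2, h3⟩ := ih _ hlt ((P.erase p0).erase q0) rfl
      have hmem : ∀ p ∈ P, p ≠ p0 → p ≠ q0 → p ∈ (P.erase p0).erase q0 := fun p hp ha hb =>
        Finset.mem_erase.mpr ⟨hb, Finset.mem_erase.mpr ⟨ha, hp⟩⟩
      have hsub : ∀ p ∈ (P.erase p0).erase q0, p ∈ P ∧ p ≠ p0 ∧ p ≠ q0 := fun p hp => by
        obtain ⟨ha, hb⟩ := Finset.mem_erase.mp hp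
        obtain ⟨hc, hd⟩ := Finset.mem_erase.mp hb
        exact ⟨hd, hc, ha⟩
      set μ : X → X := fun y => if y = p0 then q0 else if y = q0 then p0 else ν y with hμ
      have μp : μ p0 = q0 := by simp [hμ]
      have μq : μ q0 = p0 := by simp [hμ, hne0.symm]
      have μo : ∀ y, y ≠ p0 → y ≠ q0 → μ y = ν y := fun y ha hb => by simp [hμ, ha, hb]
      refine ⟨μ, ?_, ?_, ?_⟩
      · intro p hp
        by_cases ha : p = p0
        · rw [ha, μp]; exact hq0
        · by_cases hb : p = q0
          · rw [hb, μq]; exact hp0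
          · rw [μo p ha hb]; exact (hsub _ (h1 p (hmem p hp ha hb))).1
      · intro p hp
        by_cases ha : p = p0
        · rw [ha, μp, μq]
        · by_cases hb : p = q0
          · rw [hb, μq, μp]
          · have := hsub _ (h1 p (hmem p hp ha hb))
            rw [μo p ha hb, μo (ν p) this.2.1 this.2.2]
            exact h2 p (hmem p hp ha hb)
      · intro p hp q hq hpq
        have hmin' : dist p0 q0 ≤ dist p q :=
          hmin (p, q) (Finset.mem_offDiag.mpr ⟨hp, hq, hpq⟩)
        by_cases ha : p = p0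
        · left; rw [ha, μp]
          exact ⟨hne0.symm, by rw [ha] at hmin'; exact hmin'⟩
        · by_cases hb : p = q0
          · left; rw [hb, μq]
            exact ⟨hne0, by rw [dist_comm q0 p0]; rw [hb] at hmin'; exact hmin'⟩
          · by_cases hc : q = p0
            · right; rw [hc, μp]
              exact ⟨hne0.symm, by rw [hc] at hmin'; exact hmin'⟩
            · by_cases hd : q = q0
              · right; rw [hd, μq]
                exact ⟨hne0, by rw [dist_comm q0 p0]; rw [hd] at hmin'; exact hmin'⟩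
              · rw [μo p ha hb, μo q hc hd]
                exact h3 p (hmem p hp ha hb) q (hmem q hq hc hd) hpq
    · rw [Finset.not_nonempty_iff_eq_empty] at hne
      refine ⟨id, fun p hp => hp, fun p _ => rfl, ?_⟩
      intro p hp q hq hpq
      have : (p, q) ∈ P.offDiag := Finset.mem_offDiag.mpr ⟨hp, hq, hpq⟩
      rw [hne] at this
      simp at this

end Centers

end Vale.Agent.P334
end

section

/-!
Rounding a fractional solution with given radii.
-/

namespace Vale.Agent.P334

open Finset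

set_option linter.unusedSectionVars false
set_option linter.unusedVariables false

variable {X : Type} [MetricSpace X]

/-- Separation data of the chosen centers. -/
lemma exists_gap (J F P : Finset X) (hPJ : P ⊆ J) (r : X → ℝ) (hr0 : ∀ j ∈ J, 0 ≤ r j)
    (hsep : ∀ p ∈ P, ∀ q ∈ P, p ≠ q → 2 * max (r p) (r q) < dist p q) :
    ∀ p ∈ P, ∃ Z : ℝ, (∀ q ∈ P, q ≠ p → Z ≤ dist p q) ∧ 2 * r p < Z ∧
      ((∃ q ∈ P, q ≠ p ∧ Z = dist p q) ∨ ((∀ q ∈ P, q = p) ∧ ∀ i ∈ F, dist i p < Z / 2)) := by
  classical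
  intro p hp
  by_cases hne : (P.erase p).Nonempty
  · obtain ⟨q, hq, hmin⟩ := Finset.exists_min_image (P.erase p) (fun q => dist p q) hne
    obtain ⟨hqp, hqP⟩ := Finset.mem_erase.mp hq
    refine ⟨dist p q, ?_, ?_, Or.inl ⟨q, hqP, hqp, rfl⟩⟩
    · intro q' hq' hne'
      exact hmin q' (Finset.mem_erase.mpr ⟨hne', hq'⟩)
    · have := hsep p hp q hqP (fun h => hqp h.symm)
      have h2 : r p ≤ max (r p) (r q) := le_max_left _ _
      linarith only [this, h2]
  · rw [Finset.not_nonempty_iff_eq_empty] at hne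
    have hall : ∀ q ∈ P, q = p := by
      intro q hq
      by_contra hcon
      have : q ∈ P.erase p := Finset.mem_erase.mpr ⟨hcon, hq⟩
      rw [hne] at this
      simp at this
    have hd : 0 ≤ ∑ i ∈ F, dist i p := Finset.sum_nonneg (fun i _ => dist_nonneg)
    refine ⟨2 * (r p + ∑ i ∈ F, dist i p) + 2, ?_, ?_, Or.inr ⟨hall, ?_⟩⟩
    · intro q hq hne'
      exact absurd (hall q hq) hne'
    · linarith only [hd]
    · intro i hi
      have h1 : dist i p ≤ ∑ i ∈ F, dist i p :=
        Finset.single_le_sum (f := fun i => dist i p) (fun i _ => dist_nonneg) hi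
      have h2 := hr0 p (hPJ hp)
      linarith only [h1, h2]

lemma sum_copies {F : Finset X} (f : (↥F × Bool) → ℝ) :
    ∑ a, f a = ∑ i : ↥F, (f (i, true) + f (i, false)) := by
  rw [Fintype.sum_prod_type]
  exact Finset.sum_congr rfl (fun i _ => Fintype.sum_bool _)

theorem round_exact (J F : Finset X) (k : ℕ) (hk : 1 ≤ k) (x : X → X → ℝ) (y : X → ℝ)
    (hxy : IsFrac J F k x y) (hsum : ∑ i ∈ F, y i = k) {ε : ℝ} (hε : 0 < ε) (hε2 : ε ≤ 1 / 2)
    (r : X → ℝ) (hr0 : ∀ j ∈ J, 0 ≤ r j)
    (htail : ∀ j ∈ J, ∑ i ∈ F, (if r j < dist i j then x i j * dist i j else 0) ≤ ε * r j) :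
    ∃ S : Finset X, S ⊆ F ∧ S.Nonempty ∧ S.card ≤ k ∧
      cost J S ≤ (1 - Real.exp (-1)) * fracCost J F x
        + (3 * Real.exp (-1) + 5 * ε) * ∑ j ∈ J, r j := by
  classical
  obtain ⟨P, hPJ, hsep, hcov⟩ := centers J r hr0
  obtain ⟨μ, hμP, hμμ, hμd⟩ := matching P.card P rfl
  have hgap := exists_gap J F P hPJ r hr0 hsep
  choose! Z hZle hZr hZalt using hgap
  choose! π hπP hπr hπd using hcov
  have hZpos : ∀ p ∈ P, 0 < Z p := fun p hp => by
    have := hZr p hp
    have := hr0 p (hPJ hp)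
    (clear F k hk x y hxy hsum ε hε hε2 htail hsep μ hμP hμμ hμd hZle hZalt π hπP hπr hπd; linarith)
  -- regions are disjoint
  have hdisj : ∀ p ∈ P, ∀ q ∈ P, ∀ i : X, dist i p < Z p / 2 → dist i q < Z q / 2 → p = q := by
    intro p hp q hq i h1 h2
    by_contra hne
    have e1 := hZle p hp q hq (fun h => hne h.symm)
    have e2 := hZle q hq p hp hne
    have e3 : dist p q ≤ dist i p + dist i q := by
      rw [dist_comm i p]; exact dist_triangle p i q
    rw [dist_comm q p] at e2
    linarith only [h1, h2, e1, e2, e3]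
  -- mass of the reserved copies
  set w : X → ℝ := fun i => ∑ p ∈ P, (if dist i p < Z p / 2 then x i p else 0) with hw
  have hw1 : ∀ p ∈ P, ∀ i, dist i p < Z p / 2 → w i = x i p := by
    intro p hp i hi
    simp only [hw]
    rw [Finset.sum_eq_single_of_mem p hp]
    · rw [if_pos hi]
    · intro q hq hqp
      rw [if_neg]
      intro h
      exact hqp (hdisj q hq p hp i h hi)
  have hw0 : ∀ i ∈ F, 0 ≤ w i := by
    intro i hi
    apply Finset.sum_nonneg
    intro p hp
    split_ifs
    · exact hxy.x_nonneg i hi p (hPJ hp)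
    · exact le_rfl
  have hwy : ∀ i ∈ F, w i ≤ y i := by
    intro i hi
    by_cases h : ∃ p ∈ P, dist i p < Z p / 2
    · obtain ⟨p, hp, hd⟩ := h
      rw [hw1 p hp i hd]
      exact hxy.x_le i hi p (hPJ hp)
    · push Not at h
      have : w i = 0 := Finset.sum_eq_zero (fun p hp => if_neg (not_lt.mpr (h p hp)))
      rw [this]; exact hxy.y_nonneg i hi
  -- copies of the facilities
  set z0 : (↥F × Bool) → ℝ := fun a => if a.2 then y a.1 - w a.1 else w a.1 with hz0
  set H : X → Finset (↥F × Bool) := fun p =>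
    univ.filter (fun a => a.2 = false ∧ dist (a.1 : X) p < Z p / 2) with hH
  have memH : ∀ p a, a ∈ H p ↔ a.2 = false ∧ dist (a.1 : X) p < Z p / 2 := by
    intro p a; simp only [hH, mem_filter, mem_univ, true_and]
  have z0nn : ∀ a, 0 ≤ z0 a := by
    rintro ⟨⟨i, hi⟩, b⟩
    cases b
    · simp only [hz0]; simpa only [Bool.false_eq_true, ↓reduceIte] using hw0 i hi
    · simp only [hz0]; simpa only [↓reduceIte, sub_nonneg] using hwy i hi
  have z0le : ∀ a, z0 a ≤ 1 := by
    rintro ⟨⟨i, hi⟩, b⟩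
    have h1 := hwy i hi
    have h2 := hxy.y_le_one i hi
    have h3 := hw0 i hi
    cases b
    · simp only [hz0]
      simp only [Bool.false_eq_true, if_false]
      linarith only [h1, h2]
    · simp only [hz0]
      simp only [if_true]
      linarith only [h2, h3]
  have z0sum : ∑ a, z0 a = k := by
    rw [sum_copies]
    have : ∀ i : ↥F, z0 (i, true) + z0 (i, false) = y i := by
      intro i; simp only [hz0, ↓reduceIte, Bool.false_eq_true, sub_add_cancel]
    rw [Finset.sum_congr rfl (fun i _ => this i), Finset.sum_coe_sort F y]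
    exact hsum
  -- weighted sums over a region
  have Hsum : ∀ p ∈ P, ∀ g : X → ℝ, ∑ a ∈ H p, z0 a * g a.1
      = ∑ i ∈ F, (if dist i p < Z p / 2 then x i p * g i else 0) := by
    intro p hp g
    rw [hH, Finset.sum_filter, sum_copies]
    rw [← Finset.sum_coe_sort F (fun i => if dist i p < Z p / 2 then x i p * g i else 0)]
    refine Finset.sum_congr rfl (fun i _ => ?_)
    simp only [hz0, Bool.true_eq_false, false_and, if_false, true_and, zero_add,
      Bool.false_eq_true]
    split_ifs with h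
    · rw [hw1 p hp i h]
    · rfl
  have Hmass : ∀ p ∈ P, ∑ a ∈ H p, z0 a
      = ∑ i ∈ F, (if dist i p < Z p / 2 then x i p else 0) := by
    intro p hp
    have := Hsum p hp (fun _ => 1)
    simpa only [mul_one] using this
  -- tail of a center
  have tailsplit : ∀ p ∈ P,
      (1 - ∑ a ∈ H p, z0 a) * (Z p / 2)
        + ∑ i ∈ F, (if dist i p < Z p / 2 then
            x i p * (if r p < dist i p then dist i p else 0) else 0)
        ≤ ε * r p := by
    intro p hp
    refine le_trans ?_ (htail p (hPJ hp))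
    rw [Hmass p hp]
    have h1 : (1 - ∑ i ∈ F, (if dist i p < Z p / 2 then x i p else 0)) * (Z p / 2)
        = ∑ i ∈ F, (if dist i p < Z p / 2 then 0 else x i p * (Z p / 2)) := by
      rw [← hxy.assign p (hPJ hp), ← Finset.sum_sub_distrib, Finset.sum_mul]
      refine Finset.sum_congr rfl (fun i _ => ?_)
      split_ifs <;> ring
    rw [h1, ← Finset.sum_add_distrib]
    refine Finset.sum_le_sum (fun i hi => ?_)
    have hx := hxy.x_nonneg i hi p (hPJ hp)
    have hZ := hZr p hp
    by_cases hc : dist i p < Z p / 2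
    · simp only [hc, if_true, zero_add]
      by_cases hd : r p < dist i p
      · simp [hd]
      · simp [hd]
    · simp only [hc, if_false, add_zero]
      have hge : Z p / 2 ≤ dist i p := not_lt.mp hc
      have hd : r p < dist i p := by linarith only [hZ, hc]
      simp only [hd, if_true]
      exact mul_le_mul_of_nonneg_left hge hx
  have annnn : ∀ p ∈ P, 0 ≤ ∑ i ∈ F, (if dist i p < Z p / 2 then
            x i p * (if r p < dist i p then dist i p else 0) else 0) := by
    intro p hp
    apply Finset.sum_nonneg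
    intro i hi
    have hx := hxy.x_nonneg i hi p (hPJ hp)
    split_ifs
    · exact mul_nonneg hx dist_nonneg
    · simp
    · exact le_rfl
  have Hle : ∀ p ∈ P, ∑ a ∈ H p, z0 a ≤ 1 := by
    intro p hp
    rw [Hmass p hp, ← hxy.assign p (hPJ hp)]
    refine Finset.sum_le_sum (fun i hi => ?_)
    split_ifs
    · exact le_rfl
    · exact hxy.x_nonneg i hi p (hPJ hp)
  have Hge : ∀ p ∈ P, 1 / 2 ≤ ∑ a ∈ H p, z0 a := by
    intro p hp
    have h1 := tailsplit p hp
    have h2 := annnn p hp
    have h3 := hZr p hp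
    have h4 := hZpos p hp
    by_contra hcon
    push Not at hcon
    have h5 : 1 / 2 * (Z p / 2) < (1 - ∑ a ∈ H p, z0 a) * (Z p / 2) := by
      apply mul_lt_mul_of_pos_right _ (by linarith only [h4])
      linarith only [hcon]
    have h6 : ε * r p ≤ 1 / 2 * r p := mul_le_mul_of_nonneg_right hε2 (hr0 p (hPJ hp))
    linarith only [h1, h2, h3, h5, h6]
  -- families
  set Up : Set (Finset (↥F × Bool)) := {U | ∃ p ∈ P, U = H p} with hUpdef
  set Lo : Set (Finset (↥F × Bool)) := {L | ∃ p ∈ P, μ p ≠ p ∧ L = H p ∪ H (μ p)} with hLodef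
  have Hdisj : ∀ p ∈ P, ∀ q ∈ P, p ≠ q → Disjoint (H p) (H q) := by
    intro p hp q hq hpq
    rw [Finset.disjoint_left]
    intro a ha hb
    exact hpq (hdisj p hp q hq a.1 ((memH p a).mp ha).2 ((memH q a).mp hb).2)
  have hUp : ∀ U ∈ Up, ∀ U' ∈ Up, U ≠ U' → Disjoint U U' := by
    rintro U ⟨p, hp, rfl⟩ U' ⟨q, hq, rfl⟩ hne
    exact Hdisj p hp q hq (fun h => hne (by rw [h]))
  have hLo : ∀ L ∈ Lo, ∀ L' ∈ Lo, L ≠ L' → Disjoint L L' := by
    rintro L ⟨p, hp, hmp, rfl⟩ L' ⟨q, hq, hmq, rfl⟩ hne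
    have a1 : p ≠ q := fun h => hne (by rw [h])
    have a2 : p ≠ μ q := fun h => hne (by rw [h, hμμ q hq, Finset.union_comm])
    have a3 : μ p ≠ q := fun h => hne (by rw [← h, hμμ p hp, Finset.union_comm])
    have a4 : μ p ≠ μ q := fun h => a1 (by rw [← hμμ p hp, h, hμμ q hq])
    rw [Finset.disjoint_union_left, Finset.disjoint_union_right, Finset.disjoint_union_right]
    exact ⟨⟨Hdisj p hp q hq a1, Hdisj p hp _ (hμP q hq) a2⟩,
      ⟨Hdisj _ (hμP p hp) q hq a3, Hdisj _ (hμP p hp) _ (hμP q hq) a4⟩⟩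
  have hUL : ∀ U ∈ Up, ∀ L ∈ Lo, U ⊆ L ∨ Disjoint U L := by
    rintro U ⟨p, hp, rfl⟩ L ⟨q, hq, hmq, rfl⟩
    by_cases h1 : p = q
    · left; rw [h1]; exact Finset.subset_union_left
    · by_cases h2 : p = μ q
      · left; rw [h2]; exact Finset.subset_union_right
      · right
        rw [Finset.disjoint_union_right]
        exact ⟨Hdisj p hp q hq h1, Hdisj p hp _ (hμP q hq) h2⟩
  have hfeas : Feas Up Lo z0 := by
    refine ⟨z0nn, z0le, ?_, ?_, ⟨k, z0sum⟩⟩
    · rintro U ⟨p, hp, rfl⟩
      exact Hle p hp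
    · rintro L ⟨p, hp, hmp, rfl⟩
      rw [Finset.sum_union (Hdisj p hp _ (hμP p hp) (fun h => hmp h.symm))]
      (clear * - Hge hp hμP; linarith [Hge p hp, Hge _ (hμP p hp)])
  -- the potential
  set δ : X → (↥F × Bool) → ℝ := fun j a => dist (a.1 : X) j with hδ
  set v : X → (↥F × Bool) → ℝ := fun p a =>
    (if r p < dist (a.1 : X) p then dist (a.1 : X) p else 0) - 5 / 2 * Z p with hv
  set G : ((↥F × Bool) → ℝ) → ℝ := fun z => ∑ j ∈ J,
    (trunc (δ j) (3 * r j) z + ∑ a ∈ H (π j), z a * v (π j) a + 5 / 2 * Z (π j)) with hG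
  have hGconc : ExConcave G := by
    apply ExConcave.sum
    intro j hj
    have h3 : 0 ≤ 3 * r j := by linarith only [hr0 j hj]
    exact ExConcave.add (ExConcave.add (trunc_exConcave (δ j) h3)
      (exConcave_linear (H (π j)) (v (π j)))) (exConcave_const (5 / 2 * Z (π j)))
  obtain ⟨z, hzf, hz01, hzsum, hzG⟩ := pipage hUp hLo hUL hGconc _ z0 rfl hfeas
  -- the integral solution
  set S : Finset X := (univ.filter (fun a : ↥F × Bool => z a = 1)).image (fun a => (a.1 : X))
    with hS
  have memS : ∀ a : ↥F × Bool, z a = 1 → (a.1 : X) ∈ S := by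
    intro a ha
    rw [hS, Finset.mem_image]
    exact ⟨a, by simp only [mem_filter, mem_univ, ha, and_self], rfl⟩
  have hSF : S ⊆ F := by
    intro i hi
    rw [hS, Finset.mem_image] at hi
    obtain ⟨a, _, rfl⟩ := hi
    exact a.1.2
  have hcard : ((univ.filter (fun a : ↥F × Bool => z a = 1)).card : ℝ) = k := by
    rw [← z0sum, ← hzsum, Finset.card_filter]
    push_cast
    refine Finset.sum_congr rfl (fun a _ => ?_)
    rcases hz01 a with h | h
    · simp [h]
    · simp [h]
  have hcard' : (univ.filter (fun a : ↥F × Bool => z a = 1)).card = k := by exact_mod_cast hcard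
  have hSk : S.card ≤ k := by
    rw [← hcard']; exact Finset.card_image_le
  have hSne : S.Nonempty := by
    rw [hS, Finset.image_nonempty, ← Finset.card_pos, hcard']
    omega
  refine ⟨S, hSF, hSne, hSk, ?_⟩
  have infle : ∀ (j : X) (s : X), s ∈ S → Metric.infDist j (S : Set X) ≤ dist j s := by
    intro j s hs
    exact Metric.infDist_le_dist_of_mem (Finset.mem_coe.mpr hs)
  -- if no reserved copy is open, some facility is still near
  have fallback : ∀ p ∈ P, (∀ a ∈ H p, z a = 0) → ∃ s ∈ S, dist p s ≤ 5 / 2 * Z p := by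
    intro p hp hnone
    have hZp := hZpos p hp
    have hitL : ∀ q ∈ P, μ q ≠ q → ∃ a, z a = 1 ∧ (a ∈ H q ∨ a ∈ H (μ q)) := by
      intro q hq hmq
      by_contra hcon
      push Not at hcon
      have h1 := hzf.lo (H q ∪ H (μ q)) ⟨q, hq, hmq, rfl⟩
      have h2 : ∑ c ∈ H q ∪ H (μ q), z c = 0 := by
        apply Finset.sum_eq_zero
        intro c hc
        rcases hz01 c with h | h
        · exact h
        · exact absurd (Finset.mem_union.mp hc) (by
            have := hcon c h
            (clear * - this; tauto))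
      rw [h2] at h1
      linarith only [h1]
    rcases hZalt p hp with ⟨q, hq, hqp, hZq⟩ | ⟨hall, hfar⟩
    · rcases hμd p hp q hq (fun h => hqp h.symm) with ⟨hm, hd⟩ | ⟨hm, hd⟩
      · obtain ⟨a, ha1, ha2⟩ := hitL p hp hm
        rcases ha2 with ha2 | ha2
        · rw [hnone a ha2] at ha1
          norm_num at ha1
        · refine ⟨a.1, memS a ha1, ?_⟩
          have e1 := ((memH (μ p) a).mp ha2).2
          have e2 := hZle (μ p) (hμP p hp) p hp (fun h => hm h.symm)
          have e3 : dist p a.1 ≤ dist p (μ p) + dist (μ p) a.1 := dist_triangle _ _ _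
          rw [dist_comm (μ p) (a.1 : X)] at e3
          rw [dist_comm (μ p) p] at e2
          linarith only [hZp, hZq, hd, e1, e2, e3]
      · obtain ⟨a, ha1, ha2⟩ := hitL q hq hm
        rcases ha2 with ha2 | ha2
        · refine ⟨a.1, memS a ha1, ?_⟩
          have e1 := ((memH q a).mp ha2).2
          have e2 := hZle q hq p hp (fun h => hqp h.symm)
          have e3 : dist p a.1 ≤ dist p q + dist q a.1 := dist_triangle _ _ _
          rw [dist_comm q (a.1 : X)] at e3
          rw [dist_comm q p] at e2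
          linarith only [hZp, hZq, e1, e2, e3]
        · refine ⟨a.1, memS a ha1, ?_⟩
          have e1 := ((memH (μ q) a).mp ha2).2
          have e2 := hZle (μ q) (hμP q hq) q hq (fun h => hm h.symm)
          have e3 : dist p a.1 ≤ dist p q + dist q (μ q) + dist (μ q) a.1 :=
            dist_triangle4 _ _ _ _
          rw [dist_comm (μ q) (a.1 : X)] at e3
          rw [dist_comm (μ q) q] at e2
          linarith only [hZq, hd, e1, e2, e3]
    · obtain ⟨s, hs⟩ := hSne
      refine ⟨s, hs, ?_⟩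
      have := hfar s (hSF hs)
      rw [dist_comm] at this
      linarith only [hZp, this]
  -- integral cost is at most the potential
  have hlow : cost J S ≤ G z := by
    unfold cost
    rw [hG]
    refine Finset.sum_le_sum (fun j hj => ?_)
    have hrj := hr0 j hj
    have hp := hπP j hj
    have hpr := hπr j hj
    have hpd := hπd j hj
    set p := π j with hpdef
    have hZp := hZpos p hp
    have hinf0 : 0 ≤ Metric.infDist j (S : Set X) := Metric.infDist_nonneg
    have htr : min (Metric.infDist j (S : Set X)) (3 * r j) ≤ trunc (δ j) (3 * r j) z := by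
      apply le_trunc (δ j) (le_min hinf0 (by linarith only [hrj])) (min_le_right _ _) hzf.nonneg hzf.le_one
      intro c hc
      have hc1 : z c = 1 := by
        rcases hz01 c with h | h
        · exact absurd h hc
        · exact h
      refine (min_le_left _ _).trans ?_
      have := infle j c.1 (memS c hc1)
      rw [dist_comm] at this
      exact this
    by_cases hhit : ∃ a ∈ H p, z a = 1
    · obtain ⟨a, haH, ha1⟩ := hhit
      have hothers : ∀ c ∈ H p, c ≠ a → z c = 0 := by
        intro c hc hca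
        rcases hz01 c with h | h
        · exact h
        · exfalso
          have h1 := hzf.up (H p) ⟨p, hp, rfl⟩
          have h2 : z a + z c ≤ ∑ c ∈ H p, z c := by
            have hsub : ({a, c} : Finset (↥F × Bool)) ⊆ H p := by
              intro e he
              rcases Finset.mem_insert.mp he with h | h
              · rw [h]; exact haH
              · rw [Finset.mem_singleton.mp h]; exact hc
            have h3 := Finset.sum_le_sum_of_subset_of_nonneg hsub
              (fun i _ _ => hzf.nonneg i) (f := z)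
            rw [Finset.sum_pair (fun h => hca h.symm)] at h3
            exact h3
          rw [ha1, h] at h2
          linarith only [h1, h2]
      have hlin : ∑ c ∈ H p, z c * v p c = v p a := by
        rw [Finset.sum_eq_single_of_mem a haH]
        · rw [ha1, one_mul]
        · intro c hc hca
          rw [hothers c hc hca, zero_mul]
      rw [hlin]
      have hda : Metric.infDist j (S : Set X) ≤ 2 * r j + dist (a.1 : X) p := by
        refine (infle j a.1 (memS a ha1)).trans ?_
        have e3 : dist j a.1 ≤ dist j p + dist p a.1 := dist_triangle _ _ _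
        rw [dist_comm p (a.1 : X)] at e3
        linarith only [hpd, e3]
      simp only [hv]
      by_cases hra : r p < dist (a.1 : X) p
      · simp only [hra, if_true]
        rcases le_total (Metric.infDist j (S : Set X)) (3 * r j) with h | h
        · rw [min_eq_left h] at htr
          linarith only [htr, @dist_nonneg X _ (a.1 : X) p]
        · rw [min_eq_right h] at htr
          linarith only [hrj, htr, hda]
      · simp only [hra, if_false]
        have h3 : Metric.infDist j (S : Set X) ≤ 3 * r j := by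
          have := not_lt.mp hra
          linarith only [hpr, hda, hra]
        rw [min_eq_left h3] at htr
        linarith only [htr]
    · have hnone : ∀ a ∈ H p, z a = 0 := by
        intro a ha
        rcases hz01 a with h | h
        · exact h
        · exact absurd ⟨a, ha, h⟩ hhit
      have hlin : ∑ c ∈ H p, z c * v p c = 0 :=
        Finset.sum_eq_zero (fun c hc => by rw [hnone c hc, zero_mul])
      rw [hlin]
      obtain ⟨s, hs, hds⟩ := fallback p hp hnone
      have hda : Metric.infDist j (S : Set X) ≤ 2 * r j + 5 / 2 * Z p := by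
        refine (infle j s hs).trans ?_
        have e3 : dist j s ≤ dist j p + dist p s := dist_triangle _ _ _
        linarith only [hpd, hds, e3]
      rcases le_total (Metric.infDist j (S : Set X)) (3 * r j) with h | h
      · rw [min_eq_left h] at htr
        linarith only [hZp, htr]
      · rw [min_eq_right h] at htr
        linarith only [hrj, htr, hda]
  -- fractional potential
  have hup : G z0 ≤ (1 - Real.exp (-1)) * fracCost J F x
        + (3 * Real.exp (-1) + 5 * ε) * ∑ j ∈ J, r j := by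
    unfold fracCost
    rw [hG, Finset.mul_sum, Finset.mul_sum, ← Finset.sum_add_distrib]
    refine Finset.sum_le_sum (fun j hj => ?_)
    have hrj := hr0 j hj
    have hp := hπP j hj
    have hpr := hπr j hj
    set p := π j with hpdef
    have hZp := hZpos p hp
    have h1 : trunc (δ j) (3 * r j) z0 ≤ (1 - Real.exp (-1)) * (∑ i ∈ F, x i j * dist i j)
        + Real.exp (-1) * (3 * r j) := by
      apply trunc_le F (fun i => x i j) (fun i => dist i j)
        (fun i hi => hxy.x_nonneg i hi j hj) (hxy.assign j hj) (fun i _ => dist_nonneg)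
        (δ j) (by linarith only [hrj]) z0nn z0le
      intro s
      have : ∑ c ∈ nbr (δ j) s, z0 c = ∑ i ∈ F, (if dist i j ≤ s then y i else 0) := by
        unfold nbr
        rw [Finset.sum_filter, sum_copies,
          ← Finset.sum_coe_sort F (fun i => if dist i j ≤ s then y i else 0)]
        refine Finset.sum_congr rfl (fun i _ => ?_)
        by_cases h : dist (i : X) j ≤ s
        · simp only [hδ, h, ↓reduceIte, hz0, Bool.false_eq_true, sub_add_cancel]
        · simp only [hδ, h, ↓reduceIte, add_zero]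
      rw [this]
      refine Finset.sum_le_sum (fun i hi => ?_)
      split_ifs
      · exact hxy.x_le i hi j hj
      · exact le_rfl
    have h2 : ∑ a ∈ H p, z0 a * v p a + 5 / 2 * Z p ≤ 5 * ε * r j := by
      have e1 : ∑ a ∈ H p, z0 a * v p a
          = ∑ i ∈ F, (if dist i p < Z p / 2 then
            x i p * (if r p < dist i p then dist i p else 0) else 0)
            - (∑ a ∈ H p, z0 a) * (5 / 2 * Z p) := by
        have := Hsum p hp (fun i => (if r p < dist i p then dist i p else 0))
        rw [← this, Finset.sum_mul, ← Finset.sum_sub_distrib]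
        refine Finset.sum_congr rfl (fun a _ => ?_)
        simp only [hv]; ring
      rw [e1]
      have e2 := tailsplit p hp
      have e3 := annnn p hp
      have e4 : ε * r p ≤ ε * r j := mul_le_mul_of_nonneg_left hpr hε.le
      nlinarith only [e2, e3, e4]
    nlinarith only [h1, h2]
  linarith only [hlow, hup, hzG]

end Vale.Agent.P334
end

section

/-!
The main inequality between the integral optimum and the fractional profile.
-/

namespace Vale.Agent.P334

open Finset

variable {X : Type} [MetricSpace X]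

lemma cost_nonneg (J S : Finset X) : 0 ≤ cost J S :=
  Finset.sum_nonneg (fun _ _ => Metric.infDist_nonneg)

lemma opt_le (J F : Finset X) (k : ℕ) {S : Finset X} (h1 : S ⊆ F) (h2 : S.Nonempty)
    (h3 : S.card ≤ k) : opt J F k ≤ cost J S := by
  apply csInf_le
  · refine ⟨0, ?_⟩
    rintro c ⟨T, _, _, _, rfl⟩
    exact cost_nonneg J T
  · exact ⟨S, h1, h2, h3, rfl⟩

lemma fracCost_nonneg (J F : Finset X) {m : ℝ} {x : X → X → ℝ} {y : X → ℝ}
    (h : IsFrac J F m x y) : 0 ≤ fracCost J F x :=
  Finset.sum_nonneg (fun j hj => Finset.sum_nonneg (fun i hi =>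
    mul_nonneg (h.x_nonneg i hi j hj) dist_nonneg))

lemma lpVal_le (J F : Finset X) {m : ℝ} {x : X → X → ℝ} {y : X → ℝ} (h : IsFrac J F m x y) :
    lpVal J F m ≤ fracCost J F x := by
  apply csInf_le
  · refine ⟨0, ?_⟩
    rintro c ⟨x', y', h', rfl⟩
    exact fracCost_nonneg J F h'
  · exact ⟨x, y, h, rfl⟩

/-- The fractional solution set is nonempty. -/
lemma exists_frac (J F : Finset X) (hF : F.Nonempty) {m : ℝ} (hm : 1 ≤ m) :
    ∃ (x : X → X → ℝ) (y : X → ℝ), IsFrac J F m x y := by
  have hc : (0 : ℝ) < F.card := by exact_mod_cast Finset.card_pos.mpr hF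
  have hc1 : (1 : ℝ) ≤ F.card := by exact_mod_cast Finset.card_pos.mpr hF
  have hs : ∑ i ∈ F, (1 : ℝ) / F.card = 1 := by
    rw [Finset.sum_const, nsmul_eq_mul]; field_simp
  refine ⟨fun _ _ => 1 / F.card, fun _ => 1 / F.card, ?_, ?_, ?_, ?_, ?_, ?_⟩
  · intro i _ j _; (clear * - hF; positivity)
  · intro i _ j _; exact le_rfl
  · intro i _; positivity
  · intro i _
    show (1 : ℝ) / F.card ≤ 1
    rw [div_le_one hc]; exact hc1
  · intro j _; exact hs
  · rw [hs]; exact hm

/-- The main bound in terms of one fractional solution and a lower bound for the relaxation with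
`(1+ε)k` facilities. -/
theorem main_frac (J F : Finset X) (k : ℕ) (hk : 1 ≤ k) (hF : F.Nonempty)
    (x : X → X → ℝ) (y : X → ℝ)
    (hxy : IsFrac J F k x y) {ε : ℝ} (hε : 0 < ε) (hε2 : ε ≤ 1 / 2) :
    opt J F k ≤ (1 + 2 * Real.exp (-1) + 5 * ε) * fracCost J F x
      + (3 * Real.exp (-1) + 5 * ε) * ((fracCost J F x - lpVal J F ((1 + ε) * k)) / ε) := by
  classical
  -- radii
  have hrad : ∀ j ∈ J, ∃ (r : ℝ) (x' : X → ℝ), 0 ≤ r ∧ (∀ i ∈ F, 0 ≤ x' i) ∧
      (∀ i ∈ F, x' i ≤ (1 + ε) * x i j) ∧ ∑ i ∈ F, x' i = 1 ∧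
      ∑ i ∈ F, (if r < dist i j then x i j * dist i j else 0) ≤ ε * r ∧
      r ≤ ∑ i ∈ F, x i j * dist i j
        + (∑ i ∈ F, x i j * dist i j - ∑ i ∈ F, x' i * dist i j) / ε := by
    intro j hj
    exact radius F (fun i => x i j) (fun i => dist i j) (fun i hi => hxy.x_nonneg i hi j hj)
      (hxy.assign j hj) (fun i _ => dist_nonneg) hε
  choose! r x' hr0 hx'0 hx'le hx'1 htail hrle using hrad
  -- the reassignment is feasible for the larger budget
  have hfeas' : IsFrac J F ((1 + ε) * k) (fun i j => x' j i) (fun i => min 1 ((1 + ε) * y i)) := by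
    refine ⟨fun i hi j hj => hx'0 j hj i hi, ?_, ?_, ?_, hx'1, ?_⟩
    · intro i hi j hj
      apply le_min
      · rw [← hx'1 j hj]
        exact Finset.single_le_sum (f := fun i => x' j i) (fun i' hi' => hx'0 j hj i' hi') hi
      · exact (hx'le j hj i hi).trans
          (mul_le_mul_of_nonneg_left (hxy.x_le i hi j hj) (by linarith only [hε]))
    · intro i hi
      exact le_min zero_le_one (mul_nonneg (by linarith only [hε]) (hxy.y_nonneg i hi))
    · intro i _
      exact min_le_left _ _
    · calc ∑ i ∈ F, min 1 ((1 + ε) * y i) ≤ ∑ i ∈ F, (1 + ε) * y i :=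
            Finset.sum_le_sum (fun i _ => min_le_right _ _)
        _ = (1 + ε) * ∑ i ∈ F, y i := by rw [Finset.mul_sum]
        _ ≤ (1 + ε) * k := mul_le_mul_of_nonneg_left hxy.budget (by linarith only [hε])
  have hL := lpVal_le J F hfeas'
  set V := fracCost J F x with hV
  set L := lpVal J F ((1 + ε) * k) with hLdef
  have hsumr : ∑ j ∈ J, r j ≤ V + (V - L) / ε := by
    have h1 : ∑ j ∈ J, r j ≤ ∑ j ∈ J, (∑ i ∈ F, x i j * dist i j
        + (∑ i ∈ F, x i j * dist i j - ∑ i ∈ F, x' j i * dist i j) / ε) :=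
      Finset.sum_le_sum (fun j hj => hrle j hj)
    rw [Finset.sum_add_distrib, ← Finset.sum_div, Finset.sum_sub_distrib] at h1
    have h2 : (V - fracCost J F (fun i j => x' j i)) / ε ≤ (V - L) / ε :=
      div_le_div_of_nonneg_right (by linarith only [hL]) hε.le
    have h3 : V = ∑ j ∈ J, ∑ i ∈ F, x i j * dist i j := rfl
    have h4 : fracCost J F (fun i j => x' j i) = ∑ j ∈ J, ∑ i ∈ F, x' j i * dist i j := rfl
    rw [← h3, ← h4] at h1
    linarith only [h1, h2]
  have hV0 : 0 ≤ V := fracCost_nonneg J F hxy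
  have hLV : L ≤ V := by
    refine lpVal_le J F (m := (1 + ε) * k) (x := x) (y := y)
      ⟨hxy.x_nonneg, hxy.x_le, hxy.y_nonneg, hxy.y_le_one, hxy.assign, ?_⟩
    refine hxy.budget.trans ?_
    nlinarith only [hε]
  have hVL : 0 ≤ (V - L) / ε := div_nonneg (by linarith only [hLV]) hε.le
  have hexp0 : 0 < Real.exp (-1) := Real.exp_pos _
  by_cases hcard : F.card ≤ k
  · -- open everything
    have h1 : opt J F k ≤ cost J F := opt_le J F k (Finset.Subset.refl F) hF hcard
    have h2 : cost J F ≤ V := by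
      rw [hV]
      unfold cost fracCost
      refine Finset.sum_le_sum (fun j hj => ?_)
      have : Metric.infDist j (F : Set X)
          = ∑ i ∈ F, x i j * Metric.infDist j (F : Set X) := by
        rw [← Finset.sum_mul, hxy.assign j hj, one_mul]
      rw [this]
      refine Finset.sum_le_sum (fun i hi => ?_)
      apply mul_le_mul_of_nonneg_left _ (hxy.x_nonneg i hi j hj)
      rw [dist_comm]
      exact Metric.infDist_le_dist_of_mem (Finset.mem_coe.mpr hi)
    have h3 : 0 ≤ (3 * Real.exp (-1) + 5 * ε) * ((V - L) / ε) :=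
      mul_nonneg (by positivity) hVL
    have h4 : 0 ≤ (2 * Real.exp (-1) + 5 * ε) * V := mul_nonneg (by positivity) hV0
    nlinarith only [h1, h2, h3, h4]
  · -- raise the opening variables to total exactly `k`
    push Not at hcard
    have hkF : (k : ℝ) < F.card := by exact_mod_cast hcard
    have hyle : ∑ i ∈ F, y i ≤ k := hxy.budget
    have hden : 0 < (F.card : ℝ) - ∑ i ∈ F, y i := by linarith only [hkF, hyle]
    set t : ℝ := (k - ∑ i ∈ F, y i) / (F.card - ∑ i ∈ F, y i) with ht
    have ht0 : 0 ≤ t := div_nonneg (by linarith only [hyle]) hden.le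
    have ht1 : t ≤ 1 := by rw [ht, div_le_one hden]; linarith only [hkF]
    have hnew : IsFrac J F k x (fun i => y i + t * (1 - y i)) := by
      refine ⟨hxy.x_nonneg, ?_, ?_, ?_, hxy.assign, ?_⟩
      · intro i hi j hj
        have := mul_nonneg ht0 (sub_nonneg.mpr (hxy.y_le_one i hi))
        linarith only [this, hxy.x_le i hi j hj]
      · intro i hi
        have := mul_nonneg ht0 (sub_nonneg.mpr (hxy.y_le_one i hi))
        linarith only [this, hxy.y_nonneg i hi]
      · intro i hi
        have := mul_le_mul_of_nonneg_right ht1 (sub_nonneg.mpr (hxy.y_le_one i hi))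
        linarith only [this]
      · rw [Finset.sum_add_distrib, ← Finset.mul_sum, Finset.sum_sub_distrib]
        simp only [Finset.sum_const, nsmul_eq_mul, mul_one]
        rw [ht, div_mul_cancel₀ _ hden.ne']
        linarith only []
    have hnewsum : ∑ i ∈ F, (y i + t * (1 - y i)) = k := by
      rw [Finset.sum_add_distrib, ← Finset.mul_sum, Finset.sum_sub_distrib]
      simp only [sum_const, nsmul_eq_mul, mul_one]
      rw [ht, div_mul_cancel₀ _ hden.ne']
      ring
    obtain ⟨S, hS1, hS2, hS3, hS4⟩ := round_exact J F k hk x _ hnew hnewsum hε hε2 r hr0 htail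
    have h1 := opt_le J F k hS1 hS2 hS3
    have h2 := mul_le_mul_of_nonneg_left hsumr
      (by positivity : 0 ≤ 3 * Real.exp (-1) + 5 * ε)
    nlinarith only [h1, h2, hS4]

theorem main_bound (J F : Finset X) (k : ℕ) (hk : 1 ≤ k) (hF : F.Nonempty)
    {ε : ℝ} (hε : 0 < ε) (hε2 : ε ≤ 1 / 2) :
    opt J F k ≤ (1 + 2 * Real.exp (-1) + 5 * ε) * lpVal J F k
      + (3 * Real.exp (-1) + 5 * ε) * ((lpVal J F k - lpVal J F ((1 + ε) * k)) / ε) := by
  set α := 1 + 2 * Real.exp (-1) + 5 * ε with hα
  set β := 3 * Real.exp (-1) + 5 * ε with hβ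
  have hexp0 : 0 < Real.exp (-1) := Real.exp_pos _
  have hα0 : 0 < α := by positivity
  have hβ0 : 0 < β := by positivity
  set L := lpVal J F ((1 + ε) * k) with hL
  have hk1 : (1 : ℝ) ≤ (k : ℝ) := by exact_mod_cast hk
  have hγ : 0 < α + β / ε := by positivity
  have key : (opt J F k + β / ε * L) / (α + β / ε) ≤ lpVal J F k := by
    apply le_csInf
    · obtain ⟨x, y, h⟩ := exists_frac J F hF hk1
      exact ⟨_, x, y, h, rfl⟩
    · rintro c ⟨x, y, h, rfl⟩
      rw [div_le_iff₀ hγ]
      have := main_frac J F k hk hF x y h hε hε2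
      rw [← hα, ← hβ, ← hL] at this
      have e : β * ((fracCost J F x - L) / ε) = β / ε * fracCost J F x - β / ε * L := by
        (clear * - hε hβ0; field_simp)
      rw [e] at this
      linarith only [this]
  rw [div_le_iff₀ hγ] at key
  have e : β * ((lpVal J F k - L) / ε) = β / ε * lpVal J F k - β / ε * L := by
    field_simp
  rw [e]
  (clear * - key; linarith)

end Vale.Agent.P334
end

section

/-!
Walking between two maximal sets of a potential with decreasing marginals.
-/

namespace Vale.Agent.P334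

open Finset

/-- A set function together with its (decreasing) marginal gains. -/
structure Pot (V : Type) [DecidableEq V] where
  φ : Finset V → ℝ
  mg : V → Finset V → ℝ
  ins : ∀ x Q, x ∉ Q → φ (insert x Q) = φ Q - mg x Q
  anti : ∀ x Q R, Q ⊆ R → mg x R ≤ mg x Q
  nonneg : ∀ x Q, 0 ≤ mg x Q
  mem : ∀ x Q, x ∈ Q → mg x Q = 0

section Walk

variable {V : Type} [DecidableEq V]

namespace Pot

variable (P : Pot V) (F : Finset V) (f : ℝ)

/-- Potential plus price times the number of elements. -/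
def tot (Q : Finset V) : ℝ := P.φ Q + f * Q.card

/-- No element has marginal gain above the price. -/
def IsMax (Q : Finset V) : Prop := ∀ x ∈ F, P.mg x Q ≤ f

/-- `R` arises from `Q` by adding elements whose marginal gain is at least the price. -/
inductive Run (Q : Finset V) : Finset V → Prop
  | refl : Run Q Q
  | step (R : Finset V) (x : V) : Run Q R → x ∈ F → x ∉ R → f ≤ P.mg x R → Run Q (insert x R)

variable {P F f}

lemma IsMax.mono {Q R : Finset V} (h : P.IsMax F f Q) (hQR : Q ⊆ R) : P.IsMax F f R :=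
  fun x hx => (P.anti x Q R hQR).trans (h x hx)

lemma tot_insert {Q : Finset V} {x : V} (hx : x ∉ Q) :
    P.tot f (insert x Q) = P.tot f Q + f - P.mg x Q := by
  unfold tot
  rw [P.ins x Q hx, Finset.card_insert_of_notMem hx]
  push_cast; ring

lemma tot_insert_le {Q : Finset V} {x : V} (hx : x ∉ Q) :
    P.tot f (insert x Q) ≤ P.tot f Q + f := by
  rw [tot_insert hx]
  linarith only [P.nonneg x Q]

lemma Run.subset {Q R : Finset V} (h : P.Run F f Q R) : Q ⊆ R := by
  induction h with
  | refl => exact Finset.Subset.refl _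
  | step R x _ _ _ _ ih => exact ih.trans (Finset.subset_insert x R)

lemma Run.subset_F {Q R : Finset V} (h : P.Run F f Q R) (hQ : Q ⊆ F) : R ⊆ F := by
  induction h with
  | refl => exact hQ
  | step R x _ hx _ _ ih => exact Finset.insert_subset hx ih

lemma Run.tot_le {Q R : Finset V} (h : P.Run F f Q R) : P.tot f R ≤ P.tot f Q := by
  induction h with
  | refl => exact le_rfl
  | step R x _ _ hxR hmg ih =>
    rw [tot_insert hxR]
    (clear * - hmg ih; linarith)

/-- Filling up to a maximal set, with an invariant. -/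
lemma fill (hf : 0 ≤ f) : ∀ (n : ℕ) (Q : Finset V), Q ⊆ F → (F \ Q).card = n →
    ∀ QQ : Finset V → Prop, QQ Q →
    (∀ R x, Q ⊆ R → R ⊆ F → P.tot f R ≤ P.tot f Q → x ∈ F → x ∉ R → f < P.mg x R → QQ R →
      QQ (insert x R)) →
    ∃ R, P.Run F f Q R ∧ P.IsMax F f R ∧ QQ R := by
  intro n
  induction n using Nat.strong_induction_on with
  | _ n ih =>
    intro Q hQF hn QQ h0 hstep
    by_cases hmax : P.IsMax F f Q
    · exact ⟨Q, Run.refl, hmax, h0⟩
    · unfold IsMax at hmax
      push Not at hmax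
      obtain ⟨x, hxF, hx⟩ := hmax
      have hxQ : x ∉ Q := by
        intro h
        rw [P.mem x Q h] at hx
        linarith only [hf, hx]
      have h1 : QQ (insert x Q) := hstep Q x (Finset.Subset.refl Q) hQF le_rfl hxF hxQ hx h0
      have hle : P.tot f (insert x Q) ≤ P.tot f Q := by rw [tot_insert hxQ]; linarith only [hx]
      have hcard : (F \ insert x Q).card < n := by
        rw [← hn]
        apply Finset.card_lt_card
        rw [Finset.ssubset_iff_of_subset (Finset.sdiff_subset_sdiff (Finset.Subset.refl F)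
          (Finset.subset_insert x Q))]
        exact ⟨x, Finset.mem_sdiff.mpr ⟨hxF, hxQ⟩, fun h =>
          (Finset.mem_sdiff.mp h).2 (Finset.mem_insert_self x Q)⟩
      obtain ⟨R, hR1, hR2, hR3⟩ := ih _ hcard (insert x Q) (Finset.insert_subset hxF hQF) rfl QQ h1
        (fun R y hQR hRF htot hyF hyR hmg hQ => hstep R y ((Finset.subset_insert x Q).trans hQR)
          hRF (htot.trans hle) hyF hyR hmg hQ)
      refine ⟨R, ?_, hR2, hR3⟩
      -- prepend the step
      clear hR2 hR3 hstep
      induction hR1 with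
      | refl => exact Run.step Q x Run.refl hxF hxQ hx.le
      | step R y _ hy hyR hmg ih' => exact Run.step R y ih' hy hyR hmg

lemma exists_run (hf : 0 ≤ f) (Q : Finset V) (hQF : Q ⊆ F) :
    ∃ R, P.Run F f Q R ∧ P.IsMax F f R := by
  obtain ⟨R, h1, h2, _⟩ := fill (P := P) hf _ Q hQF rfl (fun _ => True) trivial
    (fun _ _ _ _ _ _ _ _ _ => trivial)
  exact ⟨R, h1, h2⟩

variable {W : Finset V} {PP : Finset V → Prop}

/-- Swapping out one element of small marginal. -/
lemma swap_out (hf : 0 ≤ f) {c : ℝ}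
    (hinv : ∀ M e, e ∉ M → M ⊆ F → e ∈ F → W ⊆ M → P.IsMax F f M →
      P.tot f M ≤ c → P.tot f (insert e M) ≤ c → (PP M ↔ PP (insert e M)))
    {M R : Finset V} (hWR : W ⊆ R) (hRM : R ⊆ M) (hMF : M ⊆ F) (hmax : P.IsMax F f M)
    (htot : P.tot f M + f ≤ c) {z : V} (hzM : z ∈ M) (hzR : z ∉ R)
    (hz : P.mg z (M.erase z) < f) :
    ∃ M', R ⊆ M' ∧ M' ⊆ F ∧ P.IsMax F f M' ∧ P.tot f M' < P.tot f M ∧ (PP M ↔ PP M') := by
  have hzer : z ∉ M.erase z := Finset.notMem_erase z M
  have hins : insert z (M.erase z) = M := Finset.insert_erase hzM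
  have htotM : P.tot f (M.erase z) = P.tot f M - f + P.mg z (M.erase z) := by
    have := tot_insert (P := P) (f := f) hzer
    rw [hins] at this
    (clear * - this; linarith)
  have herF : M.erase z ⊆ F := (Finset.erase_subset z M).trans hMF
  have hRer : R ⊆ M.erase z := fun y hy => Finset.mem_erase.mpr
    ⟨fun h => hzR (h ▸ hy), hRM hy⟩
  obtain ⟨Y, hY1, hY2, hY3⟩ := fill (P := P) hf _ (M.erase z) herF rfl
    (fun Y => z ∉ Y ∧ (PP M ↔ PP (insert z Y))) ⟨hzer, by rw [hins]⟩ (by
      intro Y x hsub hYF htotY hxF hxY hmg ⟨hzY, hiff⟩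
      have hxz : x ≠ z := by
        intro h
        subst h
        have := P.anti x _ _ hsub
        linarith only [hmg, hz, this]
      refine ⟨fun h => ?_, ?_⟩
      · rcases Finset.mem_insert.mp h with h | h
        · exact hxz h.symm
        · exact hzY h
      · have hMsub : M ⊆ insert z Y := by
          rw [← hins]; exact Finset.insert_subset_insert z hsub
        have hbd : P.tot f (insert z Y) ≤ c := by
          have := tot_insert_le (P := P) (f := f) hzY
          linarith only [htot, hz, htotM, htotY, this]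
        have hxnot : x ∉ insert z Y := by
          intro h
          rcases Finset.mem_insert.mp h with h | h
          · exact hxz h
          · exact hxY h
        have hbd2 : P.tot f (insert x (insert z Y)) ≤ c := by
          have e1 : insert x (insert z Y) = insert z (insert x Y) := Finset.insert_comm x z Y
          have e2 : z ∉ insert x Y := by
            intro h
            rcases Finset.mem_insert.mp h with h | h
            · exact hxz h.symm
            · exact hzY h
          rw [e1]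
          have e3 := tot_insert_le (P := P) (f := f) e2
          have e4 := tot_insert (P := P) (f := f) hxY
          linarith only [htot, hz, htotM, htotY, hmg, e3, e4]
        have hstep := hinv (insert z Y) x hxnot (Finset.insert_subset (hMF hzM) hYF) hxF
          (hWR.trans (hRM.trans hMsub)) (hmax.mono hMsub) hbd hbd2
        rw [hiff, hstep, Finset.insert_comm])
  have hle := hY1.tot_le
  refine ⟨Y, hRer.trans hY1.subset, hY1.subset_F herF, hY2, by linarith only [hz, htotM, hle], ?_⟩
  rw [hY3.2]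
  have hbd : P.tot f Y ≤ c := by linarith only [hf, htot, hz, htotM, hle]
  have hbd2 : P.tot f (insert z Y) ≤ c := by
    have := tot_insert_le (P := P) (f := f) hY3.1
    linarith
  exact (hinv Y z hY3.1 (hY1.subset_F herF) (hMF hzM) (hWR.trans (hRer.trans hY1.subset)) hY2
    hbd hbd2).symm

/-- All elements outside `R` can be made to pay for themselves. -/
lemma reduce (hf : 0 ≤ f) {c : ℝ}
    (hinv : ∀ M e, e ∉ M → M ⊆ F → e ∈ F → W ⊆ M → P.IsMax F f M →
      P.tot f M ≤ c → P.tot f (insert e M) ≤ c → (PP M ↔ PP (insert e M)))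
    {M R : Finset V} (hWR : W ⊆ R) (hRM : R ⊆ M) (hMF : M ⊆ F) (hmax : P.IsMax F f M)
    (htot : P.tot f M + f ≤ c) :
    ∃ M', R ⊆ M' ∧ M' ⊆ F ∧ P.IsMax F f M' ∧ P.tot f M' ≤ P.tot f R ∧ (PP M ↔ PP M') := by
  classical
  set SS : Finset (Finset V) := F.powerset.filter (fun M' => R ⊆ M' ∧ P.IsMax F f M' ∧
    P.tot f M' ≤ P.tot f M ∧ (PP M ↔ PP M')) with hSS
  have hne : SS.Nonempty := ⟨M, by
    rw [hSS, Finset.mem_filter]
    exact ⟨Finset.mem_powerset.mpr hMF, hRM, hmax, le_rfl, Iff.rfl⟩⟩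
  obtain ⟨M', hM', hmin⟩ := Finset.exists_min_image SS (P.tot f) hne
  rw [hSS, Finset.mem_filter, Finset.mem_powerset] at hM'
  obtain ⟨h1, h2, h3, h4, h5⟩ := hM'
  have hall : ∀ z ∈ M', z ∉ R → f ≤ P.mg z (M'.erase z) := by
    intro z hz hzR
    by_contra hcon
    push Not at hcon
    obtain ⟨M'', k1, k2, k3, k4, k5⟩ := swap_out hf hinv hWR h2 h1 h3 (by linarith only [htot, h4]) hz hzR hcon
    have hmem : M'' ∈ SS := by
      rw [hSS, Finset.mem_filter, Finset.mem_powerset]
      exact ⟨k2, k1, k3, by linarith only [h4, k4], h5.trans k5⟩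
    have := hmin M'' hmem
    linarith only [k4, this]
  refine ⟨M', h2, h1, h3, ?_, h5⟩
  -- the elements outside `R` pay for themselves
  have key : ∀ (n : ℕ) (T : Finset V), R ⊆ T → T ⊆ M' → (M' \ T).card = n →
      P.tot f M' ≤ P.tot f T := by
    intro n
    induction n with
    | zero =>
      intro T _ hTM hcard
      rw [Finset.card_eq_zero, Finset.sdiff_eq_empty_iff_subset] at hcard
      rw [Finset.Subset.antisymm hTM hcard]
    | succ n ih =>
      intro T hRT hTM hcard
      have : (M' \ T).Nonempty := by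
        rw [← Finset.card_pos, hcard]; omega
      obtain ⟨z, hz⟩ := this
      obtain ⟨hzM, hzT⟩ := Finset.mem_sdiff.mp hz
      have hzR : z ∉ R := fun h => hzT (hRT h)
      have hsub : insert z T ⊆ M' := Finset.insert_subset hzM hTM
      have hcard' : (M' \ insert z T).card = n := by
        rw [Finset.sdiff_insert, Finset.card_erase_of_mem hz, hcard]; rfl
      have h6 := ih (insert z T) (hRT.trans (Finset.subset_insert z T)) hsub hcard'
      rw [tot_insert hzT] at h6
      have h7 : P.mg z (M'.erase z) ≤ P.mg z T := P.anti z T (M'.erase z) (fun y hy =>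
        Finset.mem_erase.mpr ⟨fun h => hzT (h ▸ hy), hTM hy⟩)
      have h8 := hall z hzM hzR
      linarith only [h6, h7, h8]
  exact key _ R (Finset.Subset.refl R) h2 rfl

/-- Going down to a maximal subset. -/
lemma go_down {c : ℝ}
    (hinv : ∀ M e, e ∉ M → M ⊆ F → e ∈ F → W ⊆ M → P.IsMax F f M →
      P.tot f M ≤ c → P.tot f (insert e M) ≤ c → (PP M ↔ PP (insert e M)))
    {B : Finset V} (hWB : W ⊆ B) (hB : P.IsMax F f B) :
    ∀ (n : ℕ) (M : Finset V), B ⊆ M → M ⊆ F → (M \ B).card = n → P.tot f M ≤ c →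
      (PP M ↔ PP B) := by
  intro n
  induction n with
  | zero =>
    intro M hBM _ hcard _
    rw [Finset.card_eq_zero, Finset.sdiff_eq_empty_iff_subset] at hcard
    rw [Finset.Subset.antisymm hcard hBM]
  | succ n ih =>
    intro M hBM hMF hcard htot
    have : (M \ B).Nonempty := by
      rw [← Finset.card_pos, hcard]; omega
    obtain ⟨z, hz⟩ := this
    obtain ⟨hzM, hzB⟩ := Finset.mem_sdiff.mp hz
    have hsub : B ⊆ M.erase z := fun y hy => Finset.mem_erase.mpr ⟨fun h => hzB (h ▸ hy), hBM hy⟩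
    have hins : insert z (M.erase z) = M := Finset.insert_erase hzM
    have hnot : z ∉ M.erase z := Finset.notMem_erase z M
    have hmg : P.mg z (M.erase z) ≤ f := (P.anti z B _ hsub).trans (hB z (hMF hzM))
    have ht := tot_insert (P := P) (f := f) hnot
    rw [hins] at ht
    have hle : P.tot f (M.erase z) ≤ c := by linarith only [htot, hmg, ht]
    have hcard' : (M.erase z \ B).card = n := by
      have : M.erase z \ B = (M \ B).erase z := by
        ext y; simp only [Finset.mem_sdiff, Finset.mem_erase]; (clear * -; tauto)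
      rw [this, Finset.card_erase_of_mem hz, hcard]; rfl
    have h1 := ih (M.erase z) hsub ((Finset.erase_subset z M).trans hMF) hcard' hle
    have h2 := hinv (M.erase z) z hnot ((Finset.erase_subset z M).trans hMF) (hMF hzM)
      (hWB.trans hsub) (hB.mono hsub) hle (by rw [hins]; exact htot)
    rw [hins] at h2
    rw [← h2, h1]

/-- The walk. -/
theorem walk (hf : 0 ≤ f) {W' A B : Finset V}
    (hW' : W' = W ∨ ∃ e ∈ F, W' = insert e W)
    (hWA : W ⊆ A) (hAF : A ⊆ F) (hA : P.IsMax F f A) (hAt : P.tot f A ≤ P.tot f W)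
    (hWF : W ⊆ F) (hrun : P.Run F f W' B) (hB : P.IsMax F f B)
    (hinv : ∀ M e, e ∉ M → M ⊆ F → e ∈ F → W ⊆ M → P.IsMax F f M →
      P.tot f M ≤ P.tot f W + 3 * f → P.tot f (insert e M) ≤ P.tot f W + 3 * f →
      (PP M ↔ PP (insert e M))) :
    PP A ↔ PP B := by
  have hWW' : W ⊆ W' := by
    rcases hW' with h | ⟨e, _, h⟩
    · rw [h]
    · rw [h]; exact Finset.subset_insert e W
  have hW'F : W' ⊆ F := by
    rcases hW' with h | ⟨e, he, h⟩
    · rw [h]; exact hWF
    · rw [h]; exact Finset.insert_subset he hWF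
  have htW' : P.tot f W' ≤ P.tot f W + f := by
    rcases hW' with h | ⟨e, _, h⟩
    · rw [h]; linarith
    · by_cases heW : e ∈ W
      · rw [h, Finset.insert_eq_of_mem heW]; linarith only [hf]
      · rw [h]; exact tot_insert_le heW
  -- start above `W'`
  have hstart : ∃ M, W' ⊆ M ∧ M ⊆ F ∧ P.IsMax F f M ∧ P.tot f M ≤ P.tot f W + f ∧
      (PP A ↔ PP M) := by
    rcases hW' with h | ⟨e, he, h⟩
    · exact ⟨A, by rw [h]; exact hWA, hAF, hA, by linarith only [hf, hAt], Iff.rfl⟩
    · by_cases heA : e ∈ A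
      · refine ⟨A, ?_, hAF, hA, by linarith only [hf, hAt], Iff.rfl⟩
        rw [h]; exact Finset.insert_subset heA hWA
      · have h1 := tot_insert_le (P := P) (f := f) heA
        refine ⟨insert e A, ?_, Finset.insert_subset he hAF, hA.mono (Finset.subset_insert e A),
          by linarith only [hAt, h1], ?_⟩
        · rw [h]; exact Finset.insert_subset_insert e hWA
        · exact hinv A e heA hAF he hWA hA (by linarith only [hf, hAt]) (by linarith only [hf, hAt, h1])
  -- induction along the run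
  have key : ∀ R, P.Run F f W' R → ∃ M, R ⊆ M ∧ M ⊆ F ∧ P.IsMax F f M ∧
      P.tot f M ≤ P.tot f R ∧ (PP A ↔ PP M) := by
    intro R hR
    induction hR with
    | refl =>
      obtain ⟨M, h1, h2, h3, h4, h5⟩ := hstart
      obtain ⟨M', k1, k2, k3, k4, k5⟩ := reduce hf hinv hWW' h1 h2 h3 (by linarith only [hf, h4])
      exact ⟨M', k1, k2, k3, k4, h5.trans k5⟩
    | step R x hR hxF hxR hmg ih =>
      obtain ⟨M, h1, h2, h3, h4, h5⟩ := ih
      have hRt := hR.tot_le
      have hWR : W ⊆ R := hWW'.trans hR.subset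
      by_cases hxM : x ∈ M
      · obtain ⟨M', k1, k2, k3, k4, k5⟩ := reduce (R := insert x R) hf hinv
          (hWR.trans (Finset.subset_insert x R)) (Finset.insert_subset hxM h1) h2 h3 (by linarith only [hf, htW', h4, hRt])
        exact ⟨M', k1, k2, k3, k4, h5.trans k5⟩
      · have hle := tot_insert_le (P := P) (f := f) hxM
        have hiff := hinv M x hxM h2 hxF (hWR.trans h1) h3 (by linarith only [hf, htW', h4, hRt]) (by linarith only [hf, htW', h4, hRt, hle])
        obtain ⟨M', k1, k2, k3, k4, k5⟩ := reduce (R := insert x R) (M := insert x M) hf hinv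
          (hWR.trans (Finset.subset_insert x R)) (Finset.insert_subset_insert x h1)
          (Finset.insert_subset hxF h2) (h3.mono (Finset.subset_insert x M)) (by linarith only [htW', h4, hRt, hle])
        exact ⟨M', k1, k2, k3, k4, h5.trans (hiff.trans k5)⟩
  obtain ⟨M, h1, h2, h3, h4, h5⟩ := key B hrun
  have hBt := hrun.tot_le
  rw [h5]
  exact go_down hinv (hWW'.trans hrun.subset) hB _ M h1 h2 rfl (by linarith)

end Pot

end Walk

end Vale.Agent.P334
end

section

/-!
Chains of maximal sets with a prescribed final size: the flip argument through several phases and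
the choice of the critical price.
-/

namespace Vale.Agent.P334

open Finset

section Phases

variable {V : Type} [DecidableEq V]

/-- `n` is the final size of a strict run through the phases `q, …, q + r - 1` started at `Q`. -/
def Cont (Φ : ℕ → Pot V) (F : Finset V) (f : ℝ) : ℕ → ℕ → Finset V → ℕ → Prop
  | 0, _, Q, n => Q.card = n
  | r + 1, q, Q, n => ∃ R, (Φ q).Run F f Q R ∧ (Φ q).IsMax F f R ∧ Cont Φ F f r (q + 1) R n

/-- `n` is the final size of a loose chain through the phases `q, …, q + r - 1` started at `Q`. -/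
def Loose (Φ : ℕ → Pot V) (F : Finset V) (f : ℝ) : ℕ → ℕ → Finset V → ℕ → Prop
  | 0, _, Q, n => Q.card = n
  | r + 1, q, Q, n => ∃ R, Q ⊆ R ∧ R ⊆ F ∧ (Φ q).IsMax F f R ∧
      (Φ q).tot f R ≤ (Φ q).tot f Q + 3 * f ∧ Loose Φ F f r (q + 1) R n

variable {Φ : ℕ → Pot V} {F : Finset V} {f : ℝ}

lemma cont_exists (hf : 0 ≤ f) : ∀ (r q : ℕ) (Q : Finset V), Q ⊆ F → ∃ n, Cont Φ F f r q Q n := by
  intro r
  induction r with
  | zero => intro q Q _; exact ⟨Q.card, rfl⟩
  | succ r ih =>
    intro q Q hQ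
    obtain ⟨R, h1, h2⟩ := Pot.exists_run (P := Φ q) hf Q hQ
    obtain ⟨n, hn⟩ := ih (q + 1) R (h1.subset_F hQ)
    exact ⟨n, R, h1, h2, hn⟩

/-- The flip argument. -/
theorem flip (hf : 0 ≤ f) (N : ℕ) : ∀ (r q : ℕ) (W W' : Finset V), W ⊆ F → W' ⊆ F →
    (W' = W ∨ ∃ e ∈ F, W' = insert e W) →
    (((∃ n, N ≤ n ∧ Cont Φ F f r q W n) ∧ (∃ n, n < N ∧ Cont Φ F f r q W' n)) ∨
      ((∃ n, n < N ∧ Cont Φ F f r q W n) ∧ (∃ n, N ≤ n ∧ Cont Φ F f r q W' n))) →
    Loose Φ F f r q W N ∨ Loose Φ F f r q W' N := by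
  intro r
  induction r with
  | zero =>
    intro q W W' _ _ hadj h
    have hle : W.card ≤ W'.card := by
      rcases hadj with h | ⟨e, _, h⟩
      · rw [h]
      · rw [h]; exact Finset.card_le_card (Finset.subset_insert e W)
    have hle' : W'.card ≤ W.card + 1 := by
      rcases hadj with h | ⟨e, _, h⟩
      · rw [h]; omega
      · rw [h]; exact Finset.card_insert_le e W
    rcases h with ⟨⟨n, hn, hc⟩, ⟨n', hn', hc'⟩⟩ | ⟨⟨n, hn, hc⟩, ⟨n', hn', hc'⟩⟩
    · simp only [Cont] at hc hc'
      omega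
    · simp only [Cont] at hc hc'
      right
      show W'.card = N
      omega
  | succ r ih =>
    intro q W W' hW hW' hadj h
    -- unpack the two runs
    obtain ⟨A, B, hA1, hA2, hB1, hB2, hAB⟩ : ∃ A B, (Φ q).Run F f W A ∧ (Φ q).IsMax F f A ∧
        (Φ q).Run F f W' B ∧ (Φ q).IsMax F f B ∧
        (((∃ n, N ≤ n ∧ Cont Φ F f r (q + 1) A n) ∧ (∃ n, n < N ∧ Cont Φ F f r (q + 1) B n)) ∨
        ((∃ n, n < N ∧ Cont Φ F f r (q + 1) A n) ∧ (∃ n, N ≤ n ∧ Cont Φ F f r (q + 1) B n))) := by
      rcases h with ⟨⟨n, hn, A, hA1, hA2, hA3⟩, ⟨n', hn', B, hB1, hB2, hB3⟩⟩ |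
        ⟨⟨n, hn, A, hA1, hA2, hA3⟩, ⟨n', hn', B, hB1, hB2, hB3⟩⟩
      · exact ⟨A, B, hA1, hA2, hB1, hB2, Or.inl ⟨⟨n, hn, hA3⟩, ⟨n', hn', hB3⟩⟩⟩
      · exact ⟨A, B, hA1, hA2, hB1, hB2, Or.inr ⟨⟨n, hn, hA3⟩, ⟨n', hn', hB3⟩⟩⟩
    have hAF : A ⊆ F := hA1.subset_F hW
    have hBF : B ⊆ F := hB1.subset_F hW'
    have hAt := hA1.tot_le
    have hBt := hB1.tot_le
    -- dichotomy
    have dich : ∀ M, M ⊆ F → ¬ (∃ n, N ≤ n ∧ Cont Φ F f r (q + 1) M n) →
        ∃ n, n < N ∧ Cont Φ F f r (q + 1) M n := by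
      intro M hM hno
      obtain ⟨n, hn⟩ := cont_exists (Φ := Φ) hf r (q + 1) M hM
      refine ⟨n, ?_, hn⟩
      by_contra hge
      exact hno ⟨n, by omega, hn⟩
    by_cases hex : ∃ M e, e ∉ M ∧ M ⊆ F ∧ e ∈ F ∧ W ⊆ M ∧ (Φ q).IsMax F f M ∧
        (Φ q).tot f M ≤ (Φ q).tot f W + 3 * f ∧
        (Φ q).tot f (insert e M) ≤ (Φ q).tot f W + 3 * f ∧
        ¬ ((∃ n, N ≤ n ∧ Cont Φ F f r (q + 1) M n) ↔
          (∃ n, N ≤ n ∧ Cont Φ F f r (q + 1) (insert e M) n))
    · obtain ⟨M, e, heM, hMF, heF, hWM, hmax, ht1, ht2, hne⟩ := hex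
      have hinsF : insert e M ⊆ F := Finset.insert_subset heF hMF
      have hpair : Loose Φ F f r (q + 1) M N ∨ Loose Φ F f r (q + 1) (insert e M) N := by
        apply ih (q + 1) M (insert e M) hMF hinsF (Or.inr ⟨e, heF, rfl⟩)
        by_cases h1 : ∃ n, N ≤ n ∧ Cont Φ F f r (q + 1) M n
        · left
          refine ⟨h1, dich _ hinsF (fun h2 => hne ⟨fun _ => h2, fun _ => h1⟩)⟩
        · right
          refine ⟨dich _ hMF h1, ?_⟩
          by_contra h2
          exact hne ⟨fun h => absurd h h1, fun h => absurd h h2⟩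
      left
      rcases hpair with h | h
      · exact ⟨M, hWM, hMF, hmax, ht1, h⟩
      · exact ⟨insert e M, hWM.trans (Finset.subset_insert e M), hinsF,
          hmax.mono (Finset.subset_insert e M), ht2, h⟩
    · have hinv : ∀ M e, e ∉ M → M ⊆ F → e ∈ F → W ⊆ M → (Φ q).IsMax F f M →
          (Φ q).tot f M ≤ (Φ q).tot f W + 3 * f →
          (Φ q).tot f (insert e M) ≤ (Φ q).tot f W + 3 * f →
          ((∃ n, N ≤ n ∧ Cont Φ F f r (q + 1) M n) ↔
            (∃ n, N ≤ n ∧ Cont Φ F f r (q + 1) (insert e M) n)) := by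
        intro M e h1 h2 h3 h4 h5 h6 h7
        by_contra hcon
        exact hex ⟨M, e, h1, h2, h3, h4, h5, h6, h7, hcon⟩
      have hiff := Pot.walk (P := Φ q)
        (PP := fun M => ∃ n, N ≤ n ∧ Cont Φ F f r (q + 1) M n) hf hadj hA1.subset hAF hA2 hAt hW
        hB1 hB2 hinv
      rcases hAB with ⟨hA3, hB3⟩ | ⟨hA3, hB3⟩
      · -- `B` has both types
        right
        have hB4 := hiff.mp hA3
        have := ih (q + 1) B B hBF hBF (Or.inl rfl) (Or.inl ⟨hB4, hB3⟩)
        exact ⟨B, hB1.subset, hBF, hB2, by linarith only [hf, hBt], by rcases this with h | h <;> exact h⟩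
      · left
        have hA4 := hiff.mpr hB3
        have := ih (q + 1) A A hAF hAF (Or.inl rfl) (Or.inl ⟨hA4, hA3⟩)
        exact ⟨A, hA1.subset, hAF, hA2, by linarith only [hf, hAt], by rcases this with h | h <;> exact h⟩

/-- A loose chain as a sequence of sets. -/
lemma loose_seq (N : ℕ) : ∀ (r q : ℕ) (Q : Finset V), Loose Φ F f r q Q N →
    ∃ S : ℕ → Finset V, S q = Q ∧ (S (q + r)).card = N ∧
      ∀ p, q ≤ p → p < q + r → S p ⊆ S (p + 1) ∧ S (p + 1) ⊆ F ∧
        (Φ p).IsMax F f (S (p + 1)) ∧ (Φ p).tot f (S (p + 1)) ≤ (Φ p).tot f (S p) + 3 * f := by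
  intro r
  induction r with
  | zero =>
    intro q Q h
    refine ⟨fun _ => Q, rfl, h, ?_⟩
    intro p h1 h2; omega
  | succ r ih =>
    intro q Q h
    obtain ⟨R, h1, h2, h3, h4, h5⟩ := h
    obtain ⟨S, hS1, hS2, hS3⟩ := ih (q + 1) R h5
    refine ⟨fun p => if p ≤ q then Q else S p, by simp, ?_, ?_⟩
    · have : ¬ (q + (r + 1) ≤ q) := by omega
      simp only [this, if_false]
      rw [show q + (r + 1) = q + 1 + r by omega]
      exact hS2
    · intro p hp1 hp2
      have hp3 : ¬ (p + 1 ≤ q) := by omega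
      by_cases hpq : p = q
      · subst hpq
        simp only [le_refl, if_true, hp3, if_false, hS1]
        exact ⟨h1, h2, h3, h4⟩
      · have hp4 : ¬ (p ≤ q) := by omega
        simp only [hp4, if_false, hp3]
        exact hS3 p (by omega) (by omega)

end Phases

section Price

variable {V : Type} [DecidableEq V]

/-- Runs, characterised by their last step. -/
lemma run_iff (P : Pot V) (F : Finset V) (f : ℝ) (Q R : Finset V) :
    P.Run F f Q R ↔ (R = Q ∨ ∃ x ∈ R, x ∈ F ∧ P.Run F f Q (R.erase x) ∧ f ≤ P.mg x (R.erase x)) := by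
  constructor
  · intro h
    cases h with
    | refl => exact Or.inl rfl
    | step R' x hR hxF hxR hmg =>
      right
      refine ⟨x, Finset.mem_insert_self x R', hxF, ?_, ?_⟩
      · rw [Finset.erase_insert hxR]; exact hR
      · rw [Finset.erase_insert hxR]; exact hmg
  · rintro (h | ⟨x, hx, hxF, hR, hmg⟩)
    · rw [h]; exact Pot.Run.refl
    · have := Pot.Run.step (R.erase x) x hR hxF (Finset.notMem_erase x R) hmg
      rwa [Finset.insert_erase hx] at this

variable (Φ : ℝ → ℕ → Pot V) (F : Finset V)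

lemma isClosed_run (hcont : ∀ q x Q, Continuous (fun f => (Φ f q).mg x Q)) (q : ℕ)
    (Q : Finset V) : ∀ (n : ℕ) (R : Finset V), R.card = n →
    IsClosed {f : ℝ | (Φ f q).Run F f Q R} := by
  intro n
  induction n with
  | zero =>
    intro R hR
    rw [Finset.card_eq_zero] at hR
    subst hR
    have : {f : ℝ | (Φ f q).Run F f Q ∅} = {f : ℝ | ∅ = Q} := by
      ext f
      simp only [Set.mem_ofPred_eq]
      rw [run_iff]
      simp only [notMem_empty, not_false_eq_true, erase_eq_of_notMem, false_and, exists_false, or_false]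
    rw [this]
    exact isClosed_const
  | succ n ih =>
    intro R hR
    have : {f : ℝ | (Φ f q).Run F f Q R} = {f : ℝ | R = Q} ∪
        ⋃ x ∈ R.filter (fun x => x ∈ F), {f : ℝ | (Φ f q).Run F f Q (R.erase x)} ∩
          {f : ℝ | f ≤ (Φ f q).mg x (R.erase x)} := by
      ext f
      simp only [Set.mem_ofPred_eq, Set.mem_union, Set.mem_iUnion, Set.mem_inter_iff,
        Finset.mem_filter, exists_prop]
      rw [run_iff]
      constructor
      · rintro (h | ⟨x, h1, h2, h3, h4⟩)
        · exact Or.inl h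
        · exact Or.inr ⟨x, ⟨h1, h2⟩, h3, h4⟩
      · rintro (h | ⟨x, ⟨h1, h2⟩, h3, h4⟩)
        · exact Or.inl h
        · exact Or.inr ⟨x, h1, h2, h3, h4⟩
    rw [this]
    refine IsClosed.union isClosed_const ?_
    refine isClosed_biUnion_finset (fun x hx => ?_)
    refine IsClosed.inter (ih (R.erase x) ?_) ?_
    · rw [Finset.card_erase_of_mem (Finset.mem_filter.mp hx).1, hR]; rfl
    · exact isClosed_le continuous_id (hcont q x (R.erase x))

lemma isClosed_cont (hcont : ∀ q x Q, Continuous (fun f => (Φ f q).mg x Q)) :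
    ∀ (r q : ℕ) (Q : Finset V) (n : ℕ), Q ⊆ F →
    IsClosed {f : ℝ | Cont (Φ f) F f r q Q n} := by
  intro r
  induction r with
  | zero =>
    intro q Q n _
    have : {f : ℝ | Cont (Φ f) F f 0 q Q n} = {f : ℝ | Q.card = n} := rfl
    rw [this]
    exact isClosed_const
  | succ r ih =>
    intro q Q n hQ
    have : {f : ℝ | Cont (Φ f) F f (r + 1) q Q n} =
        ⋃ R ∈ F.powerset, {f : ℝ | (Φ f q).Run F f Q R} ∩ {f : ℝ | (Φ f q).IsMax F f R} ∩
          {f : ℝ | Cont (Φ f) F f r (q + 1) R n} := by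
      ext f
      simp only [Set.mem_ofPred_eq, Set.mem_iUnion, Set.mem_inter_iff, exists_prop,
        Finset.mem_powerset]
      constructor
      · rintro ⟨R, h1, h2, h3⟩
        exact ⟨R, h1.subset_F hQ, ⟨h1, h2⟩, h3⟩
      · rintro ⟨R, _, ⟨h1, h2⟩, h3⟩
        exact ⟨R, h1, h2, h3⟩
    rw [this]
    refine isClosed_biUnion_finset (fun R hR => ?_)
    refine IsClosed.inter (IsClosed.inter (isClosed_run Φ F hcont q Q _ R rfl) ?_)
      (ih (q + 1) R n (Finset.mem_powerset.mp hR))
    have : {f : ℝ | (Φ f q).IsMax F f R} = ⋂ x ∈ F, {f : ℝ | (Φ f q).mg x R ≤ f} := by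
      ext f
      simp only [Pot.IsMax, Set.mem_ofPred_eq, Set.mem_iInter]
    rw [this]
    exact isClosed_biInter (fun x _ => isClosed_le (hcont q x R) continuous_id)

lemma cont_card_le {Ψ : ℕ → Pot V} {f : ℝ} : ∀ (r q : ℕ) (Q : Finset V) (n : ℕ), Q ⊆ F →
    Cont Ψ F f r q Q n → n ≤ F.card := by
  intro r
  induction r with
  | zero => intro q Q n hQ h; simp only [Cont] at h; rw [← h]; exact Finset.card_le_card hQ
  | succ r ih =>
    intro q Q n hQ h
    obtain ⟨R, h1, _, h3⟩ := h
    exact ih (q + 1) R n (h1.subset_F hQ) h3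

lemma cont_zero {Ψ : ℕ → Pot V} : ∀ (r q : ℕ), Cont Ψ F 0 r q F F.card := by
  intro r
  induction r with
  | zero => intro q; rfl
  | succ r ih =>
    intro q
    exact ⟨F, Pot.Run.refl, fun x hx => ((Ψ q).mem x F hx).le, ih (q + 1)⟩

lemma run_zero_all {P : Pot V} (Q : Finset V) : ∀ (n : ℕ) (R : Finset V), Q ⊆ R → R ⊆ F →
    (R \ Q).card = n → P.Run F 0 Q R := by
  intro n
  induction n with
  | zero =>
    intro R hQ _ h
    rw [Finset.card_eq_zero, Finset.sdiff_eq_empty_iff_subset] at h
    rw [Finset.Subset.antisymm hQ h]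
    exact Pot.Run.refl
  | succ n ih =>
    intro R hQ hRF h
    have : (R \ Q).Nonempty := by rw [← Finset.card_pos, h]; omega
    obtain ⟨x, hx⟩ := this
    obtain ⟨hxR, hxQ⟩ := Finset.mem_sdiff.mp hx
    have h1 : (R.erase x \ Q).card = n := by
      have : R.erase x \ Q = (R \ Q).erase x := by
        ext y; simp only [Finset.mem_sdiff, Finset.mem_erase]; (clear * -; tauto)
      rw [this, Finset.card_erase_of_mem hx, h]; rfl
    have hsub : Q ⊆ R.erase x := fun y hy => Finset.mem_erase.mpr ⟨fun h => hxQ (h ▸ hy), hQ hy⟩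
    have h2 := ih (R.erase x) hsub ((Finset.erase_subset x R).trans hRF) h1
    have := Pot.Run.step (R.erase x) x h2 (hRF hxR) (Finset.notMem_erase x R) (P.nonneg x _)
    rwa [Finset.insert_erase hxR] at this

lemma cont_big {Ψ : ℕ → Pot V} {f : ℝ} (hbig : ∀ q x Q, x ∈ F → (Ψ q).mg x Q < f) :
    ∀ (r q : ℕ) (Q : Finset V) (n : ℕ), Cont Ψ F f r q Q n → n = Q.card := by
  intro r
  induction r with
  | zero => intro q Q n h; exact h.symm
  | succ r ih =>
    intro q Q n h
    obtain ⟨R, h1, _, h3⟩ := h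
    have hRQ : R = Q := by
      cases h1 with
      | refl => rfl
      | step R' x _ hx _ hmg => exact absurd (hbig q x R' hx) (not_lt.mpr hmg)
    rw [ih (q + 1) R n h3, hRQ]

/-- A chain of maximal sets with final size exactly `N` exists for a suitable price. -/
theorem exists_chain (hcont : ∀ q x Q, Continuous (fun f => (Φ f q).mg x Q))
    (hbig : ∃ f0 : ℝ, ∀ f, f0 < f → ∀ q x Q, x ∈ F → (Φ f q).mg x Q < f)
    {O : Finset V} (hO : O ⊆ F) {m N : ℕ} (hm : 1 ≤ m) (hN1 : O.card < N) (hN2 : N ≤ F.card) :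
    ∃ f : ℝ, 0 ≤ f ∧ ∃ S : ℕ → Finset V, S 0 = O ∧ (S m).card = N ∧
      ∀ q, q < m → S q ⊆ S (q + 1) ∧ S (q + 1) ⊆ F ∧ (Φ f q).IsMax F f (S (q + 1)) ∧
        (Φ f q).tot f (S (q + 1)) ≤ (Φ f q).tot f (S q) + 3 * f := by
  classical
  obtain ⟨f0, hf0⟩ := hbig
  set A : Set ℝ := {f : ℝ | 0 ≤ f ∧ ∃ n, N ≤ n ∧ Cont (Φ f) F f m 0 O n} with hA
  set B : Set ℝ := {f : ℝ | ∃ n, n < N ∧ Cont (Φ f) F f m 0 O n} with hB
  have hA0 : (0 : ℝ) ∈ A := by
    refine ⟨le_rfl, F.card, hN2, ?_⟩
    obtain ⟨m', rfl⟩ : ∃ m', m = m' + 1 := ⟨m - 1, by omega⟩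
    exact ⟨F, run_zero_all F O _ F hO (Finset.Subset.refl F) rfl,
      fun x hx => ((Φ 0 0).mem x F hx).le, cont_zero F m' 1⟩
  have hAclosed : IsClosed A := by
    have : A = Set.Ici 0 ∩ ⋃ n ∈ (Finset.range (F.card + 1)).filter (fun n => N ≤ n),
        {f : ℝ | Cont (Φ f) F f m 0 O n} := by
      ext f
      simp only [hA, Set.mem_ofPred_eq, mem_filter, mem_range, Set.mem_inter_iff, Set.mem_Ici, Set.mem_iUnion, exists_prop]
      constructor
      · rintro ⟨h1, n, h2, h3⟩
        exact ⟨h1, n, ⟨by have := cont_card_le F m 0 O n hO h3; omega, h2⟩, h3⟩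
      · rintro ⟨h1, n, ⟨_, h2⟩, h3⟩
        exact ⟨h1, n, h2, h3⟩
    rw [this]
    exact IsClosed.inter isClosed_Ici
      (isClosed_biUnion_finset (fun n _ => isClosed_cont Φ F hcont m 0 O n hO))
  have hBclosed : IsClosed B := by
    have : B = ⋃ n ∈ Finset.range N, {f : ℝ | Cont (Φ f) F f m 0 O n} := by
      ext f
      simp only [hB, Set.mem_ofPred_eq, Set.mem_iUnion, Finset.mem_range, exists_prop]
    rw [this]
    exact isClosed_biUnion_finset (fun n _ => isClosed_cont Φ F hcont m 0 O n hO)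
  have hAbdd : BddAbove A := by
    refine ⟨f0, ?_⟩
    rintro f ⟨_, n, hn, hc⟩
    by_contra hcon
    push Not at hcon
    have := cont_big F (fun q x Q hx => hf0 f hcon q x Q hx) m 0 O n hc
    omega
  set f := sSup A with hf
  have hfA : f ∈ A := hAclosed.csSup_mem ⟨0, hA0⟩ hAbdd
  have hfnn : 0 ≤ f := hfA.1
  have hgt : ∀ g, f < g → g ∈ B := by
    intro g hg
    obtain ⟨n, hn⟩ := cont_exists (Φ := Φ g) (by linarith only [hfnn, hg] : (0:ℝ) ≤ g) m 0 O hO
    refine ⟨n, ?_, hn⟩
    by_contra hcon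
    have : g ∈ A := ⟨by linarith only [hfnn, hg], n, by (clear * - hcon; omega), hn⟩
    have := le_csSup hAbdd this
    linarith only [hg, this]
  have hfB : f ∈ B := by
    have : f ∈ closure (Set.Ioi f) := by
      rw [closure_Ioi]; exact Set.mem_Ici.mpr le_rfl
    exact (hBclosed.closure_subset_iff.mpr (fun g hg => hgt g hg)) this
  have hloose := flip (Φ := Φ f) hfnn N m 0 O O hO hO (Or.inl rfl) (Or.inl ⟨hfA.2, hfB⟩)
  have hloose' : Loose (Φ f) F f m 0 O N := by rcases hloose with h | h <;> exact h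
  obtain ⟨S, hS1, hS2, hS3⟩ := loose_seq N m 0 O hloose'
  refine ⟨f, hfnn, S, hS1, by simpa using hS2, fun q hq => hS3 q (by omega) (by omega)⟩

end Price

end Vale.Agent.P334
end

section

/-!
A quantitative improvement of the bound `∑ w a ≤ f + 2 D` for a star in dual fitting.
-/

namespace Vale.Agent.P334

open Finset

section Slack

variable {ι : Type}

/-- Weight of the clients of level below `q`. -/
def Xq (J : Finset ι) (u : ι → ℝ) (c : ι → ℕ) (q : ℕ) : ℝ := ∑ j ∈ J, if c j < q then u j else 0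

/-- Weight of the clients of level exactly `q`. -/
def Yq (J : Finset ι) (u : ι → ℝ) (c : ι → ℕ) (q : ℕ) : ℝ := ∑ j ∈ J, if c j = q then u j else 0

lemma Xq_nonneg {J : Finset ι} {u : ι → ℝ} {c : ι → ℕ} (hu : ∀ j ∈ J, 0 ≤ u j) (q : ℕ) :
    0 ≤ Xq J u c q :=
  Finset.sum_nonneg (fun j hj => by split_ifs; exacts [hu j hj, le_rfl])

lemma Yq_nonneg {J : Finset ι} {u : ι → ℝ} {c : ι → ℕ} (hu : ∀ j ∈ J, 0 ≤ u j) (q : ℕ) :
    0 ≤ Yq J u c q :=
  Finset.sum_nonneg (fun j hj => by split_ifs; exacts [hu j hj, le_rfl])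

lemma Xq_le {J : Finset ι} {u : ι → ℝ} {c : ι → ℕ} (hu : ∀ j ∈ J, 0 ≤ u j) (q : ℕ) :
    Xq J u c q ≤ ∑ j ∈ J, u j :=
  Finset.sum_le_sum (fun j hj => by split_ifs; exacts [le_rfl, hu j hj])

lemma Xq_mono {J : Finset ι} {u : ι → ℝ} {c : ι → ℕ} (hu : ∀ j ∈ J, 0 ≤ u j) {q q' : ℕ}
    (hq : q ≤ q') : Xq J u c q ≤ Xq J u c q' :=
  Finset.sum_le_sum (fun j hj => by
    by_cases h1 : c j < q
    · have h2 : c j < q' := by omega
      simp [h1, h2]
    · rw [if_neg h1]; split_ifs; exacts [hu j hj, le_rfl])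

lemma Xq_add_Yq (J : Finset ι) (u : ι → ℝ) (c : ι → ℕ) (q : ℕ) :
    Xq J u c q + Yq J u c q = ∑ j ∈ J, (if c j ≤ q then u j else 0) := by
  unfold Xq Yq
  rw [← Finset.sum_add_distrib]
  refine Finset.sum_congr rfl (fun j _ => ?_)
  rcases lt_trichotomy (c j) q with h1 | h1 | h1
  · have h2 : c j ≠ q := by omega
    have h3 : c j ≤ q := by omega
    simp only [h1, ↓reduceIte, h2, add_zero, h3]
  · simp [h1]
  · have h2 : ¬ c j < q := by omega
    have h3 : c j ≠ q := by omega
    have h4 : ¬ c j ≤ q := by omega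
    simp only [h2, ↓reduceIte, h3, add_zero, h4]

lemma tot_sub_Xq (J : Finset ι) (u : ι → ℝ) (c : ι → ℕ) (q : ℕ) :
    ∑ j ∈ J, u j - Xq J u c q = ∑ j ∈ J, (if q ≤ c j then u j else 0) := by
  unfold Xq
  rw [← Finset.sum_sub_distrib]
  refine Finset.sum_congr rfl (fun j _ => ?_)
  by_cases h1 : c j < q
  · have h2 : ¬ q ≤ c j := by omega
    simp only [h1, ↓reduceIte, sub_self, h2]
  · have h2 : q ≤ c j := by omega
    simp only [h1, ↓reduceIte, sub_zero, h2]

/-- The double count. -/
lemma double_count (J : Finset ι) (w v : ι → ℝ) (c : ι → ℕ) :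
    ∑ l ∈ J, w l * Xq J v c (c l)
      = ∑ j ∈ J, v j * (∑ l ∈ J, w l - Xq J w c (c j) - Yq J w c (c j)) := by
  simp only [Xq, mul_sum, Yq]
  rw [Finset.sum_comm]
  refine Finset.sum_congr rfl (fun j _ => ?_)
  rw [← Finset.sum_sub_distrib, ← Finset.sum_sub_distrib, Finset.mul_sum]
  refine Finset.sum_congr rfl (fun l _ => ?_)
  rcases lt_trichotomy (c l) (c j) with h | h | h
  · have h1 : ¬ (c j < c l) := by omega
    have h2 : c l ≠ c j := by omega
    simp only [h1, ↓reduceIte, mul_zero, h, sub_self, h2]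
  · simp [h]
  · have h1 : ¬ (c l < c j) := by omega
    have h2 : c l ≠ c j := by omega
    simp only [h, if_true, h1, if_false, h2]; ring

/-- Slack of the star constraint at client `l`. -/
def zeta (J : Finset ι) (w d a : ι → ℝ) (c : ι → ℕ) (f : ℝ) (l : ι) : ℝ :=
  f + ∑ j ∈ J, w j * d j + Xq J (fun j => w j * d j) c (c l) + Xq J w c (c l) * d l
    - (∑ j ∈ J, w j) * a l

/-- Tie term. -/
def tieT (J : Finset ι) (w d : ι → ℝ) (c : ι → ℕ) : ℝ := ∑ l ∈ J, w l * d l * Yq J w c (c l)

lemma ident (J : Finset ι) (w d a : ι → ℝ) (c : ι → ℕ) (f : ℝ) :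
    (∑ j ∈ J, w j) * ∑ l ∈ J, w l * a l
      = (∑ j ∈ J, w j) * f + 2 * (∑ j ∈ J, w j) * (∑ j ∈ J, w j * d j) - tieT J w d c
        - ∑ l ∈ J, w l * zeta J w d a c f l := by
  have h1 : ∑ l ∈ J, w l * zeta J w d a c f l = (∑ j ∈ J, w j) * f
      + (∑ j ∈ J, w j) * (∑ j ∈ J, w j * d j)
      + ∑ l ∈ J, w l * Xq J (fun j => w j * d j) c (c l)
      + ∑ l ∈ J, w l * d l * Xq J w c (c l) - (∑ j ∈ J, w j) * ∑ l ∈ J, w l * a l := by
    unfold zeta
    rw [Finset.mul_sum (s := J) (f := fun l => w l * a l), Finset.sum_mul J w f,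
      Finset.sum_mul J w (∑ j ∈ J, w j * d j), ← Finset.sum_add_distrib,
      ← Finset.sum_add_distrib, ← Finset.sum_add_distrib, ← Finset.sum_sub_distrib]
    refine Finset.sum_congr rfl (fun l _ => ?_)
    ring
  have h2 : ∑ l ∈ J, w l * Xq J (fun j => w j * d j) c (c l)
      + ∑ l ∈ J, w l * d l * Xq J w c (c l)
      = (∑ j ∈ J, w j) * (∑ j ∈ J, w j * d j) - tieT J w d c := by
    rw [double_count, tieT, Finset.mul_sum, ← Finset.sum_add_distrib, ← Finset.sum_sub_distrib]
    refine Finset.sum_congr rfl (fun l _ => ?_)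
    ring
  linarith

/-- The linearised constraint. -/
lemma constr_eq (J : Finset ι) (w d : ι → ℝ) (c : ι → ℕ) (q : ℕ) (u v : ℝ) :
    ∑ j ∈ J, (if c j < q then w j * (u - 2 * d j) else w j * (v - d j))
      = Xq J w c q * u + (∑ j ∈ J, w j - Xq J w c q) * v - ∑ j ∈ J, w j * d j
        - Xq J (fun j => w j * d j) c q := by
  rw [tot_sub_Xq]
  unfold Xq
  rw [Finset.sum_mul, Finset.sum_mul, ← Finset.sum_add_distrib, ← Finset.sum_sub_distrib,
    ← Finset.sum_sub_distrib]
  refine Finset.sum_congr rfl (fun j _ => ?_)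
  by_cases hc : c j < q
  · have h2 : ¬ q ≤ c j := by omega
    simp only [hc, if_true, h2, if_false]; ring
  · have h2 : q ≤ c j := by omega
    simp only [hc, if_false, h2, if_true]; ring

variable {J : Finset ι} {w d a : ι → ℝ} {c : ι → ℕ} {f T : ℝ}

lemma constr_lin (hw : ∀ j ∈ J, 0 ≤ w j)
    (hK : ∀ l₁ ∈ J, ∀ l₂ ∈ J, c l₁ ≤ c l₂ →
      ∑ j ∈ J, (if c j < c l₁ then w j * max (a l₂ - d l₂ - 2 * d j) 0
        else w j * max (a l₁ - d j) 0) ≤ f)
    {l₁ l₂ : ι} (h₁ : l₁ ∈ J) (h₂ : l₂ ∈ J) (h : c l₁ ≤ c l₂) :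
    Xq J w c (c l₁) * (a l₂ - d l₂) + (∑ j ∈ J, w j - Xq J w c (c l₁)) * a l₁
      ≤ f + ∑ j ∈ J, w j * d j + Xq J (fun j => w j * d j) c (c l₁) := by
  have h3 := hK l₁ h₁ l₂ h₂ h
  have h4 := constr_eq J w d c (c l₁) (a l₂ - d l₂) (a l₁)
  have h5 : ∑ j ∈ J, (if c j < c l₁ then w j * (a l₂ - d l₂ - 2 * d j) else w j * (a l₁ - d j))
      ≤ f := by
    refine le_trans (Finset.sum_le_sum (fun j hj => ?_)) h3
    split_ifs
    · exact mul_le_mul_of_nonneg_left (le_max_left _ _) (hw j hj)
    · exact mul_le_mul_of_nonneg_left (le_max_left _ _) (hw j hj)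
  linarith only [h4, h5]

lemma zeta_nonneg (hw : ∀ j ∈ J, 0 ≤ w j)
    (hK : ∀ l₁ ∈ J, ∀ l₂ ∈ J, c l₁ ≤ c l₂ →
      ∑ j ∈ J, (if c j < c l₁ then w j * max (a l₂ - d l₂ - 2 * d j) 0
        else w j * max (a l₁ - d j) 0) ≤ f) {l : ι} (hl : l ∈ J) :
    0 ≤ zeta J w d a c f l := by
  have := constr_lin hw hK hl hl le_rfl
  unfold zeta
  linarith

/-- Far clients make every near client slack. -/
lemma near_slack (hw : ∀ j ∈ J, 0 ≤ w j)
    (hK : ∀ l₁ ∈ J, ∀ l₂ ∈ J, c l₁ ≤ c l₂ →
      ∑ j ∈ J, (if c j < c l₁ then w j * max (a l₂ - d l₂ - 2 * d j) 0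
        else w j * max (a l₁ - d j) 0) ≤ f) {A : ℝ} (hA : 0 ≤ A)
    (hd : ∀ j ∈ J, 0 ≤ d j)
    {l : ι} (hl : l ∈ J) (hdl : d l ≤ A) (hal : a l < A + d l) :
    1 / 2 * ∑ j ∈ J, (if 4 * A ≤ d j then w j * d j else 0) ≤ zeta J w d a c f l := by
  have h3 := hK l hl l hl le_rfl
  have h4 := constr_eq J w d c (c l) (a l - d l) (a l)
  have h5 : ∑ j ∈ J, (if c j < c l then w j * (a l - d l - 2 * d j) else w j * (a l - d j))
      + (1 / 2) * ∑ j ∈ J, (if 4 * A ≤ d j then w j * d j else 0) ≤ f := by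
    refine le_trans ?_ h3
    rw [Finset.mul_sum, ← Finset.sum_add_distrib]
    refine Finset.sum_le_sum (fun j hj => ?_)
    have hwj := hw j hj
    have hdj := hd j hj
    have hdl' := hd l hl
    by_cases hfj : 4 * A ≤ d j
    · rw [if_pos hfj]
      split_ifs
      · have h6 : w j * (a l - d l - 2 * d j + 1 / 2 * d j) ≤ 0 :=
          mul_nonpos_of_nonneg_of_nonpos hwj (by (clear * - hal hdj hfj; linarith))
        have h7 : 0 ≤ w j * max (a l - d l - 2 * d j) 0 := mul_nonneg hwj (le_max_right _ _)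
        linarith only [h6, h7]
      · have h6 : w j * (a l - d j + 1 / 2 * d j) ≤ 0 :=
          mul_nonpos_of_nonneg_of_nonpos hwj (by linarith only [hdl, hal, hfj])
        have h7 : 0 ≤ w j * max (a l - d j) 0 := mul_nonneg hwj (le_max_right _ _)
        linarith
    · rw [if_neg hfj, mul_zero, add_zero]
      split_ifs
      · exact mul_le_mul_of_nonneg_left (le_max_left _ _) hwj
      · exact mul_le_mul_of_nonneg_left (le_max_left _ _) hwj
  unfold zeta
  linarith

/-- Far case. -/
lemma far_case (hw : ∀ j ∈ J, 0 ≤ w j) (hd : ∀ j ∈ J, 0 ≤ d j)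
    (hK : ∀ l₁ ∈ J, ∀ l₂ ∈ J, c l₁ ≤ c l₂ →
      ∑ j ∈ J, (if c j < c l₁ then w j * max (a l₂ - d l₂ - 2 * d j) 0
        else w j * max (a l₁ - d j) 0) ≤ f) {A W D : ℝ} (hA : 0 < A)
    (hW : W = ∑ j ∈ J, w j) (hD : D = ∑ j ∈ J, w j * d j) (hDpos : 0 < D)
    (hWA : 2 * D ≤ W * A)
    (hal : ∀ l ∈ J, a l < A + d l)
    (hfar : D / 32 ≤ ∑ j ∈ J, (if 4 * A ≤ d j then w j * d j else 0)) :
    W * D / 128 ≤ ∑ l ∈ J, w l * zeta J w d a c f l := by
  have hnear : ∀ l ∈ J, d l ≤ A → D / 64 ≤ zeta J w d a c f l := by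
    intro l hl hdl
    have := near_slack hw hK hA.le hd hl hdl (hal l hl)
    linarith
  have hmark : A * ∑ l ∈ J, (if A < d l then w l else 0) ≤ D := by
    rw [Finset.mul_sum, hD]
    refine Finset.sum_le_sum (fun l hl => ?_)
    have h1 := hw l hl
    split_ifs with h
    · nlinarith only [h1, h]
    · rw [mul_zero]; exact mul_nonneg h1 (hd l hl)
  have hsplit : W = ∑ l ∈ J, (if A < d l then w l else 0)
      + ∑ l ∈ J, (if A < d l then 0 else w l) := by
    rw [hW, ← Finset.sum_add_distrib]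
    refine Finset.sum_congr rfl (fun l _ => ?_)
    split_ifs <;> simp
  have hhalf : W / 2 ≤ ∑ l ∈ J, (if A < d l then 0 else w l) := by
    have h1 : ∑ l ∈ J, (if A < d l then w l else 0) ≤ W / 2 := by
      by_contra hcon
      push Not at hcon
      have h2 : A * (W / 2) < D := lt_of_lt_of_le (mul_lt_mul_of_pos_left hcon hA) hmark
      nlinarith only [hWA, h2]
    linarith
  have hsum : D / 64 * ∑ l ∈ J, (if A < d l then 0 else w l)
      ≤ ∑ l ∈ J, w l * zeta J w d a c f l := by
    rw [Finset.mul_sum]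
    refine Finset.sum_le_sum (fun l hl => ?_)
    split_ifs with h
    · rw [mul_zero]
      exact mul_nonneg (hw l hl) (zeta_nonneg hw hK hl)
    · have h1 := hnear l hl (not_lt.mp h)
      have := mul_le_mul_of_nonneg_left h1 (hw l hl)
      linarith only [this]
  have h1 : D / 64 * (W / 2) ≤ ∑ l ∈ J, w l * zeta J w d a c f l :=
    le_trans (mul_le_mul_of_nonneg_left hhalf (by positivity)) hsum
  linarith only [h1]

/-- Case (b): an early jump of the cost. -/
lemma case_b (hw : ∀ j ∈ J, 0 < w j) (hd : ∀ j ∈ J, 0 ≤ d j)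
    (hK : ∀ l₁ ∈ J, ∀ l₂ ∈ J, c l₁ ≤ c l₂ →
      ∑ j ∈ J, (if c j < c l₁ then w j * max (a l₂ - d l₂ - 2 * d j) 0
        else w j * max (a l₁ - d j) 0) ≤ f) {W D : ℝ}
    (hW : W = ∑ j ∈ J, w j) (hD : D = ∑ j ∈ J, w j * d j)
    {l₂ : ι} (hl₂ : l₂ ∈ J)
    (hQ : D / 2 ≤ Xq J (fun j => w j * d j) c (c l₂) - (W - Xq J w c (c l₂)) * d l₂
      - zeta J w d a c f l₂)
    {l₁ : ι} (hl₁ : l₁ ∈ J) (hD1 : Xq J (fun j => w j * d j) c (c l₁) < D / 2) :
    Xq J w c (c l₁) * d l₁ ≤ zeta J w d a c f l₁ := by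
  have hw' : ∀ j ∈ J, 0 ≤ w j := fun j hj => (hw j hj).le
  have hwd : ∀ j ∈ J, 0 ≤ w j * d j := fun j hj => mul_nonneg (hw' j hj) (hd j hj)
  have hXle : Xq J w c (c l₂) ≤ W := by rw [hW]; exact Xq_le hw' _
  have hDq2 : D / 2 ≤ Xq J (fun j => w j * d j) c (c l₂) := by
    have h1 : 0 ≤ (W - Xq J w c (c l₂)) * d l₂ := mul_nonneg (by linarith only [hXle]) (hd l₂ hl₂)
    have h2 := zeta_nonneg hw' hK hl₂
    linarith only [hQ, h1, h2]
  have hc : c l₁ ≤ c l₂ := by
    by_contra hcon
    push Not at hcon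
    have := Xq_mono (u := fun j => w j * d j) (c := c) hwd hcon.le
    linarith only [hD1, hDq2, this]
  have h1 := constr_lin hw' hK hl₁ hl₂ hc
  rw [← hW, ← hD] at h1
  have hWpos : 0 < W := by
    rw [hW]; exact Finset.sum_pos hw ⟨l₁, hl₁⟩
  have hXlt : Xq J w c (c l₁) < W := by
    have h2 := tot_sub_Xq J w c (c l₁)
    have h3 : 0 < ∑ j ∈ J, (if c l₁ ≤ c j then w j else 0) :=
      Finset.sum_pos' (fun j hj => by split_ifs; exacts [hw' j hj, le_rfl])
        ⟨l₁, hl₁, by simp [hw l₁ hl₁]⟩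
    rw [hW]; linarith only [h2, h3]
  by_contra hcon
  push Not at hcon
  have e2 : W * a l₂ = f + D + Xq J (fun j => w j * d j) c (c l₂) + Xq J w c (c l₂) * d l₂
      - zeta J w d a c f l₂ := by
    unfold zeta; rw [← hW, ← hD]; ring
  have e1 : W * a l₁ = f + D + Xq J (fun j => w j * d j) c (c l₁) + Xq J w c (c l₁) * d l₁
      - zeta J w d a c f l₁ := by
    unfold zeta; rw [← hW, ← hD]; ring
  have hXnn := Xq_nonneg (c := c) hw' (c l₁)
  generalize zeta J w d a c f l₁ = z1 at *
  generalize zeta J w d a c f l₂ = z2 at *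
  generalize Xq J w c (c l₁) = x1 at *
  generalize Xq J w c (c l₂) = x2 at *
  generalize Xq J (fun j => w j * d j) c (c l₁) = y1 at *
  generalize Xq J (fun j => w j * d j) c (c l₂) = y2 at *
  have h2 : x1 * (W * a l₂ - W * d l₂) + (W - x1) * (W * a l₁) ≤ W * (f + D + y1) := by
    have := mul_le_mul_of_nonneg_left h1 hWpos.le
    linarith only [this]
  rw [e1, e2] at h2
  have h3 : 0 < (W - x1) * (x1 * d l₁ - z1) := mul_pos (by linarith only [hXlt]) (by linarith only [hcon])
  have h4 : 0 ≤ x1 * ((y2 - (W - x2) * d l₂ - z2) - y1) := mul_nonneg hXnn (by linarith only [hD1, hQ])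
  linarith only [h2, h3, h4]

/-- Case (b), summed. -/
lemma case_b_sum (hw : ∀ j ∈ J, 0 < w j) (hd : ∀ j ∈ J, 0 ≤ d j) {W D h : ℝ}
    (hh : 0 ≤ h * W)
    (hD : D = ∑ j ∈ J, w j * d j) (hDpos : 0 < D)
    (hζ : ∀ l ∈ J, 0 ≤ zeta J w d a c f l)
    (hsmall : ∀ (p : ι → Prop) (_ : DecidablePred p), ∑ j ∈ J, (if p j then w j else 0) ≤ h * W →
      ∑ j ∈ J, (if p j then w j * d j else 0) ≤ D / 16)
    (hζ1 : ∀ l₁ ∈ J, Xq J (fun j => w j * d j) c (c l₁) < D / 2 →
      Xq J w c (c l₁) * d l₁ ≤ zeta J w d a c f l₁) :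
    h * W * (7 * D / 16) ≤ tieT J w d c + ∑ l ∈ J, w l * zeta J w d a c f l := by
  classical
  have hw' : ∀ j ∈ J, 0 ≤ w j := fun j hj => (hw j hj).le
  have hwd : ∀ j ∈ J, 0 ≤ w j * d j := fun j hj => mul_nonneg (hw' j hj) (hd j hj)
  have hrank : ∑ l ∈ J, (if Xq J w c (c l) + Yq J w c (c l) < h * W then w l * d l else 0)
      ≤ D / 16 := by
    apply hsmall (fun l => Xq J w c (c l) + Yq J w c (c l) < h * W)
      (fun _ => Classical.propDecidable _)
    by_cases hne : (J.filter (fun l => Xq J w c (c l) + Yq J w c (c l) < h * W)).Nonempty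
    · obtain ⟨l, hl, hmax⟩ := Finset.exists_max_image _ c hne
      rw [Finset.mem_filter] at hl
      refine le_trans ?_ hl.2.le
      rw [Xq_add_Yq]
      refine Finset.sum_le_sum (fun j hj => ?_)
      split_ifs with h1 h2 h2
      · exact le_rfl
      · exact absurd (hmax j (Finset.mem_filter.mpr ⟨hj, h1⟩)) h2
      · exact hw' j hj
      · exact le_rfl
    · rw [Finset.not_nonempty_iff_eq_empty, Finset.filter_eq_empty_iff] at hne
      rw [Finset.sum_eq_zero (fun j hj => by rw [if_neg (hne hj)])]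
      exact hh
  have hfirst : D / 2 ≤ ∑ l ∈ J,
      (if Xq J (fun j => w j * d j) c (c l) < D / 2 then w l * d l else 0) := by
    by_cases hne : (J.filter (fun l => ¬ Xq J (fun j => w j * d j) c (c l) < D / 2)).Nonempty
    · obtain ⟨l, hl, hmin⟩ := Finset.exists_min_image _ c hne
      rw [Finset.mem_filter] at hl
      refine le_trans (not_lt.mp hl.2) ?_
      refine Finset.sum_le_sum (fun j hj => ?_)
      by_cases h1 : c j < c l
      · have h2 : Xq J (fun j => w j * d j) c (c j) < D / 2 := by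
          by_contra hcon
          have := hmin j (Finset.mem_filter.mpr ⟨hj, hcon⟩)
          omega
        rw [if_pos h1, if_pos h2]
      · rw [if_neg h1]
        split_ifs
        · exact hwd j hj
        · exact le_rfl
    · rw [Finset.not_nonempty_iff_eq_empty, Finset.filter_eq_empty_iff] at hne
      have : ∑ l ∈ J, (if Xq J (fun j => w j * d j) c (c l) < D / 2 then w l * d l else 0) = D := by
        rw [hD]
        refine Finset.sum_congr rfl (fun l hl => ?_)
        have := hne hl
        push Not at this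
        rw [← hD, if_pos this]
      rw [this]; (clear * - hDpos; linarith)
  have hcomb : h * W * (∑ l ∈ J,
        (if Xq J (fun j => w j * d j) c (c l) < D / 2 then w l * d l else 0)
      - ∑ l ∈ J, (if Xq J w c (c l) + Yq J w c (c l) < h * W then w l * d l else 0))
      ≤ tieT J w d c + ∑ l ∈ J, w l * zeta J w d a c f l := by
    rw [← Finset.sum_sub_distrib, Finset.mul_sum, tieT, ← Finset.sum_add_distrib]
    refine Finset.sum_le_sum (fun l hl => ?_)
    have hwl := hw' l hl
    have hwdl := hwd l hl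
    have h1 : 0 ≤ w l * d l * Yq J w c (c l) := mul_nonneg hwdl (Yq_nonneg hw' _)
    have h2 : 0 ≤ w l * zeta J w d a c f l := mul_nonneg hwl (hζ l hl)
    by_cases h3 : Xq J (fun j => w j * d j) c (c l) < D / 2
    · rw [if_pos h3]
      by_cases h4 : Xq J w c (c l) + Yq J w c (c l) < h * W
      · rw [if_pos h4, sub_self, mul_zero]; linarith only [h1, h2]
      · rw [if_neg h4, sub_zero]
        have h5 := hζ1 l hl h3
        have h6 : w l * (Xq J w c (c l) * d l) ≤ w l * zeta J w d a c f l :=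
          mul_le_mul_of_nonneg_left h5 hwl
        push Not at h4
        have h7 := mul_le_mul_of_nonneg_right h4 hwdl
        linarith only [h6, h7]
    · rw [if_neg h3]
      have h7 : 0 ≤ h * W * (w l * d l) := mul_nonneg hh hwdl
      split_ifs
      · linarith only [h1, h2, h7]
      · rw [sub_self, mul_zero]; linarith only [h1, h2]
  refine le_trans (mul_le_mul_of_nonneg_left ?_ hh) hcomb
  linarith only [hrank, hfirst]

/-- Case (a): no early jump of the cost. -/
lemma case_a_sum (hJ : J.Nonempty) (hw : ∀ j ∈ J, 0 < w j) (hd : ∀ j ∈ J, 0 ≤ d j) {W D h : ℝ}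
    (hh : 0 ≤ h * W) (hh1 : h * W ≤ W)
    (hW : W = ∑ j ∈ J, w j) (hD : D = ∑ j ∈ J, w j * d j) (hDpos : 0 < D)
    (hζ : ∀ l ∈ J, 0 ≤ zeta J w d a c f l)
    (hsmall : ∀ (p : ι → Prop) (_ : DecidablePred p), ∑ j ∈ J, (if p j then w j else 0) ≤ h * W →
      ∑ j ∈ J, (if p j then w j * d j else 0) ≤ D / 16)
    (hb : ∀ l ∈ J, Xq J (fun j => w j * d j) c (c l) - (W - Xq J w c (c l)) * d l
      - zeta J w d a c f l < D / 2) :
    h * W * (D / 16) ≤ tieT J w d c + ∑ l ∈ J, w l * zeta J w d a c f l := by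
  classical
  have hw' : ∀ j ∈ J, 0 ≤ w j := fun j hj => (hw j hj).le
  have hwd : ∀ j ∈ J, 0 ≤ w j * d j := fun j hj => mul_nonneg (hw' j hj) (hd j hj)
  have htienn : 0 ≤ tieT J w d c :=
    Finset.sum_nonneg (fun l hl => mul_nonneg (hwd l hl) (Yq_nonneg hw' _))
  have hZnn : 0 ≤ ∑ l ∈ J, w l * zeta J w d a c f l :=
    Finset.sum_nonneg (fun l hl => mul_nonneg (hw' l hl) (hζ l hl))
  obtain ⟨lmin, hlmin, hmin⟩ := Finset.exists_min_image J c hJ
  have hne : (J.filter (fun l => h * W ≤ W - Xq J w c (c l))).Nonempty := by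
    refine ⟨lmin, Finset.mem_filter.mpr ⟨hlmin, ?_⟩⟩
    have : Xq J w c (c lmin) = 0 := by
      refine Finset.sum_eq_zero (fun j hj => ?_)
      have := hmin j hj
      have h1 : ¬ c j < c lmin := by omega
      rw [if_neg h1]
    rw [this]; linarith only [hh1]
  obtain ⟨lP, hlP, hmax⟩ := Finset.exists_max_image _ c hne
  rw [Finset.mem_filter] at hlP
  set P := c lP with hP
  have hlate : ∑ j ∈ J, (if P < c j then w j * d j else 0) ≤ D / 16 := by
    apply hsmall (fun j => P < c j) (fun _ => inferInstance)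
    by_cases hne2 : (J.filter (fun l => P < c l)).Nonempty
    · obtain ⟨l, hl, hmin2⟩ := Finset.exists_min_image _ c hne2
      rw [Finset.mem_filter] at hl
      have h1 : ¬ h * W ≤ W - Xq J w c (c l) := by
        intro hcon
        have := hmax l (Finset.mem_filter.mpr ⟨hl.1, hcon⟩)
        omega
      push Not at h1
      refine le_trans ?_ h1.le
      rw [hW, tot_sub_Xq]
      refine Finset.sum_le_sum (fun j hj => ?_)
      split_ifs with h2 h3 h3
      · exact le_rfl
      · exact absurd (hmin2 j (Finset.mem_filter.mpr ⟨hj, h2⟩)) h3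
      · exact hw' j hj
      · exact le_rfl
    · rw [Finset.not_nonempty_iff_eq_empty, Finset.filter_eq_empty_iff] at hne2
      rw [Finset.sum_eq_zero (fun j hj => by rw [if_neg (hne2 hj)])]
      exact hh
  by_cases hlevel : D / 16 < ∑ j ∈ J, (if c j = P then w j * d j else 0)
  · -- ties
    have h1 : h * W < Yq J w c P := by
      by_contra hcon
      push Not at hcon
      have := hsmall (fun j => c j = P) (fun _ => inferInstance) hcon
      linarith only [hlevel, this]
    have h2 : Yq J w c P * ∑ j ∈ J, (if c j = P then w j * d j else 0) ≤ tieT J w d c := by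
      rw [Finset.mul_sum, tieT]
      refine Finset.sum_le_sum (fun j hj => ?_)
      by_cases h3 : c j = P
      · rw [if_pos h3, h3, mul_comm]
      · rw [if_neg h3, mul_zero]
        exact mul_nonneg (hwd j hj) (Yq_nonneg hw' _)
    have h3 : h * W * (D / 16) ≤ Yq J w c P * ∑ j ∈ J, (if c j = P then w j * d j else 0) :=
      mul_le_mul h1.le hlevel.le (by positivity) (Yq_nonneg hw' P)
    linarith only [hZnn, h2, h3]
  · push Not at hlevel
    have hcheap : ∑ j ∈ J, (if P ≤ c j then w j * d j else 0) ≤ D / 8 := by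
      have : ∑ j ∈ J, (if P ≤ c j then w j * d j else 0)
          = ∑ j ∈ J, (if c j = P then w j * d j else 0)
            + ∑ j ∈ J, (if P < c j then w j * d j else 0) := by
        rw [← Finset.sum_add_distrib]
        refine Finset.sum_congr rfl (fun j _ => ?_)
        rcases lt_trichotomy (c j) P with h1 | h1 | h1
        · have h2 : c j ≠ P := by omega
          have h3 : ¬ P < c j := by omega
          have h4 : ¬ P ≤ c j := by omega
          rw [if_neg h2, if_neg h3, if_neg h4, add_zero]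
        · have h3 : ¬ P < c j := by (clear * - h1; omega)
          have h4 : P ≤ c j := by omega
          rw [if_pos h1, if_neg h3, if_pos h4, add_zero]
        · have h2 : c j ≠ P := by omega
          have h4 : P ≤ c j := by omega
          rw [if_neg h2, if_pos h1, if_pos h4, zero_add]
      rw [this]; linarith only [hlate, hlevel]
    have hDP : 7 * D / 8 ≤ Xq J (fun j => w j * d j) c P := by
      have := tot_sub_Xq J (fun j => w j * d j) c P
      rw [← hD] at this
      linarith only [hcheap, this]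
    have hXP : Xq J w c P ≤ W := by rw [hW]; exact Xq_le hw' P
    have hterm : ∀ l ∈ J, P ≤ c l → 3 * D / 8 - (W - Xq J w c P) * d l
        ≤ zeta J w d a c f l := by
      intro l hl hPl
      have h1 := hb l hl
      have h2 := Xq_mono (u := fun j => w j * d j) (c := c) hwd hPl
      have h3 := Xq_mono (u := w) (c := c) hw' hPl
      have h4 : (W - Xq J w c (c l)) * d l ≤ (W - Xq J w c P) * d l :=
        mul_le_mul_of_nonneg_right (by linarith only [h3]) (hd l hl)
      linarith only [hDP, h1, h2, h4]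
    have hWXeq : W - Xq J w c P = ∑ j ∈ J, (if P ≤ c j then w j else 0) := by
      rw [hW, tot_sub_Xq]
    generalize hVdef : W - Xq J w c P = V' at *
    have hsum : ∑ l ∈ J, (if P ≤ c l then w l * (3 * D / 8 - V' * d l) else 0)
        ≤ ∑ l ∈ J, w l * zeta J w d a c f l := by
      refine Finset.sum_le_sum (fun l hl => ?_)
      split_ifs with h1
      · exact mul_le_mul_of_nonneg_left (hterm l hl h1) (hw' l hl)
      · exact mul_nonneg (hw' l hl) (hζ l hl)
    have hsum2 : ∑ l ∈ J, (if P ≤ c l then w l * (3 * D / 8 - V' * d l) else 0)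
        = (3 * D / 8) * V' - V' * ∑ j ∈ J, (if P ≤ c j then w j * d j else 0) := by
      have e1 : (3 * D / 8) * V' = ∑ j ∈ J, (if P ≤ c j then (3 * D / 8) * w j else 0) := by
        rw [hWXeq, Finset.mul_sum]
        refine Finset.sum_congr rfl (fun l _ => ?_)
        split_ifs
        · rfl
        · rw [mul_zero]
      rw [e1, Finset.mul_sum, ← Finset.sum_sub_distrib]
      refine Finset.sum_congr rfl (fun l _ => ?_)
      split_ifs
      · ring
      · rw [mul_zero, sub_zero]
    have hV'nn : 0 ≤ V' := by rw [← hVdef]; linarith only [hXP]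
    have hWX : h * W ≤ V' := hlP.2
    have h1 : V' * (D / 4) ≤ ∑ l ∈ J, w l * zeta J w d a c f l := by
      refine le_trans ?_ hsum
      rw [hsum2]
      nlinarith only [hcheap, hXP, hVdef]
    have h2 : h * W * (D / 4) ≤ V' * (D / 4) := mul_le_mul_of_nonneg_right hWX (by positivity)
    have h3 : h * W * (D / 16) ≤ h * W * (D / 4) :=
      mul_le_mul_of_nonneg_left (by linarith only [hDpos]) hh
    linarith only [htienn, hZnn, h1, h2]

/-- The star inequality, improved: positive weights. -/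
lemma star_bound_pos (hw : ∀ j ∈ J, 0 < w j) (hd : ∀ j ∈ J, 0 ≤ d j) (hf : 0 ≤ f) (hT : 0 < T)
    (hK : ∀ l₁ ∈ J, ∀ l₂ ∈ J, c l₁ ≤ c l₂ →
      ∑ j ∈ J, (if c j < c l₁ then w j * max (a l₂ - d l₂ - 2 * d j) 0
        else w j * max (a l₁ - d j) 0) ≤ f) :
    ∑ j ∈ J, w j * a j ≤ (1 + 1 / (2048 * (T + 2)) / T) * f
      + (2 - 1 / (2048 * (T + 2))) * ∑ j ∈ J, w j * d j := by
  classical
  set δ : ℝ := 1 / (2048 * (T + 2)) with hδ
  have hδpos : 0 < δ := by positivity
  rcases J.eq_empty_or_nonempty with hJ | hJ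
  · subst hJ
    simp only [Finset.sum_empty]
    have : 0 ≤ δ / T := by positivity
    nlinarith
  have hw' : ∀ j ∈ J, 0 ≤ w j := fun j hj => (hw j hj).le
  have hwd : ∀ j ∈ J, 0 ≤ w j * d j := fun j hj => mul_nonneg (hw' j hj) (hd j hj)
  have hident := ident J w d a c f
  have hζnn : ∀ l ∈ J, 0 ≤ zeta J w d a c f l := fun l hl => zeta_nonneg hw' hK hl
  have htienn : 0 ≤ tieT J w d c :=
    Finset.sum_nonneg (fun l hl => mul_nonneg (hwd l hl) (Yq_nonneg hw' _))
  have hZnn : 0 ≤ ∑ l ∈ J, w l * zeta J w d a c f l :=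
    Finset.sum_nonneg (fun l hl => mul_nonneg (hw' l hl) (hζnn l hl))
  have hWpos : 0 < ∑ j ∈ J, w j := Finset.sum_pos hw hJ
  have hDnn : 0 ≤ ∑ j ∈ J, w j * d j := Finset.sum_nonneg hwd
  have hXle : ∀ q, Xq J w c q ≤ ∑ j ∈ J, w j := fun q => Xq_le hw' q
  have hDqle : ∀ q, Xq J (fun j => w j * d j) c q ≤ ∑ j ∈ J, w j * d j := fun q => Xq_le hwd q
  -- reduction to the slack estimate
  by_cases hfT : T * (∑ j ∈ J, w j * d j) ≤ f
  · generalize (∑ j ∈ J, w j) = W at *
    generalize (∑ j ∈ J, w j * d j) = D at *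
    generalize (∑ j ∈ J, w j * a j) = Z at *
    have h1 : Z ≤ f + 2 * D := by
      by_contra hcon
      push Not at hcon
      have := mul_lt_mul_of_pos_left hcon hWpos
      linarith only [htienn, hZnn, hident, this]
    have h2 : δ * D ≤ δ / T * f := by
      have h3 : δ * D = δ / T * (T * D) := by (clear * - hT hδpos; field_simp)
      rw [h3]
      exact mul_le_mul_of_nonneg_left hfT (by positivity)
    linarith only [h1, h2]
  push Not at hfT
  have hDpos : 0 < ∑ j ∈ J, w j * d j := by
    rcases hDnn.lt_or_eq with h | h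
    · exact h
    · rw [← h] at hfT; simp only [mul_zero] at hfT; linarith only [hf, hfT]
  set W : ℝ := ∑ j ∈ J, w j with hW
  set D : ℝ := ∑ j ∈ J, w j * d j with hD
  set Z : ℝ := ∑ j ∈ J, w j * a j with hZ
  suffices hslack : δ * W * D ≤ tieT J w d c + ∑ l ∈ J, w l * zeta J w d a c f l by
    have h1 : Z ≤ f + (2 - δ) * D := by
      by_contra hcon
      push Not at hcon
      have := mul_lt_mul_of_pos_left hcon hWpos
      linarith
    have h2 : 0 ≤ δ / T * f := by (clear * - hT hf; positivity)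
    linarith only [h1, h2]
  set A : ℝ := (T + 2) * D / W with hA
  have hApos : 0 < A := by (clear * - hT hDpos hWpos; positivity)
  have hWA : W * A = (T + 2) * D := by rw [hA]; (clear * - hWpos hDpos hT; field_simp)
  have ha_lt : ∀ l ∈ J, a l < A + d l := by
    intro l hl
    have h1 := hζnn l hl
    unfold zeta at h1
    rw [← hW, ← hD] at h1
    have h2 := hDqle (c l)
    have h3 : Xq J w c (c l) * d l ≤ W * d l := mul_le_mul_of_nonneg_right (hXle _) (hd l hl)
    by_contra hcon
    push Not at hcon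
    have h4 := mul_le_mul_of_nonneg_left hcon hWpos.le
    linarith only [hfT, hWA, h1, h2, h3, h4]
  by_cases hfar : D / 32 ≤ ∑ j ∈ J, (if 4 * A ≤ d j then w j * d j else 0)
  · have h1 := far_case hw' hd hK hApos hW hD hDpos (by rw [hWA]; nlinarith only [hf, hfT]) ha_lt hfar
    have hδle : δ ≤ 1 / 128 := by
      rw [hδ]
      apply one_div_le_one_div_of_le (by norm_num)
      linarith only [hT]
    have h2 : δ * W * D ≤ 1 / 128 * W * D :=
      mul_le_mul_of_nonneg_right (mul_le_mul_of_nonneg_right hδle hWpos.le) hDnn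
    linarith only [htienn, h1, h2]
  push Not at hfar
  set h : ℝ := 1 / (128 * (T + 2)) with hh
  have hhpos : 0 < h := by positivity
  have hδh : δ = h / 16 := by rw [hδ, hh]; field_simp; norm_num
  have hhW : 0 ≤ h * W := by (clear * - hT hWpos; positivity)
  have hsmall : ∀ (p : ι → Prop) (_ : DecidablePred p),
      ∑ j ∈ J, (if p j then w j else 0) ≤ h * W →
      ∑ j ∈ J, (if p j then w j * d j else 0) ≤ D / 16 := by
    intro p _ hp
    have h1 : ∑ j ∈ J, (if p j then w j * d j else 0)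
        ≤ ∑ j ∈ J, (if 4 * A ≤ d j then w j * d j else 0)
          + 4 * A * ∑ j ∈ J, (if p j then w j else 0) := by
      rw [Finset.mul_sum, ← Finset.sum_add_distrib]
      refine Finset.sum_le_sum (fun j hj => ?_)
      have hwj := hw' j hj
      have hwdj := hwd j hj
      split_ifs with h1 h2 h2
      · have : 0 ≤ 4 * A * w j := by (clear * - hT hDpos hWpos hwj; positivity)
        linarith only [this]
      · push Not at h2
        have := mul_le_mul_of_nonneg_left h2.le hwj
        linarith only [this]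
      · linarith only [hwdj]
      · simp
    have h2 : 4 * A * ∑ j ∈ J, (if p j then w j else 0) ≤ 4 * A * (h * W) :=
      mul_le_mul_of_nonneg_left hp (by (clear * - hT hDpos hWpos; positivity))
    have h3 : 4 * A * (h * W) = D / 32 := by
      have : 4 * A * (h * W) = 4 * h * (W * A) := by ring
      rw [this, hWA, hh]; field_simp; norm_num
    linarith only [hfar, h1, h2, h3]
  have hfin : h * W * (D / 16) ≤ tieT J w d c + ∑ l ∈ J, w l * zeta J w d a c f l := by
    by_cases hb : ∃ l₂ ∈ J, D / 2 ≤ Xq J (fun j => w j * d j) c (c l₂)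
        - (W - Xq J w c (c l₂)) * d l₂ - zeta J w d a c f l₂
    · obtain ⟨l₂, hl₂, hQ⟩ := hb
      have h1 := case_b_sum hw hd hhW hD hDpos hζnn hsmall
        (fun l₁ hl₁ hD1 => case_b hw hd hK hW hD hl₂ hQ hl₁ hD1)
      have h2 : h * W * (D / 16) ≤ h * W * (7 * D / 16) :=
        mul_le_mul_of_nonneg_left (by linarith only [hDpos]) hhW
      linarith only [htienn, hZnn, h1]
    · push Not at hb
      have hh1 : h * W ≤ W := by
        have : h ≤ 1 := by
          rw [hh, div_le_one (by positivity)]; linarith only [hT]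
        nlinarith only [hWpos, this]
      exact case_a_sum hJ hw hd hhW hh1 hW hD hDpos hζnn hsmall hb
  rw [hδh]
  linarith only [hfin]

/-- The star inequality, improved. -/
theorem star_bound (hw : ∀ j ∈ J, 0 ≤ w j) (hd : ∀ j ∈ J, 0 ≤ d j) (hf : 0 ≤ f) (hT : 0 < T)
    (hK : ∀ l₁ ∈ J, ∀ l₂ ∈ J, c l₁ ≤ c l₂ →
      ∑ j ∈ J, (if c j < c l₁ then w j * max (a l₂ - d l₂ - 2 * d j) 0
        else w j * max (a l₁ - d j) 0) ≤ f) :
    ∑ j ∈ J, w j * a j ≤ (1 + 1 / (2048 * (T + 2)) / T) * f
      + (2 - 1 / (2048 * (T + 2))) * ∑ j ∈ J, w j * d j := by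
  classical
  set J' := J.filter (fun j => 0 < w j) with hJ'
  have hzero : ∀ j ∈ J, j ∉ J' → w j = 0 := by
    intro j hj hj'
    rw [hJ', Finset.mem_filter] at hj'
    by_contra hne
    exact hj' ⟨hj, lt_of_le_of_ne (hw j hj) (Ne.symm hne)⟩
  have hsub : J' ⊆ J := Finset.filter_subset _ _
  have e1 : ∑ j ∈ J', w j * a j = ∑ j ∈ J, w j * a j :=
    Finset.sum_subset hsub (fun j hj hj' => by rw [hzero j hj hj', zero_mul])
  have e2 : ∑ j ∈ J', w j * d j = ∑ j ∈ J, w j * d j :=
    Finset.sum_subset hsub (fun j hj hj' => by rw [hzero j hj hj', zero_mul])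
  rw [← e1, ← e2]
  refine star_bound_pos (c := c) (fun j hj => (Finset.mem_filter.mp hj).2)
    (fun j hj => hd j (hsub hj)) hf hT (fun l₁ h₁ l₂ h₂ h => ?_)
  refine le_trans ?_ (hK l₁ (hsub h₁) l₂ (hsub h₂) h)
  refine Finset.sum_le_sum_of_subset_of_nonneg hsub (fun j hj _ => ?_)
  split_ifs
  · exact mul_nonneg (hw j hj) (le_max_right _ _)
  · exact mul_nonneg (hw j hj) (le_max_right _ _)

end Slack

end Vale.Agent.P334
end

section

/-!
Truncated distances as a potential, the accounting along a chain, and the star constraints.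
-/

namespace Vale.Agent.P334

open Finset

section Tr

variable {X : Type} [MetricSpace X]

/-- Distance from `j` to the nearest element of `S`, truncated at `t`. -/
noncomputable def tr (t : ℝ) (j : X) (S : Finset X) : ℝ := S.fold min t (fun i => dist i j)

lemma le_tr {t c : ℝ} {j : X} {S : Finset X} :
    c ≤ tr t j S ↔ c ≤ t ∧ ∀ i ∈ S, c ≤ dist i j := Finset.le_fold_min c

lemma tr_le {t : ℝ} {j : X} {S : Finset X} : tr t j S ≤ t := (le_tr.mp le_rfl).1

lemma tr_le_dist {t : ℝ} {j : X} {S : Finset X} {i : X} (hi : i ∈ S) : tr t j S ≤ dist i j :=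
  (le_tr.mp le_rfl).2 i hi

lemma tr_nonneg {t : ℝ} (ht : 0 ≤ t) (j : X) (S : Finset X) : 0 ≤ tr t j S :=
  le_tr.mpr ⟨ht, fun _ _ => dist_nonneg⟩

lemma tr_anti {t : ℝ} {j : X} {S R : Finset X} (h : S ⊆ R) : tr t j R ≤ tr t j S :=
  le_tr.mpr ⟨tr_le, fun _ hi => tr_le_dist (h hi)⟩

lemma tr_mono {t t' : ℝ} (ht : t ≤ t') {j : X} {S : Finset X} : tr t j S ≤ tr t' j S :=
  le_tr.mpr ⟨tr_le.trans ht, fun _ hi => tr_le_dist hi⟩

variable [DecidableEq X]

lemma tr_insert {t : ℝ} {j : X} {S : Finset X} (x : X) :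
    tr t j (insert x S) = min (dist x j) (tr t j S) := by
  unfold tr
  exact Finset.fold_insert_idem

/-- The potential with client dependent truncation levels. -/
noncomputable def trPot (J : Finset X) (lev : X → ℝ) : Pot X where
  φ S := ∑ j ∈ J, tr (lev j) j S
  mg x S := ∑ j ∈ J, max (tr (lev j) j S - dist x j) 0
  ins x Q _ := by
    rw [← Finset.sum_sub_distrib]
    refine Finset.sum_congr rfl (fun j _ => ?_)
    rw [tr_insert]
    rcases le_total (dist x j) (tr (lev j) j Q) with h | h
    · rw [min_eq_left h, max_eq_left (by linarith)]; ring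
    · rw [min_eq_right h, max_eq_right (by linarith)]; ring
  anti x Q R h := Finset.sum_le_sum (fun j _ => max_le_max (by linarith [tr_anti (t := lev j) (j := j) h]) le_rfl)
  nonneg x Q := Finset.sum_nonneg (fun j _ => le_max_right _ _)
  mem x Q hx := Finset.sum_eq_zero (fun j _ => max_eq_right (by linarith [tr_le_dist (t := lev j) (j := j) hx]))

omit [DecidableEq X] in
lemma infDist_le_tr {t : ℝ} {j : X} {S : Finset X} (h : tr t j S < t) :
    Metric.infDist j (S : Set X) ≤ tr t j S := by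
  by_contra hcon
  push Not at hcon
  have : min t (Metric.infDist j (S : Set X)) ≤ tr t j S := by
    refine le_tr.mpr ⟨min_le_left _ _, fun i hi => (min_le_right _ _).trans ?_⟩
    rw [dist_comm]
    exact Metric.infDist_le_dist_of_mem (Finset.mem_coe.mpr hi)
  rcases min_le_iff.mp this with h1 | h1
  · linarith only [h, h1]
  · linarith only [hcon, h1]

/-- A small value of the potential is an upper bound for the cost. -/
lemma cost_le_phi {J S : Finset X} {lev : X → ℝ} {τ : ℝ} (hlev : ∀ j ∈ J, lev j = τ)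
    (hτ : 0 ≤ τ) (h : (trPot J lev).φ S < τ) : cost J S ≤ (trPot J lev).φ S := by
  unfold cost
  show _ ≤ ∑ j ∈ J, tr (lev j) j S
  refine Finset.sum_le_sum (fun j hj => ?_)
  apply infDist_le_tr
  have h1 : tr (lev j) j S ≤ ∑ j ∈ J, tr (lev j) j S :=
    Finset.single_le_sum (f := fun j => tr (lev j) j S)
      (fun j' hj' => tr_nonneg (by rw [hlev j' hj']; exact hτ) j' S) hj
  have h2 : ∑ j ∈ J, tr (lev j) j S < τ := h
  rw [hlev j hj] at h1 ⊢
  linarith only [h1, h2]

/-- The accounting along a chain. -/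
lemma chain_total (J : Finset X) (α : ℕ → X → ℝ) (f : ℝ) (S : ℕ → Finset X) (m : ℕ)
    (h : ∀ q, q < m → (trPot J (α (q + 1))).tot f (S (q + 1))
      ≤ (trPot J (α (q + 1))).tot f (S q) + 3 * f) :
    ∀ q, q ≤ m → (trPot J (α q)).tot f (S q) ≤ (trPot J (α 0)).tot f (S 0)
      + ∑ j ∈ J, ∑ p ∈ Finset.range q, (tr (α (p + 1) j) j (S p) - tr (α p j) j (S p))
      + 3 * f * q := by
  intro q
  induction q with
  | zero => intro _; simp
  | succ q ih =>
    intro hq
    have h1 := ih (by omega)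
    have h2 := h q (by omega)
    have h3 : (trPot J (α (q + 1))).tot f (S q) = (trPot J (α q)).tot f (S q)
        + ∑ j ∈ J, (tr (α (q + 1) j) j (S q) - tr (α q j) j (S q)) := by
      unfold Pot.tot
      rw [Finset.sum_sub_distrib]
      show ∑ j ∈ J, tr (α (q + 1) j) j (S q) + f * _ = ∑ j ∈ J, tr (α q j) j (S q) + f * _ + _
      ring
    have h4 : ∑ j ∈ J, ∑ p ∈ Finset.range (q + 1), (tr (α (p + 1) j) j (S p) - tr (α p j) j (S p))
        = ∑ j ∈ J, ∑ p ∈ Finset.range q, (tr (α (p + 1) j) j (S p) - tr (α p j) j (S p))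
          + ∑ j ∈ J, (tr (α (q + 1) j) j (S q) - tr (α q j) j (S q)) := by
      rw [← Finset.sum_add_distrib]
      refine Finset.sum_congr rfl (fun j _ => ?_)
      rw [Finset.sum_range_succ]
    rw [h4]
    push_cast
    linarith only [h1, h2, h3]

end Tr

section Levels

variable {X : Type} [MetricSpace X]

set_option linter.unusedSectionVars false
set_option linter.unusedVariables false

open Classical in
/-- The last level at which `j` sees no element of the current set. -/
noncomputable def lastLev (α : ℕ → X → ℝ) (S : ℕ → Finset X) (m : ℕ) (j : X) : ℕ :=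
  Nat.findGreatest (fun p => ∀ i ∈ S p, α p j ≤ dist i j) m

variable {α : ℕ → X → ℝ} {S : ℕ → Finset X} {m : ℕ}

lemma chain_mono (hS : ∀ q, q < m → S q ⊆ S (q + 1)) : ∀ q p, p ≤ q → q ≤ m → S p ⊆ S q := by
  intro q
  induction q with
  | zero => intro p hp _; have : p = 0 := by omega
            rw [this]
  | succ q ih =>
    intro p hp hq
    rcases Nat.lt_or_ge p (q + 1) with h | h
    · exact (ih p (by omega) (by omega)).trans (hS q (by omega))
    · have : p = q + 1 := by omega
      rw [this]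

lemma lastLev_le (j : X) : lastLev α S m j ≤ m := Nat.findGreatest_le m

lemma lev_mono (hα : ∀ p j, α p j ≤ α (p + 1) j) (j : X) : Monotone (fun p => α p j) :=
  monotone_nat_of_le_succ (fun p => hα p j)

/-- No element of `S (lastLev j)` is within the corresponding level. -/
lemma lastLev_spec (hα0 : ∀ j, α 0 j = 0) (j : X) :
    ∀ i ∈ S (lastLev α S m j), α (lastLev α S m j) j ≤ dist i j := by
  classical
  have h := @Nat.findGreatest_spec 0 (fun p => ∀ i ∈ S p, α p j ≤ dist i j) _ m (Nat.zero_le m)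
    (by intro i _; rw [hα0]; exact dist_nonneg)
  exact h

lemma lev_le_dist (hα0 : ∀ j, α 0 j = 0) (hα : ∀ p j, α p j ≤ α (p + 1) j)
    (hS : ∀ q, q < m → S q ⊆ S (q + 1)) {j : X} {p : ℕ} (hp : p ≤ lastLev α S m j) :
    ∀ i ∈ S p, α (lastLev α S m j) j ≤ dist i j := by
  intro i hi
  exact lastLev_spec hα0 j i (chain_mono hS _ p hp (lastLev_le j) hi)

lemma exists_near (j : X) {p : ℕ} (hp : lastLev α S m j < p) (hpm : p ≤ m) :
    ∃ i ∈ S p, dist i j < α p j := by
  classical
  have h := Nat.findGreatest_is_greatest (P := fun p => ∀ i ∈ S p, α p j ≤ dist i j)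
    (k := p) (n := m) hp hpm
  push Not at h
  exact h

/-- Total growth of the truncated distance of one client. -/
lemma growth_le (hα0 : ∀ j, α 0 j = 0) (hα : ∀ p j, α p j ≤ α (p + 1) j)
    (hS : ∀ q, q < m → S q ⊆ S (q + 1)) (j : X) :
    ∀ q, q ≤ m → ∑ p ∈ Finset.range q, (tr (α (p + 1) j) j (S p) - tr (α p j) j (S p))
      ≤ if q ≤ lastLev α S m j then α q j
        else tr (α (lastLev α S m j + 1) j) j (S (lastLev α S m j)) := by
  intro q
  induction q with
  | zero => intro _; simp only [range_zero, sum_sub_distrib, sum_empty, sub_self, zero_le, ↓reduceIte, hα0, Std.le_refl]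
  | succ q ih =>
    intro hq
    have h1 := ih (by omega)
    rw [Finset.sum_range_succ]
    have hmono := lev_mono hα j
    by_cases hc : q < lastLev α S m j
    · rw [if_pos (by omega : q ≤ lastLev α S m j)] at h1
      rw [if_pos (by omega : q + 1 ≤ lastLev α S m j)]
      have h2 : α q j ≤ tr (α q j) j (S q) := by
        refine le_tr.mpr ⟨le_rfl, fun i hi => ?_⟩
        exact le_trans (hmono (by omega : q ≤ lastLev α S m j))
          (lev_le_dist hα0 hα hS (by omega) i hi)
      have h3 : tr (α (q + 1) j) j (S q) ≤ α (q + 1) j := tr_le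
      linarith only [h1, h2, h3]
    · by_cases hc2 : q = lastLev α S m j
      · rw [if_pos (by (clear * - hc2; omega) : q ≤ lastLev α S m j)] at h1
        rw [if_neg (by omega : ¬ q + 1 ≤ lastLev α S m j)]
        have h2 : α q j ≤ tr (α q j) j (S q) := by
          refine le_tr.mpr ⟨le_rfl, fun i hi => ?_⟩
          exact le_trans (hmono (by omega : q ≤ lastLev α S m j))
            (lev_le_dist hα0 hα hS (by omega) i hi)
        rw [← hc2]
        linarith only [h1, h2]
      · rw [if_neg (by omega : ¬ q ≤ lastLev α S m j)] at h1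
        rw [if_neg (by omega : ¬ q + 1 ≤ lastLev α S m j)]
        obtain ⟨i, hi, hlt⟩ := exists_near (α := α) (S := S) (m := m) j
          (by omega : lastLev α S m j < q) (by omega)
        have h2 : tr (α (q + 1) j) j (S q) ≤ tr (α q j) j (S q) := by
          refine le_tr.mpr ⟨?_, fun i' hi' => tr_le_dist hi'⟩
          exact (tr_le_dist hi).trans hlt.le
        linarith only [h1, h2]

end Levels

section Star

variable {X : Type} [MetricSpace X] [DecidableEq X]

/-- The star constraints for uniform levels. -/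
lemma star_constraint {J F : Finset X} {τ : ℕ → ℝ} {S : ℕ → Finset X} {m : ℕ} {f : ℝ}
    (hf : 0 ≤ f) (hτ0 : τ 0 = 0) (hτ : ∀ p, τ p ≤ τ (p + 1))
    (hS : ∀ q, q < m → S q ⊆ S (q + 1))
    (hmax : ∀ q, q < m → (trPot J (fun _ => τ (q + 1))).IsMax F f (S (q + 1)))
    {i : X} (hi : i ∈ F) {w : X → ℝ} (hw0 : ∀ j ∈ J, 0 ≤ w j) (hw1 : ∀ j ∈ J, w j ≤ 1)
    {l₁ l₂ : X} (hl : lastLev (fun p _ => τ p) S m l₁ ≤ lastLev (fun p _ => τ p) S m l₂) :
    ∑ j ∈ J, (if lastLev (fun p _ => τ p) S m j < lastLev (fun p _ => τ p) S m l₁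
      then w j * max (τ (lastLev (fun p _ => τ p) S m l₂) - dist i l₂ - 2 * dist i j) 0
      else w j * max (τ (lastLev (fun p _ => τ p) S m l₁) - dist i j) 0) ≤ f := by
  set c := lastLev (fun p _ => τ p) S m with hc
  have hτmono : Monotone τ := monotone_nat_of_le_succ hτ
  have hτnn : ∀ p, 0 ≤ τ p := fun p => by rw [← hτ0]; exact hτmono (Nat.zero_le p)
  have hα0 : ∀ j : X, (fun (p : ℕ) (_ : X) => τ p) 0 j = 0 := fun _ => hτ0
  have hα : ∀ (p : ℕ) (j : X), (fun (p : ℕ) (_ : X) => τ p) p j
      ≤ (fun (p : ℕ) (_ : X) => τ p) (p + 1) j := fun p _ => hτ p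
  rcases Nat.eq_zero_or_pos (c l₁) with hq | hq
  · rw [hq, hτ0]
    refine le_trans (Finset.sum_nonpos (fun j _ => ?_)) hf
    rw [if_neg (Nat.not_lt_zero _), max_eq_right (by linarith only [dist_nonneg (x := i) (y := j)]),
      mul_zero]
  · obtain ⟨q, hq'⟩ : ∃ q, c l₁ = q + 1 := ⟨c l₁ - 1, by omega⟩
    have hqm : q + 1 ≤ m := by rw [← hq']; exact lastLev_le l₁
    have h1 := hmax q (by omega) i hi
    refine le_trans (Finset.sum_le_sum (fun j hj => ?_)) h1
    rw [hq']
    have hpos : 0 ≤ max (tr (τ (q + 1)) j (S (q + 1)) - dist i j) 0 := le_max_right _ _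
    have hkey : ∀ z : ℝ, z ≤ tr (τ (q + 1)) j (S (q + 1)) - dist i j →
        w j * max z 0 ≤ max (tr (τ (q + 1)) j (S (q + 1)) - dist i j) 0 := by
      intro z hz
      have h2 : max z 0 ≤ max (tr (τ (q + 1)) j (S (q + 1)) - dist i j) 0 := max_le_max hz le_rfl
      have h3 : 0 ≤ max z 0 := le_max_right _ _
      calc w j * max z 0 ≤ 1 * max z 0 := mul_le_mul_of_nonneg_right (hw1 j hj) h3
        _ ≤ _ := by rw [one_mul]; exact h2
    split_ifs with hjc
    · apply hkey
      -- the frozen client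
      have hfar : ∀ i' ∈ S (q + 1), τ (c l₂) - dist i l₂ - dist i j ≤ dist i' j := by
        intro i' hi'
        have h2 := lev_le_dist (j := l₂) hα0 hα hS
          (by show q + 1 ≤ c l₂; omega) i' hi'
        have h3 : dist i' l₂ ≤ dist i' j + dist i j + dist i l₂ := by
          calc dist i' l₂ ≤ dist i' j + dist j l₂ := dist_triangle _ _ _
            _ ≤ dist i' j + (dist j i + dist i l₂) := by
                linarith only [dist_triangle j i l₂]
            _ = _ := by rw [dist_comm j i]; ring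
        change τ (c l₂) ≤ dist i' l₂ at h2
        linarith only [h3, h2]
      obtain ⟨i', hi', hlt⟩ := exists_near (α := fun p _ => τ p) (S := S) (m := m) j
        (by show c j < q + 1; omega) hqm
      have : τ (c l₂) - dist i l₂ - dist i j ≤ tr (τ (q + 1)) j (S (q + 1)) := by
        refine le_tr.mpr ⟨?_, hfar⟩
        have := hfar i' hi'
        change dist i' j < τ (q + 1) at hlt
        linarith only [this, hlt]
      linarith only [this]
    · apply hkey
      have : τ (q + 1) ≤ tr (τ (q + 1)) j (S (q + 1)) := by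
        refine le_tr.mpr ⟨le_rfl, fun i' hi' => ?_⟩
        refine le_trans (hτmono (by (clear * - hjc; omega) : q + 1 ≤ c j)) ?_
        exact lev_le_dist (j := j) hα0 hα hS
          (by show q + 1 ≤ c j; omega) i' hi'
      linarith only [this]

/-- The fractional solution bounds the sum of the levels. -/
lemma sum_levels_le {J F O : Finset X} {τ : ℕ → ℝ} {S : ℕ → Finset X} {m : ℕ} {f T : ℝ}
    (hf : 0 ≤ f) (hT : 0 < T) (hτ0 : τ 0 = 0) (hτ : ∀ p, τ p ≤ τ (p + 1))
    (hS : ∀ q, q < m → S q ⊆ S (q + 1)) (hS0 : S 0 = O)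
    (hmax : ∀ q, q < m → (trPot J (fun _ => τ (q + 1))).IsMax F f (S (q + 1)))
    {x : X → X → ℝ} {y : X → ℝ} (hx0 : ∀ i ∈ F, ∀ j ∈ J, 0 ≤ x i j)
    (hxy : ∀ i ∈ F, ∀ j ∈ J, x i j ≤ y i) (hy0 : ∀ i ∈ F, 0 ≤ y i)
    (hasg : ∀ j ∈ J, ∑ i ∈ F, x i j = 1) :
    ∑ j ∈ J, τ (lastLev (fun p _ => τ p) S m j)
      ≤ ∑ i ∈ F, (if i ∈ O then ∑ j ∈ J, x i j * dist i j
          else (1 + 1 / (2048 * (T + 2)) / T) * f * y i
            + (2 - 1 / (2048 * (T + 2))) * ∑ j ∈ J, x i j * dist i j) := by
  set c := lastLev (fun p _ => τ p) S m with hc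
  have hα0 : ∀ j : X, (fun (p : ℕ) (_ : X) => τ p) 0 j = 0 := fun _ => hτ0
  have hα : ∀ (p : ℕ) (j : X), (fun (p : ℕ) (_ : X) => τ p) p j
      ≤ (fun (p : ℕ) (_ : X) => τ p) (p + 1) j := fun p _ => hτ p
  have h1 : ∑ j ∈ J, τ (c j) = ∑ i ∈ F, ∑ j ∈ J, x i j * τ (c j) := by
    rw [Finset.sum_comm]
    refine Finset.sum_congr rfl (fun j hj => ?_)
    rw [← Finset.sum_mul, hasg j hj, one_mul]
  rw [h1]
  refine Finset.sum_le_sum (fun i hi => ?_)
  split_ifs with hiO
  · refine Finset.sum_le_sum (fun j hj => mul_le_mul_of_nonneg_left ?_ (hx0 i hi j hj))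
    exact lev_le_dist (j := j) hα0 hα hS (Nat.zero_le _) i (by rw [hS0]; exact hiO)
  · by_cases hy : y i = 0
    · have hz : ∀ j ∈ J, x i j = 0 := fun j hj =>
        le_antisymm (by rw [← hy]; exact hxy i hi j hj) (hx0 i hi j hj)
      rw [Finset.sum_eq_zero (fun j hj => by rw [hz j hj, zero_mul]),
        Finset.sum_eq_zero (fun j hj => by rw [hz j hj, zero_mul]), hy]
      simp only [one_div, mul_inv_rev, mul_zero, add_zero, Std.le_refl]
    · rcases J.eq_empty_or_nonempty with hJ | hJ
      · rw [hJ]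
        simp only [Finset.sum_empty, mul_zero, add_zero]
        have := hy0 i hi
        (clear * - hT hf this hy; positivity)
      · have hypos : 0 < y i := by
          obtain ⟨j, hj⟩ := hJ
          exact lt_of_le_of_ne ((hx0 i hi j hj).trans (hxy i hi j hj)) (Ne.symm hy)
        have hb := star_bound (J := J) (w := fun j => x i j / y i) (d := fun j => dist i j)
          (a := fun j => τ (c j)) (c := c) (f := f) (T := T)
          (fun j hj => div_nonneg (hx0 i hi j hj) hypos.le) (fun j _ => dist_nonneg) hf hT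
          (fun l₁ _ l₂ _ hl => star_constraint hf hτ0 hτ hS hmax hi
            (fun j hj => div_nonneg (hx0 i hi j hj) hypos.le)
            (fun j hj => by rw [div_le_one hypos]; exact hxy i hi j hj) hl)
        have e1 : ∑ j ∈ J, x i j * τ (c j) = y i * ∑ j ∈ J, x i j / y i * τ (c j) := by
          rw [Finset.mul_sum]
          refine Finset.sum_congr rfl (fun j _ => ?_)
          field_simp
        have e2 : ∑ j ∈ J, x i j * dist i j = y i * ∑ j ∈ J, x i j / y i * dist i j := by
          rw [Finset.mul_sum]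
          refine Finset.sum_congr rfl (fun j _ => ?_)
          (clear * - hy; field_simp)
        rw [e1, e2]
        have := mul_le_mul_of_nonneg_left hb hypos.le
        linarith only [this]

end Star

end Vale.Agent.P334
end

section

/-!
The bounded growth theorem.
-/

namespace Vale.Agent.P334

open Finset

section Levels

/-- Geometric levels. -/
noncomputable def lev (t ε : ℝ) (m q : ℕ) : ℝ := if q = 0 then 0 else t * (1 + ε) ^ (min q m - 1)

variable {t ε : ℝ} {m : ℕ}

lemma lev_zero : lev t ε m 0 = 0 := by simp [lev]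

lemma lev_mono_succ (ht : 0 ≤ t) (hε : 0 ≤ ε) (q : ℕ) : lev t ε m q ≤ lev t ε m (q + 1) := by
  unfold lev
  have h1 : (1 : ℝ) ≤ 1 + ε := by linarith only [hε]
  rw [if_neg (Nat.succ_ne_zero q)]
  split_ifs
  · positivity
  · exact mul_le_mul_of_nonneg_left (pow_le_pow_right₀ h1 (by omega)) ht

lemma lev_step (ht : 0 ≤ t) (hε : 0 ≤ ε) (q : ℕ) :
    lev t ε m (q + 1) ≤ (1 + ε) * lev t ε m q + t := by
  unfold lev
  have h1 : (1 : ℝ) ≤ 1 + ε := by linarith only [hε]
  rw [if_neg (Nat.succ_ne_zero q)]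
  split_ifs with h
  · have : min (q + 1) m - 1 = 0 := by omega
    rw [this]; simp
  · have h2 : (1 + ε) ^ (min (q + 1) m - 1) ≤ (1 + ε) ^ (min q m - 1 + 1) :=
      pow_le_pow_right₀ h1 (by omega)
    have h3 := mul_le_mul_of_nonneg_left h2 ht
    rw [pow_succ] at h3
    linarith only [ht, h3]

lemma lev_le_top (ht : 0 ≤ t) (hε : 0 ≤ ε) (q : ℕ) : lev t ε m q ≤ t * (1 + ε) ^ (m - 1) := by
  unfold lev
  have h1 : (1 : ℝ) ≤ 1 + ε := by linarith only [hε]
  split_ifs
  · (clear * - ht hε; positivity)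
  · exact mul_le_mul_of_nonneg_left (pow_le_pow_right₀ h1 (by omega)) ht

lemma lev_top (hm : 1 ≤ m) : lev t ε m m = t * (1 + ε) ^ (m - 1) := by
  unfold lev
  rw [if_neg (by omega), min_self]

end Levels

section Main

variable {X : Type} [MetricSpace X]

/-- The right hand side in the dual fitting inequality. -/
noncomputable def rhsT (J F O : Finset X) (f T : ℝ) (x : X → X → ℝ) (y : X → ℝ) : ℝ :=
  open Classical in
  ∑ i ∈ F, (if i ∈ O then ∑ j ∈ J, x i j * dist i j
    else (1 + 1 / (2048 * (T + 2)) / T) * f * y i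
      + (2 - 1 / (2048 * (T + 2))) * ∑ j ∈ J, x i j * dist i j)

lemma rhsT_empty (J F : Finset X) (f T : ℝ) (x : X → X → ℝ) (y : X → ℝ) :
    rhsT J F ∅ f T x y = (1 + 1 / (2048 * (T + 2)) / T) * f * ∑ i ∈ F, y i
      + (2 - 1 / (2048 * (T + 2))) * fracCost J F x := by
  unfold rhsT fracCost
  rw [Finset.sum_comm (s := J), Finset.mul_sum, Finset.mul_sum, ← Finset.sum_add_distrib]
  refine Finset.sum_congr rfl (fun i _ => ?_)
  simp only [notMem_empty, ↓reduceIte, one_div, mul_inv_rev]

/-- Existence of a set of exactly `N` facilities with the dual fitting guarantee, for every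
fractional solution and every `T` simultaneously. -/
theorem exists_solution (J F O : Finset X) (hO : O ⊆ F) {t ε : ℝ} (ht : 0 ≤ t) (hε : 0 ≤ ε)
    {m N : ℕ} (hm : 1 ≤ m) (hN1 : O.card < N) (hN2 : N ≤ F.card) :
    ∃ (f : ℝ) (S : Finset X), 0 ≤ f ∧ O ⊆ S ∧ S ⊆ F ∧ S.card = N ∧
      ∃ φ : ℝ, 0 ≤ φ ∧ (φ < t * (1 + ε) ^ (m - 1) → cost J S ≤ φ) ∧
      ∀ (T : ℝ) (x : X → X → ℝ) (y : X → ℝ), 0 < T → (∀ i ∈ F, ∀ j ∈ J, 0 ≤ x i j) →
        (∀ i ∈ F, ∀ j ∈ J, x i j ≤ y i) → (∀ i ∈ F, 0 ≤ y i) → (∀ j ∈ J, ∑ i ∈ F, x i j = 1) →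
        φ + f * (N - O.card) ≤ 3 * f * m + J.card * t + (1 + ε) * rhsT J F O f T x y := by
  classical
  set τ : ℕ → ℝ := lev t ε m with hτdef
  have hτ0 : τ 0 = 0 := lev_zero
  have hτs : ∀ p, τ p ≤ τ (p + 1) := fun p => lev_mono_succ ht hε p
  have hτnn : ∀ p, 0 ≤ τ p := fun p => by
    rw [← hτ0]; exact monotone_nat_of_le_succ hτs (Nat.zero_le p)
  obtain ⟨f, hf, S, hS0, hSm, hS⟩ := exists_chain (V := X)
    (fun _ q => trPot J (fun _ => τ (q + 1))) F (fun q x Q => continuous_const)
    ⟨J.card * (t * (1 + ε) ^ (m - 1)), by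
      intro f hf q x Q _
      refine lt_of_le_of_lt ?_ hf
      show ∑ j ∈ J, max (tr (τ (q + 1)) j Q - dist x j) 0 ≤ _
      rw [← nsmul_eq_mul]
      refine Finset.sum_le_card_nsmul _ _ _ (fun j _ => ?_)
      have h1 : tr (τ (q + 1)) j Q ≤ τ (q + 1) := tr_le
      have h2 : τ (q + 1) ≤ t * (1 + ε) ^ (m - 1) := lev_le_top ht hε _
      have h3 : 0 ≤ t * (1 + ε) ^ (m - 1) := by (clear * - ht hε; positivity)
      exact max_le (by linarith only [h1, h2, dist_nonneg (x := x) (y := j)]) h3⟩ hO hm hN1 hN2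
  have hmono : ∀ q, q < m → S q ⊆ S (q + 1) := fun q hq => (hS q hq).1
  have hmax : ∀ q, q < m → (trPot J (fun _ => τ (q + 1))).IsMax F f (S (q + 1)) :=
    fun q hq => (hS q hq).2.2.1
  have hSF : S m ⊆ F := by
    obtain ⟨m', rfl⟩ : ∃ m', m = m' + 1 := ⟨m - 1, by omega⟩
    exact (hS m' (by omega)).2.1
  refine ⟨f, S m, hf, ?_, hSF, hSm, (trPot J (fun _ => τ m)).φ (S m), ?_, ?_, ?_⟩
  · rw [← hS0]; exact chain_mono hmono m 0 (Nat.zero_le m) le_rfl
  · exact Finset.sum_nonneg (fun j _ => tr_nonneg (hτnn m) j (S m))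
  · intro h
    have e : τ m = t * (1 + ε) ^ (m - 1) := lev_top hm
    rw [← e] at h
    exact cost_le_phi (lev := fun _ => τ m) (τ := τ m) (fun _ _ => rfl) (hτnn m) h
  · intro T x y hT hx0 hxy hy0 hasg
    have h1 := chain_total J (fun q _ => τ q) f S m
      (fun q hq => (hS q hq).2.2.2) m le_rfl
    have h2 : (trPot J (fun _ => τ 0)).tot f (S 0) ≤ f * O.card := by
      unfold Pot.tot
      rw [hS0]
      have : (trPot J (fun _ => τ 0)).φ O ≤ 0 :=
        Finset.sum_nonpos (fun j _ => by
          show tr (τ 0) j O ≤ 0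
          rw [← hτ0]; exact tr_le)
      linarith only [this]
    have h3 : ∑ j ∈ J, ∑ p ∈ Finset.range m, (tr (τ (p + 1)) j (S p) - tr (τ p) j (S p))
        ≤ ∑ j ∈ J, ((1 + ε) * τ (lastLev (fun p _ => τ p) S m j) + t) := by
      refine Finset.sum_le_sum (fun j _ => ?_)
      have h4 := growth_le (α := fun p (_ : X) => τ p) (S := S) (m := m) (fun _ => hτ0)
        (fun p _ => hτs p) hmono j m le_rfl
      refine h4.trans ?_
      set c := lastLev (fun p (_ : X) => τ p) S m j with hc
      split_ifs with hcm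
      · have : c = m := le_antisymm (lastLev_le j) hcm
        rw [← this]
        have := hτnn c
        nlinarith only [ht, hε, this]
      · refine le_trans tr_le ?_
        exact lev_step ht hε c
    have h5 := sum_levels_le (O := O) hf hT hτ0 hτs hmono hS0 hmax hx0 hxy hy0 hasg
    rw [Finset.sum_add_distrib, ← Finset.mul_sum, Finset.sum_const, nsmul_eq_mul] at h3
    have h6 := mul_le_mul_of_nonneg_left h5 (by linarith only [hε] : 0 ≤ 1 + ε)
    have h7 : (trPot J (fun _ => τ m)).tot f (S m) = (trPot J (fun _ => τ m)).φ (S m) + f * N := by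
      unfold Pot.tot; rw [hSm]
    unfold rhsT
    rw [h7] at h1
    linarith only [h1, h2, h3, h6]

/-- Convex combination of fractional solutions. -/
lemma IsFrac.convex {J F : Finset X} {m₁ m₂ : ℝ} {x₁ x₂ : X → X → ℝ} {y₁ y₂ : X → ℝ}
    (h₁ : IsFrac J F m₁ x₁ y₁) (h₂ : IsFrac J F m₂ x₂ y₂) {s : ℝ} (hs0 : 0 ≤ s) (hs1 : s ≤ 1) :
    IsFrac J F ((1 - s) * m₁ + s * m₂) (fun i j => (1 - s) * x₁ i j + s * x₂ i j)
      (fun i => (1 - s) * y₁ i + s * y₂ i) := by
  have hs1' : 0 ≤ 1 - s := by linarith only [hs1]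
  refine ⟨?_, ?_, ?_, ?_, ?_, ?_⟩
  · intro i hi j hj
    exact add_nonneg (mul_nonneg hs1' (h₁.x_nonneg i hi j hj))
      (mul_nonneg hs0 (h₂.x_nonneg i hi j hj))
  · intro i hi j hj
    exact add_le_add (mul_le_mul_of_nonneg_left (h₁.x_le i hi j hj) hs1')
      (mul_le_mul_of_nonneg_left (h₂.x_le i hi j hj) hs0)
  · intro i hi
    exact add_nonneg (mul_nonneg hs1' (h₁.y_nonneg i hi)) (mul_nonneg hs0 (h₂.y_nonneg i hi))
  · intro i hi
    have := mul_le_mul_of_nonneg_left (h₁.y_le_one i hi) hs1'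
    have := mul_le_mul_of_nonneg_left (h₂.y_le_one i hi) hs0
    linarith
  · intro j hj
    rw [Finset.sum_add_distrib, ← Finset.mul_sum, ← Finset.mul_sum, h₁.assign j hj,
      h₂.assign j hj]
    ring
  · rw [Finset.sum_add_distrib, ← Finset.mul_sum, ← Finset.mul_sum]
    exact add_le_add (mul_le_mul_of_nonneg_left h₁.budget hs1')
      (mul_le_mul_of_nonneg_left h₂.budget hs0)

lemma fracCost_convex (J F : Finset X) (x₁ x₂ : X → X → ℝ) (s : ℝ) :
    fracCost J F (fun i j => (1 - s) * x₁ i j + s * x₂ i j)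
      = (1 - s) * fracCost J F x₁ + s * fracCost J F x₂ := by
  unfold fracCost
  rw [Finset.mul_sum, Finset.mul_sum, ← Finset.sum_add_distrib]
  refine Finset.sum_congr rfl (fun j _ => ?_)
  rw [Finset.mul_sum, Finset.mul_sum, ← Finset.sum_add_distrib]
  refine Finset.sum_congr rfl (fun i _ => ?_)
  ring

lemma cost_all_le {J F : Finset X} {m : ℝ} {x : X → X → ℝ} {y : X → ℝ}
    (hxy : IsFrac J F m x y) : cost J F ≤ fracCost J F x := by
  unfold cost fracCost
  refine Finset.sum_le_sum (fun j hj => ?_)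
  have : Metric.infDist j (F : Set X) = ∑ i ∈ F, x i j * Metric.infDist j (F : Set X) := by
    rw [← Finset.sum_mul, hxy.assign j hj, one_mul]
  rw [this]
  refine Finset.sum_le_sum (fun i hi => ?_)
  apply mul_le_mul_of_nonneg_left _ (hxy.x_nonneg i hi j hj)
  rw [dist_comm]
  exact Metric.infDist_le_dist_of_mem (Finset.mem_coe.mpr hi)

lemma lpVal_nonneg (J F : Finset X) (m : ℝ) : 0 ≤ lpVal J F m := by
  apply Real.sInf_nonneg
  rintro c ⟨x, y, h, rfl⟩
  exact fracCost_nonneg J F h

lemma exists_near_opt (J F : Finset X) (hF : F.Nonempty) {m c : ℝ} (hm : 1 ≤ m)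
    (hc : lpVal J F m < c) : ∃ (x : X → X → ℝ) (y : X → ℝ), IsFrac J F m x y ∧
      fracCost J F x < c := by
  have hne : {c : ℝ | ∃ (x : X → X → ℝ) (y : X → ℝ), IsFrac J F m x y ∧
      c = fracCost J F x}.Nonempty := by
    obtain ⟨x, y, h⟩ := exists_frac J F hF hm
    exact ⟨_, x, y, h, rfl⟩
  obtain ⟨_, ⟨x, y, h, rfl⟩, hlt⟩ := exists_lt_of_csInf_lt hne hc
  exact ⟨x, y, h, hlt⟩

/-- Arithmetic of the price bound. -/
lemma price_arith {f k L θ B ε φ m : ℝ} (hf : 0 ≤ f) (hk : 0 < k) (hL : 0 ≤ L) (hθ : 0 < θ)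
    (hθ2 : θ ≤ 1 / 2) (hB : 1 ≤ B) (hε0 : 0 ≤ ε) (hε : ε ≤ θ / 100) (hφ : 0 ≤ φ)
    (hm : 3 * m ≤ θ / 16 * k)
    (h : φ + f * k ≤ 3 * f * m + L + (1 + ε) *
      ((1 + θ / 4096) * f * ((1 - θ) * k) + 2 * (2 * B * L))) : f * k ≤ 20 * B / θ * L := by
  have hfk : 0 ≤ f * k := by positivity
  have h1 : f * (3 * m) ≤ f * (θ / 16 * k) := mul_le_mul_of_nonneg_left hm hf
  have h2 : (1 + ε) * (1 + θ / 4096) * (1 - θ) ≤ 1 - 9 / 10 * θ := by
    have h3 : (1 + ε) * (1 + θ / 4096) ≤ 1 + θ / 50 := by nlinarith only [hε, hθ, hθ2]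
    have h4 : (1 + ε) * (1 + θ / 4096) * (1 - θ) ≤ (1 + θ / 50) * (1 - θ) :=
      mul_le_mul_of_nonneg_right h3 (by linarith only [hθ2])
    nlinarith only [hθ, h4]
  have h5 : (1 + ε) * ((1 + θ / 4096) * f * ((1 - θ) * k)) ≤ (1 - 9 / 10 * θ) * (f * k) := by
    have := mul_le_mul_of_nonneg_right h2 hfk
    linarith only [this]
  have h6 : (1 + ε) * (2 * (2 * B * L)) ≤ 5 * B * L := by
    have hBL : 0 ≤ B * L := by (clear * - hB hL; positivity)
    have : ε ≤ 1 / 4 := by linarith only [hθ2, hε]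
    nlinarith only [hBL, hθ2, hε]
  have h7 : L ≤ B * L := by nlinarith only [hL, hB]
  have h8 : θ / 2 * (f * k) ≤ 9 * B * L := by
    have hBL : 0 ≤ B * L := by (clear * - hB hL; positivity)
    have : 0 ≤ θ * (f * k) := by (clear * - hθ hf hk; positivity)
    linarith
  rw [div_mul_eq_mul_div, le_div_iff₀ hθ]
  have hBL : 0 ≤ B * L := by (clear * - hB hL; positivity)
  linarith

/-- Arithmetic of the final bound. -/
lemma final_arith {f k L T δ ε φ m : ℝ} (hf : 0 ≤ f) (hL : 0 ≤ L) (hT : 1 ≤ T)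
    (hδ : 0 < δ) (hδ1 : δ ≤ 1 / 1000) (hε : ε = δ / (16 * T)) (hm0 : 0 ≤ m)
    (hfk : f * k ≤ T * L)
    (h : φ + f * k ≤ 3 * f * m + δ / 8 * L + (1 + ε) *
      ((1 + δ / (8 * T)) * f * (k - 3 * m) + (2 - δ) * ((1 + 3 * (δ / 16)) * L))) :
    φ ≤ (2 - δ / 8) * L := by
  have hT0 : 0 < T := by linarith only [hT]
  have hε0 : 0 < ε := by rw [hε]; positivity
  have hε1 : ε ≤ δ / 16 := by
    rw [hε]
    apply div_le_div_of_nonneg_left hδ.le (by norm_num) (by linarith only [hT])
  have hg : 1 ≤ (1 + ε) * (1 + δ / (8 * T)) := by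
    have : 0 < δ / (8 * T) := by positivity
    nlinarith only [hε0, this]
  have hfm : 0 ≤ f * m := by (clear * - hf hm0; positivity)
  have h1 : (1 + ε) * ((1 + δ / (8 * T)) * f * (k - 3 * m)) + 3 * f * m
      ≤ (1 + ε) * (1 + δ / (8 * T)) * (f * k) := by
    nlinarith only [hg, hfm]
  have h2 : (1 + ε) * (1 + δ / (8 * T)) ≤ 1 + 2 * ε + δ / (8 * T) := by
    have : δ / (8 * T) ≤ 1 := by
      rw [div_le_one (by positivity)]; linarith only [hT, hδ1]
    nlinarith only [hε0, this]
  have h3 : ((1 + ε) * (1 + δ / (8 * T)) - 1) * (f * k) ≤ (2 * ε + δ / (8 * T)) * (T * L) := by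
    have h4 : 0 ≤ (1 + ε) * (1 + δ / (8 * T)) - 1 := by linarith only [hg]
    have h5 : 0 ≤ T * L := by (clear * - hT hL; positivity)
    calc ((1 + ε) * (1 + δ / (8 * T)) - 1) * (f * k)
        ≤ ((1 + ε) * (1 + δ / (8 * T)) - 1) * (T * L) := mul_le_mul_of_nonneg_left hfk h4
      _ ≤ _ := mul_le_mul_of_nonneg_right (by linarith only [h2]) h5
  have h6 : (2 * ε + δ / (8 * T)) * (T * L) = δ / 4 * L := by
    rw [hε]; field_simp; ring
  have h7 : (1 + ε) * ((2 - δ) * ((1 + 3 * (δ / 16)) * L)) ≤ (2 - δ / 2) * L := by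
    have h8 : (1 + ε) * (1 + 3 * (δ / 16)) ≤ (1 + δ / 16) * (1 + 3 * (δ / 16)) :=
      mul_le_mul_of_nonneg_right (by linarith only [hε1]) (by positivity)
    have h9 : (1 + ε) * (1 + 3 * (δ / 16)) * (2 - δ)
        ≤ (1 + δ / 16) * (1 + 3 * (δ / 16)) * (2 - δ) :=
      mul_le_mul_of_nonneg_right h8 (by linarith only [hδ1])
    have h10 : (1 + δ / 16) * (1 + 3 * (δ / 16)) * (2 - δ) ≤ 2 - δ / 2 := by
      have : 0 < δ ^ 2 := by (clear * - hδ; positivity)
      have : 0 < δ ^ 3 := by positivity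
      (clear f k L T ε φ m hf hL hT hδ1 hε hm0 hfk h hT0 hε0 hε1 hg hfm h1 h2 h3 h6 h8 h9; nlinarith)
    have h11 := mul_le_mul_of_nonneg_right (h9.trans h10) hL
    linarith only [h11]
  linarith

/-- The number of levels needed. -/
lemma exists_levels {ε ϑ : ℝ} (hε : 0 < ε) (hϑ : 0 < ϑ) (hϑ1 : ϑ ≤ 1) :
    ∃ C : ℝ, 1 ≤ C ∧ ∀ n : ℕ, 1 ≤ n → ∃ m : ℕ, 1 ≤ m ∧ (m : ℝ) ≤ C * (1 + Real.log n) ∧
      3 * n ≤ ϑ * (1 + ε) ^ (m - 1) := by
  have hlog : 0 < Real.log (1 + ε) := Real.log_pos (by linarith only [hε])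
  have h3 : 0 < Real.log (3 / ϑ) := Real.log_pos (by rw [lt_div_iff₀ hϑ]; linarith only [hϑ1])
  refine ⟨(1 + Real.log (3 / ϑ)) / Real.log (1 + ε) + 2, ?_, fun n hn => ?_⟩
  · have : 0 ≤ (1 + Real.log (3 / ϑ)) / Real.log (1 + ε) := by positivity
    linarith only [this]
  · have hn1 : (1 : ℝ) ≤ n := by exact_mod_cast hn
    have hlogn : 0 ≤ Real.log n := Real.log_nonneg hn1
    refine ⟨⌈(Real.log n + Real.log (3 / ϑ)) / Real.log (1 + ε)⌉₊ + 1, by omega, ?_, ?_⟩
    · have h4 : 0 ≤ (Real.log n + Real.log (3 / ϑ)) / Real.log (1 + ε) := by positivity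
      have h5 := (Nat.ceil_lt_add_one h4).le
      push_cast
      have h6 : (Real.log n + Real.log (3 / ϑ)) / Real.log (1 + ε)
          ≤ (1 + Real.log (3 / ϑ)) / Real.log (1 + ε) * (1 + Real.log n) := by
        rw [div_mul_eq_mul_div]
        apply div_le_div_of_nonneg_right _ hlog.le
        nlinarith only [h3, hlogn]
      linarith
    · rw [Nat.add_sub_cancel]
      have h4 : (Real.log n + Real.log (3 / ϑ)) / Real.log (1 + ε)
          ≤ ⌈(Real.log n + Real.log (3 / ϑ)) / Real.log (1 + ε)⌉₊ := Nat.le_ceil _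
      rw [div_le_iff₀ hlog] at h4
      have hn0 : (0 : ℝ) < n := by linarith only [hn1]
      have h5 : Real.log (3 * n / ϑ) ≤ Real.log ((1 + ε) ^
          ⌈(Real.log n + Real.log (3 / ϑ)) / Real.log (1 + ε)⌉₊) := by
        rw [Real.log_pow]
        have : Real.log (3 * n / ϑ) = Real.log n + Real.log (3 / ϑ) := by
          rw [← Real.log_mul (by positivity) (by positivity)]
          congr 1; ring
        rw [this]; exact h4
      have h6 := (Real.log_le_log_iff (by positivity) (by positivity)).mp h5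
      rw [div_le_iff₀ hϑ] at h6
      linarith only [h6]

/-- The price bound from a fractional solution with fewer facilities. -/
lemma price_of_growth {J F : Finset X} {k m : ℕ} {f φ t ε θ B L : ℝ} (hf : 0 ≤ f)
    (hk0 : (0 : ℝ) < k) (hL0 : 0 ≤ L) (hθ : 0 < θ) (hθ2 : θ ≤ 1 / 2) (hB : 1 ≤ B)
    (hεpos : 0 < ε) (hεθ : ε ≤ θ / 100) (hφ : 0 ≤ φ) (hm3 : 3 * (m : ℝ) ≤ θ / 16 * k)
    (htn : J.card * t ≤ L)
    {x₁ : X → X → ℝ} {y₁ : X → ℝ} (h₁ : IsFrac J F ((1 - θ) * k) x₁ y₁)
    (hc₁ : fracCost J F x₁ < 2 * B * L)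
    (h2 : φ + f * k ≤ 3 * f * m + J.card * t + (1 + ε) * rhsT J F ∅ f (1 / θ) x₁ y₁) :
    f * k ≤ 20 * B / θ * L := by
  rw [rhsT_empty] at h2
  apply price_arith hf hk0 hL0 hθ hθ2 hB hεpos.le hεθ hφ hm3
  have hδ0 : 1 / (2048 * (1 / θ + 2)) / (1 / θ) ≤ θ / 4096 := by
    rw [div_div_eq_mul_div, div_one, div_mul_eq_mul_div, one_mul]
    apply div_le_div_of_nonneg_left hθ.le (by norm_num)
    have : 0 < 1 / θ := by positivity
    linarith only [this]
  have hδ1' : 0 < 1 / (2048 * (1 / θ + 2)) := by positivity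
  have h3 : (1 + 1 / (2048 * (1 / θ + 2)) / (1 / θ)) * f * ∑ i ∈ F, y₁ i
      ≤ (1 + θ / 4096) * f * ((1 - θ) * k) := by
    have h4 : 0 ≤ ∑ i ∈ F, y₁ i := Finset.sum_nonneg h₁.y_nonneg
    calc (1 + 1 / (2048 * (1 / θ + 2)) / (1 / θ)) * f * ∑ i ∈ F, y₁ i
        ≤ (1 + θ / 4096) * f * ∑ i ∈ F, y₁ i :=
          mul_le_mul_of_nonneg_right (mul_le_mul_of_nonneg_right (by linarith only [hδ0]) hf) h4
      _ ≤ _ := mul_le_mul_of_nonneg_left h₁.budget (by positivity)
  have h5 : (2 - 1 / (2048 * (1 / θ + 2))) * fracCost J F x₁ ≤ 2 * (2 * B * L) := by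
    have h6 := fracCost_nonneg J F h₁
    have h7 := mul_nonneg hδ1'.le h6
    linarith only [hc₁, h7]
  have h7 := mul_le_mul_of_nonneg_left (add_le_add h3 h5) (by linarith only [hεpos] : 0 ≤ 1 + ε)
  linarith

/-- The cost of the convex combination. -/
lemma convex_cost {J F : Finset X} {k : ℝ} {m : ℕ} {θ B δ L s : ℝ} (hθ : 0 < θ)
    (hB : 1 ≤ B) (hδpos : 0 < δ) (hL0 : 0 ≤ L) (hk0 : 0 < k)
    (hmk : (m : ℝ) ≤ δ * θ / (100 * B) * k) (hs : s = 3 * m / (θ * k)) (hs0 : 0 ≤ s)
    {x₀ x₁ : X → X → ℝ} {y₀ : X → ℝ} {m₀ : ℝ} (h₀ : IsFrac J F m₀ x₀ y₀)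
    (hc₀ : fracCost J F x₀ < (1 + δ / 16) * L) (hc₁ : fracCost J F x₁ < 2 * B * L) :
    fracCost J F (fun i j => (1 - s) * x₀ i j + s * x₁ i j) ≤ (1 + 3 * (δ / 16)) * L := by
  have hθk : 0 < θ * k := by (clear * - hθ hk0; positivity)
  rw [fracCost_convex J F x₀ x₁ s]
  have h2 : (1 - s) * fracCost J F x₀ ≤ 1 * ((1 + δ / 16) * L) :=
    mul_le_mul (by linarith only [hs0]) hc₀.le (fracCost_nonneg J F h₀) (by norm_num)
  have h3 : s * fracCost J F x₁ ≤ s * (2 * B * L) := mul_le_mul_of_nonneg_left hc₁.le hs0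
  have h4 : s * (2 * B) ≤ δ / 16 := by
    rw [hs, div_mul_eq_mul_div, div_le_iff₀ hθk]
    have h5 := mul_le_mul_of_nonneg_left hmk (by linarith only [hB] : 0 ≤ 6 * B)
    have h6 : 6 * B * (δ * θ / (100 * B) * k) = 6 / 100 * (δ * (θ * k)) := by field_simp
    have h7 : 0 < δ * (θ * k) := by positivity
    linarith only [h5, h6, h7]
  have h5 := mul_le_mul_of_nonneg_right h4 hL0
  have h6 : 0 ≤ δ / 16 * L := by (clear * - hδpos hL0; positivity)
  linarith only [h2, h3, h5, h6]

/-- The core estimate. -/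
lemma growth_core {θ B T δ ε : ℝ} (hθ : 0 < θ) (hθ2 : θ ≤ 1 / 2) (hB : 1 ≤ B)
    (hT : T = 20 * B / θ) (hT40 : 40 ≤ T) (hδ : δ = 1 / (2048 * (8 * T + 2)))
    (hδpos : 0 < δ) (hδ1 : δ ≤ 1 / 1000) (hε : ε = δ / (16 * T)) (hεpos : 0 < ε)
    (hεθ : ε ≤ θ / 100) (J F : Finset X) {k m : ℕ} (hF : F.Nonempty) (hk2 : (2 : ℝ) ≤ k)
    (hcard : k < F.card) (hn1 : 1 ≤ J.card) (hLpos : 0 < lpVal J F k) (hm1 : 1 ≤ m)
    (hmk : (m : ℝ) ≤ δ * θ / (100 * B) * k)
    (hmpow : 3 * (J.card : ℝ) ≤ δ / 8 * (1 + ε) ^ (m - 1))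
    (hgrow : lpVal J F ((1 - θ) * k) ≤ B * lpVal J F k) :
    opt J F k ≤ (2 - δ / 8) * lpVal J F k := by
  set L := lpVal J F k with hL
  have hk0 : (0 : ℝ) < k := by linarith only [hk2]
  have hk1 : 0 < k := by exact_mod_cast hk0
  have hL0 : 0 ≤ L := hLpos.le
  have hn0 : (0 : ℝ) < J.card := by exact_mod_cast hn1
  have hm3 : 3 * (m : ℝ) ≤ θ / 16 * k := by
    have h1 : δ * θ / (100 * B) ≤ θ / 48 := by
      rw [div_le_iff₀ (by positivity)]
      nlinarith only [hθ, hB, hδ1]
    have := mul_le_mul_of_nonneg_right h1 hk0.le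
    linarith
  have htpos : 0 < δ / 8 * L / J.card := by (clear * - hδpos hLpos hn1; positivity)
  have htn : J.card * (δ / 8 * L / J.card) = δ / 8 * L := by (clear * - hn1 hLpos hδpos; field_simp)
  have htop : 3 * L ≤ δ / 8 * L / J.card * (1 + ε) ^ (m - 1) := by
    have h1 : δ / 8 * L / J.card * (1 + ε) ^ (m - 1)
        = L / J.card * (δ / 8 * (1 + ε) ^ (m - 1)) := by
      (clear * - hεpos hn1 hLpos hδpos; field_simp)
    rw [h1]
    calc 3 * L = L / J.card * (3 * J.card) := by (clear * - hn1 hLpos; field_simp)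
      _ ≤ _ := mul_le_mul_of_nonneg_left hmpow (by (clear * - hLpos hn1; positivity))
  obtain ⟨f, S, hf, -, hSF, hSk, φ, hφ, hcost, hmain⟩ := exists_solution J F ∅
    (Finset.empty_subset F) htpos.le hεpos.le hm1 (N := k) (by rw [Finset.card_empty]; exact hk1)
    hcard.le
  obtain ⟨x₀, y₀, h₀, hc₀⟩ := exists_near_opt J F hF (m := k) (c := (1 + δ / 16) * L)
    (by linarith only [hk2]) (by rw [← hL]; nlinarith only [hδpos, hLpos])
  obtain ⟨x₁, y₁, h₁, hc₁⟩ := exists_near_opt J F hF (m := (1 - θ) * k) (c := 2 * B * L)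
    (by nlinarith only [hk2, hθ2]) (by nlinarith only [hgrow, hB, hLpos])
  simp only [Finset.card_empty, Nat.cast_zero, sub_zero] at hmain
  have hprice : f * k ≤ 20 * B / θ * L :=
    price_of_growth hf hk0 hL0 hθ hθ2 hB hεpos hεθ hφ hm3 (by rw [htn]; nlinarith only [hLpos, hδ1]) h₁ hc₁
      (hmain (1 / θ) x₁ y₁ (by positivity) h₁.x_nonneg h₁.x_le h₁.y_nonneg h₁.assign)
  obtain ⟨s, hs⟩ : ∃ s : ℝ, s = 3 * m / (θ * k) := ⟨_, rfl⟩
  have hθk : 0 < θ * k := by positivity
  have hs0 : 0 ≤ s := by rw [hs]; positivity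
  have hs1 : s ≤ 1 := by
    rw [hs, div_le_one hθk]; linarith only [hm3]
  have hx := h₀.convex h₁ hs0 hs1
  have hbud : (1 - s) * (k : ℝ) + s * ((1 - θ) * k) = k - 3 * m := by
    have : s * (θ * k) = 3 * m := by rw [hs]; (clear * - hθ hk1 hm1; field_simp)
    linarith only [this]
  rw [hbud] at hx
  have hcx2 := convex_cost hθ hB hδpos hL0 hk0 hmk hs hs0 h₀ hc₀ hc₁
  have h2 := hmain (8 * T) _ _ (by positivity) hx.x_nonneg hx.x_le hx.y_nonneg hx.assign
  rw [rhsT_empty, htn, ← hδ] at h2
  have hδ2 : 0 < 2 - δ := by linarith only [hδ1]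
  have hfin : φ ≤ (2 - δ / 8) * L := by
    apply final_arith hf hL0 (by linarith only [hT40] : 1 ≤ T) hδpos hδ1 hε (Nat.cast_nonneg m)
      (by rw [hT]; exact hprice)
    refine h2.trans ?_
    have h3 : 0 ≤ (1 + δ / (8 * T)) * f := by (clear * - hδpos hT40 hf; positivity)
    have h4 := mul_le_mul_of_nonneg_left hx.budget h3
    have h5 := mul_le_mul_of_nonneg_left hcx2 hδ2.le
    have h6 := mul_le_mul_of_nonneg_left (add_le_add h4 h5) (by linarith only [hεpos] : 0 ≤ 1 + ε)
    linarith only [h6]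
  have hlt : φ < δ / 8 * L / J.card * (1 + ε) ^ (m - 1) := by
    refine lt_of_le_of_lt hfin (lt_of_lt_of_le ?_ htop)
    nlinarith only [hLpos, htn, htpos]
  have hSne : S.Nonempty := by
    rw [← Finset.card_pos, hSk]; exact hk1
  have h3 : opt J F k ≤ cost J S := opt_le J F k hSF hSne hSk.le
  have h4 := hcost hlt
  linarith only [hfin, h3, h4]

/-- The bounded growth theorem. -/
theorem bounded_growth (θ B : ℝ) (hθ : 0 < θ) (hθ2 : θ ≤ 1 / 2) (hB : 1 ≤ B) :
    ∃ K : ℝ, 0 < K ∧ ∀ (X : Type) [MetricSpace X] (J F : Finset X) (k : ℕ), F.Nonempty →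
      K * (1 + Real.log J.card) ≤ k →
      lpVal J F ((1 - θ) * k) ≤ B * lpVal J F k →
      opt J F k ≤ (2 - θ / (10 ^ 7 * B)) * lpVal J F k := by
  obtain ⟨T, hT⟩ : ∃ T : ℝ, T = 20 * B / θ := ⟨_, rfl⟩
  have hT40 : 40 ≤ T := by
    rw [hT, le_div_iff₀ hθ]; linarith
  obtain ⟨δ, hδ⟩ : ∃ δ : ℝ, δ = 1 / (2048 * (8 * T + 2)) := ⟨_, rfl⟩
  have hδpos : 0 < δ := by rw [hδ]; positivity
  have hδ1 : δ ≤ 1 / 1000 := by
    rw [hδ]
    apply one_div_le_one_div_of_le (by norm_num)
    nlinarith only [hT40]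
  obtain ⟨ε, hε⟩ : ∃ ε : ℝ, ε = δ / (16 * T) := ⟨_, rfl⟩
  have hεpos : 0 < ε := by rw [hε]; (clear * - hδpos hT40; positivity)
  have hεθ : ε ≤ θ / 100 := by
    rw [hε, div_le_iff₀ (by positivity), hT]
    have : θ / 100 * (16 * (20 * B / θ)) = 16 * 20 / 100 * B := by field_simp
    rw [this]; nlinarith only [hB, hδ1]
  obtain ⟨C, hC1, hC⟩ := exists_levels (ε := ε) (ϑ := δ / 8) hεpos (by positivity)
    (by linarith only [hδ1])
  obtain ⟨K, hK⟩ : ∃ K : ℝ, K = 100 * B * C / (δ * θ) := ⟨_, rfl⟩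
  have hKpos : 0 < K := by rw [hK]; (clear * - hB hC1 hδpos hθ; positivity)
  have hK2 : 2 ≤ K := by
    rw [hK, le_div_iff₀ (by positivity)]
    have h1 : δ * θ ≤ 1 := by nlinarith only [hθ2, hδ1, hθ]
    have h2 : 1 ≤ B * C := by nlinarith only [hB, hC1]
    nlinarith only [h1, h2]
  refine ⟨K, hKpos, fun X _ J F k hF hk hgrow => ?_⟩
  have hlog0 : 0 ≤ Real.log J.card := Real.log_natCast_nonneg _
  have hk2 : (2 : ℝ) ≤ k := by nlinarith only [hK2, hk, hlog0]
  have hk0 : (0 : ℝ) < k := by linarith only [hk2]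
  have hk1 : 1 ≤ k := by
    have : (1 : ℝ) ≤ k := by linarith only [hk2]
    exact_mod_cast this
  have hL0 : 0 ≤ lpVal J F k := lpVal_nonneg J F k
  have hc1 : 1 ≤ 2 - θ / (10 ^ 7 * B) := by
    have : θ / (10 ^ 7 * B) ≤ 1 := by
      rw [div_le_one (by positivity)]; nlinarith only [hθ2, hB]
    (clear * - this; linarith)
  -- zero value
  rcases hL0.eq_or_lt with hLz | hLpos
  · have h := main_bound J F k hk1 hF (ε := 1 / 2) (by norm_num) le_rfl
    have h2 := lpVal_nonneg J F ((1 + 1 / 2) * k)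
    have h3 : 0 < Real.exp (-1) := Real.exp_pos _
    rw [← hLz, mul_zero, zero_add, zero_sub] at h
    rw [← hLz, mul_zero]
    refine h.trans ?_
    apply mul_nonpos_of_nonneg_of_nonpos (by positivity)
    apply div_nonpos_of_nonpos_of_nonneg (by linarith only [h2]) (by norm_num)
  -- trivial case
  by_cases hcard : F.card ≤ k
  · have h1 : opt J F k ≤ cost J F := opt_le J F k (Finset.Subset.refl F) hF hcard
    have h2 : cost J F ≤ lpVal J F k := by
      apply le_csInf
      · obtain ⟨x, y, h⟩ := exists_frac J F hF (by linarith only [hk2] : (1 : ℝ) ≤ k)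
        exact ⟨_, x, y, h, rfl⟩
      · rintro c ⟨x, y, h, rfl⟩
        exact cost_all_le h
    nlinarith only [h1, h2, hL0, hc1]
  push Not at hcard
  have hn1 : 1 ≤ J.card := by
    rcases Nat.eq_zero_or_pos J.card with h | h
    · exfalso
      rw [Finset.card_eq_zero] at h
      obtain ⟨x, y, h'⟩ := exists_frac J F hF (by linarith only [hk2] : (1 : ℝ) ≤ k)
      have := lpVal_le J F h'
      unfold fracCost at this
      rw [h] at this hLpos
      simp only [Finset.sum_empty] at this
      linarith only [hLpos, this]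
    · exact h
  obtain ⟨m, hm1, hmC, hmpow⟩ := hC J.card hn1
  have hmk : (m : ℝ) ≤ δ * θ / (100 * B) * k := by
    have h1 : C * (1 + Real.log J.card) = δ * θ / (100 * B) * (K * (1 + Real.log J.card)) := by
      rw [hK]; (clear * - hδpos hθ hB hC1; field_simp)
    calc (m : ℝ) ≤ C * (1 + Real.log J.card) := hmC
      _ = δ * θ / (100 * B) * (K * (1 + Real.log J.card)) := h1
      _ ≤ _ := mul_le_mul_of_nonneg_left hk (by positivity)
  have hmain := growth_core hθ hθ2 hB hT hT40 hδ hδpos hδ1 hε hεpos hεθ J F hF hk2 hcard hn1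
    hLpos hm1 hmk hmpow hgrow
  have h5 : θ / (10 ^ 7 * B) ≤ δ / 8 := by
    rw [hδ, div_div, div_le_div_iff₀ (by positivity) (by positivity), hT]
    have : θ * (2048 * (8 * (20 * B / θ) + 2) * 8) = 2048 * 8 * (160 * B + 2 * θ) := by
      field_simp; ring
    rw [this]; nlinarith only [hθ2, hB]
  have h6 := mul_le_mul_of_nonneg_right h5 hL0
  linarith only [hmain, h6]

end Main

end Vale.Agent.P334
end

section
attribute [-instance] ProperSMul.toContinuousSMul IsTopologicalTorsor.toContinuousSMul IdemSemiring.toCanonicallyOrderedAdd IdemSemiring.toMulLeftMono IdemSemiring.toMulRightMono AddQuantale.instAddLeftMono AddQuantale.instAddRightMono Quantale.instMulLeftMono Quantale.instMulRightMono FiniteDimensional.rclike_to_real IsScalarTower.complexToReal FiniteDimensional.complexToReal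

/-!
Counting tuples that hit every one of several disjoint sets.
-/

namespace Vale.Agent.P334.Alg

open Finset

section

variable {α : Type*} [DecidableEq α] {h : ℕ}

/-- Tuples whose coordinates lie, in some order, in the sets `G 0, ..., G (h-1)`. -/
def hitTuples (G : Fin h → Finset α) : Finset (Fin h → α) :=
  (Finset.univ : Finset (Equiv.Perm (Fin h))).biUnion
    (fun s => Fintype.piFinset (fun i => G (s i)))

theorem mem_hitTuples (G : Fin h → Finset α) (f : Fin h → α) :
    f ∈ hitTuples G ↔ ∃ s : Equiv.Perm (Fin h), ∀ i, f i ∈ G (s i) := by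
  simp only [hitTuples, mem_biUnion, mem_univ, Fintype.mem_piFinset, true_and]

theorem card_hitTuples (G : Fin h → Finset α)
    (hG : ∀ i j, i ≠ j → Disjoint (G i) (G j)) :
    (hitTuples G).card = h.factorial * ∏ i, (G i).card := by
  unfold hitTuples
  rw [Finset.card_biUnion]
  · have : ∀ s : Equiv.Perm (Fin h), (Fintype.piFinset (fun i => G (s i))).card =
        ∏ i, (G i).card := by
      intro s
      rw [Fintype.card_piFinset]
      exact Equiv.prod_comp s (fun i => (G i).card)
    simp only [this, Finset.sum_const, Finset.card_univ, Fintype.card_perm, Fintype.card_fin,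
      smul_eq_mul]
  · intro s _ t _ hst
    show Disjoint (Fintype.piFinset fun i => G (s i)) (Fintype.piFinset fun i => G (t i))
    rw [Finset.disjoint_left]
    intro f hf hf'
    rw [Fintype.mem_piFinset] at hf hf'
    apply hst
    ext i
    by_contra hne
    have hne' : s i ≠ t i := fun h => hne (by rw [h])
    exact Finset.disjoint_left.1 (hG _ _ hne') (hf i) (hf' i)

/-- The same with a coordinatewise description: some order of the coordinates hits the sets in
turn. -/
theorem card_filter_perm [Fintype α] (G : Fin h → Finset α)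
    (hG : ∀ i j, i ≠ j → Disjoint (G i) (G j))
    [DecidablePred fun f : Fin h → α => ∃ s : Equiv.Perm (Fin h), ∀ i, f i ∈ G (s i)] :
    (Finset.univ.filter (fun f : Fin h → α =>
      ∃ s : Equiv.Perm (Fin h), ∀ i, f i ∈ G (s i))).card =
      h.factorial * ∏ i, (G i).card := by
  rw [← card_hitTuples G hG]
  congr 1
  ext f
  rw [Finset.mem_filter, mem_hitTuples]
  exact ⟨fun h => h.2, fun h => ⟨Finset.mem_univ _, h⟩⟩

/-- A tuple with all coordinates in `P`, weakened to a lower bound for the number of good tuples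
inside `P ^ h`. -/
theorem le_card_good (P : Finset α) (G : Fin h → Finset α) (hP : ∀ i, G i ⊆ P)
    (hG : ∀ i j, i ≠ j → Disjoint (G i) (G j)) (good : (Fin h → α) → Prop)
    [DecidablePred good]
    (hgood : ∀ f : Fin h → α, ∀ s : Equiv.Perm (Fin h), (∀ i, f i ∈ G (s i)) → good f) :
    h.factorial * ∏ i, (G i).card ≤
      ((Fintype.piFinset (fun _ : Fin h => P)).filter good).card := by
  rw [← card_hitTuples G hG]
  apply Finset.card_le_card
  intro f hf
  obtain ⟨s, hs⟩ := (mem_hitTuples G f).1 hf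
  rw [Finset.mem_filter, Fintype.mem_piFinset]
  exact ⟨fun i => hP _ (hs i), hgood f s hs⟩

end

end Vale.Agent.P334.Alg
end

section

set_option linter.all false

/-!
Sampling proportionally to weights, and the probability that `h` independent anchors (a sampled
point together with a random radius index) hit `h` disjoint sets of points with prescribed
radius indices.
-/

namespace Vale.Agent.P334.Alg

open Finset

section

variable {X : Type}

/-- The urn containing `w x` copies of every `x` of the list. -/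
def urn (w : X → ℕ) (l : List X) : List X := l.flatMap (fun x => List.replicate (w x) x)

/-- Sampling from the urn by a number `r`; the default is `a`. -/
def pick (w : X → ℕ) (l : List X) (a : X) (r : ℕ) : X := (urn w l).getD r a

theorem length_urn (w : X → ℕ) (l : List X) : (urn w l).length = (l.map w).sum := by
  induction l with
  | nil => simp [urn]
  | cons a l ih =>
    have : urn w (a :: l) = List.replicate (w a) a ++ urn w l := rfl
    rw [this, List.length_append, ih, List.length_replicate, List.map_cons, List.sum_cons]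

theorem mem_urn (w : X → ℕ) (l : List X) (x : X) (h : x ∈ urn w l) : x ∈ l ∧ 0 < w x := by
  unfold urn at h
  rw [List.mem_flatMap] at h
  obtain ⟨y, hy, h⟩ := h
  rw [List.mem_replicate] at h
  obtain ⟨h1, rfl⟩ := h
  exact ⟨hy, Nat.pos_of_ne_zero h1⟩

theorem countP_urn (w : X → ℕ) (l : List X) (P : X → Prop) [DecidablePred P] :
    (urn w l).countP (fun x => decide (P x)) = (l.map (fun x => if P x then w x else 0)).sum := by
  induction l with
  | nil => simp [urn]
  | cons a l ih =>
    have : urn w (a :: l) = List.replicate (w a) a ++ urn w l := rfl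
    rw [this, List.countP_append, ih, List.map_cons, List.sum_cons, List.countP_replicate]
    by_cases h : P a <;> simp [h]

/-- Counting the indices at which the list has an element satisfying `P`. -/
theorem card_getD (L : List X) (d : X) (P : X → Prop) [DecidablePred P] (N : ℕ)
    (hN : L.length ≤ N) :
    ((Finset.range N).filter (fun r => r < L.length ∧ P (L.getD r d))).card
      = L.countP (fun x => decide (P x)) := by
  rw [Finset.card_filter]
  induction L generalizing N with
  | nil => simp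
  | cons a L ih =>
    obtain ⟨N, rfl⟩ : ∃ M, N = M + 1 := ⟨N - 1, by simp only [List.length_cons] at hN; omega⟩
    rw [Finset.sum_range_succ', List.countP_cons, ← ih N (by simpa only [List.length_cons, add_le_add_iff_right] using hN)]
    congr 1
    · apply Finset.sum_congr rfl
      intro r _
      simp only [List.length_cons, Order.lt_add_one_iff, Order.add_one_le_iff, List.getD_eq_getElem?_getD, List.getElem?_cons_succ]
    · simp

/-- Number of `r < N` for which the pick satisfies `P`. -/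
theorem card_pick (w : X → ℕ) (l : List X) (d : X) (P : X → Prop) [DecidablePred P] (N : ℕ)
    (hN : (l.map w).sum ≤ N) :
    ((Finset.range N).filter (fun r => r < (urn w l).length ∧ P (pick w l d r))).card
      = (l.map (fun x => if P x then w x else 0)).sum := by
  rw [← countP_urn]
  exact card_getD (urn w l) d P N (by rw [length_urn]; exact hN)

theorem pick_mem (w : X → ℕ) (l : List X) (d : X) (r : ℕ) (h : r < (urn w l).length) :
    pick w l d r ∈ l ∧ 0 < w (pick w l d r) := by
  apply mem_urn w l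
  unfold pick
  rw [List.getD_eq_getElem _ _ h]
  exact List.getElem_mem h

/-- Finset version. -/
theorem card_pick_finset [DecidableEq X] (w : X → ℕ) (l : List X) (hl : l.Nodup) (d : X)
    (G : Finset X) (hG : ∀ x ∈ G, x ∈ l) (N : ℕ) (hN : (l.map w).sum ≤ N) :
    ((Finset.range N).filter (fun r => r < (urn w l).length ∧ pick w l d r ∈ G)).card
      = ∑ x ∈ G, w x := by
  rw [card_pick w l d (fun x => x ∈ G) N hN]
  have h1 : (l.map (fun x => if x ∈ G then w x else 0)).sum
      = ∑ x ∈ l.toFinset, (if x ∈ G then w x else 0) := (List.sum_toFinset _ hl).symm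
  rw [h1, ← Finset.sum_filter]
  apply Finset.sum_congr _ (fun _ _ => rfl)
  ext x
  simp only [Finset.mem_filter, List.mem_toFinset]
  exact ⟨fun h => h.2, fun h => ⟨hG x h, h⟩⟩

/-- The anchors that pick a point of `G` and the prescribed radius index of that point. -/
def anchorSet [DecidableEq X] (w : X → ℕ) (l : List X) (d : X) (N M : ℕ) (G : Finset X)
    (rad : X → ℕ) : Finset (Fin N × Fin M) :=
  univ.filter (fun a => (a.1 : ℕ) < (urn w l).length ∧ pick w l d a.1 ∈ G ∧
    (a.2 : ℕ) = rad (pick w l d a.1))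

theorem card_anchorSet [DecidableEq X] (w : X → ℕ) (l : List X) (hl : l.Nodup) (d : X)
    (N M : ℕ) (G : Finset X) (hG : ∀ x ∈ G, x ∈ l) (rad : X → ℕ) (hrad : ∀ x ∈ G, rad x < M)
    (hN : (l.map w).sum ≤ N) :
    (anchorSet w l d N M G rad).card = ∑ x ∈ G, w x := by
  rw [← card_pick_finset w l hl d G hG N hN]
  apply Finset.card_bij (fun a _ => (a.1 : ℕ))
  · intro a ha
    rw [anchorSet, Finset.mem_filter] at ha
    rw [Finset.mem_filter, Finset.mem_range]
    exact ⟨a.1.2, ha.2.1, ha.2.2.1⟩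
  · intro a ha b hb hab
    rw [anchorSet, Finset.mem_filter] at ha hb
    have h1 : a.1 = b.1 := Fin.ext hab
    have h2 : (a.2 : ℕ) = (b.2 : ℕ) := by rw [ha.2.2.2, hb.2.2.2, h1]
    exact Prod.ext h1 (Fin.ext h2)
  · intro r hr
    rw [Finset.mem_filter, Finset.mem_range] at hr
    refine ⟨(⟨r, hr.1⟩, ⟨rad (pick w l d r), hrad _ hr.2.2⟩), ?_, rfl⟩
    rw [anchorSet, Finset.mem_filter]
    exact ⟨Finset.mem_univ _, hr.2.1, hr.2.2, rfl⟩

theorem anchorSet_disjoint [DecidableEq X] (w : X → ℕ) (l : List X) (d : X) (N M : ℕ)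
    (G G' : Finset X) (rad rad' : X → ℕ) (h : Disjoint G G') :
    Disjoint (anchorSet w l d N M G rad) (anchorSet w l d N M G' rad') := by
  rw [Finset.disjoint_left]
  intro a ha hb
  rw [anchorSet, Finset.mem_filter] at ha hb
  exact (Finset.disjoint_left.1 h ha.2.2.1) hb.2.2.1

/-- `(τ / c) ^ h ≤ exp (τ / c) h!`. -/
theorem pow_le_exp_mul_factorial (x : ℝ) (hx : 0 ≤ x) (h : ℕ) :
    x ^ h ≤ Real.exp x * (h.factorial : ℝ) := by
  have h1 := Real.pow_div_factorial_le_exp x hx h
  have h3 : (0 : ℝ) < h.factorial := by exact_mod_cast Nat.factorial_pos h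
  rwa [div_le_iff₀ h3] at h1

/-- The number of sequences of `h` anchors that hit, in some order, the sets `G i` of points with
the prescribed radius indices. -/
theorem card_anchors [DecidableEq X] (w : X → ℕ) (l : List X) (hl : l.Nodup) (d : X)
    (N M h : ℕ) (G : Fin h → Finset X) (hG : ∀ i, ∀ x ∈ G i, x ∈ l)
    (hd : ∀ i j, i ≠ j → Disjoint (G i) (G j))
    (rad : Fin h → X → ℕ) (hrad : ∀ i, ∀ x ∈ G i, rad i x < M) (hN : (l.map w).sum ≤ N) :
    (hitTuples (fun i => anchorSet w l d N M (G i) (rad i))).card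
      = h.factorial * ∏ i, ∑ x ∈ G i, w x := by
  rw [card_hitTuples _ (fun i j hij => anchorSet_disjoint w l d N M _ _ _ _ (hd i j hij))]
  congr 1
  exact Finset.prod_congr rfl
    (fun i _ => card_anchorSet w l hl d N M (G i) (hG i) (rad i) (hrad i) hN)

/-- The anchors hit with probability at least `exp (- M τ / q)`. -/
theorem prob_anchors [DecidableEq X] (w : X → ℕ) (l : List X) (hl : l.Nodup) (d : X)
    (N M h : ℕ) (G : Fin h → Finset X) (hG : ∀ i, ∀ x ∈ G i, x ∈ l)
    (hd : ∀ i j, i ≠ j → Disjoint (G i) (G j))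
    (rad : Fin h → X → ℕ) (hrad : ∀ i, ∀ x ∈ G i, rad i x < M) (hN : (l.map w).sum ≤ N)
    (q τ : ℝ) (hq : 0 < q) (hτ : 0 < τ)
    (hw : ∀ i, q * N / τ ≤ ((∑ x ∈ G i, w x : ℕ) : ℝ)) :
    ((N * M : ℕ) : ℝ) ^ h ≤ Real.exp (M * τ / q)
      * ((hitTuples (fun i => anchorSet w l d N M (G i) (rad i))).card : ℝ) := by
  rw [card_anchors w l hl d N M h G hG hd rad hrad hN]
  have h1 : (q * N / τ) ^ h ≤ ∏ i : Fin h, ((∑ x ∈ G i, w x : ℕ) : ℝ) := by
    have h2 : ∏ _i : Fin h, (q * N / τ) ≤ ∏ i : Fin h, ((∑ x ∈ G i, w x : ℕ) : ℝ) :=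
      Finset.prod_le_prod (fun i _ => by (clear * - hq hτ; positivity)) (fun i _ => hw i)
    rwa [Finset.prod_const, Finset.card_univ, Fintype.card_fin] at h2
  have h3 := pow_le_exp_mul_factorial (M * τ / q) (by (clear * - hτ hq; positivity)) h
  have h4 : ((N * M : ℕ) : ℝ) ^ h = (M * τ / q) ^ h * (q * N / τ) ^ h := by
    rw [← mul_pow]
    congr 1
    push_cast
    field_simp
  rw [h4]
  push_cast
  push_cast at h1
  calc (M * τ / q) ^ h * (q * N / τ) ^ h
      ≤ (Real.exp (M * τ / q) * (h.factorial : ℝ)) * ∏ i : Fin h, (∑ x ∈ G i, (w x : ℝ)) :=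
        mul_le_mul h3 h1 (by (clear * - hq hτ; positivity)) (by positivity)
    _ = _ := by ring

/-! ### Sampling by residues -/

/-- Each residue is attained by at least `N / a` numbers below `N`. -/
theorem card_residue (N a c : ℕ) (hc : c < a) :
    N / a ≤ (univ.filter (fun x : Fin N => (x : ℕ) % a = c)).card := by
  have hlt : ∀ q : Fin (N / a), (q : ℕ) * a + c < N := by
    intro q
    calc (q : ℕ) * a + c < q * a + a := by omega
      _ = (q + 1) * a := by ring
      _ ≤ (N / a) * a := Nat.mul_le_mul_right _ q.2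
      _ ≤ N := Nat.div_mul_le_self N a
  have hinj : Function.Injective (fun q : Fin (N / a) => (⟨(q : ℕ) * a + c, hlt q⟩ : Fin N)) := by
    intro q q' h
    have h1 := congrArg Fin.val h
    simp only [Nat.add_right_cancel_iff] at h1
    have h2 : (q : ℕ) = q' := Nat.eq_of_mul_eq_mul_right (by omega) h1
    exact Fin.ext h2
  have h1 : ((univ : Finset (Fin (N / a))).map ⟨_, hinj⟩).card = N / a := by
    rw [Finset.card_map, Finset.card_univ, Fintype.card_fin]
  rw [← h1]
  apply Finset.card_le_card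
  intro x hx
  rw [Finset.mem_map] at hx
  obtain ⟨q, _, rfl⟩ := hx
  rw [Finset.mem_filter]
  refine ⟨Finset.mem_univ _, ?_⟩
  show ((q : ℕ) * a + c) % a = c
  exact Nat.mul_add_mod_of_lt hc

/-- Exact version, if the modulus divides. -/
theorem card_residue_le (N a c : ℕ) (ha : 0 < a) (hdvd : a ∣ N) :
    (univ.filter (fun x : Fin N => (x : ℕ) % a = c)).card ≤ N / a := by
  obtain ⟨m, rfl⟩ := hdvd
  rw [Nat.mul_div_cancel_left _ ha]
  have h1 : ((univ.filter (fun x : Fin (a * m) => (x : ℕ) % a = c)).image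
      (fun x : Fin (a * m) => (x : ℕ) / a)).card
      = (univ.filter (fun x : Fin (a * m) => (x : ℕ) % a = c)).card := by
    apply Finset.card_image_of_injOn
    intro x hx y hy hxy
    simp only [Finset.coe_filter, Finset.mem_univ, true_and, Set.mem_setOf_eq] at hx hy
    apply Fin.ext
    rw [← Nat.div_add_mod (x : ℕ) a, ← Nat.div_add_mod (y : ℕ) a, hx, hy]
    have : (x : ℕ) / a = (y : ℕ) / a := hxy
    rw [this]
  rw [← h1]
  have h2 : (univ.filter (fun x : Fin (a * m) => (x : ℕ) % a = c)).image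
      (fun x : Fin (a * m) => (x : ℕ) / a) ⊆ Finset.range m := by
    intro q hq
    rw [Finset.mem_image] at hq
    obtain ⟨x, _, rfl⟩ := hq
    rw [Finset.mem_range]
    exact Nat.div_lt_of_lt_mul x.2
  exact (Finset.card_le_card h2).trans (by simp)

/-- Lifting a set of residues. -/
theorem card_mod_lift {V : Type} [Fintype V] [DecidableEq V] (N : ℕ) (a : V → ℕ)
    (S : Finset (V → ℕ)) (hS : ∀ f ∈ S, ∀ v, f v < a v) :
    (∏ v, (N / a v)) * S.card
      ≤ (univ.filter (fun r : V → Fin N => (fun v => (r v : ℕ) % a v) ∈ S)).card := by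
  classical
  have h1 : S.biUnion (fun f => Fintype.piFinset (fun v =>
      univ.filter (fun x : Fin N => (x : ℕ) % a v = f v)))
      ⊆ univ.filter (fun r : V → Fin N => (fun v => (r v : ℕ) % a v) ∈ S) := by
    intro r hr
    rw [Finset.mem_biUnion] at hr
    obtain ⟨f, hf, hr⟩ := hr
    rw [Finset.mem_filter]
    refine ⟨Finset.mem_univ _, ?_⟩
    have : (fun v => (r v : ℕ) % a v) = f := by
      funext v
      have := Fintype.mem_piFinset.1 hr v
      exact (Finset.mem_filter.1 this).2
    rw [this]; exact hf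
  refine le_trans ?_ (Finset.card_le_card h1)
  rw [Finset.card_biUnion]
  · calc (∏ v, (N / a v)) * S.card = ∑ _f ∈ S, ∏ v, (N / a v) := by
          rw [Finset.sum_const, smul_eq_mul]; ring
      _ ≤ _ := by
          apply Finset.sum_le_sum
          intro f hf
          rw [Fintype.card_piFinset]
          exact Finset.prod_le_prod' (fun v _ => card_residue N (a v) (f v) (hS f hf v))
  · intro f hf g hg hfg
    show Disjoint (Fintype.piFinset fun v => univ.filter (fun x : Fin N => (x : ℕ) % a v = f v))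
      (Fintype.piFinset fun v => univ.filter (fun x : Fin N => (x : ℕ) % a v = g v))
    rw [Finset.disjoint_left]
    intro r h2 h3
    apply hfg
    funext v
    have h4 := (Finset.mem_filter.1 (Fintype.mem_piFinset.1 h2 v)).2
    have h5 := (Finset.mem_filter.1 (Fintype.mem_piFinset.1 h3 v)).2
    rw [← h4, ← h5]

theorem half_le_div (N a : ℕ) (ha : 0 < a) (haN : a ≤ N) : (N : ℝ) / (2 * a) ≤ ((N / a : ℕ) : ℝ) := by
  have har : (0 : ℝ) < a := by exact_mod_cast ha
  rw [div_le_iff₀ (by positivity)]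
  have h1 : N < (N / a + 1) * a := by
    have h2 := Nat.div_add_mod N a
    have h3 := Nat.mod_lt N ha
    calc N = a * (N / a) + N % a := h2.symm
      _ < a * (N / a) + a := by omega
      _ = (N / a + 1) * a := by ring
  have h4 : 1 ≤ N / a := (Nat.one_le_div_iff ha).2 haN
  have h5 : (N / a + 1) * a ≤ (N / a) * (2 * a) := by nlinarith only [h4]
  have h6 : N ≤ (N / a) * (2 * a) := h1.le.trans h5
  exact_mod_cast h6

/-- Anchors from pairs of numbers below `N`: the point is the element of the urn (of length `A`)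
with index `r % A`, the radius index is the second number modulo `M`. -/
def anchorMod [DecidableEq X] (bag : List X) (d : X) (N M : ℕ) (G : Finset X)
    (rad : X → ℕ) : Finset (Fin N × Fin N) :=
  univ.filter (fun a => bag.getD ((a.1 : ℕ) % bag.length) d ∈ G ∧
    (a.2 : ℕ) % M = rad (bag.getD ((a.1 : ℕ) % bag.length) d))

theorem card_anchorMod [DecidableEq X] (bag : List X) (d : X) (N M : ℕ) (G : Finset X)
    (rad : X → ℕ) (hrad : ∀ x ∈ G, rad x < M) :
    (N / bag.length) * (N / M) * bag.countP (fun x => decide (x ∈ G))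
      ≤ (anchorMod bag d N M G rad).card := by
  classical
  set I : Finset ℕ := (Finset.range bag.length).filter
    (fun r => r < bag.length ∧ bag.getD r d ∈ G) with hI
  have hIcard : I.card = bag.countP (fun x => decide (x ∈ G)) :=
    card_getD bag d (fun x => x ∈ G) bag.length le_rfl
  have h1 : I.biUnion (fun c => (univ.filter (fun x : Fin N => (x : ℕ) % bag.length = c)) ×ˢ
      (univ.filter (fun x : Fin N => (x : ℕ) % M = rad (bag.getD c d))))
      ⊆ anchorMod bag d N M G rad := by
    intro a ha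
    rw [Finset.mem_biUnion] at ha
    obtain ⟨c, hc, ha⟩ := ha
    rw [Finset.mem_product, Finset.mem_filter, Finset.mem_filter] at ha
    rw [hI, Finset.mem_filter] at hc
    rw [anchorMod, Finset.mem_filter]
    refine ⟨Finset.mem_univ _, ?_, ?_⟩
    · rw [ha.1.2]; exact hc.2.2
    · rw [ha.1.2]; exact ha.2.2
  refine le_trans ?_ (Finset.card_le_card h1)
  rw [Finset.card_biUnion]
  · rw [← hIcard]
    calc (N / bag.length) * (N / M) * I.card
        = ∑ _c ∈ I, (N / bag.length) * (N / M) := by rw [Finset.sum_const, smul_eq_mul]; ring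
      _ ≤ _ := by
        apply Finset.sum_le_sum
        intro c hc
        rw [hI, Finset.mem_filter] at hc
        rw [Finset.card_product]
        exact Nat.mul_le_mul (card_residue N bag.length c hc.2.1)
          (card_residue N M _ (hrad _ hc.2.2))
  · intro c _ c' _ hcc
    show Disjoint _ _
    rw [Finset.disjoint_left]
    intro a h2 h3
    rw [Finset.mem_product, Finset.mem_filter] at h2 h3
    exact hcc (by rw [← h2.1.2, ← h3.1.2])

theorem anchorMod_disjoint [DecidableEq X] (bag : List X) (d : X) (N M : ℕ)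
    (G G' : Finset X) (rad rad' : X → ℕ) (h : Disjoint G G') :
    Disjoint (anchorMod bag d N M G rad) (anchorMod bag d N M G' rad') := by
  rw [Finset.disjoint_left]
  intro a ha hb
  rw [anchorMod, Finset.mem_filter] at ha hb
  exact (Finset.disjoint_left.1 h ha.2.1) hb.2.1

/-- The anchors hit with probability at least `exp (- 4 M τ / q)`. -/
theorem prob_anchorMod [DecidableEq X] (bag : List X) (d : X) (N M h : ℕ)
    (G : Fin h → Finset X) (hd : ∀ i j, i ≠ j → Disjoint (G i) (G j))
    (rad : Fin h → X → ℕ) (hrad : ∀ i, ∀ x ∈ G i, rad i x < M)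
    (hA : 0 < bag.length) (hAN : bag.length ≤ N) (hM : 0 < M) (hMN : M ≤ N)
    (q τ : ℝ) (hq : 0 < q) (hτ : 0 < τ)
    (hw : ∀ i, q * bag.length / τ ≤ (bag.countP (fun x => decide (x ∈ G i)) : ℝ)) :
    ((N * N : ℕ) : ℝ) ^ h ≤ Real.exp (4 * M * τ / q)
      * ((hitTuples (fun i => anchorMod bag d N M (G i) (rad i))).card : ℝ) := by
  have hAr : (0 : ℝ) < bag.length := by exact_mod_cast hA
  have hMr : (0 : ℝ) < M := by exact_mod_cast hM
  have hN : 0 < N := lt_of_lt_of_le hM hMN
  have hNr : (0 : ℝ) < N := by exact_mod_cast hN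
  rw [card_hitTuples _ (fun i j hij => anchorMod_disjoint bag d N M _ _ _ _ (hd i j hij))]
  have h1 : (N * N * q / (4 * M * τ)) ^ h
      ≤ ∏ i : Fin h, ((anchorMod bag d N M (G i) (rad i)).card : ℝ) := by
    have h2 : ∏ _i : Fin h, (N * N * q / (4 * M * τ))
        ≤ ∏ i : Fin h, ((anchorMod bag d N M (G i) (rad i)).card : ℝ) := by
      apply Finset.prod_le_prod (fun i _ => by positivity)
      intro i _
      have h3 : (((N / bag.length) * (N / M) * bag.countP (fun x => decide (x ∈ G i)) : ℕ) : ℝ)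
          ≤ ((anchorMod bag d N M (G i) (rad i)).card : ℝ) := by
        exact_mod_cast card_anchorMod bag d N M (G i) (rad i) (hrad i)
      refine le_trans ?_ h3
      push_cast
      have h4 := half_le_div N bag.length hA hAN
      have h5 := half_le_div N M hM hMN
      have h6 := hw i
      calc (N * N * q / (4 * M * τ) : ℝ)
          = (N / (2 * bag.length)) * (N / (2 * M)) * (q * bag.length / τ) := by
            field_simp; ring
        _ ≤ ((N / bag.length : ℕ) : ℝ) * ((N / M : ℕ) : ℝ)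
            * (bag.countP (fun x => decide (x ∈ G i)) : ℝ) := by
            apply mul_le_mul (mul_le_mul h4 h5 (by positivity) (by (clear * -; positivity))) h6
              (by positivity) (by (clear * -; positivity))
    rwa [Finset.prod_const, Finset.card_univ, Fintype.card_fin] at h2
  have h3 := pow_le_exp_mul_factorial (4 * M * τ / q) (by positivity) h
  have h4 : ((N * N : ℕ) : ℝ) ^ h = (4 * M * τ / q) ^ h * (N * N * q / (4 * M * τ)) ^ h := by
    rw [← mul_pow]
    congr 1
    push_cast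
    (clear * - hM hτ hq hN; field_simp)
  rw [h4]
  push_cast
  calc (4 * M * τ / q) ^ h * (N * N * q / (4 * M * τ)) ^ h
      ≤ (Real.exp (4 * M * τ / q) * (h.factorial : ℝ))
        * ∏ i : Fin h, ((anchorMod bag d N M (G i) (rad i)).card : ℝ) :=
        mul_le_mul h3 h1 (by (clear * - hN hq hM hτ; positivity)) (by positivity)
    _ = _ := by ring

end

end Vale.Agent.P334.Alg
end

section

/-!
Polynomial time for the basic list algorithms, part 5: further general list functions.
-/

namespace Vale.Agent.P334.Alg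

open Vale.Agent.Lib.PolyTime Function

variable {A : Set Word} {α β γ δ : Type*} [Enc α] [Enc β] [Enc γ] [Enc δ]

theorem PT_idxOf [DecidableEq γ] (heq : PT A (fun p : γ × γ => decide (p.1 = p.2)))
    {l : α → List γ} {x : α → γ} (hl : PT A l) (hx : PT A x) :
    PT A (fun a => (l a).idxOf (x a)) := by
  have key : ∀ (l : List γ) (x : γ), (l.takeWhile (fun y => decide (¬ x = y))).length =
      l.idxOf x := by
    intro l x
    induction l with
    | nil => rfl
    | cons y l ih =>
      by_cases h : x = y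
      · subst h
        simp only [decide_not, decide_true, Bool.not_true, Bool.false_eq_true, not_false_eq_true, List.takeWhile_cons_of_neg, List.length_nil, List.idxOf_cons_self]
      · rw [List.idxOf_cons_ne _ (Ne.symm h), ← ih]
        simp [h]
  have h1 : PT A (fun p : α × γ => decide (¬ x p.1 = p.2)) :=
    PT.decide_not (heq.comp ((hx.comp PT.fst').pair PT.snd'))
  exact (PT.takeWhile hl h1).length.congr fun a => key _ _

theorem PBd_idxOf [DecidableEq γ] {l : α → List γ} {x : α → γ} (hl : PT A l) :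
    PBd (fun a => (l a).idxOf (x a)) :=
  (PBd.length hl).mono fun _ => List.idxOf_le_length

/-- The maximum of a list of numbers (with `0`). -/
theorem PT_foldrMax {l : α → List ℕ} (hl : PT A l) : PT A (fun a => (l a).foldr max 0) := by
  refine PT.foldr (f := fun _ x y => max x y) hl (PT.const 0) (PT.max PT.snd'.fst PT.snd'.snd)
    hl.pbd fun a i => ?_
  show esize (((l a).drop i).foldr max 0) ≤ esize (l a)
  refine le_trans ?_ (esize_drop_le i (l a))
  have h : ∀ l : List ℕ, l.foldr max 0 = 0 ∨ l.foldr max 0 ∈ l := by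
    intro l
    induction l with
    | nil => exact Or.inl rfl
    | cons x l ih =>
      rw [List.foldr_cons]
      rcases le_total x (l.foldr max 0) with h | h
      · rw [max_eq_right h]
        rcases ih with ih | ih
        · exact Or.inl ih
        · exact Or.inr (List.mem_cons_of_mem _ ih)
      · rw [max_eq_left h]
        exact Or.inr List.mem_cons_self
  rcases h ((l a).drop i) with h | h
  · rw [h]
    exact (esize_nat_le_self 0).trans (Nat.zero_le _)
  · exact esize_le_of_mem h

theorem PT_nodup [DecidableEq γ] (heq : PT A (fun p : γ × γ => decide (p.1 = p.2)))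
    {l : α → List γ} (hl : PT A l) : PT A (fun a => decide ((l a).Nodup)) := by
  refine (PT.pairwise (r := fun x y : γ => x ≠ y) (PT.decide_not heq) hl).congr fun a => ?_
  exact decide_eq_decide.2 Iff.rfl

/-- `all` with a decidable proposition. -/
theorem PT_ballMem {l : α → List γ} {p : α → γ → Prop} [∀ a, DecidablePred (p a)]
    (hl : PT A l) (hp : PT A (fun q : α × γ => decide (p q.1 q.2))) :
    PT A (fun a => decide (∀ x ∈ l a, p a x)) := by
  refine (PT.all (f := fun a x => decide (p a x)) hl hp).congr fun a => ?_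
  rw [Bool.eq_iff_iff]
  simp only [List.all_eq_true, decide_eq_true_eq]

theorem PT_bexMem {l : α → List γ} {p : α → γ → Prop} [∀ a, DecidablePred (p a)]
    (hl : PT A l) (hp : PT A (fun q : α × γ => decide (p q.1 q.2))) :
    PT A (fun a => decide (∃ x ∈ l a, p a x)) := by
  refine (PT.any (f := fun a x => decide (p a x)) hl hp).congr fun a => ?_
  rw [Bool.eq_iff_iff]
  simp only [List.any_eq_true, decide_eq_true_eq]

theorem PT_subset [DecidableEq γ] (heq : PT A (fun p : γ × γ => decide (p.1 = p.2)))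
    {l l' : α → List γ} (hl : PT A l) (hl' : PT A l') :
    PT A (fun a => decide (∀ x ∈ l a, x ∈ l' a)) :=
  PT_ballMem (p := fun a x => x ∈ l' a) hl (PT.mem' heq (hl'.comp PT.fst') PT.snd')

theorem PT_filterMap {l : α → List γ} {f : α → γ → Option β} (hl : PT A l)
    (hf : PT A (fun p : α × γ => f p.1 p.2)) : PT A (fun a => (l a).filterMap (f a)) := by
  have h1 : PT A (fun p : α × γ => match f p.1 p.2 with | none => [] | some b => [b]) :=
    PT.optCase (f := fun _ => ([] : List β)) (g := fun _ b => [b]) hf (PT.const [])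
      (PT.cons PT.snd' PT.nil)
  refine (PT.flatMap (f := fun a x => match f a x with | none => [] | some b => [b]) hl
    h1).congr fun a => ?_
  induction l a with
  | nil => rfl
  | cons x l ih =>
    rw [List.flatMap_cons, ih, List.filterMap_cons]
    cases f a x <;> rfl

/-- Bags: each element repeated a polynomially bounded number of times. -/
theorem PT_bag {l : α → List γ} {f : α → γ → ℕ} (hl : PT A l)
    (hf : PT A (fun p : α × γ => f p.1 p.2)) (hfb : PBd (fun p : α × γ => f p.1 p.2)) :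
    PT A (fun a => (l a).flatMap (fun x => List.replicate (f a x) x)) :=
  PT.flatMap (f := fun a x => List.replicate (f a x) x) hl (PT.replicate hf hfb PT.snd')

theorem PT_range' {s k : α → ℕ} (hs : PT A s) (hk : PT A k) (hkb : PBd k) :
    PT A (fun a => List.range' (s a) (k a)) := by
  refine (PT.map (f := fun a i => s a + i) (PT.range hk hkb) (PT.add (hs.comp PT.fst')
    PT.snd')).congr fun a => ?_
  rw [List.range_eq_range', List.map_add_range']
  simp

theorem PT_modify_set {l : α → List γ} {i : α → ℕ} {x : α → γ} (hl : PT A l) (hi : PT A i)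
    (hx : PT A x) : PT A (fun a => (l a).set (i a) (x a)) := by
  have key : ∀ (l : List γ) (i : ℕ) (x : γ), l.set i x =
      if i < l.length then l.take i ++ x :: l.drop (i + 1) else l := by
    intro l i x
    split_ifs with h
    · exact List.set_eq_take_append_cons_drop.trans (by rw [if_pos h])
    · exact List.set_eq_of_length_le (not_lt.1 h)
  refine (PT.ite (PT.lt hi hl.length) (PT.append (PT.take hl hi)
    (PT.cons hx (PT.drop hl (PT.add hi (PT.const 1))))) hl).congr fun a => (key _ _ _).symm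

end Vale.Agent.P334.Alg
end
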