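import Vale.Agent.P334.MathlibUsed
import Vale.Agent.P334.Defs
import Vale.Agent.Lib.PolyTime.Bits
import Vale.Agent.Lib.PolyTime.Typed
import Vale.Agent.Lib.PolyTime.Lists3
import Vale.Agent.Lib.PolyTime.Lists2
import Vale.Agent.P334.Alg.P1.Inst
import Vale.Agent.Lib.PolyTime.NatArith2

set_option linter.all false

section

/-!
The gap at zero: if all distances are multiples of `Us` then either the optimum of the relaxation
is at least `Us`, or all clients can be opened.
-/

namespace Vale.Agent.P334.Alg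

open Finset

section

variable {X : Type} [MetricSpace X] [DecidableEq X]

/-- A single facility gives a feasible fractional solution. -/
theorem isFrac_single {J F : Finset X} {i0 : X} (hi : i0 ∈ F) {m : ℝ} (hm : 1 ≤ m) :
    IsFrac J F m (fun i _ => if i = i0 then 1 else 0) (fun i => if i = i0 then 1 else 0) := by
  refine ⟨?_, ?_, ?_, ?_, ?_, ?_⟩
  · intro i _ j _
    split_ifs <;> norm_num
  · intro i _ j _
    exact le_rfl
  · intro i _
    split_ifs <;> norm_num
  · intro i _
    split_ifs <;> norm_num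
  · intro j _
    rw [Finset.sum_ite_eq' F i0 (fun _ => (1 : ℝ)), if_pos hi]
  · rw [Finset.sum_ite_eq' F i0 (fun _ => (1 : ℝ)), if_pos hi]
    exact hm

/-- The cost of one client is at least `Us` times the mass of the facilities different from it. -/
theorem client_ge {J F : Finset X} {m Us : ℝ} {x : X → X → ℝ} {y : X → ℝ}
    (h : IsFrac J F m x y) (hUs0 : 0 ≤ Us) (hUs : ∀ a b : X, a ≠ b → Us ≤ dist a b) {j : X}
    (hj : j ∈ J) : Us * (1 - if j ∈ F then y j else 0) ≤ ∑ i ∈ F, x i j * dist i j := by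
  have h1 : ∑ i ∈ F, x i j * (Us * if i = j then 0 else 1) ≤ ∑ i ∈ F, x i j * dist i j := by
    refine Finset.sum_le_sum fun i hi => mul_le_mul_of_nonneg_left ?_ (h.x_nonneg i hi j hj)
    split_ifs with hij
    · rw [mul_zero]
      exact dist_nonneg
    · rw [mul_one]
      exact hUs i j hij
  refine le_trans ?_ h1
  have h2 : ∑ i ∈ F, x i j * (Us * if i = j then 0 else 1) =
      Us * (∑ i ∈ F, x i j - ∑ i ∈ F, if i = j then x i j else 0) := by
    rw [← Finset.sum_sub_distrib, Finset.mul_sum]
    refine Finset.sum_congr rfl fun i _ => ?_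
    split_ifs <;> ring
  rw [h2, h.assign j hj]
  refine mul_le_mul_of_nonneg_left ?_ hUs0
  rw [Finset.sum_ite_eq' F j (fun i => x i j)]
  split_ifs with hjF
  · have := h.x_le j hjF j hj
    linarith only [this]
  · exact le_rfl

omit [DecidableEq X] in
theorem fracCost_eq {J F : Finset X} (x : X → X → ℝ) :
    fracCost J F x = ∑ j ∈ J, ∑ i ∈ F, x i j * dist i j := rfl

/-- The gap at zero, for finite sets. -/
theorem lpVal_gap_finset {J F : Finset X} (hF : F.Nonempty) {Us : ℝ} {k : ℕ} (hk : 1 ≤ k)
    (hUs0 : 0 ≤ Us) (hUs : ∀ a b : X, a ≠ b → Us ≤ dist a b) :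
    Us ≤ lpVal J F k ∨ (J ⊆ F ∧ J.card ≤ k) := by
  by_cases hcase : J ⊆ F ∧ J.card ≤ k
  · exact Or.inr hcase
  left
  obtain ⟨i0, hi0⟩ := hF
  apply le_csInf
  · exact ⟨_, _, _, isFrac_single hi0 (by exact_mod_cast hk), rfl⟩
  rintro c ⟨x, y, h, rfl⟩
  rw [fracCost_eq]
  have hterm : ∀ j ∈ J, 0 ≤ ∑ i ∈ F, x i j * dist i j := fun j hj =>
    Finset.sum_nonneg fun i hi => mul_nonneg (h.x_nonneg i hi j hj) dist_nonneg
  by_cases hsub : J ⊆ F
  · have hcard : k < J.card := by
      by_contra hlt
      exact hcase ⟨hsub, not_lt.1 hlt⟩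
    have h1 : ∑ j ∈ J, Us * (1 - y j) ≤ ∑ j ∈ J, ∑ i ∈ F, x i j * dist i j := by
      refine Finset.sum_le_sum fun j hj => ?_
      have := client_ge h hUs0 hUs hj
      rwa [if_pos (hsub hj)] at this
    refine le_trans ?_ h1
    rw [← Finset.mul_sum, Finset.sum_sub_distrib, Finset.sum_const, nsmul_eq_mul, mul_one]
    have h2 : ∑ j ∈ J, y j ≤ k :=
      (Finset.sum_le_sum_of_subset_of_nonneg hsub fun i hi _ => h.y_nonneg i hi).trans h.budget
    have h3 : (k : ℝ) + 1 ≤ J.card := by exact_mod_cast hcard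
    nlinarith only [hUs0, h2, h3]
  · obtain ⟨j0, hj0, hj0F⟩ := Finset.not_subset.1 hsub
    have h1 := client_ge h hUs0 hUs hj0
    rw [if_neg hj0F, sub_zero, mul_one] at h1
    exact h1.trans (Finset.single_le_sum (f := fun j => ∑ i ∈ F, x i j * dist i j) hterm hj0)

/-- The gap at zero, for lists and integer distances. -/
theorem lpVal_gap {d : X → X → ℕ} (hd : ∀ a b, dist a b = (d a b : ℝ)) {J F : List X}
    (hF0 : F ≠ []) {Us k : ℕ} (hdiv : ∀ a b, Us ∣ d a b) (hk : 1 ≤ k) :
    (Us : ℝ) ≤ lpVal J.toFinset F.toFinset k ∨ (J ⊆ F ∧ J.toFinset.card ≤ k) := by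
  have hUs : ∀ a b : X, a ≠ b → (Us : ℝ) ≤ dist a b := by
    intro a b hab
    rw [hd]
    have h0 : d a b ≠ 0 := by
      intro h
      have := dist_pos.2 hab
      rw [hd, h] at this
      simp at this
    exact_mod_cast Nat.le_of_dvd (Nat.pos_of_ne_zero h0) (hdiv a b)
  have hFn : F.toFinset.Nonempty := by
    rw [List.toFinset_nonempty_iff]
    exact hF0
  rcases lpVal_gap_finset (J := J.toFinset) hFn hk (Nat.cast_nonneg Us) hUs with h | h
  · exact Or.inl h
  · refine Or.inr ⟨?_, h.2⟩
    intro j hj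
    exact List.mem_toFinset.1 (h.1 (List.mem_toFinset.2 hj))

/-- The gap at zero, for duplicate-free lists. -/
theorem lpVal_gap_nodup {d : X → X → ℕ} (hd : ∀ a b, dist a b = (d a b : ℝ)) {J F : List X}
    (hJ : J.Nodup) (hF0 : F ≠ []) {Us k : ℕ} (hdiv : ∀ a b, Us ∣ d a b) (hk : 1 ≤ k) :
    (Us : ℝ) ≤ lpVal J.toFinset F.toFinset k ∨ (J ⊆ F ∧ J.length ≤ k) := by
  have := lpVal_gap (J := J) hd hF0 hdiv hk
  rwa [List.toFinset_card_of_nodup hJ] at this

end

end Vale.Agent.P334.Alg
end

section

/-!
Basic list algorithms on integer metrics.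
-/

namespace Vale.Agent.P334.Alg

section

variable {X : Type} [DecidableEq X]

/-- The distance from `v` to the nearest element of `S`, truncated at `l`. -/
def mins (d : X → X → ℕ) (l : ℕ) (v : X) (S : List X) : ℕ :=
  S.foldr (fun s m => min (d v s) m) l

/-- Sum of the truncated distances. -/
def cst (d : X → X → ℕ) (l : ℕ) (J S : List X) : ℕ := (J.map (fun j => mins d l j S)).sum

/-- An element of `a :: S` minimizing `f`. -/
def argmin1 (f : X → ℕ) (a : X) (S : List X) : X :=
  S.foldl (fun b s => if f s < f b then s else b) a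

/-- An element of `S` minimizing `f` (or `a` if `S` is empty). -/
def argmin (f : X → ℕ) (a : X) (S : List X) : X := argmin1 f (S.headD a) S

/-- One improving swap, if there is one. -/
def swapStep (d : X → X → ℕ) (l : ℕ) (J F S : List X) : List X :=
  ((S.flatMap (fun s => F.map (fun i => i :: S.erase s))).find?
    (fun S' => decide (cst d l J S' < cst d l J S))).getD S

/-- Local search with swaps. -/
def swapSearch (d : X → X → ℕ) (l : ℕ) (J F S : List X) : List X :=
  (swapStep d l J F)^[cst d l J S] S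

/-- Addition of one facility that lowers the cost by a factor `b / (b + 1)`, if there is one. -/
def satStep (d : X → X → ℕ) (l b : ℕ) (J F S : List X) : List X :=
  ((F.map (fun q => q :: S)).find?
    (fun S' => decide ((b + 1) * cst d l J S' ≤ b * cst d l J S ∧ 0 < cst d l J S))).getD S

/-- At most `t` additions. -/
def saturate (d : X → X → ℕ) (l b : ℕ) (J F : List X) (t : ℕ) (S : List X) : List X :=
  (satStep d l b J F)^[t] S

/-! ### Weighted points and pseudo-clients -/

/-- An element is a list of weighted points; its distance to `q` is the least weighted distance. -/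
def wd (d : X → X → ℕ) (top : ℕ) (e : List (X × ℕ)) (q : X) : ℕ :=
  e.foldr (fun c m => min (c.2 * d c.1 q) m) top

/-- Distance of an element to a set. -/
def wdS (d : X → X → ℕ) (top : ℕ) (e : List (X × ℕ)) (Q : List X) : ℕ :=
  Q.foldr (fun q m => min (wd d top e q) m) top

/-- Distance of an element to a virtual center at `p` with radius `R`. -/
def wv (d : X → X → ℕ) (top : ℕ) (e : List (X × ℕ)) (a : X × ℕ) : ℕ :=
  e.foldr (fun c m => min (c.2 * (d c.1 a.1 + a.2)) m) top

/-! ### Local search with the potential counting facilities within a threshold -/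

/-- Weights of the potential. -/
def phi (m : ℕ) : ℕ := if m = 0 then 4 else if m = 1 then 1 else 0

/-- Potential of one element. -/
def potE (D : X → ℕ) (b : ℕ) (Q : List X) : ℕ :=
  ((List.range b).map (fun t => phi (Q.countP (fun q => decide (D q ≤ t))))).sum

/-- Total potential; `E` is the list of elements, each with its cap and its distance function. -/
def pot {ι : Type} (D : ι → X → ℕ) (b : ι → ℕ) (E : List ι) (Q : List X) : ℕ :=
  (E.map (fun e => potE (D e) (b e) Q)).sum

/-- All tuples that differ from `Q` in one coordinate. -/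
def moves : List (List X) → List X → List (List X)
  | P :: parts, q :: Q => P.map (fun x => x :: Q) ++ (moves parts Q).map (fun Q' => q :: Q')
  | _, _ => []

/-- One improving move, if there is one. -/
def lsStep {ι : Type} (D : ι → X → ℕ) (b : ι → ℕ) (E : List ι) (parts : List (List X))
    (Q : List X) : List X :=
  ((moves parts Q).find? (fun Q' => decide (pot D b E Q' < pot D b E Q))).getD Q

/-- Local search. -/
def lsearch {ι : Type} (D : ι → X → ℕ) (b : ι → ℕ) (E : List ι) (parts : List (List X))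
    (Q : List X) : List X :=
  (lsStep D b E parts)^[pot D b E Q] Q

/-! ### Dynamic programming over subsets of colors -/

/-- Table lookup. -/
def look (tab : List (List ℕ × (ℕ × List X))) (U : List ℕ) : ℕ × List X :=
  ((tab.find? (fun e => decide (e.1 = U))).map (fun e => e.2)).getD (0, [])

/-- Better of two solutions. -/
def better (a b : ℕ × List X) : ℕ × List X := if b.1 < a.1 then b else a

/-- Initial table: all sets of colors, no facility. -/
def dpInit (z : ℕ) (B : ℕ → ℕ) : List (List ℕ × (ℕ × List X)) :=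
  (List.range z).sublists.map (fun U => (U, ((U.map B).sum, [])))

/-- Adding one facility. -/
def dpStep (F : List X) (C : ℕ → X → ℕ) (tab : List (List ℕ × (ℕ × List X))) :
    List (List ℕ × (ℕ × List X)) :=
  tab.map (fun e => (e.1, ((e.1.sublists.flatMap (fun V => F.map (fun q =>
    let r := look tab (e.1.filter (fun a => decide (a ∉ V)))
    (r.1 + (V.map (fun a => C a q)).sum, q :: r.2)))).foldl better e.2)))

/-- The result of the dynamic program with at most `h` facilities. -/
def dp (F : List X) (z : ℕ) (B : ℕ → ℕ) (C : ℕ → X → ℕ) (h : ℕ) : ℕ × List X :=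
  look ((dpStep F C)^[h] (dpInit z B)) (List.range z)

end

/-! ### Case distinctions for `moves`

They are here so that no later module has to create the equations of `moves` again. -/

theorem moves_cases {X : Type} (parts : List (List X)) (Q : List X) :
    moves parts Q = moves parts Q := by
  unfold moves
  split <;> rfl

theorem moves_nil' {X : Type} (Q : List X) : moves [] Q = [] := by
  simp only [moves]

theorem moves_cons_nil' {X : Type} (P : List X) (parts : List (List X)) :
    moves (P :: parts) [] = [] := by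
  simp only [moves]

end Vale.Agent.P334.Alg
end

section

/-!
Definitions of the pseudo-approximation algorithm (Part 3).
-/

namespace Vale.Agent.P334.Alg

section

variable {X : Type} [DecidableEq X]

/-! ### Fractional solutions as lists of units -/

/-- Number of units within distance `r` of `p`. -/
def ballN (d : X → X → ℕ) (U : List X) (p : X) (r : ℕ) : ℕ :=
  U.countP (fun u => decide (d u p ≤ r))

/-- Smoothed hinge: the sum of `min (v + 1) m` over `v < u`. -/
def sh (m u : ℕ) : ℕ := ((List.range u).map (fun v => min (v + 1) m)).sum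

/-- Price of the `(v + 1)`-st unit, multiplied by `m`. -/
def gfm (k w N G m v : ℕ) : ℕ :=
  if v < k * N then min (m * G) (m * w * N / (k * N - v)) else m * G

/-- The objective of the local search for fractional solutions. -/
def lmH (d : X → X → ℕ) (D1 N k w G m : ℕ) (J U : List X) : ℕ :=
  (J.map (fun j => ((List.range D1).map (fun r => sh m (N - ballN d U j r))).sum)).sum
    + ((List.range U.length).map (gfm k w N G m)).sum

/-- Adding or removing one unit. -/
def lmMoves (N : ℕ) (F U : List X) : List (List X) :=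
  (F.filter (fun i => decide (U.count i < N))).map (fun i => i :: U)
    ++ (F.filter (fun i => decide (i ∈ U))).map (fun i => U.erase i)

/-- One improving move. -/
def lmStep (d : X → X → ℕ) (D1 N k w G m : ℕ) (J F U : List X) : List X :=
  ((lmMoves N F U).find?
    (fun U' => decide (lmH d D1 N k w G m J U' < lmH d D1 N k w G m J U))).getD U

/-- The local optimum. -/
def lmSearch (d : X → X → ℕ) (D1 N k w G m : ℕ) (J F : List X) : List X :=
  (lmStep d D1 N k w G m J F)^[lmH d D1 N k w G m J []] []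

/-- Radius of the ball of mass one around `p`. -/
def radN (d : X → X → ℕ) (D1 N : ℕ) (U : List X) (p : X) : ℕ :=
  (List.range D1).countP (fun r => decide (ballN d U p r ≤ N))

/-- The `N` units nearest to `j`. -/
def nearU (d : X → X → ℕ) (D1 N : ℕ) (U : List X) (j : X) : List X :=
  U.filter (fun u => decide (d u j < radN d D1 N U j))
    ++ (U.filter (fun u => decide (d u j = radN d D1 N U j))).take
      (N - (U.filter (fun u => decide (d u j < radN d D1 N U j))).length)

/-! ### Clusters -/

/-- Cost of client `j` (times `N`). -/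
def clN (d : X → X → ℕ) (D1 N : ℕ) (U : List X) (j : X) : ℕ :=
  ((nearU d D1 N U j).map (fun u => d u j)).sum

/-- Cost through facility `i` (times `N`). -/
def fclN (d : X → X → ℕ) (D1 N : ℕ) (J U : List X) (i : X) : ℕ :=
  (J.map (fun j => (nearU d D1 N U j).count i * d i j)).sum

/-- Good clients. -/
def goodL (d : X → X → ℕ) (D1 N : ℕ) (J U : List X) : List X :=
  J.filter (fun j => decide (10 ^ 6 * clN d D1 N U j ≤ N * radN d D1 N U j))

/-- Light facilities near `c`. -/
def nearL (d : X → X → ℕ) (D1 N m gg : ℕ) (J F U : List X) (c : X) : List X :=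
  F.filter (fun i => decide (0 < U.count i ∧ 10 ^ 4 * m * fclN d D1 N J U i ≤ gg * U.count i
    ∧ 100 * d i c ≤ radN d D1 N U c))

/-- The relation that two small balls share a facility. -/
def meetL (d : X → X → ℕ) (D1 N : ℕ) (F U : List X) (c c' : X) : Bool :=
  F.any (fun i => decide (0 < U.count i ∧ 2000 * d i c ≤ radN d D1 N U c
    ∧ 2000 * d i c' ≤ radN d D1 N U c'))

/-- A maximal family of good clients that do not meet. -/
def famL (d : X → X → ℕ) (D1 N : ℕ) (J F U : List X) : List X :=
  (goodL d D1 N J U).foldl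
    (fun C j => if C.any (fun c => meetL d D1 N F U j c) then C else j :: C) []

/-- Interior clients. -/
def itrL (d : X → X → ℕ) (D1 N : ℕ) (J U : List X) (c : X) : List X :=
  J.filter (fun j => decide (8 * d j c ≤ radN d D1 N U c))

/-- Centers of the clusters. -/
def ccL (d : X → X → ℕ) (D1 N m gg : ℕ) (J F U : List X) : List X :=
  (famL d D1 N J F U).filter (fun c =>
    decide (gg ≤ 5 * m * ((itrL d D1 N J U c).length * radN d D1 N U c)
      ∧ 249 * N ≤ 250 * ((nearL d D1 N m gg J F U c).map (fun i => U.count i)).sum))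

/-- Representatives of the clusters. -/
def rhoL (d : X → X → ℕ) (D1 N m gg : ℕ) (J F U : List X) (c : X) : X :=
  argmin (fun i => ((itrL d D1 N J U c).map (fun j => d i j)).sum) c
    (nearL d D1 N m gg J F U c)

/-- Replace `i` by the representative of the cluster to which it belongs. -/
def snapL (CC : List X) (A : X → List X) (ρ : X → X) (i : X) : X :=
  ((CC.find? (fun c => decide (i ∈ A c))).map ρ).getD i

/-! ### Levels and potentials -/

/-- Geometric levels. -/
def tauL (top t e p : ℕ) : ℕ := (fun x => min top (x + x / e + t))^[p] 0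

/-- Thresholds of the interpolated levels. -/
def capL (M t f n a b s : ℕ) : ℕ :=
  f * (b * n - a) / (b * n * n) + s * (f * a / (b * n * n * M) + 1 + t)

/-- Interpolated levels. -/
def wlL (τ : ℕ → ℕ) (M : ℕ) (R : List X) (cap : X → ℕ → ℕ) (q : ℕ) (v : X) : ℕ :=
  if q % (M + 3) = 0 then τ (q / (M + 3))
  else if v ∈ R then min (τ (q / (M + 3) + 1)) (max (τ (q / (M + 3))) (cap v (q % (M + 3) - 1)))
  else τ (q / (M + 3) + 1)

/-- Marginal gain of `x` for clients at the positions `pos j` with the levels `lv`. -/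
def mgP (d : X → X → ℕ) (J : List X) (pos : X → X) (lv : X → ℕ) (x : X) (S : List X) : ℕ :=
  (J.map (fun j => mins d (lv (pos j)) (pos j) S - d (pos j) x)).sum

/-! ### The chain machine -/

/-- Add one facility with marginal gain larger than the price. -/
def fillStep (mg : X → List X → ℕ) (f : ℕ) (F S : List X) : List X :=
  match F.find? (fun x => decide (f < mg x S)) with
  | some x => x :: S
  | none => S

/-- Add facilities until no marginal gain is larger than the price. -/
def fill (mg : X → List X → ℕ) (f : ℕ) (F S : List X) : List X :=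
  (fillStep mg f F)^[F.length] S

/-- Run the stages `q, …, m - 1`. -/
def cont (mg : ℕ → X → List X → ℕ) (f : ℕ) (F : List X) (m q : ℕ) (S : List X) : List X :=
  ((List.range m).drop q).foldl (fun S p => fill (mg p) f F S) S

/-- State of the walk inside a stage: an element to be removed (at most one), the current set
without it, the set of protected elements, and the elements still to be added. -/
abbrev WState (X : Type) : Type := List X × List X × List X × List X

/-- The current set. -/
def wset (s : WState X) : List X := s.1 ++ s.2.1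

/-- One step of the walk. -/
def wnext (mg : X → List X → ℕ) (lo hi : ℕ) (F : List X) (s : WState X) : WState X :=
  if s.1 = [] then
    match s.2.1.find? (fun z => decide (z ∉ s.2.2.1 ∧ mg z (s.2.1.erase z) < lo)) with
    | some z => ([z], s.2.1.erase z, s.2.2.1, s.2.2.2)
    | none =>
      match s.2.2.2 with
      | b :: bs => if b ∈ s.2.1 then ([], s.2.1, b :: s.2.2.1, bs)
          else ([], b :: s.2.1, b :: s.2.2.1, bs)
      | [] =>
        match s.2.1.find? (fun z => decide (z ∉ s.2.2.1)) with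
        | some z => ([], s.2.1.erase z, s.2.2.1, [])
        | none => s
  else
    match F.find? (fun x => decide (hi < mg x s.2.1)) with
    | some x => (s.1, x :: s.2.1, s.2.2.1, s.2.2.2)
    | none => ([], s.2.1, s.2.2.1, s.2.2.2)

/-- Walk until the status of the current set is about to change. -/
def walkTo (mg : X → List X → ℕ) (lo hi : ℕ) (F : List X) (st : List X → Bool) (T : ℕ)
    (s : WState X) : WState X :=
  (fun s => if st (wset (wnext mg lo hi F s)) = st (wset s) then wnext mg lo hi F s else s)^[T] s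

/-- The critical pair of sets on the walk from `A` to `B`, smaller set first. -/
def wpair (mg : X → List X → ℕ) (lo hi : ℕ) (F : List X) (st : List X → Bool) (T : ℕ)
    (A B W L : List X) : List X × List X :=
  let s := walkTo mg lo hi F st T
    ([], A, W, L.filter (fun x => decide (x ∉ W)) ++ (B.take (B.length - L.length)).reverse)
  let M := wset s
  let M' := wset (wnext mg lo hi F s)
  if M.length ≤ M'.length then (M, M') else (M', M)

/-- One stage, for a pair of sets. -/
def stage (mg : ℕ → X → List X → ℕ) (f lo hi : ℕ) (F : List X) (N m T q : ℕ)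
    (P : List X × List X) : List X × List X :=
  wpair (mg q) lo hi F (fun M => decide (N ≤ (cont mg f F m (q + 1) M).length)) T
    (fill (mg q) f F P.1) (fill (mg q) f F P.2) P.1 P.2

/-- The chain at the critical price `f`. -/
def chainAt (mg mg' : ℕ → X → List X → ℕ) (f lo hi : ℕ) (F O : List X) (N m T : ℕ) : List X :=
  match (List.range m).find? (fun p =>
    decide (N ≤ (cont mg f F m p (cont mg' (f + 1) F p 0 O)).length ∧
      (cont mg f F m (p + 1) (cont mg' (f + 1) F (p + 1) 0 O)).length < N)) with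
  | some p =>
    let Q := cont mg' (f + 1) F p 0 O
    (((List.range m).drop (p + 1)).foldl (fun P q => stage mg f lo hi F N m T q P)
      (wpair (mg p) lo hi F (fun M => decide (N ≤ (cont mg f F m (p + 1) M).length)) T
        (fill (mg p) f F Q) (fill (mg' p) (f + 1) F Q) Q Q)).2
  | none => O

/-- The chain machine: a set of (at most) `N` facilities containing `O`. The price is searched
below `fmax`; `δ` is the tolerance and `T` the length of the walks. -/
def machine (mg : ℕ → ℕ → X → List X → ℕ) (F O : List X) (N m fmax T δ : ℕ) : List X :=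
  if (cont (mg 0) 0 F m 0 O).length < N then cont (mg 0) 0 F m 0 O
  else
    match (List.range fmax).find? (fun f => decide (N ≤ (cont (mg f) f F m 0 O).length ∧
      (cont (mg (f + 1)) (f + 1) F m 0 O).length < N)) with
    | some f => chainAt (mg f) (mg (f + 1)) f (f - δ) (f + 1 + δ) F O N m T
    | none => O

/-! ### Closing clusters -/

/-- All facilities near `c`. -/
def fullL (d : X → X → ℕ) (D1 N : ℕ) (F U : List X) (c : X) : List X :=
  F.filter (fun i => decide (100 * d i c ≤ radN d D1 N U c))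

/-- Mass of client `l` served by the cluster of `c` (times `N`). -/
def xcN (d : X → X → ℕ) (D1 N : ℕ) (F U : List X) (c l : X) : ℕ :=
  (nearU d D1 N U l).countP (fun u => decide (u ∈ fullL d D1 N F U c))

/-- Cost of client `l` through the cluster of `c` (times `N`). -/
def qcN (d : X → X → ℕ) (D1 N : ℕ) (F U : List X) (c l : X) : ℕ :=
  (((nearU d D1 N U l).filter (fun u => decide (u ∈ fullL d D1 N F U c))).map
    (fun u => d u l)).sum

/-- Isolated clusters. -/
def isoL (d : X → X → ℕ) (D1 N : ℕ) (U CC : List X) (ρ : X → X) (c : X) : Bool :=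
  CC.all (fun c' => decide (c' = c ∨ 5 * radN d D1 N U c < d (ρ c) (ρ c')))

/-- Isolated clusters with small mass nearby; `φ` is the number of facilities. -/
def ibL (d : X → X → ℕ) (D1 N φ : ℕ) (F U CC : List X) (ρ : X → X) (c : X) : Bool :=
  isoL d D1 N U CC ρ c && decide (8 * φ * (U.countP (fun u =>
    decide ((∀ c' ∈ CC, u ∉ fullL d D1 N F U c') ∧ d u c ≤ 2 * radN d D1 N U c)))
      ≤ (8 * φ - 1) * N)

/-- The nearest other cluster. -/
def piL (d : X → X → ℕ) (CC : List X) (ρ : X → X) (c : X) : X :=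
  argmin (fun c' => d (ρ c) (ρ c')) c (CC.filter (fun c' => decide (c' ≠ c)))

/-- Cost of the inner clients of `c` through other clusters (times `N`). -/
def crossN (d : X → X → ℕ) (D1 N : ℕ) (J F U CC : List X) (c : X) : ℕ :=
  ((itrL d D1 N J U c).map (fun l => ((CC.filter (fun c' => decide (l ∉ itrL d D1 N J U c'))).map
    (fun c' => qcN d D1 N F U c' l)).sum)).sum

/-- Cost of closing a cluster (times `50 * N`). -/
def lamN (d : X → X → ℕ) (D1 N : ℕ) (J F U CC : List X) (ρ : X → X) (c : X) : ℕ :=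
  60 * crossN d D1 N J F U CC c + (if isoL d D1 N U CC ρ c
    then (J.map (fun l => xcN d D1 N F U c l * (50 * d (ρ c) l + 201 * radN d D1 N U c))).sum
    else (J.map (fun l => xcN d D1 N F U c l * (50 * d (ρ c) (ρ (piL d CC ρ c))))).sum)

/-- Order in which the vertices of a functional graph are removed: each vertex has at most one
preimage among the remaining ones. The result lists the last removed vertex first. -/
def peelStep (π : X → X) (s : List X × List X) : List X × List X :=
  match s.1.find? (fun v => decide (s.1.countP (fun c => decide (π c = v)) ≤ 1)) with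
  | some v => (s.1.erase v, v :: s.2)
  | none => s

/-- Greedy colouring: add `v` to the first class without conflict. -/
def colStep (π : X → X) (s : List X × List X × List X) (v : X) : List X × List X × List X :=
  if (s.1.all (fun c => decide (π c ≠ v ∧ π v ≠ c))) then (v :: s.1, s.2.1, s.2.2)
  else if (s.2.1.all (fun c => decide (π c ≠ v ∧ π v ≠ c))) then (s.1, v :: s.2.1, s.2.2)
  else (s.1, s.2.1, v :: s.2.2)

/-- Three colour classes of a functional graph on `V`. -/
def threeCol (π : X → X) (V : List X) : List X × List X × List X :=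
  ((peelStep π)^[V.length] (V, [])).2.foldl (colStep π) ([], [], [])

/-- Candidates for the set of closed clusters: the cheapest elements of a colour class. -/
def closeCands (π : X → X) (lam : X → ℕ) (V E : List X) : List (List X) :=
  [(threeCol π V).1, (threeCol π V).2.1, (threeCol π V).2.2].flatMap (fun C =>
    (List.range (V.length + 1)).map (fun z =>
      ((C.filter (fun c => decide (c ∈ E))).insertionSort (fun a b => lam a ≤ lam b)).take z))

end

end Vale.Agent.P334.Alg
end

section

/-!
Correctness of the dynamic program over subsets of colors.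
-/

namespace Vale.Agent.P334.Alg

section

variable {X : Type}

/-- Distance of color `a` to the list `Q` of facilities, capped at `B a`. -/
def capmin (B : ℕ → ℕ) (C : ℕ → X → ℕ) (Q : List X) (a : ℕ) : ℕ :=
  Q.foldr (fun q m => min (C a q) m) (B a)

/-- Total capped distance of the colors in `U`. -/
def dpVal (B : ℕ → ℕ) (C : ℕ → X → ℕ) (U : List ℕ) (Q : List X) : ℕ :=
  (U.map (capmin B C Q)).sum

theorem capmin_nil (B : ℕ → ℕ) (C : ℕ → X → ℕ) (a : ℕ) : capmin B C [] a = B a := rfl

theorem capmin_cons (B : ℕ → ℕ) (C : ℕ → X → ℕ) (q : X) (Q : List X) (a : ℕ) :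
    capmin B C (q :: Q) a = min (C a q) (capmin B C Q a) := rfl

theorem le_capmin_iff (B : ℕ → ℕ) (C : ℕ → X → ℕ) (Q : List X) (a m : ℕ) :
    m ≤ capmin B C Q a ↔ m ≤ B a ∧ ∀ q ∈ Q, m ≤ C a q := by
  induction Q with
  | nil => simp only [capmin_nil, List.not_mem_nil, IsEmpty.forall_iff, implies_true, and_true]
  | cons q Q ih =>
    rw [capmin_cons, le_min_iff, ih]
    constructor
    · rintro ⟨h1, h2, h3⟩
      refine ⟨h2, ?_⟩
      intro r hr
      rcases List.mem_cons.1 hr with rfl | hr
      · exact h1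
      · exact h3 r hr
    · rintro ⟨h1, h2⟩
      exact ⟨h2 q List.mem_cons_self, h1, fun r hr => h2 r (List.mem_cons_of_mem _ hr)⟩

theorem capmin_le_cap (B : ℕ → ℕ) (C : ℕ → X → ℕ) (Q : List X) (a : ℕ) :
    capmin B C Q a ≤ B a := ((le_capmin_iff B C Q a _).1 le_rfl).1

theorem capmin_le_of_mem (B : ℕ → ℕ) (C : ℕ → X → ℕ) {Q : List X} (a : ℕ) {q : X} (hq : q ∈ Q) :
    capmin B C Q a ≤ C a q := ((le_capmin_iff B C Q a _).1 le_rfl).2 q hq

theorem capmin_eq (B : ℕ → ℕ) (C : ℕ → X → ℕ) (Q : List X) (a : ℕ) :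
    capmin B C Q a = B a ∨ ∃ q ∈ Q, capmin B C Q a = C a q := by
  induction Q with
  | nil => left; rfl
  | cons q Q ih =>
    rw [capmin_cons]
    rcases le_total (C a q) (capmin B C Q a) with h | h
    · right; exact ⟨q, List.mem_cons_self, min_eq_left h⟩
    · rw [min_eq_right h]
      rcases ih with ih | ⟨r, hr, ih⟩
      · left; exact ih
      · right; exact ⟨r, List.mem_cons_of_mem _ hr, ih⟩

theorem sum_map_filter_add (U : List ℕ) (p : ℕ → Bool) (f : ℕ → ℕ) :
    (U.map f).sum = ((U.filter p).map f).sum + ((U.filter (fun a => !p a)).map f).sum := by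
  induction U with
  | nil => simp
  | cons a U ih =>
    by_cases h : p a = true
    · simp only [List.map_cons, List.sum_cons, List.filter_cons, h, if_true, Bool.not_true, Bool.false_eq_true, if_false]
      rw [ih]; ring
    · have h' : p a = false := by simpa using h
      simp only [List.map_cons, List.sum_cons, List.filter_cons, h', Bool.false_eq_true, if_false, Bool.not_false, if_true]
      rw [ih]; ring

theorem sum_map_le_sum_map (U : List ℕ) {f g : ℕ → ℕ} (h : ∀ a ∈ U, f a ≤ g a) :
    (U.map f).sum ≤ (U.map g).sum := List.sum_le_sum h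

theorem look_of_mem {tab : List (List ℕ × (ℕ × List X))} {U : List ℕ}
    (h : U ∈ tab.map Prod.fst) : ∃ e ∈ tab, e.1 = U ∧ look tab U = e.2 := by
  unfold look
  cases h' : tab.find? (fun e => decide (e.1 = U)) with
  | none =>
    exfalso
    rw [List.find?_eq_none] at h'
    obtain ⟨e, he, heU⟩ := List.mem_map.1 h
    exact h' e he (by simpa using heU)
  | some e =>
    refine ⟨e, List.mem_of_find?_eq_some h', ?_, rfl⟩
    simpa using List.find?_some h'

theorem foldl_better (L : List (ℕ × List X)) (a : ℕ × List X) :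
    (L.foldl better a = a ∨ L.foldl better a ∈ L) ∧ (L.foldl better a).1 ≤ a.1 ∧
      ∀ b ∈ L, (L.foldl better a).1 ≤ b.1 := by
  induction L generalizing a with
  | nil => simp only [List.foldl_nil, List.not_mem_nil, or_false, Std.le_refl, IsEmpty.forall_iff, implies_true, and_self]
  | cons b L ih =>
    rw [List.foldl_cons]
    obtain ⟨h1, h2, h3⟩ := ih (better a b)
    have hb : better a b = a ∨ better a b = b := by
      unfold better; split_ifs <;> simp
    have hba : (better a b).1 ≤ a.1 ∧ (better a b).1 ≤ b.1 := by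
      unfold better; split_ifs with h
      · exact ⟨h.le, le_rfl⟩
      · exact ⟨le_rfl, not_lt.1 h⟩
    refine ⟨?_, h2.trans hba.1, ?_⟩
    · rcases h1 with h1 | h1
      · rcases hb with hb | hb
        · left; rw [h1, hb]
        · right; rw [h1, hb]; exact List.mem_cons_self
      · right; exact List.mem_cons_of_mem _ h1
    · intro c hc
      rcases List.mem_cons.1 hc with rfl | hc
      · exact h2.trans hba.2
      · exact h3 c hc

/-- Invariant of the table after `p` steps. -/
structure TabOk (F : List X) (z : ℕ) (B : ℕ → ℕ) (C : ℕ → X → ℕ) (p : ℕ)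
    (tab : List (List ℕ × (ℕ × List X))) : Prop where
  keys : tab.map Prod.fst = (List.range z).sublists
  sub : ∀ e ∈ tab, ∀ q ∈ e.2.2, q ∈ F
  len : ∀ e ∈ tab, e.2.2.length ≤ p
  val_le : ∀ e ∈ tab, dpVal B C e.1 e.2.2 ≤ e.2.1
  opt_le : ∀ e ∈ tab, ∀ Q : List X, (∀ q ∈ Q, q ∈ F) → Q.length ≤ p → e.2.1 ≤ dpVal B C e.1 Q

theorem tabOk_init (F : List X) (z : ℕ) (B : ℕ → ℕ) (C : ℕ → X → ℕ) :
    TabOk F z B C 0 (dpInit z B) := by
  refine ⟨?_, ?_, ?_, ?_, ?_⟩
  · unfold dpInit
    rw [List.map_map]
    exact List.map_id' _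
  · intro e he q hq
    obtain ⟨U, _, rfl⟩ := List.mem_map.1 he
    simp at hq
  · intro e he
    obtain ⟨U, _, rfl⟩ := List.mem_map.1 he
    simp
  · intro e he
    obtain ⟨U, _, rfl⟩ := List.mem_map.1 he
    exact le_rfl
  · intro e he Q _ hQ
    obtain ⟨U, _, rfl⟩ := List.mem_map.1 he
    have : Q = [] := List.length_eq_zero_iff.1 (Nat.le_zero.1 hQ)
    subst this
    exact le_rfl

theorem dpVal_cons_le (B : ℕ → ℕ) (C : ℕ → X → ℕ) {U V : List ℕ} (hU : U.Nodup) (hV : List.Sublist V U)
    (q : X) (Q : List X) :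
    dpVal B C U (q :: Q) ≤
      dpVal B C (U.filter (fun a => decide (a ∉ V))) Q + (V.map (fun a => C a q)).sum := by
  have hp : (U.filter (fun a => decide (a ∈ V))).Perm V := by
    rw [List.perm_ext_iff_of_nodup (hU.filter _) (hU.sublist hV)]
    intro a
    simp only [List.mem_filter, decide_eq_true_eq]
    exact ⟨fun h => h.2, fun h => ⟨hV.subset h, h⟩⟩
  have h2 : (fun a => !decide (a ∈ V)) = (fun a => decide (a ∉ V)) := by
    funext a; simp
  unfold dpVal
  rw [sum_map_filter_add U (fun a => decide (a ∈ V)), h2, add_comm]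
  refine Nat.add_le_add (sum_map_le_sum_map _ fun a _ => ?_) ?_
  · rw [capmin_cons]; exact min_le_right _ _
  · rw [(hp.map _).sum_eq]
    refine sum_map_le_sum_map _ fun a _ => ?_
    rw [capmin_cons]; exact min_le_left _ _

theorem tabOk_step {F : List X} {z : ℕ} {B : ℕ → ℕ} {C : ℕ → X → ℕ} {p : ℕ}
    {tab : List (List ℕ × (ℕ × List X))} (h : TabOk F z B C p tab) :
    TabOk F z B C (p + 1) (dpStep F C tab) := by
  have hkey : ∀ e ∈ tab, List.Sublist e.1 (List.range z) := by
    intro e he
    rw [← List.mem_sublists, ← h.keys]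
    exact List.mem_map_of_mem he
  have hlook : ∀ e ∈ tab, ∀ V : List ℕ, ∃ e' ∈ tab,
      e'.1 = e.1.filter (fun a => decide (a ∉ V)) ∧
        look tab (e.1.filter (fun a => decide (a ∉ V))) = e'.2 := by
    intro e he V
    apply look_of_mem
    rw [h.keys, List.mem_sublists]
    exact List.filter_sublist.trans (hkey e he)
  have hcand : ∀ e ∈ tab, ∀ c : ℕ × List X,
      c ∈ (e.1.sublists.flatMap (fun V => F.map (fun q =>
        let r := look tab (e.1.filter (fun a => decide (a ∉ V)))
        (r.1 + (V.map (fun a => C a q)).sum, q :: r.2)))) →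
      (∀ q ∈ c.2, q ∈ F) ∧ c.2.length ≤ p + 1 ∧ dpVal B C e.1 c.2 ≤ c.1 := by
    intro e he c hc
    obtain ⟨V, hV, hc⟩ := List.mem_flatMap.1 hc
    obtain ⟨q, hq, rfl⟩ := List.mem_map.1 hc
    obtain ⟨e', he', hk, hl⟩ := hlook e he V
    simp only [hl]
    refine ⟨?_, ?_, ?_⟩
    · intro r hr
      rcases List.mem_cons.1 hr with rfl | hr
      · exact hq
      · exact h.sub e' he' r hr
    · simpa only [List.length_cons, add_le_add_iff_right] using h.len e' he'
    · refine (dpVal_cons_le B C ((List.nodup_range).sublist (hkey e he))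
        (List.mem_sublists.1 hV) q e'.2.2).trans ?_
      rw [← hk]
      exact Nat.add_le_add_right (h.val_le e' he') _
  refine ⟨?_, ?_, ?_, ?_, ?_⟩
  · rw [← h.keys]
    unfold dpStep
    rw [List.map_map]
    rfl
  · intro e he
    obtain ⟨e0, he0, rfl⟩ := List.mem_map.1 he
    obtain ⟨h1, _, _⟩ := foldl_better (e0.1.sublists.flatMap (fun V => F.map (fun q =>
        let r := look tab (e0.1.filter (fun a => decide (a ∉ V)))
        (r.1 + (V.map (fun a => C a q)).sum, q :: r.2)))) e0.2
    rcases h1 with h1 | h1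
    · simp only [h1]; exact h.sub e0 he0
    · exact (hcand e0 he0 _ h1).1
  · intro e he
    obtain ⟨e0, he0, rfl⟩ := List.mem_map.1 he
    obtain ⟨h1, _, _⟩ := foldl_better (e0.1.sublists.flatMap (fun V => F.map (fun q =>
        let r := look tab (e0.1.filter (fun a => decide (a ∉ V)))
        (r.1 + (V.map (fun a => C a q)).sum, q :: r.2)))) e0.2
    rcases h1 with h1 | h1
    · simp only [h1]; exact (h.len e0 he0).trans (Nat.le_succ p)
    · exact (hcand e0 he0 _ h1).2.1
  · intro e he
    obtain ⟨e0, he0, rfl⟩ := List.mem_map.1 he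
    obtain ⟨h1, _, _⟩ := foldl_better (e0.1.sublists.flatMap (fun V => F.map (fun q =>
        let r := look tab (e0.1.filter (fun a => decide (a ∉ V)))
        (r.1 + (V.map (fun a => C a q)).sum, q :: r.2)))) e0.2
    rcases h1 with h1 | h1
    · simp only [h1]; exact h.val_le e0 he0
    · exact (hcand e0 he0 _ h1).2.2
  · intro e he Q hQF hQl
    obtain ⟨e0, he0, rfl⟩ := List.mem_map.1 he
    obtain ⟨_, h2, h3⟩ := foldl_better (e0.1.sublists.flatMap (fun V => F.map (fun q =>
        let r := look tab (e0.1.filter (fun a => decide (a ∉ V)))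
        (r.1 + (V.map (fun a => C a q)).sum, q :: r.2)))) e0.2
    cases Q with
    | nil =>
      exact h2.trans (h.opt_le e0 he0 [] (by simp) (by simp only [List.length_nil, zero_le]))
    | cons q Q =>
      have hqF : q ∈ F := hQF q List.mem_cons_self
      have hQ' : ∀ r ∈ Q, r ∈ F := fun r hr => hQF r (List.mem_cons_of_mem _ hr)
      have hQl' : Q.length ≤ p := by simpa only [List.length_cons, add_le_add_iff_right] using hQl
      set V : List ℕ := e0.1.filter (fun a => decide (C a q < capmin B C Q a)) with hV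
      have hVs : V ∈ e0.1.sublists := List.mem_sublists.2 List.filter_sublist
      obtain ⟨e', he', hk, hl⟩ := hlook e0 he0 V
      have hmem : ((look tab (e0.1.filter (fun a => decide (a ∉ V)))).1 +
          (V.map (fun a => C a q)).sum,
          q :: (look tab (e0.1.filter (fun a => decide (a ∉ V)))).2) ∈
          (e0.1.sublists.flatMap (fun V => F.map (fun q =>
        let r := look tab (e0.1.filter (fun a => decide (a ∉ V)))
        (r.1 + (V.map (fun a => C a q)).sum, q :: r.2)))) :=
        List.mem_flatMap.2 ⟨V, hVs, List.mem_map.2 ⟨q, hqF, rfl⟩⟩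
      refine (h3 _ hmem).trans ?_
      simp only [hl]
      have h4 := h.opt_le e' he' Q hQ' hQl'
      refine (Nat.add_le_add_right h4 _).trans ?_
      rw [hk]
      have hcongr : e0.1.filter (fun a => decide (a ∉ V)) =
          e0.1.filter (fun a => !decide (C a q < capmin B C Q a)) := by
        apply List.filter_congr
        intro a ha
        have : a ∈ V ↔ C a q < capmin B C Q a := by
          rw [hV, List.mem_filter, decide_eq_true_eq]
          exact ⟨fun h => h.2, fun h => ⟨ha, h⟩⟩
        simp only [this, decide_not]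
      unfold dpVal
      rw [hcongr, sum_map_filter_add e0.1 (fun a => decide (C a q < capmin B C Q a))
        (capmin B C (q :: Q)), add_comm]
      refine Nat.add_le_add (le_of_eq ?_) (le_of_eq ?_)
      · rw [← hV]
        congr 1
        apply List.map_congr_left
        intro a ha
        rw [hV, List.mem_filter, decide_eq_true_eq] at ha
        rw [capmin_cons, min_eq_left ha.2.le]
      · congr 1
        apply List.map_congr_left
        intro a ha
        rw [List.mem_filter] at ha
        have : ¬ (C a q < capmin B C Q a) := by simpa only [not_lt, Bool.not_eq_eq_eq_not, Bool.not_true, decide_eq_false_iff_not] using ha.2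
        rw [capmin_cons, min_eq_right (not_lt.1 this)]

theorem tabOk_iterate (F : List X) (z : ℕ) (B : ℕ → ℕ) (C : ℕ → X → ℕ) (h : ℕ) :
    TabOk F z B C h ((dpStep F C)^[h] (dpInit z B)) := by
  induction h with
  | zero => exact tabOk_init F z B C
  | succ h ih =>
    rw [Function.iterate_succ_apply']
    exact tabOk_step ih

/-- Correctness of the dynamic program: the returned list consists of at most `h` facilities, its
value is at most the returned number, and this number is at most the value of every list of at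
most `h` facilities. -/
theorem dp_spec (F : List X) (z : ℕ) (B : ℕ → ℕ) (C : ℕ → X → ℕ) (h : ℕ) :
    (∀ q ∈ (dp F z B C h).2, q ∈ F) ∧ (dp F z B C h).2.length ≤ h ∧
      dpVal B C (List.range z) (dp F z B C h).2 ≤ (dp F z B C h).1 ∧
      ∀ Q : List X, (∀ q ∈ Q, q ∈ F) → Q.length ≤ h →
        (dp F z B C h).1 ≤ dpVal B C (List.range z) Q := by
  have hk := tabOk_iterate F z B C h
  have hmem : List.range z ∈ (((dpStep F C)^[h] (dpInit z B)).map Prod.fst) := by
    rw [hk.keys, List.mem_sublists]
  obtain ⟨e, he, he1, he2⟩ := look_of_mem hmem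
  have hd : dp F z B C h = e.2 := he2
  rw [hd, ← he1]
  exact ⟨hk.sub e he, hk.len e he, hk.val_le e he, hk.opt_le e he⟩

/-- The value of the returned list is at most the value of every list of at most `h`
facilities. -/
theorem dp_opt (F : List X) (z : ℕ) (B : ℕ → ℕ) (C : ℕ → X → ℕ) (h : ℕ) {Q : List X}
    (hQ : ∀ q ∈ Q, q ∈ F) (hl : Q.length ≤ h) :
    dpVal B C (List.range z) (dp F z B C h).2 ≤ dpVal B C (List.range z) Q :=
  (dp_spec F z B C h).2.2.1.trans ((dp_spec F z B C h).2.2.2 Q hQ hl)

/-- `dpVal` over `List.range z` as a sum over `Finset.range z`. -/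
theorem dpVal_range (B : ℕ → ℕ) (C : ℕ → X → ℕ) (z : ℕ) (Q : List X) :
    dpVal B C (List.range z) Q = ∑ a ∈ Finset.range z, capmin B C Q a := by
  unfold dpVal
  rw [Finset.sum_range, ← List.sum_ofFn, List.ofFn_eq_map]
  congr 1
  rw [← List.map_coe_finRange_eq_range, List.map_map]
  rfl

end

end Vale.Agent.P334.Alg
end

section
attribute [-instance] ProperSMul.toContinuousSMul IsTopologicalTorsor.toContinuousSMul IdemSemiring.toCanonicallyOrderedAdd IdemSemiring.toMulLeftMono IdemSemiring.toMulRightMono AddQuantale.instAddLeftMono AddQuantale.instAddRightMono Quantale.instMulLeftMono Quantale.instMulRightMono FiniteDimensional.rclike_to_real IsScalarTower.complexToReal FiniteDimensional.complexToReal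

set_option linter.all false

/-!
Lemma LS: correctness and approximation guarantee of the potential local search `lsearch`.
-/

namespace Vale.Agent.P334.Alg

section

variable {X : Type}

/-- `Q` chooses one element from each part. -/
def Trans (parts : List (List X)) (Q : List X) : Prop := List.Forall₂ (fun q P => q ∈ P) Q parts

/-- The least value of `D` on `Q`, truncated at `b`. -/
def mE (D : X → ℕ) (b : ℕ) (Q : List X) : ℕ := Q.foldr (fun q m => min (D q) m) b

/-! ### Iteration of an improving step -/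

theorem iterate_fix {α : Type} (f : α → α) (c : α → ℕ) (hf : ∀ x, f x = x ∨ c (f x) < c x)
    (n : ℕ) (x : α) (h : c x ≤ n) : f (f^[n] x) = f^[n] x := by
  induction n generalizing x with
  | zero =>
    rcases hf x with h1 | h1
    · simpa using h1
    · omega
  | succ n ih =>
    rcases hf x with h1 | h1
    · have : f^[n + 1] x = x := Function.iterate_fixed h1 _
      rw [this]; exact h1
    · rw [Function.iterate_succ_apply]
      exact ih (f x) (by omega)

theorem iterate_inv {α : Type} (f : α → α) (P : α → Prop) (hf : ∀ x, P x → P (f x))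
    (n : ℕ) (x : α) (h : P x) : P (f^[n] x) := by
  induction n generalizing x with
  | zero => simpa using h
  | succ n ih =>
    rw [Function.iterate_succ_apply]
    exact ih (f x) (hf x h)

/-! ### Moves -/

theorem trans_of_mem_moves : ∀ (parts : List (List X)) (Q Q' : List X), Trans parts Q →
    Q' ∈ moves parts Q → Trans parts Q' := by
  intro parts
  induction parts with
  | nil =>
    intro Q Q' hQ h
    cases Q <;> simp [moves] at h
  | cons P parts ih =>
    intro Q Q' hQ h
    cases hQ with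
    | @cons q _ Q _ hq hQ =>
      simp only [moves, List.mem_append, List.mem_map] at h
      rcases h with ⟨x, hx, rfl⟩ | ⟨R, hR, rfl⟩
      · exact List.Forall₂.cons hx hQ
      · exact List.Forall₂.cons hq (ih Q R hQ hR)

theorem lsStep_cases {ι : Type} (D : ι → X → ℕ) (b : ι → ℕ) (E : List ι) (parts : List (List X))
    (Q : List X) : (lsStep D b E parts Q = Q ∧ ∀ Q' ∈ moves parts Q, pot D b E Q ≤ pot D b E Q') ∨
      (lsStep D b E parts Q ∈ moves parts Q ∧
        pot D b E (lsStep D b E parts Q) < pot D b E Q) := by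
  unfold lsStep
  cases h : (moves parts Q).find? (fun Q' => decide (pot D b E Q' < pot D b E Q)) with
  | none =>
    left
    refine ⟨rfl, fun Q' hQ' => ?_⟩
    rw [List.find?_eq_none] at h
    have := h Q' hQ'
    simpa only [ge_iff_le, decide_eq_true_eq, not_lt] using this
  | some R =>
    right
    have h1 := List.mem_of_find?_eq_some h
    have h2 := List.find?_some h
    exact ⟨h1, by simpa using h2⟩

theorem lsStep_trans {ι : Type} (D : ι → X → ℕ) (b : ι → ℕ) (E : List ι)
    (parts : List (List X)) (Q : List X) (h : Trans parts Q) :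
    Trans parts (lsStep D b E parts Q) := by
  rcases lsStep_cases D b E parts Q with h1 | h1
  · rw [h1.1]; exact h
  · exact trans_of_mem_moves parts Q _ h h1.1

theorem lsearch_trans {ι : Type} (D : ι → X → ℕ) (b : ι → ℕ) (E : List ι)
    (parts : List (List X)) (Q : List X) (h : Trans parts Q) :
    Trans parts (lsearch D b E parts Q) :=
  iterate_inv _ _ (fun Q hQ => lsStep_trans D b E parts Q hQ) _ Q h

theorem lsearch_pot_le {ι : Type} (D : ι → X → ℕ) (b : ι → ℕ) (E : List ι)
    (parts : List (List X)) (Q : List X) :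
    pot D b E (lsearch D b E parts Q) ≤ pot D b E Q := by
  refine iterate_inv (lsStep D b E parts) (fun R => pot D b E R ≤ pot D b E Q) ?_ _ Q le_rfl
  intro R hR
  rcases lsStep_cases D b E parts R with h1 | h1
  · rw [h1.1]; exact hR
  · exact h1.2.le.trans hR

theorem lsearch_opt {ι : Type} (D : ι → X → ℕ) (b : ι → ℕ) (E : List ι)
    (parts : List (List X)) (Q : List X) :
    ∀ Q' ∈ moves parts (lsearch D b E parts Q),
      pot D b E (lsearch D b E parts Q) ≤ pot D b E Q' := by
  have h := iterate_fix (lsStep D b E parts) (pot D b E)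
    (fun Q => (lsStep_cases D b E parts Q).imp (fun h => h.1) (fun h => h.2)) _ Q le_rfl
  rcases lsStep_cases D b E parts (lsearch D b E parts Q) with h1 | h1
  · exact h1.2
  · exfalso
    have h2 : lsStep D b E parts (lsearch D b E parts Q) = lsearch D b E parts Q := h
    rw [h2] at h1
    exact lt_irrefl _ h1.2

/-! ### Swaps of one coordinate of `Q` to the corresponding coordinate of `O` -/

/-- All lists obtained from `Q` by replacing one coordinate by that of `O`. -/
def swaps : List X → List X → List (List X)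
  | q :: Q, o :: O => (o :: Q) :: (swaps Q O).map (fun Q' => q :: Q')
  | _, _ => []

theorem swaps_subset_moves : ∀ (parts : List (List X)) (Q O : List X), Trans parts Q →
    Trans parts O → ∀ Q' ∈ swaps Q O, Q' ∈ moves parts Q := by
  intro parts
  induction parts with
  | nil =>
    intro Q O hQ hO Q' h
    cases hQ
    cases O <;> simp only [swaps, List.not_mem_nil] at h
  | cons P parts ih =>
    intro Q O hQ hO Q' h
    cases hQ with
    | @cons q _ Q _ hq hQ =>
      cases hO with
      | @cons o _ O _ ho hO =>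
        simp only [swaps, List.mem_cons, List.mem_map] at h
        simp only [moves, List.mem_append, List.mem_map]
        rcases h with rfl | ⟨R, hR, rfl⟩
        · exact Or.inl ⟨o, ho, rfl⟩
        · exact Or.inr ⟨R, ih Q O hQ hO R hR, rfl⟩

theorem swaps_length : ∀ (Q O : List X), Q.length = O.length → (swaps Q O).length = Q.length := by
  intro Q
  induction Q with
  | nil => intro O h; cases O <;> simp [swaps]
  | cons q Q ih =>
    intro O h
    cases O with
    | nil => simp only [List.length_cons, List.length_nil, Nat.add_eq_zero_iff, List.length_eq_zero_iff, one_ne_zero, and_false] at h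
    | cons o O =>
      simp only [swaps, List.length_cons, List.length_map]
      rw [ih O (by simpa only [List.length_cons, Nat.add_right_cancel_iff] using h)]

/-- The sum of a function of the number of elements satisfying `p` over all swaps. -/
theorem sum_swaps (p : X → Bool) : ∀ (Q O : List X), Q.length = O.length →
    ∃ u v c w : ℕ, Q.countP p = u + c ∧ O.countP p = v + c ∧ u + v + w = Q.length ∧ c ≤ w ∧
      ∀ (g : ℕ → ℤ), ((swaps Q O).map (fun Q' => g (Q'.countP p + 1))).sum
        = u * g (u + c) + v * g (u + c + 2) + w * g (u + c + 1) := by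
  intro Q
  induction Q with
  | nil =>
    intro O h
    cases O with
    | nil => exact ⟨0, 0, 0, 0, by simp, by simp, by simp, by simp, by simp [swaps]⟩
    | cons o O => simp at h
  | cons q Q ih =>
    intro O h
    cases O with
    | nil => simp at h
    | cons o O =>
      obtain ⟨u, v, c, w, h1, h2, h3, h4, h5⟩ := ih O (by simpa using h)
      by_cases hq : p q = true <;> by_cases ho : p o = true
      · refine ⟨u, v, c + 1, w + 1, ?_, ?_, ?_, by omega, ?_⟩
        · rw [List.countP_cons_of_pos hq, h1]; ring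
        · rw [List.countP_cons_of_pos ho, h2]; ring
        · simp only [List.length_cons]; (clear * - h3; omega)
        · intro g
          simp only [swaps, List.map_cons, List.sum_cons, List.map_map, Function.comp_def,
            List.countP_cons_of_pos hq, List.countP_cons_of_pos ho, h1]
          have := h5 (fun n => g (n + 1))
          beta_reduce at this
          rw [this]
          push_cast
          ring_nf
      · refine ⟨u + 1, v, c, w, ?_, ?_, ?_, by omega, ?_⟩
        · rw [List.countP_cons_of_pos hq, h1]; ring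
        · rw [List.countP_cons_of_neg ho, h2]
        · simp only [List.length_cons]; omega
        · intro g
          simp only [swaps, List.map_cons, List.sum_cons, List.map_map, Function.comp_def,
            List.countP_cons_of_pos hq, List.countP_cons_of_neg ho, h1]
          have := h5 (fun n => g (n + 1))
          beta_reduce at this
          rw [this]
          push_cast
          ring_nf
      · refine ⟨u, v + 1, c, w, ?_, ?_, ?_, by omega, ?_⟩
        · rw [List.countP_cons_of_neg hq, h1]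
        · rw [List.countP_cons_of_pos ho, h2]; ring
        · simp only [List.length_cons]; (clear * - h3; omega)
        · intro g
          simp only [swaps, List.map_cons, List.sum_cons, List.map_map, Function.comp_def,
            List.countP_cons_of_neg hq, List.countP_cons_of_pos ho, h1]
          have := h5 (fun n => g n)
          beta_reduce at this
          rw [this]
          push_cast
          ring_nf
      · refine ⟨u, v, c, w + 1, ?_, ?_, ?_, by omega, ?_⟩
        · rw [List.countP_cons_of_neg hq, h1]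
        · rw [List.countP_cons_of_neg ho, h2]
        · simp only [List.length_cons]; omega
        · intro g
          simp only [swaps, List.map_cons, List.sum_cons, List.map_map, Function.comp_def,
            List.countP_cons_of_neg hq, List.countP_cons_of_neg ho, h1]
          have := h5 (fun n => g n)
          beta_reduce at this
          rw [this]
          push_cast
          ring_nf

/-! ### The potential inequality -/

theorem phi_ineq (u v c w : ℕ) :
    (u : ℤ) * (phi (u + c - 1) : ℤ) + v * (phi (u + c + 1) : ℤ) + w * (phi (u + c) : ℤ)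
      + 5 * (if u + c = 0 then 1 else 0)
      ≤ (u + v + w) * (phi (u + c) : ℤ) + 2 + 3 * (if v + c = 0 then 1 else 0) := by
  by_cases h0 : u + c = 0
  · have hu : u = 0 := by omega
    have hc : c = 0 := by omega
    subst hu hc
    by_cases hv : v = 0
    · subst hv; simp only [CharP.cast_eq_zero, phi, add_zero, zero_tsub, ↓reduceIte, Nat.cast_ofNat, zero_mul, zero_add, one_ne_zero, Nat.cast_one, mul_one, ge_iff_le]; omega
    · simp only [CharP.cast_eq_zero, phi, add_zero, zero_tsub, ↓reduceIte, Nat.cast_ofNat, zero_mul, zero_add, one_ne_zero, Nat.cast_one, mul_one, hv, mul_zero, ge_iff_le]; (clear * - hv; omega)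
  by_cases h1 : u + c = 1
  · by_cases hu : u = 0
    · have hc : c = 1 := by omega
      subst hu hc
      simp only [CharP.cast_eq_zero, phi, zero_add, tsub_self, ↓reduceIte, Nat.cast_ofNat, zero_mul, Nat.reduceAdd, OfNat.ofNat_ne_zero, OfNat.ofNat_ne_one, mul_zero, add_zero, one_ne_zero, Nat.cast_one, mul_one, Nat.add_eq_zero_iff, and_false, ge_iff_le]; omega
    · have hc : c = 0 := by (clear * - h1 hu; omega)
      have hu' : u = 1 := by omega
      subst hu' hc
      by_cases hv : v = 0
      · subst hv; simp only [Nat.cast_one, phi, add_zero, tsub_self, ↓reduceIte, Nat.cast_ofNat, one_mul, CharP.cast_eq_zero, Nat.reduceAdd, OfNat.ofNat_ne_zero, OfNat.ofNat_ne_one, mul_zero, one_ne_zero, mul_one, ge_iff_le]; omega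
      · simp only [Nat.cast_one, phi, add_zero, tsub_self, ↓reduceIte, Nat.cast_ofNat, one_mul, Nat.reduceAdd, OfNat.ofNat_ne_zero, OfNat.ofNat_ne_one, CharP.cast_eq_zero, mul_zero, one_ne_zero, mul_one, hv, ge_iff_le]; omega
  by_cases h2 : u + c = 2
  · rw [h2]
    have : u ≤ 2 := by omega
    simp [phi]
    split_ifs <;> omega
  · have e1 : phi (u + c - 1) = 0 := by
      unfold phi; split_ifs <;> omega
    have e2 : phi (u + c) = 0 := by
      unfold phi; split_ifs <;> omega
    have e3 : phi (u + c + 1) = 0 := by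
      unfold phi; split_ifs <;> omega
    rw [e1, e2, e3]
    simp only [CharP.cast_eq_zero, mul_zero, add_zero, Nat.add_eq_zero_iff, mul_ite, mul_one, zero_add, ge_iff_le]
    split_ifs <;> omega

theorem mE_le (D : X → ℕ) (b : ℕ) (Q : List X) : mE D b Q ≤ b := by
  induction Q with
  | nil => simp only [mE, List.foldr_nil, Std.le_refl]
  | cons q Q ih => 
    have : mE D b (q :: Q) = min (D q) (mE D b Q) := rfl
    omega

theorem mE_le_of_mem (D : X → ℕ) (b : ℕ) (Q : List X) (q : X) (hq : q ∈ Q) :
    mE D b Q ≤ D q := by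
  induction Q with
  | nil => simp at hq
  | cons a Q ih =>
    have h : mE D b (a :: Q) = min (D a) (mE D b Q) := rfl
    rw [h]
    rcases List.mem_cons.1 hq with rfl | h1
    · exact min_le_left _ _
    · exact (min_le_right _ _).trans (ih h1)

theorem le_mE (D : X → ℕ) (b : ℕ) (Q : List X) (m : ℕ) (hb : m ≤ b) (h : ∀ q ∈ Q, m ≤ D q) :
    m ≤ mE D b Q := by
  induction Q with
  | nil => simpa only [mE, List.foldr_nil] using hb
  | cons a Q ih =>
    have h1 : mE D b (a :: Q) = min (D a) (mE D b Q) := rfl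
    rw [h1]
    exact le_min (h a (List.mem_cons_self)) (ih (fun q hq => h q (List.mem_cons_of_mem _ hq)))

/-- Either the cap is attained or some element of `Q` attains the value. -/
theorem mE_eq_or (D : X → ℕ) (b : ℕ) (Q : List X) :
    mE D b Q = b ∨ ∃ q ∈ Q, mE D b Q = D q := by
  induction Q with
  | nil => left; rfl
  | cons a Q ih =>
    have h1 : mE D b (a :: Q) = min (D a) (mE D b Q) := rfl
    rw [h1]
    rcases le_total (D a) (mE D b Q) with h | h
    · rw [min_eq_left h]
      exact Or.inr ⟨a, List.mem_cons_self, rfl⟩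
    · rw [min_eq_right h]
      rcases ih with h2 | ⟨q, hq, h2⟩
      · exact Or.inl h2
      · exact Or.inr ⟨q, List.mem_cons_of_mem _ hq, h2⟩

theorem countP_eq_zero_iff' (D : X → ℕ) (t : ℕ) (Q : List X) :
    Q.countP (fun q => decide (D q ≤ t)) = 0 ↔ ∀ q ∈ Q, t < D q := by
  rw [List.countP_eq_zero]
  simp only [decide_eq_true_eq, not_le]

theorem mE_succ (D : X → ℕ) (b : ℕ) (Q : List X) :
    mE D (b + 1) Q = mE D b Q + if Q.countP (fun q => decide (D q ≤ b)) = 0 then 1 else 0 := by
  by_cases h : Q.countP (fun q => decide (D q ≤ b)) = 0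
  · rw [if_pos h]
    rw [countP_eq_zero_iff'] at h
    have h1 : mE D (b + 1) Q = b + 1 :=
      le_antisymm (mE_le D _ Q) (le_mE D _ Q _ le_rfl (fun q hq => h q hq))
    have h2 : mE D b Q = b :=
      le_antisymm (mE_le D _ Q) (le_mE D _ Q _ le_rfl (fun q hq => (h q hq).le))
    rw [h1, h2]
  · rw [if_neg h]
    rw [countP_eq_zero_iff'] at h
    push Not at h
    obtain ⟨q, hq, hqb⟩ := h
    have h1 : mE D (b + 1) Q ≤ b := (mE_le_of_mem D _ Q q hq).trans hqb
    apply le_antisymm
    · rw [Nat.add_zero]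
      exact le_mE D b Q _ h1 (fun q hq => mE_le_of_mem D _ Q q hq)
    · rw [Nat.add_zero]
      exact le_mE D _ Q _ ((mE_le D b Q).trans (Nat.le_succ b))
        (fun q hq => mE_le_of_mem D _ Q q hq)

theorem mE_zero (D : X → ℕ) (Q : List X) : mE D 0 Q = 0 := Nat.le_zero.1 (mE_le D 0 Q)

theorem potE_succ (D : X → ℕ) (b : ℕ) (Q : List X) :
    potE D (b + 1) Q = potE D b Q + phi (Q.countP (fun q => decide (D q ≤ b))) := by
  unfold potE
  rw [List.range_succ, List.map_append, List.sum_append]
  simp only [List.map_cons, List.map_nil, List.sum_cons, List.sum_nil, add_zero, Nat.add_left_cancel_iff]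

theorem sum_map_add' {α : Type} (l : List α) (f g : α → ℤ) :
    (l.map (fun x => f x + g x)).sum = (l.map f).sum + (l.map g).sum := by
  induction l with
  | nil => simp
  | cons a l ih => simp only [List.map_cons, List.sum_cons, ih]; ring

theorem potE_ineq (D : X → ℕ) (Q O : List X) (h : Q.length = O.length) (b : ℕ) :
    ((swaps Q O).map (fun Q' => (potE D b Q' : ℤ))).sum + 5 * (mE D b Q : ℤ)
      ≤ Q.length * (potE D b Q : ℤ) + 2 * b + 3 * (mE D b O : ℤ) := by
  induction b with
  | zero =>
    simp only [potE, List.range_zero, List.map_nil, List.sum_nil, CharP.cast_eq_zero, List.map_const', List.sum_replicate, nsmul_zero, mE_zero, mul_zero, add_zero, Std.le_refl]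
  | succ b ih =>
    obtain ⟨u, v, c, w, h1, h2, h3, h4, h5⟩ := sum_swaps (fun q => decide (D q ≤ b)) Q O h
    have h6 := h5 (fun n => (phi (n - 1) : ℤ))
    beta_reduce at h6
    have h7 : ((swaps Q O).map (fun Q' => (potE D (b + 1) Q' : ℤ))).sum
        = ((swaps Q O).map (fun Q' => (potE D b Q' : ℤ))).sum
          + (u * (phi (u + c - 1) : ℤ) + v * (phi (u + c + 1) : ℤ) + w * (phi (u + c) : ℤ)) := by
      have e : (fun Q' : List X => (potE D (b + 1) Q' : ℤ)) = fun Q' => (potE D b Q' : ℤ)
          + (phi (Q'.countP (fun q => decide (D q ≤ b)) + 1 - 1) : ℤ) := by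
        funext Q'
        rw [potE_succ]; push_cast; simp only
      rw [e, sum_map_add', h6]
      have e1 : u + c + 2 - 1 = u + c + 1 := by (clear * - h1 h2; omega)
      have e2 : u + c + 1 - 1 = u + c := by (clear * - h1 h2 e1; omega)
      rw [e1, e2]
    have h8 := phi_ineq u v c w
    rw [h7, mE_succ, mE_succ, potE_succ, h1, h2]
    push_cast
    have h9 : (Q.length : ℤ) = u + v + w := by rw [← h3]; push_cast; ring
    rw [h9] at ih ⊢
    linarith

theorem card_mul_le_sum (l : List (List X)) (f : List X → ℤ) (a : ℤ) (h : ∀ x ∈ l, a ≤ f x) :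
    (l.length : ℤ) * a ≤ (l.map f).sum := by
  induction l with
  | nil => simp
  | cons x l ih =>
    simp only [List.map_cons, List.sum_cons, List.length_cons]
    have h1 := h x List.mem_cons_self
    have h2 := ih (fun y hy => h y (List.mem_cons_of_mem _ hy))
    push_cast
    linarith only [h1, h2]

theorem pot_cons {ι : Type} (D : ι → X → ℕ) (b : ι → ℕ) (e : ι) (E : List ι) (Q : List X) :
    pot D b (e :: E) Q = potE (D e) (b e) Q + pot D b E Q := by
  simp [pot]

theorem pot_ineq {ι : Type} (D : ι → X → ℕ) (b : ι → ℕ) (E : List ι) (Q O : List X)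
    (h : Q.length = O.length) :
    ((swaps Q O).map (fun Q' => (pot D b E Q' : ℤ))).sum
        + 5 * ((E.map (fun e => mE (D e) (b e) Q)).sum : ℕ)
      ≤ Q.length * (pot D b E Q : ℤ) + 2 * ((E.map b).sum : ℕ)
        + 3 * ((E.map (fun e => mE (D e) (b e) O)).sum : ℕ) := by
  induction E with
  | nil => simp [pot]
  | cons e E ih =>
    have h1 := potE_ineq (D e) Q O h (b e)
    have e1 : (fun Q' : List X => (pot D b (e :: E) Q' : ℤ)) = fun Q' =>
        (potE (D e) (b e) Q' : ℤ) + (pot D b E Q' : ℤ) := by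
      funext Q'
      rw [pot_cons]; push_cast; rfl
    rw [e1, sum_map_add', pot_cons]
    simp only [List.map_cons, List.sum_cons]
    push_cast
    push_cast at ih
    linarith

/-- **Lemma LS**: a local optimum of the potential over the product of the parts. -/
theorem local_opt_ineq {ι : Type} (D : ι → X → ℕ) (b : ι → ℕ) (E : List ι)
    (parts : List (List X)) (Q O : List X) (hQ : Trans parts Q) (hO : Trans parts O)
    (hopt : ∀ Q' ∈ moves parts Q, pot D b E Q ≤ pot D b E Q') :
    5 * (E.map (fun e => mE (D e) (b e) Q)).sum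
      ≤ 2 * (E.map b).sum + 3 * (E.map (fun e => mE (D e) (b e) O)).sum := by
  have hl : Q.length = O.length := by rw [hQ.length_eq, hO.length_eq]
  have h1 := pot_ineq D b E Q O hl
  have h2 := card_mul_le_sum (swaps Q O) (fun Q' => (pot D b E Q' : ℤ)) (pot D b E Q : ℤ)
    (fun Q' hQ' => by
      exact_mod_cast hopt Q' (swaps_subset_moves parts Q O hQ hO Q' hQ'))
  rw [swaps_length Q O hl] at h2
  have h3 : (5 : ℤ) * ((E.map (fun e => mE (D e) (b e) Q)).sum : ℕ)
      ≤ 2 * ((E.map b).sum : ℕ) + 3 * ((E.map (fun e => mE (D e) (b e) O)).sum : ℕ) := by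
    linarith only [h1, h2]
  exact_mod_cast h3

/-- **Lemma LS** for the result of the local search. -/
theorem lsearch_ineq {ι : Type} (D : ι → X → ℕ) (b : ι → ℕ) (E : List ι)
    (parts : List (List X)) (Q O : List X) (hQ : Trans parts Q) (hO : Trans parts O) :
    5 * (E.map (fun e => mE (D e) (b e) (lsearch D b E parts Q))).sum
      ≤ 2 * (E.map b).sum + 3 * (E.map (fun e => mE (D e) (b e) O)).sum :=
  local_opt_ineq D b E parts _ O (lsearch_trans D b E parts Q hQ) hO
    (lsearch_opt D b E parts Q)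

theorem lsearch_length {ι : Type} (D : ι → X → ℕ) (b : ι → ℕ) (E : List ι)
    (parts : List (List X)) (Q : List X) (hQ : Trans parts Q) :
    (lsearch D b E parts Q).length = parts.length :=
  (lsearch_trans D b E parts Q hQ).length_eq

/-! ### A starting transversal -/

/-- The first elements of the parts. -/
def heads [Inhabited X] (parts : List (List X)) : List X := parts.map (fun P => P.headI)

theorem heads_trans [Inhabited X] (parts : List (List X)) (h : ∀ P ∈ parts, P ≠ []) :
    Trans parts (heads parts) := by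
  induction parts with
  | nil => exact List.Forall₂.nil
  | cons P parts ih =>
    refine List.Forall₂.cons ?_ (ih (fun P hP => h P (List.mem_cons_of_mem _ hP)))
    have := h P List.mem_cons_self
    cases P with
    | nil => exact absurd rfl this
    | cons a P => simp [List.headI]

theorem Trans.subset {parts : List (List X)} {Q : List X} (h : Trans parts Q) {F : List X}
    (hF : ∀ P ∈ parts, ∀ x ∈ P, x ∈ F) : ∀ q ∈ Q, q ∈ F := by
  induction h with
  | nil => intro q hq; simp at hq
  | @cons q P Q parts hq hQ ih =>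
    intro x hx
    rcases List.mem_cons.1 hx with rfl | hx
    · exact hF P List.mem_cons_self _ hq
    · exact ih (fun P hP => hF P (List.mem_cons_of_mem _ hP)) x hx

end

end Vale.Agent.P334.Alg
end

section

/-!
The structure theorem for stable instances (note 5300, 2.1): near a swap-optimal solution with few
additional centers there is a near optimal solution that differs from it in few centers only.
-/

namespace Vale.Agent.P334.Alg

open Finset

variable {X : Type} [MetricSpace X]

/-- The distance to a finite nonempty set is attained. -/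
lemma exists_nearest {S : Finset X} (hS : S.Nonempty) (j : X) :
    ∃ s ∈ S, Metric.infDist j (S : Set X) = dist j s := by
  obtain ⟨s, hs, h⟩ := S.exists_min_image (fun s => dist j s) hS
  refine ⟨s, hs, le_antisymm (Metric.infDist_le_dist_of_mem (by exact_mod_cast hs)) ?_⟩
  rw [Metric.le_infDist ⟨s, by exact_mod_cast hs⟩]
  intro t ht
  exact h t (by exact_mod_cast ht)

lemma infDist_le {S : Finset X} {s : X} (hs : s ∈ S) (j : X) :
    Metric.infDist j (S : Set X) ≤ dist j s :=
  Metric.infDist_le_dist_of_mem (by exact_mod_cast hs)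

lemma opt_le_cost (J : Finset X) {F : Finset X} {k : ℕ} {S : Finset X} (h1 : S ⊆ F)
    (h2 : S.Nonempty) (h3 : S.card ≤ k) : opt J F k ≤ cost J S := by
  apply csInf_le
  · refine ⟨0, ?_⟩
    rintro c ⟨T, _, _, _, rfl⟩
    exact Finset.sum_nonneg (fun _ _ => Metric.infDist_nonneg)
  · exact ⟨S, h1, h2, h3, rfl⟩

/-- The optimum is attained. -/
lemma exists_opt (J : Finset X) {F : Finset X} (hF : F.Nonempty) {k : ℕ} (hk : 1 ≤ k) :
    ∃ O : Finset X, O ⊆ F ∧ O.Nonempty ∧ O.card ≤ k ∧ opt J F k = cost J O := by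
  classical
  obtain ⟨i, hi⟩ := hF
  obtain ⟨O, hO, h⟩ := (F.powerset.filter fun S => S.Nonempty ∧ S.card ≤ k).exists_min_image
    (fun S => cost J S) ⟨{i}, by
      rw [Finset.mem_filter, Finset.mem_powerset]
      exact ⟨Finset.singleton_subset_iff.2 hi, Finset.singleton_nonempty i,
        by rw [Finset.card_singleton]; exact hk⟩⟩
  rw [Finset.mem_filter, Finset.mem_powerset] at hO
  refine ⟨O, hO.1, hO.2.1, hO.2.2, le_antisymm (opt_le_cost J hO.1 hO.2.1 hO.2.2) ?_⟩
  apply le_csInf
  · exact ⟨_, O, hO.1, hO.2.1, hO.2.2, rfl⟩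
  · rintro c ⟨T, h1, h2, h3, rfl⟩
    exact h T (by rw [Finset.mem_filter, Finset.mem_powerset]; exact ⟨h1, h2, h3⟩)

/-- Structure theorem for stable instances. -/
theorem structure_stable [DecidableEq X] {J F S : Finset X} {k m : ℕ} {β B η : ℝ} (hk : 2 ≤ k)
    (hβ : 0 < β) (hη : 0 < η) (hη8 : η ≤ 1 / 8) (hF : F.Nonempty) (hopt : 0 < opt J F k)
    (hstab : (1 + β) * opt J F k ≤ opt J F (k - 1)) (hSF : S ⊆ F) (hS : S.Nonempty)
    (hcost : cost J S ≤ B * opt J F k) (hcard : S.card ≤ k + m)
    (hloc : ∀ s ∈ S, ∀ i ∈ F, cost J S ≤ cost J (insert i (S.erase s))) :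
    ∃ T : Finset X, T ⊆ F ∧ T.Nonempty ∧ T.card ≤ k ∧
      cost J T ≤ (1 + 16 * η + 4 * η * B) * opt J F k ∧
      ((T \ S).card : ℝ) ≤ m + 2 * ((1 + B) / (η * β)) ∧
      ((S \ T).card : ℝ) ≤ 2 * m + 2 * ((1 + B) / (η * β)) := by
  obtain ⟨O, hOF, hOne, hOk, hOopt⟩ := exists_opt J hF (k := k) (by omega)
  set P := opt J F k with hP
  -- `O` has exactly `k` elements
  have hOcard : O.card = k := by
    by_contra h
    have h1 : opt J F (k - 1) ≤ cost J O := opt_le_cost J hOF hOne (by omega)
    rw [← hOopt] at h1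
    nlinarith only [hstab, h1, hβ, hopt]
  choose ω hωm hωd using exists_nearest hOne
  choose σ hσm hσd using exists_nearest hS
  have hers : ∀ o ∈ O, (O.erase o).Nonempty := by
    intro o ho
    rw [← Finset.card_pos, Finset.card_erase_of_mem ho]
    omega
  set D : X → ℝ := fun o => Metric.infDist o (O.erase o : Finset X) with hD
  set C : X → Finset X := fun o => J.filter fun j => ω j = o with hC
  have hDle : ∀ o o', o' ∈ O → o' ≠ o → D o ≤ dist o o' := by
    intro o o' ho' hne
    exact infDist_le (Finset.mem_erase.2 ⟨hne, ho'⟩) o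
  -- deleting a center
  have hdel : ∀ o ∈ O, β * P ≤ (C o).card * D o := by
    intro o ho
    have h1 : opt J F (k - 1) ≤ cost J (O.erase o) := by
      refine opt_le_cost J ((Finset.erase_subset _ _).trans hOF) (hers o ho) ?_
      rw [Finset.card_erase_of_mem ho]
      omega
    have h2 : cost J (O.erase o) ≤ cost J O + (C o).card * D o := by
      unfold cost
      have h3 : ((C o).card : ℝ) * D o = ∑ j ∈ J, if ω j = o then D o else 0 := by
        rw [Finset.sum_ite, Finset.sum_const_zero, add_zero, Finset.sum_const, nsmul_eq_mul]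
      rw [h3, ← Finset.sum_add_distrib]
      refine Finset.sum_le_sum fun j _ => ?_
      by_cases hj : ω j = o
      · rw [if_pos hj, hωd j, hj]
        have := Metric.infDist_le_infDist_add_dist (s := ((O.erase o : Finset X) : Set X))
          (x := j) (y := o)
        rw [add_comm] at this
        exact this
      · rw [if_neg hj, add_zero, hωd j]
        exact infDist_le (Finset.mem_erase.2 ⟨hj, hωm j⟩) j
    rw [← hOopt] at h2
    linarith only [hstab, h1, h2]
  have hDpos : ∀ o ∈ O, 0 < D o := by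
    intro o ho
    have h1 := hdel o ho
    have h2 : 0 < β * P := mul_pos hβ hopt
    by_contra h
    push Not at h
    have h3 : ((C o).card : ℝ) * D o ≤ 0 :=
      mul_nonpos_of_nonneg_of_nonpos (Nat.cast_nonneg _) h
    linarith only [h1, h2, h3]
  -- sums over clusters
  have hfib : ∀ f : X → ℝ, ∑ o ∈ O, ∑ j ∈ C o, f j = ∑ j ∈ J, f j := fun f =>
    Finset.sum_fiberwise_of_maps_to (fun j _ => hωm j) f
  have hfibS : ∀ f : X → ℝ, ∑ s ∈ S, ∑ j ∈ J.filter (fun j => σ j = s), f j = ∑ j ∈ J, f j :=
    fun f => Finset.sum_fiberwise_of_maps_to (fun j _ => hσm j) f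
  -- centers far from `S`
  set U := O.filter fun o => η * D o < Metric.infDist o (S : Set X) with hU
  have hUcard : (U.card : ℝ) ≤ (1 + B) / (η * β) := by
    rw [le_div_iff₀ (mul_pos hη hβ)]
    have h1 : ∀ o ∈ U, η * β * P ≤ ∑ j ∈ C o, (Metric.infDist j (S : Set X)
        + Metric.infDist j (O : Set X)) := by
      intro o ho
      rw [hU, Finset.mem_filter] at ho
      have h2 := hdel o ho.1
      calc η * β * P = η * (β * P) := by ring
        _ ≤ η * ((C o).card * D o) := by
            exact mul_le_mul_of_nonneg_left h2 hη.le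
        _ = ∑ j ∈ C o, η * D o := by rw [Finset.sum_const, nsmul_eq_mul]; ring
        _ ≤ _ := by
            refine Finset.sum_le_sum fun j hj => ?_
            have hj' : ω j = o := (Finset.mem_filter.1 hj).2
            have h3 := Metric.infDist_le_infDist_add_dist (s := (S : Set X)) (x := o) (y := j)
            rw [hωd j, hj', dist_comm j o]
            linarith only [ho, h3]
    have h2 : (U.card : ℝ) * (η * β * P) ≤ cost J S + cost J O := by
      calc (U.card : ℝ) * (η * β * P) = ∑ o ∈ U, η * β * P := by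
            rw [Finset.sum_const, nsmul_eq_mul]
        _ ≤ ∑ o ∈ U, ∑ j ∈ C o, (Metric.infDist j (S : Set X)
              + Metric.infDist j (O : Set X)) := Finset.sum_le_sum h1
        _ ≤ ∑ o ∈ O, ∑ j ∈ C o, (Metric.infDist j (S : Set X)
              + Metric.infDist j (O : Set X)) := by
            refine Finset.sum_le_sum_of_subset_of_nonneg (Finset.filter_subset _ _) ?_
            intro o _ _
            exact Finset.sum_nonneg fun j _ => add_nonneg Metric.infDist_nonneg
              Metric.infDist_nonneg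
        _ = cost J S + cost J O := by
            rw [hfib, Finset.sum_add_distrib]
            rfl
    rw [← hOopt] at h2
    have h3 : (U.card : ℝ) * (η * β) * P ≤ (1 + B) * P := by nlinarith only [hcost, h2]
    exact le_of_mul_le_mul_right h3 hopt
  -- centers of `S` in the balls
  set Sb : X → Finset X := fun o => S.filter fun s => dist s o ≤ D o / 4 with hSb
  have hdisj : ∀ o ∈ O, ∀ o' ∈ O, o ≠ o' → Disjoint (Sb o) (Sb o') := by
    intro o ho o' ho' hne
    rw [Finset.disjoint_left]
    intro s hs hs'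
    have h1 := (Finset.mem_filter.1 hs).2
    have h2 := (Finset.mem_filter.1 hs').2
    have h3 := hDle o o' ho' hne.symm
    have h4 := hDle o' o ho hne
    have h5 := dist_triangle o s o'
    have h6 := hDpos o ho
    have h7 := hDpos o' ho'
    rw [dist_comm o s] at h5
    rw [dist_comm o' o] at h4
    linarith only [h1, h2, h3, h4, h5, h6]
  have hσball : ∀ o ∈ O, o ∉ U → dist (σ o) o ≤ η * D o := by
    intro o ho hoU
    rw [hU, Finset.mem_filter, not_and, not_lt] at hoU
    have := hoU ho
    rwa [hσd o, dist_comm] at this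
  have hσSb : ∀ o ∈ O, o ∉ U → σ o ∈ Sb o := by
    intro o ho hoU
    rw [hSb, Finset.mem_filter]
    refine ⟨hσm o, (hσball o ho hoU).trans ?_⟩
    have := hDpos o ho
    nlinarith only [this, hη8]
  set O1 := O.filter fun o => o ∉ U ∧ (Sb o).card = 1 with hO1
  set O2 := O.filter fun o => ¬ (o ∉ U ∧ (Sb o).card = 1) with hO2
  have hO12 : O1.card + O2.card = k := by
    rw [← hOcard]
    exact Finset.card_filter_add_card_filter_not _
  have hO1O : ∀ o ∈ O1, o ∈ O := fun o ho => (Finset.mem_filter.1 ho).1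
  have hO1U : ∀ o ∈ O1, o ∉ U := fun o ho => (Finset.mem_filter.1 ho).2.1
  have hinj : Set.InjOn σ (O1 : Set X) := by
    intro o ho o' ho' he
    have ho := Finset.mem_coe.1 ho
    have ho' := Finset.mem_coe.1 ho'
    by_contra hne
    have h1 := hdisj o (hO1O o ho) o' (hO1O o' ho') hne
    rw [Finset.disjoint_left] at h1
    exact h1 (hσSb o (hO1O o ho) (hO1U o ho))
      (he ▸ hσSb o' (hO1O o' ho') (hO1U o' ho'))
  -- counting
  have hO2card : O2.card ≤ m + 2 * U.card := by
    set O3 := O2.filter fun o => o ∉ U with hO3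
    have h1 : O2.card ≤ U.card + O3.card := by
      have : O2 ⊆ U ∪ O3 := by
        intro o ho
        by_cases h : o ∈ U
        · exact Finset.mem_union_left _ h
        · exact Finset.mem_union_right _ (Finset.mem_filter.2 ⟨ho, h⟩)
      exact (Finset.card_le_card this).trans (Finset.card_union_le _ _)
    have h2 : O1.card + 2 * O3.card ≤ S.card := by
      have hd : Disjoint O1 O3 := by
        rw [Finset.disjoint_left]
        intro o h1 h3
        have h4 := (Finset.mem_filter.1 h3).1
        exact (Finset.mem_filter.1 h4).2 (Finset.mem_filter.1 h1).2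
      have h3 : ((O1 ∪ O3).biUnion Sb).card = ∑ o ∈ O1 ∪ O3, (Sb o).card := by
        refine Finset.card_biUnion ?_
        intro o ho o' ho' hne
        have hsub : O1 ∪ O3 ⊆ O := by
          refine Finset.union_subset (Finset.filter_subset _ _) ?_
          exact (Finset.filter_subset _ _).trans (Finset.filter_subset _ _)
        exact hdisj o (hsub ho) o' (hsub ho') hne
      have h4 : ((O1 ∪ O3).biUnion Sb).card ≤ S.card := by
        refine Finset.card_le_card ?_
        rw [Finset.biUnion_subset]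
        intro o _
        exact Finset.filter_subset _ _
      rw [h3, Finset.sum_union hd] at h4
      have h5 : O1.card * 1 ≤ ∑ o ∈ O1, (Sb o).card := by
        rw [← smul_eq_mul]
        exact Finset.card_nsmul_le_sum _ _ _ fun o ho => ((Finset.mem_filter.1 ho).2.2).ge
      have h6 : O3.card * 2 ≤ ∑ o ∈ O3, (Sb o).card := by
        rw [← smul_eq_mul]
        refine Finset.card_nsmul_le_sum _ _ _ fun o ho => ?_
        have h7 := Finset.mem_filter.1 ho
        have h8 := Finset.mem_filter.1 h7.1
        have h9 : 0 < (Sb o).card := Finset.card_pos.2 ⟨_, hσSb o h8.1 h7.2⟩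
        have h10 : (Sb o).card ≠ 1 := fun h => h8.2 ⟨h7.2, h⟩
        omega
      omega
    have h3 : O2.card ≤ O3.card + U.card := by omega
    omega
  -- the solution
  set T := O1.image σ ∪ O2 with hT
  have hO1T : ∀ o ∈ O1, σ o ∈ T := fun o ho =>
    Finset.mem_union_left _ (Finset.mem_image_of_mem _ ho)
  have hO2T : ∀ o ∈ O2, o ∈ T := fun o ho => Finset.mem_union_right _ ho
  have hdich : ∀ o ∈ O, o ∈ O1 ∨ o ∈ O2 := by
    intro o ho
    by_cases h : o ∉ U ∧ (Sb o).card = 1
    · exact Or.inl (Finset.mem_filter.2 ⟨ho, h⟩)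
    · exact Or.inr (Finset.mem_filter.2 ⟨ho, h⟩)
  have hUreal : (O2.card : ℝ) ≤ m + 2 * U.card := by exact_mod_cast hO2card
  refine ⟨T, ?_, ?_, ?_, ?_, ?_, ?_⟩
  · refine Finset.union_subset ?_ ((Finset.filter_subset _ _).trans hOF)
    intro s hs
    obtain ⟨o, _, rfl⟩ := Finset.mem_image.1 hs
    exact hSF (hσm o)
  · obtain ⟨o, ho⟩ := hOne
    rcases hdich o ho with h | h
    · exact ⟨_, hO1T o h⟩
    · exact ⟨_, hO2T o h⟩
  · calc T.card ≤ (O1.image σ).card + O2.card := Finset.card_union_le _ _
      _ ≤ O1.card + O2.card := Nat.add_le_add_right Finset.card_image_le _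
      _ = k := hO12
  · -- the cost
    -- clients of good centers served by another center of `S`
    have hfar : ∀ o ∈ O1, ∀ j, ω j = o → σ j ≠ σ o →
        dist j (σ o) ≤ (1 + 16 * η) * dist j o := by
      intro o ho j hj hne
      have h1 : σ j ∉ Sb o := by
        intro h
        have h2 := (Finset.mem_filter.1 ho).2.2
        rw [Finset.card_eq_one] at h2
        obtain ⟨a, ha⟩ := h2
        have h3 := hσSb o (hO1O o ho) (hO1U o ho)
        rw [ha, Finset.mem_singleton] at h h3
        exact hne (h.trans h3.symm)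
      have h2 : D o / 4 < dist (σ j) o := by
        by_contra h
        push Not at h
        exact h1 (Finset.mem_filter.2 ⟨hσm j, h⟩)
      have h3 := hσball o (hO1O o ho) (hO1U o ho)
      have h4 : dist j (σ j) ≤ dist j (σ o) := by
        rw [← hσd j]
        exact infDist_le (hσm o) j
      have h5 := dist_triangle j o (σ o)
      have h6 := dist_triangle (σ j) j o
      rw [dist_comm o (σ o)] at h5
      rw [dist_comm (σ j) j] at h6
      have h7 := hDpos o (hO1O o ho)
      have h8 : D o / 16 ≤ dist j o := by nlinarith only [h3, h4, h5, h6, h2, hη8, h7]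
      nlinarith only [h3, h5, hη, h8]
    -- clients of good centers served by the close center of `S`
    have hnear : ∀ o ∈ O1,
        ∑ j ∈ J.filter (fun j => ω j = o ∧ σ j = σ o), dist j (σ o) ≤
        ∑ j ∈ J.filter (fun j => ω j = o ∧ σ j = σ o), dist j o +
          4 * η * ∑ j ∈ J.filter (fun j => σ j = σ o), Metric.infDist j (S : Set X) := by
      intro o ho
      have hoO := hO1O o ho
      have h1 := hloc (σ o) (hσm o) o (hOF hoO)
      have h2 : cost J (insert o (S.erase (σ o))) ≤
          ∑ j ∈ J.filter (fun j => σ j = σ o), dist j o +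
          ∑ j ∈ J.filter (fun j => ¬ σ j = σ o), Metric.infDist j (S : Set X) := by
        unfold cost
        rw [← Finset.sum_filter_add_sum_filter_not J (fun j => σ j = σ o)]
        refine add_le_add (Finset.sum_le_sum fun j _ => ?_) (Finset.sum_le_sum fun j hj => ?_)
        · exact infDist_le (Finset.mem_insert_self _ _) j
        · rw [hσd j]
          exact infDist_le (Finset.mem_insert_of_mem (Finset.mem_erase.2
            ⟨(Finset.mem_filter.1 hj).2, hσm j⟩)) j
      have h3 : cost J S = ∑ j ∈ J.filter (fun j => σ j = σ o), Metric.infDist j (S : Set X) +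
          ∑ j ∈ J.filter (fun j => ¬ σ j = σ o), Metric.infDist j (S : Set X) := by
        unfold cost
        rw [Finset.sum_filter_add_sum_filter_not J (fun j => σ j = σ o)]
      have h4 : ∑ j ∈ J.filter (fun j => σ j = σ o), Metric.infDist j (S : Set X) ≤
          ∑ j ∈ J.filter (fun j => σ j = σ o), dist j o := by linarith only [h1, h2, h3]
      -- split both sums according to `ω`
      have hsplit : ∀ f : X → ℝ, ∑ j ∈ J.filter (fun j => σ j = σ o), f j =
          ∑ j ∈ J.filter (fun j => ω j = o ∧ σ j = σ o), f j +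
          ∑ j ∈ J.filter (fun j => ¬ ω j = o ∧ σ j = σ o), f j := by
        intro f
        rw [← Finset.sum_filter_add_sum_filter_not (J.filter (fun j => σ j = σ o))
          (fun j => ω j = o), Finset.filter_filter, Finset.filter_filter]
        congr 1
        · refine Finset.sum_congr (Finset.filter_congr fun j _ => ?_) fun _ _ => rfl
          exact and_comm
        · refine Finset.sum_congr (Finset.filter_congr fun j _ => ?_) fun _ _ => rfl
          exact and_comm
      have h5 : ∑ j ∈ J.filter (fun j => ω j = o ∧ σ j = σ o), Metric.infDist j (S : Set X) =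
          ∑ j ∈ J.filter (fun j => ω j = o ∧ σ j = σ o), dist j (σ o) := by
        refine Finset.sum_congr rfl fun j hj => ?_
        rw [hσd j, (Finset.mem_filter.1 hj).2.2]
      have h6 : ∑ j ∈ J.filter (fun j => ¬ ω j = o ∧ σ j = σ o), dist j o ≤
          ∑ j ∈ J.filter (fun j => ¬ ω j = o ∧ σ j = σ o),
            (1 + 4 * η) * Metric.infDist j (S : Set X) := by
        refine Finset.sum_le_sum fun j hj => ?_
        have hj' := (Finset.mem_filter.1 hj).2
        rw [hσd j, hj'.2]
        have e1 := hσball o hoO (hO1U o ho)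
        have e2 : D o ≤ dist o (ω j) := hDle o (ω j) (hωm j) hj'.1
        have e3 := dist_triangle o j (ω j)
        have e4 : dist j (ω j) ≤ dist j o := by
          rw [← hωd j]
          exact infDist_le hoO j
        have e5 := dist_triangle j (σ o) o
        have e6 := hDpos o hoO
        rw [dist_comm o j] at e3
        have e7 : D o / 4 ≤ dist j (σ o) := by nlinarith only [e1, e2, e3, e4, e5, e6, hη8]
        nlinarith only [e1, e5, hη, e7]
      have h7 : ∑ j ∈ J.filter (fun j => ¬ ω j = o ∧ σ j = σ o), Metric.infDist j (S : Set X) ≤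
          ∑ j ∈ J.filter (fun j => σ j = σ o), Metric.infDist j (S : Set X) := by
        refine Finset.sum_le_sum_of_subset_of_nonneg ?_ fun _ _ _ => Metric.infDist_nonneg
        intro j hj
        rw [Finset.mem_filter] at hj ⊢
        exact ⟨hj.1, hj.2.2⟩
      rw [← Finset.mul_sum] at h6
      have h8 := hsplit fun j => Metric.infDist j (S : Set X)
      have h9 := hsplit fun j => dist j o
      have h10 : 4 * η * ∑ j ∈ J.filter (fun j => ¬ ω j = o ∧ σ j = σ o),
          Metric.infDist j (S : Set X) ≤ 4 * η * ∑ j ∈ J.filter (fun j => σ j = σ o),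
          Metric.infDist j (S : Set X) := mul_le_mul_of_nonneg_left h7 (by positivity)
      linarith only [h1, h2, h3, h5, h6, h8, h9, h10]
    have hmain : ∀ o ∈ O, ∑ j ∈ C o, Metric.infDist j (T : Set X) ≤
        ∑ j ∈ C o, (1 + 16 * η) * Metric.infDist j (O : Set X) +
          (if o ∈ O1 then 4 * η * ∑ j ∈ J.filter (fun j => σ j = σ o),
            Metric.infDist j (S : Set X) else 0) := by
      intro o ho
      by_cases h : o ∈ O1
      · rw [if_pos h]
        rw [← Finset.sum_filter_add_sum_filter_not (C o) (fun j => σ j = σ o)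
          (fun j => Metric.infDist j (T : Set X)),
          ← Finset.sum_filter_add_sum_filter_not (C o) (fun j => σ j = σ o)
          (fun j => (1 + 16 * η) * Metric.infDist j (O : Set X))]
        have h1 : ∑ j ∈ (C o).filter (fun j => σ j = σ o), Metric.infDist j (T : Set X) ≤
            ∑ j ∈ (C o).filter (fun j => σ j = σ o), (1 + 16 * η) * Metric.infDist j (O : Set X) +
            4 * η * ∑ j ∈ J.filter (fun j => σ j = σ o), Metric.infDist j (S : Set X) := by
          have e0 : (C o).filter (fun j => σ j = σ o) =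
              J.filter (fun j => ω j = o ∧ σ j = σ o) := by
            rw [hC, Finset.filter_filter]
          rw [e0]
          have e1 := hnear o h
          have e2 : ∑ j ∈ J.filter (fun j => ω j = o ∧ σ j = σ o),
              Metric.infDist j (T : Set X) ≤
              ∑ j ∈ J.filter (fun j => ω j = o ∧ σ j = σ o), dist j (σ o) :=
            Finset.sum_le_sum fun j _ => infDist_le (hO1T o h) j
          have e3 : ∑ j ∈ J.filter (fun j => ω j = o ∧ σ j = σ o), dist j o ≤
              ∑ j ∈ J.filter (fun j => ω j = o ∧ σ j = σ o),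
                (1 + 16 * η) * Metric.infDist j (O : Set X) := by
            refine Finset.sum_le_sum fun j hj => ?_
            rw [hωd j, (Finset.mem_filter.1 hj).2.1]
            have := dist_nonneg (x := j) (y := o)
            nlinarith only [hη, this]
          linarith only [e1, e2, e3]
        have h2 : ∑ j ∈ (C o).filter (fun j => ¬ σ j = σ o), Metric.infDist j (T : Set X) ≤
            ∑ j ∈ (C o).filter (fun j => ¬ σ j = σ o),
              (1 + 16 * η) * Metric.infDist j (O : Set X) := by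
          refine Finset.sum_le_sum fun j hj => ?_
          rw [Finset.mem_filter] at hj
          have hj' : ω j = o := (Finset.mem_filter.1 hj.1).2
          rw [hωd j, hj']
          exact (infDist_le (hO1T o h) j).trans (hfar o h j hj' hj.2)
        linarith only [h1, h2]
      · rw [if_neg h, add_zero]
        refine Finset.sum_le_sum fun j hj => ?_
        have hj' : ω j = o := (Finset.mem_filter.1 hj).2
        have h1 : o ∈ O2 := (hdich o ho).resolve_left h
        rw [hωd j, hj']
        refine (infDist_le (hO2T o h1) j).trans ?_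
        have := dist_nonneg (x := j) (y := o)
        nlinarith only [hη, this]
    have hsumS : ∑ o ∈ O1, ∑ j ∈ J.filter (fun j => σ j = σ o), Metric.infDist j (S : Set X) ≤
        cost J S := by
      have e1 : ∑ o ∈ O1, ∑ j ∈ J.filter (fun j => σ j = σ o), Metric.infDist j (S : Set X) =
          ∑ s ∈ O1.image σ, ∑ j ∈ J.filter (fun j => σ j = s), Metric.infDist j (S : Set X) := by
        rw [Finset.sum_image hinj]
      rw [e1]
      refine (Finset.sum_le_sum_of_subset_of_nonneg ?_ ?_).trans (hfibS _).le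
      · intro s hs
        obtain ⟨o, _, rfl⟩ := Finset.mem_image.1 hs
        exact hσm o
      · intro s _ _
        exact Finset.sum_nonneg fun _ _ => Metric.infDist_nonneg
    calc cost J T = ∑ o ∈ O, ∑ j ∈ C o, Metric.infDist j (T : Set X) := (hfib _).symm
      _ ≤ ∑ o ∈ O, (∑ j ∈ C o, (1 + 16 * η) * Metric.infDist j (O : Set X) +
          (if o ∈ O1 then 4 * η * ∑ j ∈ J.filter (fun j => σ j = σ o),
            Metric.infDist j (S : Set X) else 0)) := Finset.sum_le_sum hmain
      _ = (1 + 16 * η) * P + 4 * η * ∑ o ∈ O1, ∑ j ∈ J.filter (fun j => σ j = σ o),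
            Metric.infDist j (S : Set X) := by
          rw [Finset.sum_add_distrib, hfib, ← Finset.mul_sum, hOopt]
          congr 1
          rw [← Finset.sum_filter, Finset.mul_sum]
          refine Finset.sum_congr ?_ fun _ _ => rfl
          ext o
          rw [Finset.mem_filter]
          exact ⟨fun h => h.2, fun h => ⟨hO1O o h, h⟩⟩
      _ ≤ (1 + 16 * η) * P + 4 * η * (B * P) := by
          have := mul_le_mul_of_nonneg_left (hsumS.trans hcost) (by positivity : 0 ≤ 4 * η)
          linarith only [this]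
      _ = (1 + 16 * η + 4 * η * B) * P := by ring
  · have h1 : (T \ S).card ≤ O2.card := by
      refine Finset.card_le_card ?_
      intro t ht
      rw [Finset.mem_sdiff, hT, Finset.mem_union] at ht
      rcases ht.1 with h | h
      · exfalso
        obtain ⟨o, _, rfl⟩ := Finset.mem_image.1 h
        exact ht.2 (hσm o)
      · exact h
    have h2 : ((T \ S).card : ℝ) ≤ O2.card := by exact_mod_cast h1
    linarith only [hUcard, hUreal, h2]
  · have h1 : (S \ T).card + O1.card ≤ S.card := by
      rw [← Finset.card_image_of_injOn hinj, ← Finset.card_union_of_disjoint]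
      · refine Finset.card_le_card (Finset.union_subset Finset.sdiff_subset ?_)
        intro s hs
        obtain ⟨o, _, rfl⟩ := Finset.mem_image.1 hs
        exact hσm o
      · rw [Finset.disjoint_left]
        intro s hs hs'
        exact (Finset.mem_sdiff.1 hs).2 (Finset.mem_union_left _ hs')
    have h2 : (S \ T).card ≤ m + O2.card := by (clear * - hcard hOcard hO12 h1; omega)
    have h3 : ((S \ T).card : ℝ) ≤ m + O2.card := by exact_mod_cast h2
    linarith only [hUcard, hUreal, h3]

end Vale.Agent.P334.Alg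
end

section

/-!
Correctness of the swap local search and of the saturation (note 5300, 2.2).
-/

namespace Vale.Agent.P334.Alg

section Nat

variable {X : Type}

theorem mins_nil (d : X → X → ℕ) (l : ℕ) (v : X) : mins d l v [] = l := rfl

theorem mins_cons (d : X → X → ℕ) (l : ℕ) (v s : X) (S : List X) :
    mins d l v (s :: S) = min (d v s) (mins d l v S) := rfl

theorem le_mins_iff (d : X → X → ℕ) (l : ℕ) (v : X) (S : List X) (m : ℕ) :
    m ≤ mins d l v S ↔ m ≤ l ∧ ∀ s ∈ S, m ≤ d v s := by
  induction S with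
  | nil => simp only [mins_nil, List.not_mem_nil, IsEmpty.forall_iff, implies_true, and_true]
  | cons q Q ih =>
    rw [mins_cons, le_min_iff, ih]
    constructor
    · rintro ⟨h1, h2, h3⟩
      refine ⟨h2, ?_⟩
      intro r hr
      rcases List.mem_cons.1 hr with rfl | hr
      · exact h1
      · exact h3 r hr
    · rintro ⟨h1, h2⟩
      exact ⟨h2 q List.mem_cons_self, h1, fun r hr => h2 r (List.mem_cons_of_mem _ hr)⟩

theorem mins_le (d : X → X → ℕ) (l : ℕ) (v : X) (S : List X) : mins d l v S ≤ l :=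
  ((le_mins_iff d l v S _).1 le_rfl).1

theorem mins_le_of_mem (d : X → X → ℕ) (l : ℕ) (v : X) {S : List X} {s : X} (hs : s ∈ S) :
    mins d l v S ≤ d v s := ((le_mins_iff d l v S _).1 le_rfl).2 s hs

theorem mins_mono (d : X → X → ℕ) (l : ℕ) (v : X) {S T : List X} (h : S ⊆ T) :
    mins d l v T ≤ mins d l v S :=
  (le_mins_iff d l v S _).2 ⟨mins_le d l v T, fun _ hs => mins_le_of_mem d l v (h hs)⟩

theorem mins_congr (d : X → X → ℕ) (l : ℕ) (v : X) {S T : List X} (h : ∀ x, x ∈ S ↔ x ∈ T) :
    mins d l v S = mins d l v T :=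
  le_antisymm (mins_mono d l v fun x hx => (h x).2 hx) (mins_mono d l v fun x hx => (h x).1 hx)

theorem exists_mins (d : X → X → ℕ) (l : ℕ) (v : X) {S : List X} (hS : S ≠ [])
    (hl : ∀ s ∈ S, d v s ≤ l) : ∃ s ∈ S, mins d l v S = d v s := by
  induction S with
  | nil => exact absurd rfl hS
  | cons q Q ih =>
    rw [mins_cons]
    rcases Q.eq_nil_or_concat with h | _
    · subst h
      exact ⟨q, List.mem_cons_self, min_eq_left (hl q List.mem_cons_self)⟩
    · by_cases hQ : Q = []
      · subst hQ
        exact ⟨q, List.mem_cons_self, min_eq_left (hl q List.mem_cons_self)⟩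
      · obtain ⟨s, hs, h⟩ := ih hQ (fun s hs => hl s (List.mem_cons_of_mem _ hs))
        rcases le_total (d v q) (mins d l v Q) with h' | h'
        · exact ⟨q, List.mem_cons_self, min_eq_left h'⟩
        · exact ⟨s, List.mem_cons_of_mem _ hs, by rw [min_eq_right h', h]⟩

theorem cst_mono (d : X → X → ℕ) (l : ℕ) (J : List X) {S T : List X} (h : S ⊆ T) :
    cst d l J T ≤ cst d l J S :=
  List.sum_le_sum fun _ _ => mins_mono d l _ h

theorem cst_congr (d : X → X → ℕ) (l : ℕ) (J : List X) {S T : List X}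
    (h : ∀ x, x ∈ S ↔ x ∈ T) : cst d l J S = cst d l J T :=
  le_antisymm (cst_mono d l J fun x hx => (h x).2 hx) (cst_mono d l J fun x hx => (h x).1 hx)

variable [DecidableEq X]

/-! ### Swaps -/

theorem swapStep_cases (d : X → X → ℕ) (l : ℕ) (J F S : List X) :
    (swapStep d l J F S = S ∧ ∀ s ∈ S, ∀ i ∈ F, cst d l J S ≤ cst d l J (i :: S.erase s)) ∨
    (∃ s ∈ S, ∃ i ∈ F, swapStep d l J F S = i :: S.erase s ∧
      cst d l J (i :: S.erase s) < cst d l J S) := by
  unfold swapStep
  cases h : (S.flatMap (fun s => F.map (fun i => i :: S.erase s))).find?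
    (fun S' => decide (cst d l J S' < cst d l J S)) with
  | none =>
    left
    refine ⟨rfl, ?_⟩
    intro s hs i hi
    rw [List.find?_eq_none] at h
    have := h (i :: S.erase s) (List.mem_flatMap.2 ⟨s, hs, List.mem_map.2 ⟨i, hi, rfl⟩⟩)
    simpa only [ge_iff_le, decide_eq_true_eq, not_lt] using this
  | some S' =>
    right
    have h1 := List.mem_of_find?_eq_some h
    have h2 := List.find?_some h
    obtain ⟨s, hs, h3⟩ := List.mem_flatMap.1 h1
    obtain ⟨i, hi, h4⟩ := List.mem_map.1 h3
    refine ⟨s, hs, i, hi, ?_, ?_⟩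
    · rw [h4]; rfl
    · rw [h4]; simpa using h2

/-- An improving swap brings in a new facility. -/
theorem not_mem_of_swap (d : X → X → ℕ) (l : ℕ) (J : List X) {S : List X} {s i : X}
    (h : cst d l J (i :: S.erase s) < cst d l J S) : i ∉ S := by
  intro hi
  have hsub : (i :: S.erase s) ⊆ S := by
    intro x hx
    rcases List.mem_cons.1 hx with rfl | hx
    · exact hi
    · exact List.mem_of_mem_erase hx
  exact absurd (cst_mono d l J hsub) (not_le.2 h)

/-- Specification of the swap local search. -/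
theorem swapSearch_spec (d : X → X → ℕ) (l : ℕ) (J F S : List X) (hS : S.Nodup)
    (hSF : S ⊆ F) :
    (swapSearch d l J F S).Nodup ∧ swapSearch d l J F S ⊆ F ∧
    (swapSearch d l J F S).length = S.length ∧
    cst d l J (swapSearch d l J F S) ≤ cst d l J S ∧
    ∀ s ∈ swapSearch d l J F S, ∀ i ∈ F,
      cst d l J (swapSearch d l J F S) ≤ cst d l J (i :: (swapSearch d l J F S).erase s) := by
  have hfix : swapStep d l J F (swapSearch d l J F S) = swapSearch d l J F S := by
    refine iterate_fix (swapStep d l J F) (cst d l J) ?_ (cst d l J S) S le_rfl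
    intro T
    rcases swapStep_cases d l J F T with h | ⟨s, _, i, _, h1, h2⟩
    · left; exact h.1
    · right; rw [h1]; exact h2
  have hinv : ∀ n, ((swapStep d l J F)^[n] S).Nodup ∧ ((swapStep d l J F)^[n] S) ⊆ F ∧
      ((swapStep d l J F)^[n] S).length = S.length ∧
      cst d l J ((swapStep d l J F)^[n] S) ≤ cst d l J S := by
    intro n
    refine iterate_inv (swapStep d l J F)
      (fun T => T.Nodup ∧ T ⊆ F ∧ T.length = S.length ∧ cst d l J T ≤ cst d l J S) ?_ n S
      ⟨hS, hSF, rfl, le_rfl⟩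
    rintro T ⟨h1, h2, h3, h4⟩
    rcases swapStep_cases d l J F T with h | ⟨s, hs, i, hi, h5, h6⟩
    · rw [h.1]; exact ⟨h1, h2, h3, h4⟩
    · rw [h5]
      refine ⟨?_, ?_, ?_, ?_⟩
      · rw [List.nodup_cons]
        exact ⟨fun h => not_mem_of_swap d l J h6 (List.mem_of_mem_erase h), h1.erase s⟩
      · intro x hx
        rcases List.mem_cons.1 hx with rfl | hx
        · exact hi
        · exact h2 (List.mem_of_mem_erase hx)
      · rw [List.length_cons, List.length_erase_of_mem hs, ← h3]
        have : 0 < T.length := List.length_pos_of_mem hs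
        (clear * - h3 this; omega)
      · exact h6.le.trans h4
  obtain ⟨h1, h2, h3, h4⟩ := hinv (cst d l J S)
  refine ⟨h1, h2, h3, h4, ?_⟩
  rcases swapStep_cases d l J F (swapSearch d l J F S) with h | ⟨s, _, i, _, h5, h6⟩
  · exact h.2
  · exfalso
    rw [hfix] at h5
    rw [← h5] at h6
    exact lt_irrefl _ h6

/-! ### Saturation -/

theorem satStep_cases (d : X → X → ℕ) (l b : ℕ) (J F S : List X) :
    (satStep d l b J F S = S ∧
      (0 < cst d l J S → ∀ q ∈ F, b * cst d l J S < (b + 1) * cst d l J (q :: S))) ∨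
    (∃ q ∈ F, satStep d l b J F S = q :: S ∧
      (b + 1) * cst d l J (q :: S) ≤ b * cst d l J S ∧ 0 < cst d l J S) := by
  unfold satStep
  cases h : (F.map (fun q => q :: S)).find?
    (fun S' => decide ((b + 1) * cst d l J S' ≤ b * cst d l J S ∧ 0 < cst d l J S)) with
  | none =>
    left
    refine ⟨rfl, ?_⟩
    intro h0 q hq
    rw [List.find?_eq_none] at h
    have := h (q :: S) (List.mem_map.2 ⟨q, hq, rfl⟩)
    by_contra hcon
    exact this (by simpa only [Bool.decide_and, Bool.and_eq_true, decide_eq_true_eq] using ⟨not_lt.1 hcon, h0⟩)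
  | some S' =>
    right
    have h1 := List.mem_of_find?_eq_some h
    have h2 := List.find?_some h
    obtain ⟨q, hq, h4⟩ := List.mem_map.1 h1
    refine ⟨q, hq, ?_, ?_⟩
    · rw [h4]; rfl
    · rw [h4]; simpa only [Bool.decide_and, Bool.and_eq_true, decide_eq_true_eq] using h2

theorem not_mem_of_sat (d : X → X → ℕ) (l b : ℕ) (J : List X) {S : List X} {q : X}
    (h : (b + 1) * cst d l J (q :: S) ≤ b * cst d l J S) (h0 : 0 < cst d l J S) : q ∉ S := by
  intro hq
  have h1 : cst d l J (q :: S) = cst d l J S := by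
    apply cst_congr
    intro x
    rw [List.mem_cons]
    exact ⟨fun h => h.elim (fun h => h ▸ hq) id, Or.inr⟩
  rw [h1] at h
  nlinarith only [h, h0]

/-- Specification of the saturation. -/
theorem saturate_spec (d : X → X → ℕ) (l b : ℕ) (J F S : List X) (hS : S.Nodup)
    (hSF : S ⊆ F) (t : ℕ) :
    (saturate d l b J F t S).Nodup ∧ saturate d l b J F t S ⊆ F ∧
    S ⊆ saturate d l b J F t S ∧
    (saturate d l b J F t S).length ≤ S.length + t ∧
    cst d l J (saturate d l b J F t S) ≤ cst d l J S ∧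
    ((0 < cst d l J (saturate d l b J F t S) → ∀ q ∈ F,
        b * cst d l J (saturate d l b J F t S) <
          (b + 1) * cst d l J (q :: saturate d l b J F t S)) ∨
      (b + 1) ^ t * cst d l J (saturate d l b J F t S) ≤ b ^ t * cst d l J S) := by
  have hinv : ∀ n, ((satStep d l b J F)^[n] S).Nodup ∧ ((satStep d l b J F)^[n] S) ⊆ F ∧
      S ⊆ ((satStep d l b J F)^[n] S) ∧
      ((satStep d l b J F)^[n] S).length ≤ S.length + n ∧
      cst d l J ((satStep d l b J F)^[n] S) ≤ cst d l J S ∧
      ((satStep d l b J F ((satStep d l b J F)^[n] S) = (satStep d l b J F)^[n] S ∧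
        (0 < cst d l J ((satStep d l b J F)^[n] S) → ∀ q ∈ F,
        b * cst d l J ((satStep d l b J F)^[n] S) <
          (b + 1) * cst d l J (q :: (satStep d l b J F)^[n] S))) ∨
      (b + 1) ^ n * cst d l J ((satStep d l b J F)^[n] S) ≤ b ^ n * cst d l J S) := by
    intro n
    induction n with
    | zero => exact ⟨hS, hSF, fun _ h => h, le_rfl, le_rfl, Or.inr (by simp only [pow_zero, Function.iterate_zero, id_eq, one_mul, Std.le_refl])⟩
    | succ n ih =>
      rw [Function.iterate_succ_apply']
      obtain ⟨h1, h2, h3, h4, h5, h6⟩ := ih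
      set T := (satStep d l b J F)^[n] S with hT
      rcases satStep_cases d l b J F T with h | ⟨q, hq, h7, h8, h9⟩
      · rw [h.1]
        exact ⟨h1, h2, h3, h4.trans (by omega), h5, Or.inl ⟨h.1, h.2⟩⟩
      · rw [h7]
        refine ⟨?_, ?_, ?_, ?_, ?_, ?_⟩
        · rw [List.nodup_cons]
          exact ⟨not_mem_of_sat d l b J h8 h9, h1⟩
        · intro x hx
          rcases List.mem_cons.1 hx with rfl | hx
          · exact hq
          · exact h2 hx
        · exact fun x hx => List.mem_cons_of_mem _ (h3 hx)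
        · rw [List.length_cons]; omega
        · exact (cst_mono d l J (fun x hx => List.mem_cons_of_mem _ hx)).trans h5
        · right
          rcases h6 with h6 | h6
          · exfalso
            have := h6.2 h9 q hq
            omega
          · calc (b + 1) ^ (n + 1) * cst d l J (q :: T)
                = (b + 1) ^ n * ((b + 1) * cst d l J (q :: T)) := by ring
              _ ≤ (b + 1) ^ n * (b * cst d l J T) := Nat.mul_le_mul_left _ h8
              _ = b * ((b + 1) ^ n * cst d l J T) := by ring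
              _ ≤ b * (b ^ n * cst d l J S) := Nat.mul_le_mul_left _ h6
              _ = b ^ (n + 1) * cst d l J S := by ring
  obtain ⟨h1, h2, h3, h4, h5, h6⟩ := hinv t
  refine ⟨h1, h2, h3, h4, h5, ?_⟩
  rcases h6 with h6 | h6
  · left; exact h6.2
  · right; exact h6

end Nat

/-! ### Real version -/

section Real

variable {X : Type} [MetricSpace X] [DecidableEq X] {d : X → X → ℕ}
  (hd : ∀ a b, dist a b = (d a b : ℝ))

include hd

theorem mins_real {l : ℕ} {v : X} {S : List X} (hS : S ≠ []) (hl : ∀ s ∈ S, d v s ≤ l) :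
    (mins d l v S : ℝ) = Metric.infDist v (S.toFinset : Set X) := by
  obtain ⟨s, hs, h⟩ := exists_mins d l v hS hl
  have hne : (S.toFinset).Nonempty := ⟨s, List.mem_toFinset.2 hs⟩
  apply le_antisymm
  · obtain ⟨r, hr, h'⟩ := exists_nearest hne v
    rw [h', hd]
    exact_mod_cast mins_le_of_mem d l v (List.mem_toFinset.1 hr)
  · rw [h, ← hd]
    exact infDist_le (List.mem_toFinset.2 hs) v

theorem cst_real {l : ℕ} {J S : List X} (hJ : J.Nodup) (hS : S ≠ [])
    (hl : ∀ j ∈ J, ∀ s ∈ S, d j s ≤ l) :
    (cst d l J S : ℝ) = cost J.toFinset S.toFinset := by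
  unfold cst cost
  rw [Nat.cast_list_sum, List.map_map, List.sum_toFinset _ hJ]
  congr 1
  apply List.map_congr_left
  intro j hj
  exact mins_real hd hS (hl j hj)

end Real

end Vale.Agent.P334.Alg
end

section
attribute [-instance] ProperSMul.toContinuousSMul IsTopologicalTorsor.toContinuousSMul IdemSemiring.toCanonicallyOrderedAdd IdemSemiring.toMulLeftMono IdemSemiring.toMulRightMono AddQuantale.instAddLeftMono AddQuantale.instAddRightMono Quantale.instMulLeftMono Quantale.instMulRightMono FiniteDimensional.rclike_to_real IsScalarTower.complexToReal FiniteDimensional.complexToReal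

/-!
Arithmetic for the first case.
-/

namespace Vale.Agent.P334

/-- The value of the potential from the chain inequality. -/
lemma arith1_pot {L C C' CU φ z κ ε ϑ e1 δ1 : ℝ} (hL : 0 < L)
    (hκ : 0 < κ) (hκ1 : κ ≤ 1 / 1000) (h90 : 90 * ε ≤ κ / 32) (hεδ1 : 2 * ε ≤ δ1)
    (he1' : e1 * 10 ^ 7 ≤ κ / 16) (hϑ1 : ϑ ≤ κ / 16)
    (hC0 : 0 ≤ C) (hC : C ≤ (1 + κ) * L) (hz : 0 ≤ z) (hCU : 0 ≤ CU)
    (hCU' : CU ≤ C') (hC'C : C' ≤ C)
    (hI1 : φ + z * (κ * L / 2) ≤ ϑ * L + (2 + 90 * ε * z) * C' + e1 * (z * (10 ^ 7 * C))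
      + (2 * ε - δ1) * CU) :
    φ + κ / 4 * (z * L) ≤ κ / 16 * L + 2 * C' := by
  have hκL : 0 < κ * L := mul_pos hκ hL
  have hC2 : C ≤ 2 * L := by nlinarith only [hL, hC, hκ1]
  have hC'0 : 0 ≤ C' := hCU.trans hCU'
  have hzL : 0 ≤ z * L := mul_nonneg hz hL.le
  have h1 : 90 * ε * z * C' ≤ κ / 16 * (z * L) := by
    have e : 90 * ε * z * C' ≤ κ / 32 * z * (2 * L) := by
      apply mul_le_mul (mul_le_mul_of_nonneg_right h90 hz) (by linarith only [hC'C, hC2]) hC'0
      (clear * - hκ hz; positivity)
    linarith only [e]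
  have h2 : e1 * (z * (10 ^ 7 * C)) ≤ κ / 8 * (z * L) := by
    have e : e1 * 10 ^ 7 * (z * C) ≤ κ / 16 * (z * (2 * L)) := by
      apply mul_le_mul he1' (mul_le_mul_of_nonneg_left hC2 hz) (by (clear * - hz hC0; positivity)) (by positivity)
    linarith only [e]
  have h3 : (2 * ε - δ1) * CU ≤ 0 := mul_nonpos_of_nonpos_of_nonneg (by linarith only [hεδ1]) hCU
  have hϑL : ϑ * L ≤ κ / 16 * L := mul_le_mul_of_nonneg_right hϑ1 hL.le
  have : 0 ≤ κ * (z * L) := by (clear * - hκ hz hL; positivity)
  linarith only [hI1, h1, h2, h3, hϑL, this]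

/-- The bound of the final cost when the price is bounded. -/
lemma arith1_fin {L C C' CU A U φ z κ κ0 ε ϑ e2 δ2 : ℝ} (hL : 0 < L)
    (hκ : 0 < κ) (hκ1 : κ ≤ 1 / 1000)
    (hδ2 : 0 < δ2) (hδ21 : δ2 ≤ 1 / 100) (hκδ : δ2 * κ0 = 8 * κ)
    (hε : 0 ≤ ε) (hεδ2 : 2 * ε ≤ δ2) (hεs : 1000 * ε ≤ κ / 100)
    (he2 : 0 ≤ e2) (he2' : e2 * (9 * 10 ^ 7) ≤ 8 * κ / 20) (hϑ1 : ϑ ≤ κ / 16)
    (hC0 : 0 ≤ C) (hC : C ≤ (1 + κ) * L) (hz : 0 ≤ z) (hz9 : z ≤ 9) (hA : 0 ≤ A)
    (hCU : 0 ≤ CU) (hCU' : CU ≤ C') (hC' : C' ≤ C - 49 / 50 * A) (hCUU : U - 1 / 249 * A ≤ CU)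
    (hcase : κ0 * C ≤ A + U)
    (hI2 : φ + z * (κ * L / 2) ≤ ϑ * L + (2 + 90 * ε * z) * C' + e2 * (z * (10 ^ 7 * C))
      + (2 * ε - δ2) * CU) :
    250 / 249 * A + φ ≤ (2 - κ / 16) * L := by
  have hκL : 0 < κ * L := mul_pos hκ hL
  have hC'0 : 0 ≤ C' := hCU.trans hCU'
  have hC'C : C' ≤ C := by linarith only [hA, hC']
  have hA2 : A ≤ 2 * C := by linarith only [hC0, hCU, hCU', hC']
  have hU2 : U ≤ 2 * C := by linarith only [hC0, hA, hCU', hC', hCUU]
  have h4 : 90 * ε * z * C' ≤ 810 * ε * C := by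
    have e : 90 * ε * z * C' ≤ 90 * ε * 9 * C := by
      apply mul_le_mul (mul_le_mul_of_nonneg_left hz9 (by (clear * - hε; positivity))) hC'C hC'0 (by (clear * - hε; positivity))
    linarith only [e]
  have h5 : e2 * (z * (10 ^ 7 * C)) ≤ 8 * κ / 20 * C := by
    have e : e2 * (z * (10 ^ 7 * C)) ≤ e2 * (9 * (10 ^ 7 * C)) := by
      apply mul_le_mul_of_nonneg_left _ he2
      exact mul_le_mul_of_nonneg_right hz9 (by (clear * - hC0; positivity))
    have e' := mul_le_mul_of_nonneg_right he2' hC0
    linarith only [e, e']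
  have h6 : (δ2 - 2 * ε) * (U - 1 / 249 * A) ≤ (δ2 - 2 * ε) * CU :=
    mul_le_mul_of_nonneg_left hCUU (by linarith only [hεδ2])
  have h7a : ε * U ≤ ε * (2 * C) := mul_le_mul_of_nonneg_left hU2 hε
  have h7b : 0 ≤ ε * A := mul_nonneg hε hA
  have h8 : δ2 * A ≤ 1 / 100 * A := mul_le_mul_of_nonneg_right hδ21 hA
  have h9 : δ2 * (κ0 * C) ≤ δ2 * (A + U) := mul_le_mul_of_nonneg_left hcase hδ2.le
  have h9' : δ2 * (κ0 * C) = 8 * κ * C := by rw [← hκδ]; ring
  have h10 : 814 * ε * C ≤ κ / 100 * C := by
    apply mul_le_mul_of_nonneg_right _ hC0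
    linarith only [hκ, hεs]
  have hzκ : 0 ≤ z * (κ * L / 2) := by (clear * - hz hκ hL; positivity)
  have hϑL : ϑ * L ≤ κ / 16 * L := mul_le_mul_of_nonneg_right hϑ1 hL.le
  have h11 : 250 / 249 * A + φ ≤ κ / 16 * L + 2 * C - 8 * κ * C + 8 * κ / 20 * C
      + κ / 100 * C := by
    have e1 : (2 * ε - δ2) * CU = - ((δ2 - 2 * ε) * CU) := by ring
    have e2 : (δ2 - 2 * ε) * (U - 1 / 249 * A)
        = δ2 * U - 1 / 249 * (δ2 * A) - 2 * (ε * U) + 2 / 249 * (ε * A) := by ring
    rw [e1] at hI2
    rw [e2] at h6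
    have e3 : (2 + 90 * ε * z) * C' = 2 * C' + 90 * ε * z * C' := by ring
    rw [e3] at hI2
    have e4 : δ2 * (A + U) = δ2 * A + δ2 * U := by ring
    rw [e4, h9'] at h9
    linarith only [hA, hC', hI2, h4, h5, h6, h7a, h7b, h8, h9, h10, hzκ, hϑL]
  have h13 : (2 - 7 * κ) * C ≤ (2 - 7 * κ) * ((1 + κ) * L) :=
    mul_le_mul_of_nonneg_left hC (by linarith only [hκ1])
  have h15 : (2 - 7 * κ) * ((1 + κ) * L) ≤ (2 - 5 * κ) * L := by
    have : 0 ≤ κ ^ 2 * L := by positivity
    nlinarith only [this]
  have hκC : 0 ≤ κ * C := by (clear * - hκ hC0; positivity)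
  (clear * - hA hC' hI2 hκL h4 h5 h6 h7a h7b h8 h9 h9' h10 hzκ hϑL h13 h15 hκC; linarith)

/-- The value of the potential and the bound of the final cost, from the chain inequality with two
values of the parameter. -/
lemma case1_arith {L C C' CU A U φ z κ κ0 ε ϑ e1 e2 δ1 δ2 : ℝ} (hL : 0 < L)
    (hκ : 0 < κ) (hκ1 : κ ≤ 1 / 1000)
    (hδ2 : 0 < δ2) (hδ21 : δ2 ≤ 1 / 100) (hκδ : δ2 * κ0 = 8 * κ)
    (hε : 0 ≤ ε) (h90 : 90 * ε ≤ κ / 32) (hεδ1 : 2 * ε ≤ δ1) (hεδ2 : 2 * ε ≤ δ2)
    (hεs : 1000 * ε ≤ κ / 100)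
    (he1' : e1 * 10 ^ 7 ≤ κ / 16) (he2 : 0 ≤ e2)
    (he2' : e2 * (9 * 10 ^ 7) ≤ 8 * κ / 20) (hϑ1 : ϑ ≤ κ / 16)
    (hC0 : 0 ≤ C) (hC : C ≤ (1 + κ) * L) (hz : 0 ≤ z) (hA : 0 ≤ A) (hCU : 0 ≤ CU)
    (hCU' : CU ≤ C') (hC' : C' ≤ C - 49 / 50 * A) (hCUU : U - 1 / 249 * A ≤ CU)
    (hcase : κ0 * C ≤ A + U)
    (hI1 : φ + z * (κ * L / 2) ≤ ϑ * L + (2 + 90 * ε * z) * C' + e1 * (z * (10 ^ 7 * C))
      + (2 * ε - δ1) * CU)
    (hI2 : φ + z * (κ * L / 2) ≤ ϑ * L + (2 + 90 * ε * z) * C' + e2 * (z * (10 ^ 7 * C))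
      + (2 * ε - δ2) * CU) :
    φ < 3 * L ∧ 250 / 249 * A + φ ≤ (2 - κ / 16) * L := by
  have hκL : 0 < κ * L := mul_pos hκ hL
  have hP := arith1_pot hL hκ hκ1 h90 hεδ1 he1' hϑ1 hC0 hC hz hCU hCU' (by (clear * - hA hC'; linarith)) hI1
  have hzL : 0 ≤ z * L := mul_nonneg hz hL.le
  have h4 : 0 ≤ κ / 4 * (z * L) := by (clear * - hκ hz hL; positivity)
  refine ⟨by (clear * - hC hA hC' hκL hP h4 hL hκ1; nlinarith), ?_⟩
  by_contra hcon
  push Not at hcon
  have hz9 : z ≤ 9 := by
    have h4 : κ / 4 * (z * L) ≤ (κ / 16 + 2 * κ + κ / 16) * L := by linarith only [hC, hA, hC', hP, hcon]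
    have h5 : κ * L * z ≤ κ * L * 9 := by (clear * - hC hA hC' hκL hP hcon; linarith)
    exact le_of_mul_le_mul_left h5 hκL
  have := arith1_fin hL hκ hκ1 hδ2 hδ21 hκδ hε hεδ2 hεs he2 he2' hϑ1 hC0 hC hz hz9 hA hCU
    hCU' hC' hCUU hcase hI2
  linarith only [hcon, this]

end Vale.Agent.P334
end

section

/-!
Routing the mass of one client in the rounded instance.
-/

namespace Vale.Agent.P334

open Finset

variable {X : Type} [DecidableEq X]

lemma sum_fib {F A : Finset X} {ρ : X → X} (h : ∀ c ∈ A, ρ c ∈ F) (u G : X → ℝ) :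
    ∑ i ∈ F, (∑ c ∈ A with ρ c = i, u c) * G i = ∑ c ∈ A, u c * G (ρ c) := by
  rw [← Finset.sum_fiberwise_of_maps_to h]
  refine Finset.sum_congr rfl (fun i _ => ?_)
  rw [Finset.sum_mul]
  refine Finset.sum_congr rfl (fun c hc => ?_)
  rw [(Finset.mem_filter.mp hc).2]

lemma sum_swap {F A : Finset X} {V : X → Finset X} (h : ∀ c ∈ A, V c ⊆ F) (u : X → X → ℝ) :
    ∑ i ∈ F, ∑ c ∈ A with i ∈ V c, u c i = ∑ c ∈ A, ∑ i ∈ V c, u c i := by
  apply Finset.sum_comm'
  intro i c
  simp only [Finset.mem_filter]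
  constructor
  · rintro ⟨_, h2, h3⟩; exact ⟨h3, h2⟩
  · rintro ⟨h1, h2⟩; exact ⟨h c h2 h1, h2, h1⟩

/-- Reduction factor of the facilities near isolated clusters. -/
def tau (Ib : Finset X) (V' : X → Finset X) (θ : X → ℝ) (i : X) : ℝ :=
  ∑ c ∈ Ib with i ∈ V' c, θ c

/-- Opening variables of the rounded solution. -/
def yh (O U Ib : Finset X) (V' : X → Finset X) (θ y : X → ℝ) (i : X) : ℝ :=
  if i ∈ O then 1 else if i ∈ U then y i * (1 - tau Ib V' θ i) else 0

lemma tau_nonneg {Ib : Finset X} {V' : X → Finset X} {θ : X → ℝ} (h : ∀ c ∈ Ib, 0 ≤ θ c) (i : X) :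
    0 ≤ tau Ib V' θ i := Finset.sum_nonneg (fun c hc => h c (Finset.mem_filter.mp hc).1)

lemma tau_le_one {Ib : Finset X} {V' : X → Finset X} {θ : X → ℝ} (h1 : ∀ c ∈ Ib, θ c ≤ 1)
    (hdis : ∀ c ∈ Ib, ∀ c' ∈ Ib, ∀ i, i ∈ V' c → i ∈ V' c' → c = c') (i : X) :
    tau Ib V' θ i ≤ 1 := by
  unfold tau
  rcases (Ib.filter (fun c => i ∈ V' c)).eq_empty_or_nonempty with h0 | ⟨c, hc⟩
  · rw [h0, Finset.sum_empty]; exact zero_le_one
  · obtain ⟨hc1, hc2⟩ := Finset.mem_filter.mp hc
    have : Ib.filter (fun c => i ∈ V' c) = {c} := by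
      ext c'
      simp only [Finset.mem_filter, Finset.mem_singleton]
      constructor
      · rintro ⟨h2, h3⟩; exact hdis c' h2 c hc1 i h3 hc2
      · rintro rfl; exact ⟨hc1, hc2⟩
    rw [this, Finset.sum_singleton]
    exact h1 c hc1

/-- Routing of one client. -/
theorem route {F U Op Z2 Z3 Ib : Finset X} {ρ π : X → X} {V V' : X → Finset X}
    {θ x y Xm d B : X → ℝ} (hUF : U ⊆ F) (hρF : ∀ c ∈ Op, ρ c ∈ F) (hρU : ∀ c ∈ Op, ρ c ∉ U)
    (hπ : ∀ c ∈ Z2, π c ∈ Op) (hIb : Ib ⊆ Op) (hV : ∀ c ∈ Z3, V c ⊆ U) (hV' : ∀ c ∈ Ib, V' c ⊆ U)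
    (hθ0 : ∀ c ∈ Ib, 0 ≤ θ c) (hθ1 : ∀ c ∈ Ib, θ c ≤ 1)
    (hx0 : ∀ i ∈ F, 0 ≤ x i) (hxy : ∀ i ∈ F, x i ≤ y i)
    (hX1 : ∀ c ∈ Op, 0 ≤ Xm c) (hX2 : ∀ c ∈ Z2, 0 ≤ Xm c) (hX3 : ∀ c ∈ Z3, 0 ≤ Xm c)
    (hsum : ∑ i ∈ U, x i + ∑ c ∈ Op, Xm c + ∑ c ∈ Z2, Xm c + ∑ c ∈ Z3, Xm c = 1)
    (hm : ∀ c ∈ Z3, 1 ≤ ∑ i ∈ V c, y i)
    (hdis1 : ∀ c ∈ Ib, ∀ c' ∈ Ib, ∀ i, i ∈ V' c → i ∈ V' c' → c = c')
    (hdis2 : ∀ c ∈ Z3, ∀ c' ∈ Z3, ∀ i, i ∈ V c → i ∈ V c' → c = c')
    (hdis3 : ∀ c ∈ Ib, ∀ c' ∈ Z3, ∀ i, i ∈ V' c → i ∉ V c')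
    (hd : ∀ i ∈ F, 0 ≤ d i) (hB : ∀ c ∈ Z3, ∀ i ∈ V c, d i ≤ B c) :
    ∃ z : X → ℝ, (∀ i ∈ F, 0 ≤ z i) ∧ (∀ i ∈ F, z i ≤ yh (Op.image ρ) U Ib V' θ y i) ∧
      ∑ i ∈ F, z i = 1 ∧
      ∑ i ∈ F, z i * ((if i ∈ Op.image ρ then 1 else 2) * d i)
        ≤ ∑ c ∈ Op, Xm c * d (ρ c) + ∑ c ∈ Z2, Xm c * d (ρ (π c))
          + ∑ c ∈ Ib, θ c * (∑ i ∈ V' c, x i) * d (ρ c) + 2 * ∑ i ∈ U, x i * d i
          + 2 * ∑ c ∈ Z3, Xm c * B c := by
  set O := Op.image ρ with hO
  set D : X → ℝ := fun c => ∑ i ∈ V c, (y i - x i) with hD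
  set W : X → ℝ := fun c => ∑ i ∈ V' c, x i with hW
  set τ := tau Ib V' θ with hτ
  have hτ0 : ∀ i, 0 ≤ τ i := tau_nonneg hθ0
  have hτ1 : ∀ i, τ i ≤ 1 := tau_le_one hθ1 hdis1
  have hVF : ∀ c ∈ Z3, V c ⊆ F := fun c hc => (hV c hc).trans hUF
  have hV'F : ∀ c ∈ Ib, V' c ⊆ F := fun c hc => (hV' c hc).trans hUF
  have hρO : ∀ c ∈ Op, ρ c ∈ O := fun c hc => Finset.mem_image_of_mem ρ hc
  have hW0 : ∀ c ∈ Ib, 0 ≤ W c := fun c hc => Finset.sum_nonneg (fun i hi => hx0 i (hV'F c hc hi))
  -- `Xm c ≤ D c`
  have hXD : ∀ c ∈ Z3, Xm c ≤ D c := by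
    intro c hc
    have h1 : D c = ∑ i ∈ V c, y i - ∑ i ∈ V c, x i := Finset.sum_sub_distrib _ _
    have h2 : ∑ i ∈ V c, x i ≤ ∑ i ∈ U, x i :=
      Finset.sum_le_sum_of_subset_of_nonneg (hV c hc) (fun i hi _ => hx0 i (hUF hi))
    have h3 : Xm c ≤ ∑ c ∈ Z3, Xm c := Finset.single_le_sum hX3 hc
    have h4 : 0 ≤ ∑ c ∈ Op, Xm c := Finset.sum_nonneg hX1
    have h5 : 0 ≤ ∑ c ∈ Z2, Xm c := Finset.sum_nonneg hX2
    have h6 := hm c hc
    linarith only [hsum, h1, h2, h3, h4, h5, h6]
  have hD0 : ∀ c ∈ Z3, 0 ≤ D c := fun c hc => (hX3 c hc).trans (hXD c hc)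
  have hXDD : ∀ c ∈ Z3, Xm c / D c * D c = Xm c := by
    intro c hc
    rcases (hD0 c hc).eq_or_lt with h | h
    · have h1 := hXD c hc
      rw [← h] at h1
      have h2 := le_antisymm h1 (hX3 c hc)
      rw [h2, zero_div, zero_mul]
    · (clear * - h; field_simp)
  have hq0 : ∀ c ∈ Z3, 0 ≤ Xm c / D c := fun c hc => div_nonneg (hX3 c hc) (hD0 c hc)
  have hq1 : ∀ c ∈ Z3, Xm c / D c ≤ 1 := by
    intro c hc
    rcases (hD0 c hc).eq_or_lt with h | h
    · rw [← h, div_zero]; exact zero_le_one
    · rw [div_le_one h]; exact hXD c hc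
  set z1 : X → ℝ := fun i => ∑ c ∈ Op with ρ c = i, Xm c with hz1
  set z2 : X → ℝ := fun i => ∑ c ∈ Z2 with ρ (π c) = i, Xm c with hz2
  set z3 : X → ℝ := fun i => ∑ c ∈ Ib with ρ c = i, θ c * W c with hz3
  set z4 : X → ℝ := fun i => if i ∈ U then x i * (1 - τ i) else 0 with hz4
  set z5 : X → ℝ := fun i => ∑ c ∈ Z3 with i ∈ V c, Xm c / D c * (y i - x i) with hz5
  have hz1n : ∀ i, 0 ≤ z1 i := fun i =>
    Finset.sum_nonneg (fun c hc => hX1 c (Finset.mem_filter.mp hc).1)
  have hz2n : ∀ i, 0 ≤ z2 i := fun i =>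
    Finset.sum_nonneg (fun c hc => hX2 c (Finset.mem_filter.mp hc).1)
  have hz3n : ∀ i, 0 ≤ z3 i := fun i =>
    Finset.sum_nonneg (fun c hc => mul_nonneg (hθ0 c (Finset.mem_filter.mp hc).1)
      (hW0 c (Finset.mem_filter.mp hc).1))
  have hz4n : ∀ i, 0 ≤ z4 i := fun i => by
    simp only [hz4]
    split_ifs with hi
    · exact mul_nonneg (hx0 i (hUF hi)) (by linarith only [hτ1 i])
    · exact le_rfl
  have hz5n : ∀ i, 0 ≤ z5 i := fun i =>
    Finset.sum_nonneg (fun c hc => by
      obtain ⟨h1, h2⟩ := Finset.mem_filter.mp hc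
      exact mul_nonneg (hq0 c h1) (by linarith only [hxy i (hVF c h1 h2)]))
  -- general sums
  have hG : ∀ G : X → ℝ, ∑ i ∈ F, (z1 i + z2 i + z3 i + z4 i + z5 i) * G i
      = ∑ c ∈ Op, Xm c * G (ρ c) + ∑ c ∈ Z2, Xm c * G (ρ (π c))
        + ∑ c ∈ Ib, θ c * W c * G (ρ c) + ∑ i ∈ U, x i * (1 - τ i) * G i
        + ∑ c ∈ Z3, ∑ i ∈ V c, Xm c / D c * (y i - x i) * G i := by
    intro G
    have e1 := sum_fib (F := F) (A := Op) (ρ := ρ) hρF Xm G
    have e2 := sum_fib (F := F) (A := Z2) (ρ := fun c => ρ (π c))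
      (fun c hc => hρF _ (hπ c hc)) Xm G
    have e3 := sum_fib (F := F) (A := Ib) (ρ := ρ) (fun c hc => hρF c (hIb hc))
      (fun c => θ c * W c) G
    have e4 : ∑ i ∈ F, z4 i * G i = ∑ i ∈ U, x i * (1 - τ i) * G i := by
      simp only [hz4, ite_mul, zero_mul]
      rw [← Finset.sum_filter]
      apply Finset.sum_congr _ (fun _ _ => rfl)
      ext i
      simp only [Finset.mem_filter]
      exact ⟨fun h => h.2, fun h => ⟨hUF h, h⟩⟩
    have e5 : ∑ i ∈ F, z5 i * G i = ∑ c ∈ Z3, ∑ i ∈ V c, Xm c / D c * (y i - x i) * G i := by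
      rw [← sum_swap hVF]
      refine Finset.sum_congr rfl (fun i _ => ?_)
      simp only [hz5]
      rw [Finset.sum_mul]
    rw [← e1, ← e2, ← e3, ← e4, ← e5, ← Finset.sum_add_distrib, ← Finset.sum_add_distrib,
      ← Finset.sum_add_distrib, ← Finset.sum_add_distrib]
    exact Finset.sum_congr rfl (fun i _ => by ring)
  have htot : ∑ i ∈ F, (z1 i + z2 i + z3 i + z4 i + z5 i) = 1 := by
    have h1 := hG (fun _ => 1)
    simp only [mul_one] at h1
    rw [h1]
    have h2 : ∑ i ∈ U, x i * (1 - τ i) = ∑ i ∈ U, x i - ∑ c ∈ Ib, θ c * W c := by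
      have h3 : ∑ i ∈ U, x i * τ i = ∑ c ∈ Ib, θ c * W c := by
        have h4 : ∑ c ∈ Ib, θ c * W c = ∑ c ∈ Ib, ∑ i ∈ V' c, x i * θ c := by
          refine Finset.sum_congr rfl (fun c _ => ?_)
          simp only [hW]
          rw [Finset.mul_sum]
          exact Finset.sum_congr rfl (fun i _ => mul_comm _ _)
        rw [h4, ← sum_swap hV']
        refine Finset.sum_congr rfl (fun i _ => ?_)
        simp only [hτ, tau]
        rw [Finset.mul_sum]
      rw [← h3, ← Finset.sum_sub_distrib]
      exact Finset.sum_congr rfl (fun i _ => by ring)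
    have h5 : ∑ c ∈ Z3, ∑ i ∈ V c, Xm c / D c * (y i - x i) = ∑ c ∈ Z3, Xm c := by
      refine Finset.sum_congr rfl (fun c hc => ?_)
      rw [← Finset.mul_sum]
      exact hXDD c hc
    rw [h2, h5]
    linarith only [hsum]
  have hznn : ∀ i, 0 ≤ z1 i + z2 i + z3 i + z4 i + z5 i := fun i => by
    linarith only [hz1n i, hz2n i, hz3n i, hz4n i, hz5n i]
  refine ⟨fun i => z1 i + z2 i + z3 i + z4 i + z5 i, fun i _ => hznn i, ?_, htot, ?_⟩
  · intro i hi
    unfold yh
    split_ifs with hiO hiU
    · rw [← htot]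
      exact Finset.single_le_sum (f := fun i => z1 i + z2 i + z3 i + z4 i + z5 i)
        (fun i _ => hznn i) hi
    · have e1 : z1 i = 0 := by
        simp only [hz1]
        rw [Finset.filter_false_of_mem, Finset.sum_empty]
        intro c hc he; exact hρU c hc (by rw [he]; exact hiU)
      have e2 : z2 i = 0 := by
        simp only [hz2]
        rw [Finset.filter_false_of_mem, Finset.sum_empty]
        intro c hc he; exact hρU _ (hπ c hc) (by rw [he]; exact hiU)
      have e3 : z3 i = 0 := by
        simp only [hz3]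
        rw [Finset.filter_false_of_mem, Finset.sum_empty]
        intro c hc he; exact hρU c (hIb hc) (by rw [he]; exact hiU)
      have e4 : z4 i = x i * (1 - τ i) := by simp only [hz4, hiU, if_true]
      show z1 i + z2 i + z3 i + z4 i + z5 i ≤ y i * (1 - τ i)
      rw [e1, e2, e3, e4]
      have hxyi := hxy i (hUF hiU)
      rcases (Z3.filter (fun c => i ∈ V c)).eq_empty_or_nonempty with h0 | ⟨c, hc⟩
      · have e5 : z5 i = 0 := by
          simp only [hz5]
          rw [h0, Finset.sum_empty]
        rw [e5]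
        have := mul_le_mul_of_nonneg_right hxyi (by linarith only [hτ1 i] : 0 ≤ 1 - τ i)
        linarith only [this]
      · obtain ⟨hc1, hc2⟩ := Finset.mem_filter.mp hc
        have e5 : z5 i = Xm c / D c * (y i - x i) := by
          simp only [hz5]
          have : Z3.filter (fun c => i ∈ V c) = {c} := by
            ext c'
            simp only [Finset.mem_filter, Finset.mem_singleton]
            constructor
            · rintro ⟨h2, h3⟩; exact hdis2 c' h2 c hc1 i h3 hc2
            · rintro rfl; exact ⟨hc1, hc2⟩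
          rw [this, Finset.sum_singleton]
        have e6 : τ i = 0 := by
          simp only [hτ, tau]
          rw [Finset.filter_false_of_mem, Finset.sum_empty]
          intro c' hc' hi'
          exact hdis3 c' hc' c hc1 i hi' hc2
        rw [e5, e6]
        have := mul_le_mul_of_nonneg_right (hq1 c hc1) (by linarith only [hxyi] : 0 ≤ y i - x i)
        linarith only [this]
    · have e1 : z1 i = 0 := by
        simp only [hz1]
        rw [Finset.filter_false_of_mem, Finset.sum_empty]
        intro c hc he; exact hiO (by rw [← he]; exact hρO c hc)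
      have e2 : z2 i = 0 := by
        simp only [hz2]
        rw [Finset.filter_false_of_mem, Finset.sum_empty]
        intro c hc he; exact hiO (by rw [← he]; exact hρO _ (hπ c hc))
      have e3 : z3 i = 0 := by
        simp only [hz3]
        rw [Finset.filter_false_of_mem, Finset.sum_empty]
        intro c hc he; exact hiO (by rw [← he]; exact hρO c (hIb hc))
      have e4 : z4 i = 0 := by simp only [hz4, hiU, if_false]
      have e5 : z5 i = 0 := by
        simp only [hz5]
        rw [Finset.filter_false_of_mem, Finset.sum_empty]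
        intro c hc he; exact hiU (hV c hc he)
      show z1 i + z2 i + z3 i + z4 i + z5 i ≤ 0
      rw [e1, e2, e3, e4, e5]
      norm_num
  · show ∑ i ∈ F, (z1 i + z2 i + z3 i + z4 i + z5 i) * ((if i ∈ O then 1 else 2) * d i) ≤ _
    rw [hG (fun i => (if i ∈ O then 1 else 2) * d i)]
    have hω : ∀ i ∈ F, (if i ∈ O then (1 : ℝ) else 2) * d i ≤ 2 * d i := by
      intro i hi
      apply mul_le_mul_of_nonneg_right _ (hd i hi)
      split_ifs <;> norm_num
    have hω0 : ∀ i ∈ F, 0 ≤ (if i ∈ O then (1 : ℝ) else 2) * d i := by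
      intro i hi
      apply mul_nonneg _ (hd i hi)
      split_ifs <;> norm_num
    have e1 : ∑ c ∈ Op, Xm c * ((if ρ c ∈ O then (1 : ℝ) else 2) * d (ρ c))
        = ∑ c ∈ Op, Xm c * d (ρ c) := by
      refine Finset.sum_congr rfl (fun c hc => ?_)
      rw [if_pos (hρO c hc), one_mul]
    have e2 : ∑ c ∈ Z2, Xm c * ((if ρ (π c) ∈ O then (1 : ℝ) else 2) * d (ρ (π c)))
        = ∑ c ∈ Z2, Xm c * d (ρ (π c)) := by
      refine Finset.sum_congr rfl (fun c hc => ?_)
      rw [if_pos (hρO _ (hπ c hc)), one_mul]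
    have e3 : ∑ c ∈ Ib, θ c * W c * ((if ρ c ∈ O then (1 : ℝ) else 2) * d (ρ c))
        = ∑ c ∈ Ib, θ c * W c * d (ρ c) := by
      refine Finset.sum_congr rfl (fun c hc => ?_)
      rw [if_pos (hρO c (hIb hc)), one_mul]
    have e4 : ∑ i ∈ U, x i * (1 - τ i) * ((if i ∈ O then (1 : ℝ) else 2) * d i)
        ≤ 2 * ∑ i ∈ U, x i * d i := by
      rw [Finset.mul_sum]
      refine Finset.sum_le_sum (fun i hi => ?_)
      have hxi := hx0 i (hUF hi)
      have h1 : x i * (1 - τ i) ≤ x i := by
        have := mul_nonneg hxi (hτ0 i)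
        linarith only [this]
      calc x i * (1 - τ i) * ((if i ∈ O then (1 : ℝ) else 2) * d i)
          ≤ x i * ((if i ∈ O then (1 : ℝ) else 2) * d i) :=
            mul_le_mul_of_nonneg_right h1 (hω0 i (hUF hi))
        _ ≤ x i * (2 * d i) := mul_le_mul_of_nonneg_left (hω i (hUF hi)) hxi
        _ = 2 * (x i * d i) := by ring
    have e5 : ∑ c ∈ Z3, ∑ i ∈ V c, Xm c / D c * (y i - x i) * ((if i ∈ O then (1 : ℝ) else 2) * d i)
        ≤ 2 * ∑ c ∈ Z3, Xm c * B c := by
      rw [Finset.mul_sum]
      refine Finset.sum_le_sum (fun c hc => ?_)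
      have h1 : ∑ i ∈ V c, Xm c / D c * (y i - x i) * ((if i ∈ O then (1 : ℝ) else 2) * d i)
          ≤ ∑ i ∈ V c, Xm c / D c * (y i - x i) * (2 * B c) := by
        refine Finset.sum_le_sum (fun i hi => ?_)
        apply mul_le_mul_of_nonneg_left
        · have := hB c hc i hi
          linarith only [this, hω i (hVF c hc hi)]
        · exact mul_nonneg (hq0 c hc) (by linarith only [hxy i (hVF c hc hi)])
      refine h1.trans (le_of_eq ?_)
      rw [← Finset.sum_mul, ← Finset.mul_sum]
      have := hXDD c hc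
      simp only [hD] at this ⊢
      rw [this]; ring
    rw [e1, e2, e3]
    linarith only [e4, e5]

end Vale.Agent.P334
end

section

/-!
Part 1: the algorithm on integral metrics, assembled from a pseudo-approximation and a randomized
procedure for stable instances.
-/

namespace Vale.Agent.P334.Alg.One

/-- `d` is a metric on the natural numbers. -/
structure Met (d : ℕ → ℕ → ℕ) : Prop where
  zero : ∀ a b, d a b = 0 ↔ a = b
  symm : ∀ a b, d a b = d b a
  tri : ∀ a b c, d a c ≤ d a b + d b c

/-- `T` is a nonempty list of at most `k` facilities. -/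
def Feas (F : List ℕ) (k : ℕ) (T : List ℕ) : Prop := T ≠ [] ∧ (∀ x ∈ T, x ∈ F) ∧ T.length ≤ k

/-- The optimum. -/
noncomputable def optN (d : ℕ → ℕ → ℕ) (l : ℕ) (J F : List ℕ) (k : ℕ) : ℕ :=
  sInf {c | ∃ T, Feas F k T ∧ c = cst d l J T}

/-- Common hypotheses for the integral instances. -/
structure Setting (d : ℕ → ℕ → ℕ) (l : ℕ) (J F : List ℕ) : Prop where
  met : Met d
  le : ∀ a b, d a b ≤ l
  nodupJ : J.Nodup
  nodupF : F.Nodup
  neJ : J ≠ []
  neF : F ≠ []

/-- Specification of the pseudo-approximation. -/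
structure PseudoSpec (c3 : ℝ) (K3 : ℕ) (Us : ℕ → ℕ → ℕ)
    (pseudo : (ℕ → ℕ → ℕ) → ℕ → List ℕ → List ℕ → ℕ → List ℕ) : Prop where
  one_le : 1 ≤ c3
  lt_two : c3 < 2
  pos : 1 ≤ K3
  us_pos : ∀ n f, 0 < Us n f
  spec : ∀ d l J F k, Setting d l J F → 1 ≤ k → k ≤ F.length →
    (∀ a b, Us J.length F.length ∣ d a b) →
    Feas F (k + K3 * Nat.size J.length) (pseudo d l J F k) ∧ (pseudo d l J F k).Nodup ∧
      (cst d l J (pseudo d l J F k) : ℝ) ≤ c3 * optN d l J F k

/-- Specification of one trial on a stable instance: `Lr` is the number of random bits, and the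
trial succeeds with probability at least `(2 * (n + f)) ^ (-K2)`. -/
structure TrialSpec (c2 : ℝ) (K3 Kb K2 : ℕ) (Us : ℕ → ℕ → ℕ) (Lr : ℕ → ℕ → ℕ → ℕ)
    (trial : (ℕ → ℕ → ℕ) → ℕ → List ℕ → List ℕ → ℕ → List ℕ → List Bool → List ℕ) : Prop where
  one_le : 1 ≤ c2
  lt_two : c2 < 2
  us_pos : ∀ n f, 0 < Us n f
  spec : ∀ d l J F k S0, Setting d l J F → 2 ≤ k → k ≤ F.length →
    (∀ a b, Us J.length F.length ∣ d a b) →
    0 < optN d l J F k →
    (1 + 1 / ((Kb : ℝ) * Nat.size J.length)) * optN d l J F k ≤ optN d l J F (k - 1) →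
    Feas F (k + K3 * Nat.size J.length) S0 → S0.Nodup →
    (cst d l J S0 : ℝ) ≤ 2 * optN d l J F k →
    2 ^ (Lr J.length F.length l) ≤ (2 * (J.length + F.length)) ^ K2 *
      Nat.card {ρ : Fin (Lr J.length F.length l) → Bool //
        Feas F k (trial d l J F k S0 (List.ofFn ρ)) ∧
          (cst d l J (trial d l J F k S0 (List.ofFn ρ)) : ℝ) ≤ c2 * optN d l J F k}

/-- `D` is a metric on the numbers below `N`, bounded by `l`. -/
structure MetOn (D : ℕ → ℕ → ℕ) (l N : ℕ) : Prop where
  zero : ∀ a < N, ∀ b < N, (D a b = 0 ↔ a = b)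
  symm : ∀ a < N, ∀ b < N, D a b = D b a
  tri : ∀ a < N, ∀ b < N, ∀ c < N, D a c ≤ D a b + D b c
  le : ∀ a < N, ∀ b < N, D a b ≤ l

/-! ### Scaling -/

/-- The scaled, rounded and truncated metric: `D` is a metric on the numbers below `N`, `R` the
scale, `U` the final factor, `cap` the truncation, `nu` the precision. -/
def scal (D : ℕ → ℕ → ℕ) (N R U cap nu : ℕ) (a b : ℕ) : ℕ :=
  if a = b then 0 else
    if a < N ∧ b < N then U * min cap ((nu * D a b + (R - 1)) / R) else U * cap

/-! ### The fallback -/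

/-- One step of the fallback: the first remaining client is served by a facility within distance
`R`, and all clients within `2 R` are removed. -/
def fbStep (D : ℕ → ℕ → ℕ) (F : List ℕ) (R : ℕ) (s : List ℕ × List ℕ) : List ℕ × List ℕ :=
  if s.1.isEmpty then s else
    (s.1.filter (fun j => decide (2 * R < D (s.1.headD 0) j)),
      ((F.find? (fun i => decide (D (s.1.headD 0) i ≤ R))).getD (F.headD 0)) :: s.2)

/-- The fallback solution. -/
def fallback (D : ℕ → ℕ → ℕ) (J F : List ℕ) (R : ℕ) : List ℕ :=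
  ((fbStep D F R)^[J.length] (J, [])).2

/-! ### Selection of the best candidate -/

/-- The candidate is feasible. -/
def adm (F : List ℕ) (k : ℕ) (S : List ℕ) : Bool :=
  !S.isEmpty && (decide (S.length ≤ k) && S.all (fun x => decide (x ∈ F)))

/-- The best feasible candidate. -/
def bestOf (D : ℕ → ℕ → ℕ) (l : ℕ) (J F : List ℕ) (k : ℕ) (C : List (List ℕ)) : List ℕ :=
  (C.filter (adm F k)).foldl (fun b S => if cst D l J S < cst D l J b then S else b) [F.headD 0]

/-! ### The algorithm -/

/-- Constants and procedures used by the algorithm. -/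
structure Data where
  pseudo : (ℕ → ℕ → ℕ) → ℕ → List ℕ → List ℕ → ℕ → List ℕ
  trial : (ℕ → ℕ → ℕ) → ℕ → List ℕ → List ℕ → ℕ → List ℕ → List Bool → List ℕ
  K3 : ℕ
  K2 : ℕ
  E : ℕ
  Us : ℕ → ℕ → ℕ
  Lr : ℕ → ℕ → ℕ → ℕ

namespace Data

variable (P : Data)

/-- precision -/
def nu (n : ℕ) : ℕ := P.E * n

/-- truncation -/
def cap (n : ℕ) : ℕ := 4 * (P.nu n + 1) * n

/-- bound of the scaled distances -/
def top (n f : ℕ) : ℕ := P.Us n f * P.cap n

/-- the scaled metric -/
def met (D : ℕ → ℕ → ℕ) (N n f R : ℕ) : ℕ → ℕ → ℕ := scal D N R (P.Us n f) (P.cap n) (P.nu n)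

/-- number of random bits of a trial -/
def len (n f : ℕ) : ℕ := P.Lr n f (P.top n f)

/-- number of trials -/
def reps (n f : ℕ) : ℕ := (2 * (n + f)) ^ P.K2 * (P.E * n)

/-- The blocks of random bits. -/
def blocks (n f : ℕ) (r : List Bool) : List (List Bool) :=
  (List.range (P.reps n f)).map (fun q => (r.drop (q * P.len n f)).take (P.len n f))

/-- Candidates for the integral metric `d` with bound `l`. -/
def candsD (d : ℕ → ℕ → ℕ) (l : ℕ) (J F : List ℕ) (k : ℕ) (r : List Bool) : List (List ℕ) :=
  P.pseudo d l J F (k - P.K3 * Nat.size J.length) ::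
    (List.range k).flatMap (fun i => (P.blocks J.length F.length r).map (fun ρ =>
      P.trial d l J F (i + 1) (P.pseudo d l J F (i + 1)) ρ))

/-- Candidates for the scale `R`. -/
def candsR (D : ℕ → ℕ → ℕ) (N : ℕ) (J F : List ℕ) (k R : ℕ) (r : List Bool) : List (List ℕ) :=
  fallback D J F R ::
    P.candsD (P.met D N J.length F.length R) (P.top J.length F.length) J F k r

/-- All candidates. -/
def cands (D : ℕ → ℕ → ℕ) (N : ℕ) (J F : List ℕ) (k : ℕ) (r : List Bool) : List (List ℕ) :=
  J :: (F.map (fun i => [i]) ++ J.flatMap (fun j => F.flatMap (fun i =>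
    if D j i = 0 then [] else P.candsR D N J F k (D j i) r)))

/-- The algorithm on an integral metric `D`, bounded by `l`, on the numbers below `N`. -/
def kmed (D : ℕ → ℕ → ℕ) (l N : ℕ) (J F : List ℕ) (k : ℕ) (r : List Bool) : List ℕ :=
  bestOf D l J F k (P.cands D N J F k r)

end Data

end Vale.Agent.P334.Alg.One
end

section
attribute [-instance] ProperSMul.toContinuousSMul IsTopologicalTorsor.toContinuousSMul IdemSemiring.toCanonicallyOrderedAdd IdemSemiring.toMulLeftMono IdemSemiring.toMulRightMono AddQuantale.instAddLeftMono AddQuantale.instAddRightMono Quantale.instMulLeftMono Quantale.instMulRightMono FiniteDimensional.rclike_to_real IsScalarTower.complexToReal FiniteDimensional.complexToReal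

/-!
The optimum of an integral instance.
-/

namespace Vale.Agent.P334.Alg.One

theorem le_mins_iff (d : ℕ → ℕ → ℕ) (l v : ℕ) (S : List ℕ) (m : ℕ) :
    m ≤ mins d l v S ↔ m ≤ l ∧ ∀ s ∈ S, m ≤ d v s := by
  unfold mins
  induction S with
  | nil => simp only [List.foldr_nil, List.not_mem_nil, IsEmpty.forall_iff, implies_true, and_true]
  | cons q Q ih =>
    rw [List.foldr_cons, le_min_iff, ih]
    constructor
    · rintro ⟨h1, h2, h3⟩
      refine ⟨h2, ?_⟩
      intro r hr
      rcases List.mem_cons.1 hr with rfl | hr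
      · exact h1
      · exact h3 r hr
    · rintro ⟨h1, h2⟩
      exact ⟨h2 q List.mem_cons_self, h1, fun r hr => h2 r (List.mem_cons_of_mem _ hr)⟩

theorem mins_le_cap (d : ℕ → ℕ → ℕ) (l v : ℕ) (S : List ℕ) : mins d l v S ≤ l :=
  ((le_mins_iff d l v S _).1 le_rfl).1

theorem mins_le_of_mem {d : ℕ → ℕ → ℕ} {l v : ℕ} {S : List ℕ} {s : ℕ} (hs : s ∈ S) :
    mins d l v S ≤ d v s := ((le_mins_iff d l v S _).1 le_rfl).2 s hs

theorem mins_cons (d : ℕ → ℕ → ℕ) (l v s : ℕ) (S : List ℕ) :
    mins d l v (s :: S) = min (d v s) (mins d l v S) := rfl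

theorem exists_mins {d : ℕ → ℕ → ℕ} {l v : ℕ} {S : List ℕ} (hS : S ≠ [])
    (hl : ∀ s ∈ S, d v s ≤ l) : ∃ s ∈ S, mins d l v S = d v s := by
  induction S with
  | nil => exact absurd rfl hS
  | cons q Q ih =>
    rw [mins_cons]
    by_cases hQ : Q = []
    · subst hQ
      exact ⟨q, List.mem_cons_self, min_eq_left (hl q List.mem_cons_self)⟩
    · obtain ⟨s, hs, h⟩ := ih hQ (fun s hs => hl s (List.mem_cons_of_mem _ hs))
      rcases le_total (d v q) (mins d l v Q) with h' | h'
      · exact ⟨q, List.mem_cons_self, min_eq_left h'⟩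
      · exact ⟨s, List.mem_cons_of_mem _ hs, by rw [min_eq_right h', h]⟩

/-- truncated distance to a nonempty list, when the bound is not active -/
theorem mins_spec {d : ℕ → ℕ → ℕ} {l v : ℕ} {S : List ℕ} (hS : S ≠ []) (hl : ∀ s ∈ S, d v s ≤ l) :
    (∃ s ∈ S, mins d l v S = d v s) ∧ ∀ s ∈ S, mins d l v S ≤ d v s :=
  ⟨exists_mins hS hl, fun _ hs => mins_le_of_mem hs⟩

/-- either the bound is active, or the minimum is attained -/
theorem mins_cases (d : ℕ → ℕ → ℕ) (l v : ℕ) (S : List ℕ) :
    mins d l v S = l ∨ ∃ s ∈ S, mins d l v S = d v s := by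
  induction S with
  | nil => exact Or.inl rfl
  | cons q Q ih =>
    rw [mins_cons]
    rcases le_total (d v q) (mins d l v Q) with h' | h'
    · exact Or.inr ⟨q, List.mem_cons_self, min_eq_left h'⟩
    · rw [min_eq_right h']
      rcases ih with h | ⟨s, hs, h⟩
      · exact Or.inl h
      · exact Or.inr ⟨s, List.mem_cons_of_mem _ hs, h⟩

theorem mins_mono {d : ℕ → ℕ → ℕ} {l v : ℕ} {S T : List ℕ} (h : S ⊆ T) :
    mins d l v T ≤ mins d l v S :=
  (le_mins_iff d l v S _).2 ⟨mins_le_cap d l v T, fun _ hs => mins_le_of_mem (h hs)⟩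

theorem cst_mono {d : ℕ → ℕ → ℕ} {l : ℕ} {J S T : List ℕ} (h : S ⊆ T) :
    cst d l J T ≤ cst d l J S :=
  List.sum_le_sum fun _ _ => mins_mono h

theorem cst_congr {d : ℕ → ℕ → ℕ} {l : ℕ} {J S T : List ℕ} (h : ∀ x, x ∈ S ↔ x ∈ T) :
    cst d l J S = cst d l J T :=
  le_antisymm (cst_mono fun x hx => (h x).2 hx) (cst_mono fun x hx => (h x).1 hx)

/-- Upper bound for the cost when every client is close. -/
theorem cst_le_of_mins {d : ℕ → ℕ → ℕ} {l : ℕ} {J S : List ℕ} {b : ℕ}
    (h : ∀ j ∈ J, mins d l j S ≤ b) : cst d l J S ≤ J.length * b := by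
  unfold cst
  induction J with
  | nil => simp
  | cons j J ih =>
    rw [List.map_cons, List.sum_cons, List.length_cons]
    have h1 := h j List.mem_cons_self
    have h2 := ih (fun i hi => h i (List.mem_cons_of_mem _ hi))
    linarith

theorem mins_le_cst {d : ℕ → ℕ → ℕ} {l : ℕ} {J S : List ℕ} {j : ℕ} (h : j ∈ J) :
    mins d l j S ≤ cst d l J S := by
  unfold cst
  exact List.single_le_sum (fun _ _ => Nat.zero_le _) _ (List.mem_map_of_mem h)

theorem optN_le {d : ℕ → ℕ → ℕ} {l : ℕ} {J F : List ℕ} {k : ℕ} {T : List ℕ} (h : Feas F k T) :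
    optN d l J F k ≤ cst d l J T := Nat.sInf_le ⟨T, h, rfl⟩

theorem exists_feas {F : List ℕ} {k : ℕ} (hF : F ≠ []) (hk : 1 ≤ k) : ∃ T, Feas F k T := by
  obtain ⟨x, hx⟩ := List.exists_mem_of_ne_nil F hF
  exact ⟨[x], by simp, by simpa only [List.mem_cons, List.not_mem_nil, or_false, forall_eq] using hx, by simpa only [List.length_cons, List.length_nil, zero_add] using hk⟩

theorem exists_optN (d : ℕ → ℕ → ℕ) (l : ℕ) (J : List ℕ) {F : List ℕ} {k : ℕ} (hF : F ≠ [])
    (hk : 1 ≤ k) : ∃ T, Feas F k T ∧ T.Nodup ∧ cst d l J T = optN d l J F k := by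
  have hne : {c | ∃ T, Feas F k T ∧ c = cst d l J T}.Nonempty := by
    obtain ⟨T, hT⟩ := exists_feas hF hk
    exact ⟨_, T, hT, rfl⟩
  obtain ⟨T, hT, h⟩ := Nat.sInf_mem hne
  refine ⟨T.dedup, ⟨?_, fun x hx => hT.2.1 x (List.mem_dedup.1 hx), ?_⟩, List.nodup_dedup T, ?_⟩
  · intro h0
    obtain ⟨x, hx⟩ := List.exists_mem_of_ne_nil T hT.1
    have := List.mem_dedup.2 hx
    rw [h0] at this
    simp at this
  · exact le_trans (List.Sublist.length_le (List.dedup_sublist T)) hT.2.2
  · rw [cst_congr (T := T) (fun x => List.mem_dedup)]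
    exact h.symm

theorem optN_anti (d : ℕ → ℕ → ℕ) (l : ℕ) (J : List ℕ) {F : List ℕ} {k k' : ℕ} (hF : F ≠ [])
    (hk : 1 ≤ k) (h : k ≤ k') : optN d l J F k' ≤ optN d l J F k := by
  obtain ⟨T, hT, -, hc⟩ := exists_optN d l J hF hk
  rw [← hc]
  exact optN_le ⟨hT.1, hT.2.1, hT.2.2.trans h⟩

theorem exists_optN_one (d : ℕ → ℕ → ℕ) (l : ℕ) (J : List ℕ) {F : List ℕ} (hF : F ≠ []) :
    ∃ i ∈ F, cst d l J [i] = optN d l J F 1 := by
  obtain ⟨T, hT, -, hc⟩ := exists_optN d l J hF le_rfl
  obtain ⟨h1, h2, h3⟩ := hT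
  match T, h1, h2, h3, hc with
  | [i], _, h2, _, hc => exact ⟨i, h2 i (by simp), hc⟩

/-- If the cost is zero, every client is in the list. -/
theorem subset_of_cst_zero {d : ℕ → ℕ → ℕ} {l : ℕ} {J S : List ℕ} (hS : S ≠ [])
    (hle : ∀ j ∈ J, ∀ s ∈ S, d j s ≤ l) (hz : ∀ j ∈ J, ∀ s ∈ S, d j s = 0 → j = s)
    (h : cst d l J S = 0) : J ⊆ S := by
  intro j hj
  have h0 : mins d l j S = 0 := Nat.le_zero.1 (h ▸ mins_le_cst hj)
  obtain ⟨s, hs, h2⟩ := exists_mins hS (hle j hj)
  rw [hz j hj s hs (by rw [← h2, h0])]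
  exact hs

end Vale.Agent.P334.Alg.One
end

section

set_option linter.all false

/-!
Reading independent uniform numbers from a string of random bits.
-/

namespace Vale.Agent.P334.Alg

open Finset Vale.Agent.Lib.PolyTime

section

/-- The `i`-th chunk of `w` bits, as a number. -/
def chunk (w : ℕ) (i : ℕ) (rnd : List Bool) : ℕ := val ((rnd.drop (i * w)).take w)

theorem chunk_lt (w i : ℕ) (rnd : List Bool) : chunk w i rnd < 2 ^ w := by
  refine lt_of_lt_of_le (val_lt _) (Nat.pow_le_pow_right (by norm_num) ?_)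
  simp only [List.length_take, List.length_drop, inf_le_left]

theorem val_inj_of_length : ∀ (l l' : List Bool), l.length = l'.length → val l = val l' → l = l' := by
  intro l
  induction l with
  | nil =>
    intro l' h _
    cases l' with
    | nil => rfl
    | cons b l' => simp at h
  | cons b l ih =>
    intro l' h hv
    cases l' with
    | nil => simp at h
    | cons b' l' =>
      rw [val_cons, val_cons] at hv
      have hb : b.toNat ≤ 1 := Bool.toNat_le b
      have hb' : b'.toNat ≤ 1 := Bool.toNat_le b'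
      have h1 : val l = val l' := by (clear * - hv hb hb'; omega)
      have h2 : b.toNat = b'.toNat := by omega
      rw [ih l' (by simpa using h) h1]
      congr 1
      revert h2
      cases b <;> cases b' <;> simp

theorem eq_of_chunks (n w : ℕ) (l l' : List Bool) (hl : l.length = n * w) (hl' : l'.length = n * w)
    (h : ∀ i < n, chunk w i l = chunk w i l') : l = l' := by
  have h1 : ∀ i < n, (l.drop (i * w)).take w = (l'.drop (i * w)).take w := by
    intro i hi
    apply val_inj_of_length _ _ _ (h i hi)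
    simp only [List.length_take, List.length_drop, hl, hl']
  apply List.ext_getElem? 
  intro j
  by_cases hj : j < n * w
  · have hw : 0 < w := by
      rcases Nat.eq_zero_or_pos w with h0 | h0
      · subst h0; simp at hj
      · exact h0
    have hi : j / w < n := Nat.div_lt_of_lt_mul (by rwa [Nat.mul_comm])
    have h2 := h1 (j / w) hi
    have h3 := congrArg (fun L => L[j % w]?) h2
    simp only [List.getElem?_take, List.getElem?_drop, Nat.mod_lt j hw, if_true] at h3
    have h4 : j / w * w + j % w = j := Nat.div_add_mod' j w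
    rw [h4] at h3
    exact h3
  · rw [List.getElem?_eq_none (by omega), List.getElem?_eq_none (by omega)]

/-- The map from bit strings to sequences of numbers. -/
def seedMap (n w : ℕ) (v : List.Vector Bool (n * w)) : Fin n → Fin (2 ^ w) :=
  fun i => ⟨chunk w i v.toList, chunk_lt w i v.toList⟩

theorem seedMap_bijective (n w : ℕ) : Function.Bijective (seedMap n w) := by
  rw [Fintype.bijective_iff_injective_and_card]
  constructor
  · intro v v' h
    apply List.Vector.eq
    apply eq_of_chunks n w _ _ v.toList_length v'.toList_length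
    intro i hi
    have := congrFun h ⟨i, hi⟩
    exact congrArg Fin.val this
  · rw [card_vector, Fintype.card_fun, Fintype.card_fin, Fintype.card_fin, Fintype.card_bool,
      mul_comm n w, pow_mul]

/-- Extension of a finite sequence of numbers by `0`. -/
def extN {n N : ℕ} (r : Fin n → Fin N) : ℕ → ℕ := fun i => if h : i < n then (r ⟨i, h⟩ : ℕ) else 0

open Classical in
/-- Counting bit strings by counting sequences of numbers. -/
theorem card_seed (n w : ℕ) (P : (ℕ → ℕ) → Prop)
    (hP : ∀ r r' : ℕ → ℕ, (∀ i < n, r i = r' i) → P r → P r') :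
    (univ.filter (fun v : List.Vector Bool (n * w) => P (fun i => chunk w i v.toList))).card
      = (univ.filter (fun r : Fin n → Fin (2 ^ w) => P (extN r))).card := by
  apply Finset.card_bijective (seedMap n w) (seedMap_bijective n w)
  intro v
  simp only [Finset.mem_filter, Finset.mem_univ, true_and]
  have h1 : ∀ i < n, chunk w i v.toList = extN (seedMap n w v) i := by
    intro i hi
    simp [extN, hi, seedMap]
  exact ⟨fun h => hP _ _ h1 h, fun h => hP _ _ (fun i hi => (h1 i hi).symm) h⟩

/-- Splitting a sequence of numbers. -/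
theorem card_split {α : Type} [Fintype α] [DecidableEq α] (m n : ℕ)
    (P : (Fin m → α) → (Fin n → α) → Prop) [∀ a b, Decidable (P a b)] :
    (univ.filter (fun r : Fin (m + n) → α =>
      P (fun i => r (Fin.castAdd n i)) (fun i => r (Fin.natAdd m i)))).card
      = (univ.filter (fun p : (Fin m → α) × (Fin n → α) => P p.1 p.2)).card := by
  apply Finset.card_bijective (fun r : Fin (m + n) → α =>
    ((fun i => r (Fin.castAdd n i)), (fun i => r (Fin.natAdd m i))))
  · exact (Fin.appendEquiv m n).symm.bijective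
  · intro r
    simp only [mem_filter, mem_univ, true_and]

/-- The functions on `ι` extending a given function on the image of an injection. -/
theorem card_fiber_comp {ι V β : Type} [Fintype ι] [DecidableEq ι] [Fintype V] [Fintype β]
    [DecidableEq β] (pos : V → ι) (hpos : Function.Injective pos) (f : V → β) :
    (univ.filter (fun r : ι → β => ∀ v, r (pos v) = f v)).card
      = Fintype.card β ^ (Fintype.card ι - Fintype.card V) := by
  classical
  have h1 : univ.filter (fun r : ι → β => ∀ v, r (pos v) = f v)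
      = Fintype.piFinset (fun i => if h : ∃ v, pos v = i then {f h.choose}
          else (univ : Finset β)) := by
    ext r
    rw [Finset.mem_filter, Fintype.mem_piFinset]
    constructor
    · rintro ⟨_, h⟩ i
      by_cases hi : ∃ v, pos v = i
      · rw [dif_pos hi, Finset.mem_singleton]
        have := h hi.choose
        rwa [hi.choose_spec] at this
      · rw [dif_neg hi]; exact Finset.mem_univ _
    · intro h
      refine ⟨Finset.mem_univ _, fun v => ?_⟩
      have h2 := h (pos v)
      have hi : ∃ v', pos v' = pos v := ⟨v, rfl⟩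
      rw [dif_pos hi, Finset.mem_singleton] at h2
      rw [h2, hpos hi.choose_spec]
  rw [h1, Fintype.card_piFinset]
  have h2 : ∀ i, (if h : ∃ v, pos v = i then ({f h.choose} : Finset β)
      else (univ : Finset β)).card = if i ∈ univ.image pos then 1 else Fintype.card β := by
    intro i
    by_cases hi : ∃ v, pos v = i
    · rw [dif_pos hi, Finset.card_singleton, if_pos]
      obtain ⟨v, hv⟩ := hi
      exact Finset.mem_image.2 ⟨v, Finset.mem_univ _, hv⟩
    · rw [dif_neg hi, if_neg, Finset.card_univ]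
      intro h
      obtain ⟨v, _, hv⟩ := Finset.mem_image.1 h
      exact hi ⟨v, hv⟩
  rw [Finset.prod_congr rfl (fun i _ => h2 i), Finset.prod_ite, Finset.prod_const_one, one_mul,
    Finset.prod_const]
  congr 1
  have h3 : (univ.filter (fun i => i ∉ univ.image pos)) = (univ.image pos)ᶜ := by
    ext i; simp only [mem_image, mem_univ, true_and, not_exists, mem_filter, mem_compl]
  rw [h3, Finset.card_compl, Finset.card_image_of_injective _ hpos, Finset.card_univ]

open Classical in
/-- Counting the functions on `ι` whose composition with an injection lies in `T`. -/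
theorem card_comp_mem {ι V β : Type} [Fintype ι] [DecidableEq ι] [Fintype V] [DecidableEq V]
    [Fintype β] [DecidableEq β] (pos : V → ι) (hpos : Function.Injective pos)
    (T : Finset (V → β)) :
    (univ.filter (fun r : ι → β => (fun v => r (pos v)) ∈ T)).card
      = T.card * Fintype.card β ^ (Fintype.card ι - Fintype.card V) := by
  classical
  have h1 : univ.filter (fun r : ι → β => (fun v => r (pos v)) ∈ T)
      = T.biUnion (fun f => univ.filter (fun r : ι → β => ∀ v, r (pos v) = f v)) := by
    ext r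
    simp only [Finset.mem_filter, Finset.mem_univ, true_and, Finset.mem_biUnion]
    constructor
    · intro h
      exact ⟨_, h, fun v => rfl⟩
    · rintro ⟨f, hf, h⟩
      have : (fun v => r (pos v)) = f := funext h
      rw [this]; exact hf
  rw [h1, Finset.card_biUnion]
  · rw [Finset.sum_congr rfl (fun f _ => card_fiber_comp pos hpos f), Finset.sum_const,
      smul_eq_mul]
  · intro f _ g _ hfg
    show Disjoint _ _
    rw [Finset.disjoint_left]
    intro r h2 h3
    apply hfg
    funext v
    rw [← (Finset.mem_filter.1 h2).2 v, ← (Finset.mem_filter.1 h3).2 v]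

end

end Vale.Agent.P334.Alg
end

section

/-!
Polynomial-time computability of the procedures, in every context.
-/

namespace Vale.Agent.P334.Alg.One

open Vale.Agent.Lib.PolyTime

/-- A procedure on integral instances is computable in polynomial time, in every context. -/
def PTPseudo (pseudo : (ℕ → ℕ → ℕ) → ℕ → List ℕ → List ℕ → ℕ → List ℕ) : Prop :=
  ∀ (α : Type) [Enc α] (dd : α → ℕ → ℕ → ℕ) (l k : α → ℕ) (J F : α → List ℕ),
    PT ∅ (fun p : α × ℕ × ℕ => dd p.1 p.2.1 p.2.2) → (∀ a x y, dd a x y ≤ l a) →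
    PT ∅ l → PBd l → PT ∅ J → PT ∅ F → PT ∅ k → PBd k →
    PT ∅ (fun a => pseudo (dd a) (l a) (J a) (F a) (k a))

/-- The same with a list and a string of bits as further arguments. -/
def PTTrial
    (trial : (ℕ → ℕ → ℕ) → ℕ → List ℕ → List ℕ → ℕ → List ℕ → List Bool → List ℕ) : Prop :=
  ∀ (α : Type) [Enc α] (dd : α → ℕ → ℕ → ℕ) (l k : α → ℕ) (J F S : α → List ℕ)
    (r : α → List Bool),
    PT ∅ (fun p : α × ℕ × ℕ => dd p.1 p.2.1 p.2.2) → (∀ a x y, dd a x y ≤ l a) →
    PT ∅ l → PBd l → PT ∅ J → PT ∅ F → PT ∅ k → PBd k → PT ∅ S → PT ∅ r →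
    PT ∅ (fun a => trial (dd a) (l a) (J a) (F a) (k a) (S a) (r a))

/-- A numerical function of poly-bounded arguments. -/
def PTU (Us : ℕ → ℕ → ℕ) : Prop :=
  ∀ (α : Type) [Enc α] (n f : α → ℕ), PT ∅ n → PBd n → PT ∅ f → PBd f →
    PT ∅ (fun a => Us (n a) (f a)) ∧ PBd (fun a => Us (n a) (f a))

/-- A numerical function of three poly-bounded arguments. -/
def PTL (Lr : ℕ → ℕ → ℕ → ℕ) : Prop :=
  ∀ (α : Type) [Enc α] (n f l : α → ℕ), PT ∅ n → PBd n → PT ∅ f → PBd f → PT ∅ l → PBd l →
    PT ∅ (fun a => Lr (n a) (f a) (l a)) ∧ PBd (fun a => Lr (n a) (f a) (l a))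

end Vale.Agent.P334.Alg.One
end

section
attribute [-instance] ProperSMul.toContinuousSMul IsTopologicalTorsor.toContinuousSMul IdemSemiring.toCanonicallyOrderedAdd IdemSemiring.toMulLeftMono IdemSemiring.toMulRightMono AddQuantale.instAddLeftMono AddQuantale.instAddRightMono Quantale.instMulLeftMono Quantale.instMulRightMono FiniteDimensional.rclike_to_real IsScalarTower.complexToReal FiniteDimensional.complexToReal

set_option linter.all false

/-!
Counting good colorings: a uniformly random coloring of a finite set by `B` colors is a bijection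
of a given set `Z` onto the first `z = |Z|` colors, avoids these colors on a given critical set
`Cr`, and satisfies a Markov bound for the total loss of the other elements, with probability at
least `z! (B - z)^|Cr| / (2 B^(z + |Cr|))`.
-/

namespace Vale.Agent.P334.Alg

open Finset

section

variable {V C : Type} [Fintype V] [DecidableEq V] [DecidableEq C]

theorem piFinset_filter_mem (T : V → Finset C) (s : V) (bad : Finset C) :
    (Fintype.piFinset T).filter (fun χ => χ s ∈ bad)
      = Fintype.piFinset (Function.update T s (T s ∩ bad)) := by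
  ext χ
  simp only [Finset.mem_filter, Fintype.mem_piFinset]
  constructor
  · rintro ⟨h1, h2⟩ t
    by_cases ht : t = s
    · subst ht
      rw [Function.update_self]
      exact Finset.mem_inter.2 ⟨h1 t, h2⟩
    · rw [Function.update_of_ne ht]; exact h1 t
  · intro h
    have hs := h s
    rw [Function.update_self, Finset.mem_inter] at hs
    refine ⟨fun t => ?_, hs.2⟩
    by_cases ht : t = s
    · subst ht; exact hs.1
    · have := h t
      rwa [Function.update_of_ne ht] at this

theorem card_pi_mem (T : V → Finset C) (s : V) (bad : Finset C) :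
    ((Fintype.piFinset T).filter (fun χ => χ s ∈ bad)).card * (T s).card
      = (T s ∩ bad).card * (Fintype.piFinset T).card := by
  rw [piFinset_filter_mem, Fintype.card_piFinset, Fintype.card_piFinset]
  have h1 : (∏ t, (Function.update T s (T s ∩ bad) t).card)
      = (T s ∩ bad).card * ∏ t ∈ univ \ {s}, (T t).card := by
    have e : (fun t => (Function.update T s (T s ∩ bad) t).card)
        = Function.update (fun t => (T t).card) s (T s ∩ bad).card := by
      funext t
      by_cases ht : t = s
      · subst ht; simp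
      · simp [Function.update_of_ne ht]
    rw [e, Finset.prod_update_of_mem (Finset.mem_univ s)]
  have h2 : (∏ t, (T t).card) = (T s).card * ∏ t ∈ univ \ {s}, (T t).card := by
    rw [← Finset.prod_sdiff (Finset.subset_univ ({s} : Finset V)), Finset.prod_singleton]
    ring
  rw [h1, h2]; ring

/-- Markov's inequality in a product set. -/
theorem markov_pi (T : V → Finset C) (R : Finset V) (loss : V → ℝ) (hl : ∀ s ∈ R, 0 ≤ loss s)
    (bad : V → Finset C) (p : ℝ)
    (hT : ∀ s ∈ R, ((T s ∩ bad s).card : ℝ) ≤ p * (T s).card) :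
    ((Fintype.piFinset T).card : ℝ) ≤ 2 * (((Fintype.piFinset T).filter (fun χ =>
      ∑ s ∈ R, (if χ s ∈ bad s then loss s else 0) ≤ 2 * p * ∑ s ∈ R, loss s)).card : ℝ) := by
  classical
  by_cases hcyl : (Fintype.piFinset T).card = 0
  · rw [hcyl]; simp only [CharP.cast_eq_zero, Nat.ofNat_pos, mul_nonneg_iff_of_pos_left, Nat.cast_nonneg]
  have hTpos : ∀ s, 0 < (T s).card := by
    intro s
    rw [Finset.card_pos]
    have : (Fintype.piFinset T).Nonempty := Finset.card_pos.1 (Nat.pos_of_ne_zero hcyl)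
    obtain ⟨χ, hχ⟩ := this
    exact ⟨χ s, Fintype.mem_piFinset.1 hχ s⟩
  have h1 : ∑ χ ∈ Fintype.piFinset T, ∑ s ∈ R, (if χ s ∈ bad s then loss s else 0)
      ≤ p * (Fintype.piFinset T).card * ∑ s ∈ R, loss s := by
    rw [Finset.sum_comm, Finset.mul_sum]
    apply Finset.sum_le_sum
    intro s hs
    rw [← Finset.sum_filter, Finset.sum_const, nsmul_eq_mul]
    have h2 := card_pi_mem T s (bad s)
    have h3 : (((Fintype.piFinset T).filter (fun χ => χ s ∈ bad s)).card : ℝ) * (T s).card
        = ((T s ∩ bad s).card : ℝ) * (Fintype.piFinset T).card := by exact_mod_cast h2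
    have h4 : (0 : ℝ) < (T s).card := by exact_mod_cast hTpos s
    have h5 : (((Fintype.piFinset T).filter (fun χ => χ s ∈ bad s)).card : ℝ)
        ≤ p * (Fintype.piFinset T).card := by
      have h6 : (((Fintype.piFinset T).filter (fun χ => χ s ∈ bad s)).card : ℝ) * (T s).card
          ≤ (p * (Fintype.piFinset T).card) * (T s).card := by
        rw [h3]
        calc ((T s ∩ bad s).card : ℝ) * (Fintype.piFinset T).card
            ≤ (p * (T s).card) * (Fintype.piFinset T).card :=
              mul_le_mul_of_nonneg_right (hT s hs) (Nat.cast_nonneg _)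
          _ = _ := by ring
      exact le_of_mul_le_mul_right h6 h4
    exact mul_le_mul_of_nonneg_right h5 (hl s hs)
  set L : ℝ := ∑ s ∈ R, loss s with hL
  have hL0 : 0 ≤ L := Finset.sum_nonneg hl
  set f : (V → C) → ℝ := fun χ => ∑ s ∈ R, (if χ s ∈ bad s then loss s else 0) with hf
  have hf0 : ∀ χ, 0 ≤ f χ := by
    intro χ
    apply Finset.sum_nonneg
    intro s hs
    split_ifs
    · exact hl s hs
    · exact le_rfl
  have hsplit : ((Fintype.piFinset T).card : ℝ)
      = (((Fintype.piFinset T).filter (fun χ => f χ ≤ 2 * p * L)).card : ℝ)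
        + (((Fintype.piFinset T).filter (fun χ => ¬ f χ ≤ 2 * p * L)).card : ℝ) := by
    have := Finset.card_filter_add_card_filter_not (s := Fintype.piFinset T)
      (fun χ => f χ ≤ 2 * p * L)
    exact_mod_cast this.symm
  by_cases hpos : 0 < p * L
  · have h7 : (((Fintype.piFinset T).filter (fun χ => ¬ f χ ≤ 2 * p * L)).card : ℝ)
        * (2 * p * L) ≤ p * (Fintype.piFinset T).card * L := by
      calc (((Fintype.piFinset T).filter (fun χ => ¬ f χ ≤ 2 * p * L)).card : ℝ) * (2 * p * L)
          = ∑ χ ∈ (Fintype.piFinset T).filter (fun χ => ¬ f χ ≤ 2 * p * L), (2 * p * L) := by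
            rw [Finset.sum_const, nsmul_eq_mul]
        _ ≤ ∑ χ ∈ (Fintype.piFinset T).filter (fun χ => ¬ f χ ≤ 2 * p * L), f χ := by
            apply Finset.sum_le_sum
            intro χ hχ
            exact (not_le.1 (Finset.mem_filter.1 hχ).2).le
        _ ≤ ∑ χ ∈ Fintype.piFinset T, f χ :=
            Finset.sum_le_sum_of_subset_of_nonneg (Finset.filter_subset _ _)
              (fun χ _ _ => hf0 χ)
        _ ≤ _ := h1
    have h8 : 2 * (((Fintype.piFinset T).filter (fun χ => ¬ f χ ≤ 2 * p * L)).card : ℝ)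
        ≤ (Fintype.piFinset T).card := by
      have : (2 * (((Fintype.piFinset T).filter (fun χ => ¬ f χ ≤ 2 * p * L)).card : ℝ))
          * (p * L) ≤ ((Fintype.piFinset T).card : ℝ) * (p * L) := by linarith
      exact le_of_mul_le_mul_right this hpos
    linarith only [hsplit, h8]
  · -- everything has loss zero
    have hle : p * L ≤ 0 := not_lt.1 hpos
    have hsum0 : ∑ χ ∈ Fintype.piFinset T, f χ ≤ 0 := by
      refine h1.trans ?_
      have : p * ((Fintype.piFinset T).card : ℝ) * L
          = (p * L) * ((Fintype.piFinset T).card : ℝ) := by ring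
      rw [this]
      exact mul_nonpos_of_nonpos_of_nonneg hle (Nat.cast_nonneg _)
    have hsum1 : ∑ χ ∈ Fintype.piFinset T, f χ = 0 :=
      le_antisymm hsum0 (Finset.sum_nonneg (fun χ _ => hf0 χ))
    have hall : ∀ χ ∈ Fintype.piFinset T, f χ = 0 :=
      (Finset.sum_eq_zero_iff_of_nonneg (fun χ _ => hf0 χ)).1 hsum1
    have hpL : 0 ≤ p * L := by
      by_cases hLz : L = 0
      · rw [hLz]; simp
      · have : ∃ s ∈ R, loss s ≠ 0 := by
          by_contra hcon
          push Not at hcon
          exact hLz (Finset.sum_eq_zero hcon)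
        obtain ⟨s, hs, _⟩ := this
        have h9 := hT s hs
        have h10 : (0 : ℝ) < (T s).card := by exact_mod_cast hTpos s
        have h11 : 0 ≤ p * (T s).card := le_trans (Nat.cast_nonneg _) h9
        have h12 : 0 ≤ p := by
          by_contra hneg
          push Not at hneg
          have := mul_neg_of_neg_of_pos hneg h10
          linarith only [h9, this]
        exact mul_nonneg h12 hL0
    have hfil : (Fintype.piFinset T).filter (fun χ => f χ ≤ 2 * p * L)
        = Fintype.piFinset T := by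
      apply Finset.filter_true_of_mem
      intro χ hχ
      rw [hall χ hχ]
      nlinarith only [hpL]
    rw [hfil]
    have : (0 : ℝ) ≤ (Fintype.piFinset T).card := Nat.cast_nonneg _
    linarith only []

end

section

variable {V : Type} [Fintype V] [DecidableEq V]

/-- The cylinder of a bijection of `Z` onto the first colors. -/
def cyl (B z : ℕ) (hz : z ≤ B) (Z Cr : Finset V) (σ : {s // s ∈ Z} ≃ Fin z) (s : V) :
    Finset (Fin B) :=
  if h : s ∈ Z then {Fin.castLE hz (σ ⟨s, h⟩)}
  else if s ∈ Cr then univ.filter (fun a : Fin B => z ≤ (a : ℕ)) else univ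

theorem card_ge (B z : ℕ) (hz : z ≤ B) :
    ((univ : Finset (Fin B)).filter (fun a : Fin B => z ≤ (a : ℕ))).card = B - z := by
  have h1 := Finset.card_filter_add_card_filter_not (s := (univ : Finset (Fin B)))
    (fun a : Fin B => z ≤ (a : ℕ))
  have h2 : ((univ : Finset (Fin B)).filter (fun a : Fin B => ¬ z ≤ (a : ℕ))).card = z := by
    have : (univ : Finset (Fin B)).filter (fun a : Fin B => ¬ z ≤ (a : ℕ))
        = (univ : Finset (Fin z)).map (Fin.castLEEmb hz) := by
      ext a
      simp only [Finset.mem_filter, Finset.mem_univ, true_and, Finset.mem_map, not_le]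
      constructor
      · intro h
        exact ⟨⟨a, h⟩, by ext; rfl⟩
      · rintro ⟨x, rfl⟩
        exact x.2
    rw [this, Finset.card_map, Finset.card_univ, Fintype.card_fin]
  rw [h2, Finset.card_univ, Fintype.card_fin] at h1
  omega

theorem card_cyl (B z : ℕ) (hz : z ≤ B) (Z Cr : Finset V) (hZC : Disjoint Z Cr)
    (σ : {s // s ∈ Z} ≃ Fin z) :
    (Fintype.piFinset (cyl B z hz Z Cr σ)).card
      = (B - z) ^ Cr.card * B ^ ((Z ∪ Cr)ᶜ).card := by
  rw [Fintype.card_piFinset]
  have hsplit : (∏ s, (cyl B z hz Z Cr σ s).card)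
      = (∏ s ∈ Z, (cyl B z hz Z Cr σ s).card) * (∏ s ∈ Cr, (cyl B z hz Z Cr σ s).card)
        * (∏ s ∈ (Z ∪ Cr)ᶜ, (cyl B z hz Z Cr σ s).card) := by
    rw [← Finset.prod_union hZC, Finset.prod_mul_prod_compl]
  rw [hsplit]
  have h1 : (∏ s ∈ Z, (cyl B z hz Z Cr σ s).card) = 1 := by
    apply Finset.prod_eq_one
    intro s hs
    simp only [cyl, hs, ↓reduceDIte, card_singleton]
  have h2 : (∏ s ∈ Cr, (cyl B z hz Z Cr σ s).card) = (B - z) ^ Cr.card := by
    rw [← Finset.prod_const]
    apply Finset.prod_congr rfl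
    intro s hs
    have hsZ : s ∉ Z := fun h => (Finset.disjoint_left.1 hZC h) hs
    rw [cyl, dif_neg hsZ, if_pos hs, card_ge B z hz]
  have h3 : (∏ s ∈ (Z ∪ Cr)ᶜ, (cyl B z hz Z Cr σ s).card) = B ^ ((Z ∪ Cr)ᶜ).card := by
    rw [← Finset.prod_const]
    apply Finset.prod_congr rfl
    intro s hs
    rw [Finset.mem_compl, Finset.mem_union, not_or] at hs
    rw [cyl, dif_neg hs.1, if_neg hs.2, Finset.card_univ, Fintype.card_fin]
  rw [h1, h2, h3, one_mul]

/-- A good coloring. -/
def GoodCol (B z : ℕ) (Z Cr : Finset V) (loss : V → ℝ) (χ : V → Fin B) : Prop :=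
  Set.BijOn (fun s => (χ s : ℕ)) (Z : Set V) {a | a < z} ∧ (∀ s ∈ Cr, z ≤ (χ s : ℕ)) ∧
    ∑ s ∈ (Z ∪ Cr)ᶜ, (if (χ s : ℕ) < z then loss s else 0)
      ≤ 2 * ((z : ℝ) / B) * ∑ s ∈ (Z ∪ Cr)ᶜ, loss s

open Classical in
/-- The number of good colorings. -/
theorem card_goodCol (B z : ℕ) (hB : 0 < B) (hz : z ≤ B) (Z Cr : Finset V) (hZ : Z.card = z)
    (hZC : Disjoint Z Cr) (loss : V → ℝ) (hl : ∀ s, 0 ≤ loss s) :
    (z.factorial : ℝ) * ((B - z : ℕ) : ℝ) ^ Cr.card * (B : ℝ) ^ ((Z ∪ Cr)ᶜ).card
      ≤ 2 * ((univ.filter (fun χ : V → Fin B => GoodCol B z Z Cr loss χ)).card : ℝ) := by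
  classical
  -- the good part of a cylinder
  set G : ({s // s ∈ Z} ≃ Fin z) → Finset (V → Fin B) := fun σ =>
    (Fintype.piFinset (cyl B z hz Z Cr σ)).filter (fun χ =>
      ∑ s ∈ (Z ∪ Cr)ᶜ, (if χ s ∈ (univ : Finset (Fin B)).filter (fun a : Fin B => (a : ℕ) < z)
        then loss s else 0) ≤ 2 * ((z : ℝ) / B) * ∑ s ∈ (Z ∪ Cr)ᶜ, loss s) with hG
  have hlt : ((univ : Finset (Fin B)).filter (fun a : Fin B => (a : ℕ) < z)).card = z := by
    have h1 := Finset.card_filter_add_card_filter_not (s := (univ : Finset (Fin B)))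
      (fun a : Fin B => z ≤ (a : ℕ))
    rw [card_ge B z hz, Finset.card_univ, Fintype.card_fin] at h1
    have h2 : (univ : Finset (Fin B)).filter (fun a : Fin B => (a : ℕ) < z)
        = (univ : Finset (Fin B)).filter (fun a : Fin B => ¬ z ≤ (a : ℕ)) := by
      ext a; simp only [mem_filter, mem_univ, true_and, not_le]
    rw [h2]; omega
  have hBr : (0 : ℝ) < B := by exact_mod_cast hB
  have hGcard : ∀ σ, (((B - z) ^ Cr.card * B ^ ((Z ∪ Cr)ᶜ).card : ℕ) : ℝ)
      ≤ 2 * ((G σ).card : ℝ) := by
    intro σ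
    rw [← card_cyl B z hz Z Cr hZC σ]
    refine markov_pi (cyl B z hz Z Cr σ) ((Z ∪ Cr)ᶜ) loss (fun s _ => hl s)
      (fun _ => (univ : Finset (Fin B)).filter (fun a : Fin B => (a : ℕ) < z)) ((z : ℝ) / B) ?_
    intro s hs
    rw [Finset.mem_compl, Finset.mem_union, not_or] at hs
    rw [cyl, dif_neg hs.1, if_neg hs.2, Finset.univ_inter, hlt, Finset.card_univ,
      Fintype.card_fin, div_mul_cancel₀ _ hBr.ne']
  have hmemG : ∀ σ χ, χ ∈ G σ → (∀ s (hs : s ∈ Z), χ s = Fin.castLE hz (σ ⟨s, hs⟩)) ∧
      (∀ s ∈ Cr, z ≤ (χ s : ℕ)) := by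
    intro σ χ hχ
    have h1 := Fintype.mem_piFinset.1 (Finset.mem_filter.1 hχ).1
    constructor
    · intro s hs
      have := h1 s
      rw [cyl, dif_pos hs, Finset.mem_singleton] at this
      exact this
    · intro s hs
      have := h1 s
      have hsZ : s ∉ Z := fun h => (Finset.disjoint_left.1 hZC h) hs
      rw [cyl, dif_neg hsZ, if_pos hs, Finset.mem_filter] at this
      exact this.2
  have hsub : (univ : Finset ({s // s ∈ Z} ≃ Fin z)).biUnion G
      ⊆ univ.filter (fun χ : V → Fin B => GoodCol B z Z Cr loss χ) := by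
    intro χ hχ
    rw [Finset.mem_biUnion] at hχ
    obtain ⟨σ, _, hσ⟩ := hχ
    rw [Finset.mem_filter]
    refine ⟨Finset.mem_univ _, ?_, (hmemG σ χ hσ).2, ?_⟩
    · have h1 := (hmemG σ χ hσ).1
      refine ⟨?_, ?_, ?_⟩
      · intro s hs
        have := h1 s hs
        simp only [this, Set.mem_setOf_eq]
        exact (σ ⟨s, hs⟩).2
      · intro s hs t ht hst
        have h2 := h1 s hs
        have h3 := h1 t ht
        simp only [h2, h3] at hst
        have h4 : σ ⟨s, hs⟩ = σ ⟨t, ht⟩ := by
          apply Fin.ext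
          exact hst
        have h5 := σ.injective h4
        exact congrArg Subtype.val h5
      · intro a ha
        refine ⟨(σ.symm ⟨a, ha⟩).1, (σ.symm ⟨a, ha⟩).2, ?_⟩
        have := h1 (σ.symm ⟨a, ha⟩).1 (σ.symm ⟨a, ha⟩).2
        simp only [this]
        simp
    · have h1 := (Finset.mem_filter.1 hσ).2
      simpa only [compl_union, ge_iff_le, mem_filter, mem_univ, true_and] using h1
  have hdisj : ∀ σ ∈ (univ : Finset ({s // s ∈ Z} ≃ Fin z)), ∀ τ ∈ univ, σ ≠ τ →
      Disjoint (G σ) (G τ) := by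
    intro σ _ τ _ hne
    rw [Finset.disjoint_left]
    intro χ h1 h2
    apply hne
    ext ⟨s, hs⟩
    have h3 := (hmemG σ χ h1).1 s hs
    have h4 := (hmemG τ χ h2).1 s hs
    rw [h3] at h4
    have := congrArg Fin.val h4
    simpa using this
  have hcard : ∑ σ : ({s // s ∈ Z} ≃ Fin z), ((G σ).card : ℝ)
      ≤ ((univ.filter (fun χ : V → Fin B => GoodCol B z Z Cr loss χ)).card : ℝ) := by
    have h1 := Finset.card_le_card hsub
    rw [Finset.card_biUnion hdisj] at h1
    exact_mod_cast h1
  have hfact : Fintype.card ({s // s ∈ Z} ≃ Fin z) = z.factorial := by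
    have e : {s // s ∈ Z} ≃ Fin z := Z.equivFinOfCardEq hZ
    rw [Fintype.card_equiv e, Fintype.card_coe, hZ]
  have hsum : (z.factorial : ℝ) * (((B - z) ^ Cr.card * B ^ ((Z ∪ Cr)ᶜ).card : ℕ) : ℝ)
      ≤ ∑ σ : ({s // s ∈ Z} ≃ Fin z), 2 * ((G σ).card : ℝ) := by
    rw [← hfact, ← Finset.card_univ, ← nsmul_eq_mul, ← Finset.sum_const]
    exact Finset.sum_le_sum (fun σ _ => hGcard σ)
  rw [← Finset.mul_sum] at hsum
  push_cast at hsum ⊢
  rw [Nat.cast_sub hz] at hsum ⊢
  nlinarith only [hsum, hcard]

/-- `B ^ z ≤ (2 e / ε) ^ z * z!` for `B ≤ 2 z / ε`. -/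
theorem pow_le_factorial (B z : ℕ) (ε : ℝ) (hε : 0 < ε) (hB : z = 0 ∨ (B : ℝ) ≤ 2 * z / ε) :
    (B : ℝ) ^ z ≤ (2 * Real.exp 1 / ε) ^ z * (z.factorial : ℝ) := by
  rcases hB with hz | hB
  · subst hz; simp only [pow_zero, Nat.factorial_zero, Nat.cast_one, mul_one, Std.le_refl]
  · have h1 : (B : ℝ) ^ z ≤ (2 * z / ε) ^ z := pow_le_pow_left₀ (Nat.cast_nonneg _) hB z
    have h2 : (z : ℝ) ^ z / (z.factorial : ℝ) ≤ Real.exp z :=
      Real.pow_div_factorial_le_exp (z : ℝ) (Nat.cast_nonneg _) z
    have h3 : (0 : ℝ) < z.factorial := by exact_mod_cast Nat.factorial_pos z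
    have h4 : (z : ℝ) ^ z ≤ Real.exp z * z.factorial := by
      rwa [div_le_iff₀ h3] at h2
    have h5 : Real.exp (z : ℝ) = Real.exp 1 ^ z := by
      rw [← Real.exp_nat_mul]; simp
    calc (B : ℝ) ^ z ≤ (2 * z / ε) ^ z := h1
      _ = (2 / ε) ^ z * (z : ℝ) ^ z := by rw [← mul_pow]; ring_nf
      _ ≤ (2 / ε) ^ z * (Real.exp z * z.factorial) :=
          mul_le_mul_of_nonneg_left h4 (by positivity)
      _ = (2 * Real.exp 1 / ε) ^ z * (z.factorial : ℝ) := by
          rw [h5, ← mul_assoc, ← mul_pow]; ring_nf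

open Classical in
/-- The probability of a good coloring is at least `exp (-O(|Z| + |Cr|))`. -/
theorem prob_goodCol (B z : ℕ) (ε : ℝ) (hε : 0 < ε) (hε1 : ε < 1) (hB : 0 < B)
    (hzB : (z : ℝ) ≤ ε * B) (hBz : z = 0 ∨ (B : ℝ) ≤ 2 * z / ε)
    (Z Cr : Finset V) (hZ : Z.card = z)
    (hZC : Disjoint Z Cr) (loss : V → ℝ) (hl : ∀ s, 0 ≤ loss s) :
    (B : ℝ) ^ (Fintype.card V) ≤ 2 * (2 * Real.exp 1 / ε) ^ z * (1 / (1 - ε)) ^ Cr.card *
      ((univ.filter (fun χ : V → Fin B => GoodCol B z Z Cr loss χ)).card : ℝ) := by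
  classical
  have hBr : (0 : ℝ) < B := by exact_mod_cast hB
  have hz : z ≤ B := by
    have : (z : ℝ) ≤ B := hzB.trans (by nlinarith only [hε1])
    exact_mod_cast this
  have h1 := card_goodCol B z hB hz Z Cr hZ hZC loss hl
  have h2 := pow_le_factorial B z ε hε hBz
  have hcard : Fintype.card V = z + Cr.card + ((Z ∪ Cr)ᶜ).card := by
    rw [← hZ, ← Finset.card_union_of_disjoint hZC, Finset.card_add_card_compl]
  have hpos : 0 < 1 - ε := by linarith only [hε1]
  have h3 : (B : ℝ) ^ Cr.card ≤ (1 / (1 - ε)) ^ Cr.card * ((B - z : ℕ) : ℝ) ^ Cr.card := by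
    rw [← mul_pow]
    apply pow_le_pow_left₀ hBr.le
    rw [Nat.cast_sub hz, div_mul_eq_mul_div, le_div_iff₀ hpos]
    nlinarith only [hzB]
  set N : ℝ := ((univ.filter (fun χ : V → Fin B => GoodCol B z Z Cr loss χ)).card : ℝ) with hN
  rw [hcard, pow_add, pow_add]
  have hR : (0 : ℝ) ≤ (B : ℝ) ^ ((Z ∪ Cr)ᶜ).card := by positivity
  calc (B : ℝ) ^ z * (B : ℝ) ^ Cr.card * (B : ℝ) ^ ((Z ∪ Cr)ᶜ).card
      ≤ ((2 * Real.exp 1 / ε) ^ z * (z.factorial : ℝ))
        * ((1 / (1 - ε)) ^ Cr.card * ((B - z : ℕ) : ℝ) ^ Cr.card)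
        * (B : ℝ) ^ ((Z ∪ Cr)ᶜ).card := by
        apply mul_le_mul_of_nonneg_right _ hR
        apply mul_le_mul h2 h3 (by positivity) (by positivity)
    _ = ((2 * Real.exp 1 / ε) ^ z * (1 / (1 - ε)) ^ Cr.card)
        * ((z.factorial : ℝ) * ((B - z : ℕ) : ℝ) ^ Cr.card * (B : ℝ) ^ ((Z ∪ Cr)ᶜ).card) := by
        ring
    _ ≤ ((2 * Real.exp 1 / ε) ^ z * (1 / (1 - ε)) ^ Cr.card) * (2 * N) :=
        mul_le_mul_of_nonneg_left h1 (by positivity)
    _ = _ := by ring

end

end Vale.Agent.P334.Alg
end

section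
attribute [-instance] ProperSMul.toContinuousSMul IsTopologicalTorsor.toContinuousSMul IdemSemiring.toCanonicallyOrderedAdd IdemSemiring.toMulLeftMono IdemSemiring.toMulRightMono AddQuantale.instAddLeftMono AddQuantale.instAddRightMono Quantale.instMulLeftMono Quantale.instMulRightMono FiniteDimensional.rclike_to_real IsScalarTower.complexToReal FiniteDimensional.complexToReal

/-!
Polynomial time for the basic list algorithms, part 1: general list functions.
All statements are contextual: every argument is a function of a context `a : α`.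
-/

namespace Vale.Agent.P334.Alg

open Vale.Agent.Lib.PolyTime Function

variable {A : Set Word} {α β γ δ X : Type*} [Enc α] [Enc β] [Enc γ] [Enc δ] [Enc X]

/-! ### General list functions -/

theorem PT_countP {l : α → List γ} {f : α → γ → Bool} (hl : PT A l)
    (hf : PT A (fun p : α × γ => f p.1 p.2)) : PT A (fun a => (l a).countP (f a)) :=
  (PT.filter hl hf).length.congr fun _ => List.countP_eq_length_filter.symm

/-- Equality with a fixed decidable equality, for a type with polynomial time equality. -/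
theorem PT_eqList [DecidableEq γ] (heq : PT A (fun p : γ × γ => decide (p.1 = p.2)))
    {l l' : α → List γ} (hl : PT A l) (hl' : PT A l') : PT A (fun a => decide (l a = l' a)) := by
  have key : ∀ l l' : List γ, l = l' ↔
      (l.length = l'.length ∧ ((l.zip l').all fun p => decide (p.1 = p.2)) = true) := by
    intro l
    induction l with
    | nil => intro l'; cases l' <;> simp
    | cons x l ih =>
      intro l'
      cases l' with
      | nil => simp
      | cons y l' =>
        rw [List.cons.injEq, ih l']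
        simp only [List.length_cons, List.zip_cons_cons, List.all_cons, Bool.and_eq_true,
          decide_eq_true_eq, add_left_inj]
        (clear * -; tauto)
  refine ((PT.eqNat hl.length hl'.length).and
    (PT.all (f := fun _ p => decide (p.1 = p.2)) (PT.zip hl hl') (heq.comp PT.snd'))).congr
    fun a => ?_
  rw [Bool.eq_iff_iff, decide_eq_true_eq, key, Bool.and_eq_true, decide_eq_true_eq]

theorem PT_eqListNat {l l' : α → List ℕ} (hl : PT A l) (hl' : PT A l') :
    PT A (fun a => decide (l a = l' a)) := PT_eqList (PT.eqNat PT.fst' PT.snd') hl hl'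

theorem PT_erase [DecidableEq γ] (heq : PT A (fun p : γ × γ => decide (p.1 = p.2)))
    {l : α → List γ} {x : α → γ} (hl : PT A l) (hx : PT A x) :
    PT A (fun a => (l a).erase (x a)) := by
  have key : ∀ (l : List γ) (x : γ), l.erase x =
      l.takeWhile (fun y => decide (¬ x = y)) ++
        (l.dropWhile (fun y => decide (¬ x = y))).tail := by
    intro l x
    induction l with
    | nil => rfl
    | cons y l ih =>
      by_cases h : x = y
      · subst h
        simp
      · rw [List.erase_cons_tail (by simpa using Ne.symm h), ih]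
        simp [h]
  have h1 : PT A (fun p : α × γ => decide (¬ x p.1 = p.2)) :=
    PT.decide_not (heq.comp ((hx.comp PT.fst').pair PT.snd'))
  exact ((PT.takeWhile hl h1).append (PT.dropWhile hl h1).tail).congr fun a => (key _ _).symm

/-- Sublists of a list of logarithmic length. -/
theorem PT_sublists {l : α → List γ} (hl : PT A l) (hb : PBd (fun a => 2 ^ (l a).length)) :
    PT A (fun a => (l a).sublists) := by
  have key : ∀ l : List γ, l.foldr (fun x s => s.flatMap fun t => [t, x :: t]) [[]] =
      l.sublists := by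
    intro l
    induction l with
    | nil => rfl
    | cons x l ih => rw [List.foldr_cons, ih, List.sublists_cons]; rfl
  have hB : PBd (fun a => 2 ^ (l a).length * (2 * esize (l a) + 1)) :=
    hb.mul (((PBd.const 2).mul hl.pbd).add (PBd.const 1))
  refine (PT.foldr (init := fun _ => [[]]) (f := fun _ x s => s.flatMap fun t => [t, x :: t]) hl
    (PT.const [[]]) (PT.flatMap (l := fun p : α × γ × List (List γ) => p.2.2)
      (f := fun p t => [t, p.2.1 :: t]) PT.snd'.snd
      (PT.cons PT.snd' (PT.cons (PT.cons PT.fst'.snd.fst PT.snd') PT.nil))) hB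
    fun a i => ?_).congr fun a => key _
  rw [key]
  refine (esize_list_le (B := esize (l a)) ?_).trans (Nat.mul_le_mul_right _ ?_)
  · intro x hx
    exact (esize_le_of_sublist (List.mem_sublists.1 hx)).trans (esize_drop_le _ _)
  · rw [List.length_sublists, List.length_drop]
    exact Nat.pow_le_pow_right (by norm_num) (by omega)

/-! ### Minimum, cost, argmin -/

section

variable {X : Type} [Enc X]

omit [Enc X] in
theorem mins_le_cap (d : X → X → ℕ) (l : ℕ) (v : X) (S : List X) : mins d l v S ≤ l := by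
  induction S with
  | nil => exact le_rfl
  | cons s S ih => exact (min_le_right _ _).trans ih

theorem PT_mins {dd : α → X → X → ℕ} {l : α → ℕ} {v : α → X} {S : α → List X}
    (hd : PT A (fun p : α × X × X => dd p.1 p.2.1 p.2.2)) (hl : PT A l) (hv : PT A v)
    (hS : PT A S) : PT A (fun a => mins (dd a) (l a) (v a) (S a)) :=
  PT.foldr (f := fun a s m => min (dd a (v a) s) m) hS hl
    (PT.min (hd.comp (PT.fst'.pair ((hv.comp PT.fst').pair PT.snd'.fst))) PT.snd'.snd) hl.pbd
    fun _ _ => esize_nat_mono (mins_le_cap _ _ _ _)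

theorem PT_cst {dd : α → X → X → ℕ} {l : α → ℕ} {J S : α → List X}
    (hd : PT A (fun p : α × X × X => dd p.1 p.2.1 p.2.2)) (hl : PT A l) (hJ : PT A J)
    (hS : PT A S) : PT A (fun a => cst (dd a) (l a) (J a) (S a)) :=
  PT.sum (PT.map (f := fun a j => mins (dd a) (l a) j (S a)) hJ
    (PT_mins (dd := fun p : α × X => dd p.1) (hd.comp (PT.fst'.fst.pair PT.snd'))
      (hl.comp PT.fst') PT.snd' (hS.comp PT.fst')))

omit [Enc X] in
theorem cst_le (d : X → X → ℕ) (l : ℕ) (J S : List X) : cst d l J S ≤ J.length * l := by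
  unfold cst
  induction J with
  | nil => simp
  | cons j J ih =>
    rw [List.map_cons, List.sum_cons, List.length_cons, add_mul, one_mul, add_comm]
    exact add_le_add ih (mins_le_cap _ _ _ _)

theorem PBd_cst {dd : α → X → X → ℕ} {l : α → ℕ} {J S : α → List X}
    (hJ : PT A J) (hl : PBd l) : PBd (fun a => cst (dd a) (l a) (J a) (S a)) :=
  ((PBd.length hJ).mul hl).mono fun _ => cst_le _ _ _ _

omit [Enc X] in
theorem argmin1_mem (f : X → ℕ) (a : X) (S : List X) : argmin1 f a S ∈ a :: S := by
  unfold argmin1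
  induction S generalizing a with
  | nil => simp
  | cons s S ih =>
    rw [List.foldl_cons]
    have := ih (if f s < f a then s else a)
    split_ifs at this ⊢ with h <;> simp only [List.mem_cons] at this ⊢ <;> (clear * - this; tauto)

theorem PT_argmin1 {f : α → X → ℕ} {x : α → X} {S : α → List X}
    (hf : PT A (fun p : α × X => f p.1 p.2)) (hx : PT A x) (hS : PT A S) :
    PT A (fun a => argmin1 (f a) (x a) (S a)) := by
  refine PT.foldl (f := fun a b s => if f a s < f a b then s else b) hS hx
    (PT.ite (p := fun q : α × X × X => f q.1 q.2.2 < f q.1 q.2.1)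
      (PT.lt (hf.comp (PT.fst'.pair PT.snd'.snd)) (hf.comp (PT.fst'.pair PT.snd'.fst)))
      PT.snd'.snd PT.snd'.fst) (hx.pbd.add hS.pbd) fun a i => ?_
  have h := argmin1_mem (f a) (x a) ((S a).take i)
  unfold argmin1 at h
  rcases List.mem_cons.1 h with h | h
  · rw [h]; omega
  · have := esize_le_of_mem h
    have := esize_take_le i (S a)
    omega

theorem PT_argmin {f : α → X → ℕ} {x : α → X} {S : α → List X}
    (hf : PT A (fun p : α × X => f p.1 p.2)) (hx : PT A x) (hS : PT A S) :
    PT A (fun a => argmin (f a) (x a) (S a)) :=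
  PT_argmin1 hf (PT.headD hS hx) hS

/-! ### Weighted points -/

theorem PT_wd {dd : α → X → X → ℕ} {top : α → ℕ} {e : α → List (X × ℕ)} {q : α → X}
    (hd : PT A (fun p : α × X × X => dd p.1 p.2.1 p.2.2)) (ht : PT A top) (he : PT A e)
    (hq : PT A q) : PT A (fun a => wd (dd a) (top a) (e a) (q a)) := by
  refine PT.foldr (f := fun a c m => min (c.2 * dd a c.1 (q a)) m) he ht
    (PT.min (PT.mul PT.snd'.fst.snd
      (hd.comp (PT.fst'.pair (PT.snd'.fst.fst.pair (hq.comp PT.fst'))))) PT.snd'.snd) ht.pbd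
    fun a i => esize_nat_mono ?_
  induction (e a).drop i with
  | nil => exact le_rfl
  | cons s S ih => exact (min_le_right _ _).trans ih

omit [Enc X] in
theorem wd_le (d : X → X → ℕ) (top : ℕ) (e : List (X × ℕ)) (q : X) : wd d top e q ≤ top := by
  unfold wd
  induction e with
  | nil => exact le_rfl
  | cons s S ih => exact (min_le_right _ _).trans ih

theorem PT_wdS {dd : α → X → X → ℕ} {top : α → ℕ} {e : α → List (X × ℕ)} {Q : α → List X}
    (hd : PT A (fun p : α × X × X => dd p.1 p.2.1 p.2.2)) (ht : PT A top) (he : PT A e)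
    (hQ : PT A Q) : PT A (fun a => wdS (dd a) (top a) (e a) (Q a)) := by
  refine PT.foldr (f := fun a q m => min (wd (dd a) (top a) (e a) q) m) hQ ht
    (PT.min (PT_wd (dd := fun p : α × X × ℕ => dd p.1) (hd.comp (PT.fst'.fst.pair PT.snd'))
      (ht.comp PT.fst') (he.comp PT.fst') PT.snd'.fst) PT.snd'.snd) ht.pbd
    fun a i => esize_nat_mono ?_
  induction (Q a).drop i with
  | nil => exact le_rfl
  | cons s S ih => exact (min_le_right _ _).trans ih

omit [Enc X] in
theorem wdS_le (d : X → X → ℕ) (top : ℕ) (e : List (X × ℕ)) (Q : List X) :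
    wdS d top e Q ≤ top := by
  unfold wdS
  induction Q with
  | nil => exact le_rfl
  | cons s S ih => exact (min_le_right _ _).trans ih

theorem PT_wv {dd : α → X → X → ℕ} {top : α → ℕ} {e : α → List (X × ℕ)} {x : α → X × ℕ}
    (hd : PT A (fun p : α × X × X => dd p.1 p.2.1 p.2.2)) (ht : PT A top) (he : PT A e)
    (hx : PT A x) : PT A (fun a => wv (dd a) (top a) (e a) (x a)) := by
  refine PT.foldr (f := fun a c m => min (c.2 * (dd a c.1 (x a).1 + (x a).2)) m) he ht
    (PT.min (PT.mul PT.snd'.fst.snd (PT.add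
      (hd.comp (PT.fst'.pair (PT.snd'.fst.fst.pair (hx.comp PT.fst').fst)))
      (hx.comp PT.fst').snd)) PT.snd'.snd) ht.pbd
    fun a i => esize_nat_mono ?_
  induction (e a).drop i with
  | nil => exact le_rfl
  | cons s S ih => exact (min_le_right _ _).trans ih

omit [Enc X] in
theorem wv_le (d : X → X → ℕ) (top : ℕ) (e : List (X × ℕ)) (a : X × ℕ) : wv d top e a ≤ top := by
  unfold wv
  induction e with
  | nil => exact le_rfl
  | cons s S ih => exact (min_le_right _ _).trans ih

end

end Vale.Agent.P334.Alg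
end

section

/-!
Polynomial time for the basic list algorithms, part 2: swaps and saturation.
-/

namespace Vale.Agent.P334.Alg

open Vale.Agent.Lib.PolyTime Function

variable {A : Set Word} {α β γ δ : Type*} [Enc α] [Enc β] [Enc γ] [Enc δ]

/-- Size of a list with elements from two given lists. -/
theorem esize_le_of_two {γ : Type*} [Enc γ] {l F S : List γ} {m : ℕ} (hl : l.length ≤ m)
    (h : ∀ x ∈ l, x ∈ F ∨ x ∈ S) : esize l ≤ m * (2 * (esize F + esize S) + 1) := by
  refine (esize_list_le (B := esize F + esize S) fun x hx => ?_).trans (Nat.mul_le_mul_right _ hl)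
  rcases h x hx with h | h
  · have := esize_le_of_mem h; omega
  · have := esize_le_of_mem h; omega

section

variable {X : Type} [DecidableEq X]

/-! ### Swaps -/

theorem swapStep_spec (d : X → X → ℕ) (l : ℕ) (J F S : List X) :
    (swapStep d l J F S).length ≤ S.length ∧ ∀ x ∈ swapStep d l J F S, x ∈ F ∨ x ∈ S := by
  unfold swapStep
  rcases h : (S.flatMap (fun s => F.map (fun i => i :: S.erase s))).find?
    (fun S' => decide (cst d l J S' < cst d l J S)) with _ | S'
  · exact ⟨le_rfl, fun x hx => Or.inr hx⟩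
  · obtain ⟨s, hs, hS'⟩ := List.mem_flatMap.1 (List.mem_of_find?_eq_some h)
    obtain ⟨i, hi, rfl⟩ := List.mem_map.1 hS'
    refine ⟨?_, fun x hx => ?_⟩
    · rw [Option.getD_some, List.length_cons, List.length_erase_of_mem hs]
      have := List.length_pos_of_mem hs
      omega
    · rw [Option.getD_some] at hx
      rcases List.mem_cons.1 hx with rfl | hx
      · exact Or.inl hi
      · exact Or.inr (List.mem_of_mem_erase hx)

theorem swapStep_iterate_spec (d : X → X → ℕ) (l : ℕ) (J F S : List X) (j : ℕ) :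
    ((swapStep d l J F)^[j] S).length ≤ S.length ∧
      ∀ x ∈ (swapStep d l J F)^[j] S, x ∈ F ∨ x ∈ S := by
  induction j with
  | zero => exact ⟨le_rfl, fun x hx => Or.inr hx⟩
  | succ j ih =>
    rw [iterate_succ_apply']
    have h := swapStep_spec d l J F ((swapStep d l J F)^[j] S)
    refine ⟨h.1.trans ih.1, fun x hx => ?_⟩
    rcases h.2 x hx with h | h
    · exact Or.inl h
    · exact ih.2 x h

theorem PT_swapStep [Enc X] (heq : PT A (fun p : X × X => decide (p.1 = p.2)))
    {dd : α → X → X → ℕ} {l : α → ℕ} {J F S : α → List X}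
    (hd : PT A (fun p : α × X × X => dd p.1 p.2.1 p.2.2)) (hl : PT A l) (hJ : PT A J)
    (hF : PT A F) (hS : PT A S) : PT A (fun a => swapStep (dd a) (l a) (J a) (F a) (S a)) := by
  have h1 : PT A (fun a => (S a).flatMap (fun s => (F a).map (fun i => i :: (S a).erase s))) :=
    PT.flatMap hS (PT.map (l := fun p : α × X => F p.1) (f := fun p i => i :: (S p.1).erase p.2)
      (hF.comp PT.fst') (PT.cons PT.snd' (PT_erase heq (hS.comp PT.fst'.fst) PT.fst'.snd)))
  have h2 : PT A (fun p : α × List X =>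
      decide (cst (dd p.1) (l p.1) (J p.1) p.2 < cst (dd p.1) (l p.1) (J p.1) (S p.1))) :=
    PT.lt (PT_cst (dd := fun p : α × List X => dd p.1) (hd.comp (PT.fst'.fst.pair PT.snd'))
      (hl.comp PT.fst') (hJ.comp PT.fst') PT.snd')
      ((PT_cst hd hl hJ hS).comp PT.fst')
  exact PT.optGetD (PT.find? h1 h2) hS

theorem PT_swapSearch [Enc X] (heq : PT A (fun p : X × X => decide (p.1 = p.2)))
    {dd : α → X → X → ℕ} {l : α → ℕ} {J F S : α → List X}
    (hd : PT A (fun p : α × X × X => dd p.1 p.2.1 p.2.2)) (hl : PT A l) (hlb : PBd l)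
    (hJ : PT A J) (hF : PT A F) (hS : PT A S) :
    PT A (fun a => swapSearch (dd a) (l a) (J a) (F a) (S a)) := by
  have hB : PBd (fun a => esize (S a) * (2 * (esize (F a) + esize (S a)) + 1)) :=
    hS.pbd.mul (((PBd.const 2).mul (hF.pbd.add hS.pbd)).add (PBd.const 1))
  refine PT.iterate' (step := fun a => swapStep (dd a) (l a) (J a) (F a)) (PT_cst hd hl hJ hS)
    (PBd_cst hJ hlb) hS (PT_swapStep heq (dd := fun p : α × List X => dd p.1)
      (hd.comp (PT.fst'.fst.pair PT.snd')) (hl.comp PT.fst') (hJ.comp PT.fst') (hF.comp PT.fst')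
      PT.snd') hB fun a j _ => ?_
  have h := swapStep_iterate_spec (dd a) (l a) (J a) (F a) (S a) j
  exact esize_le_of_two (h.1.trans (length_le_esize _)) h.2

/-! ### Saturation -/

omit [DecidableEq X] in
theorem satStep_spec (d : X → X → ℕ) (l b : ℕ) (J F S : List X) :
    (satStep d l b J F S).length ≤ S.length + 1 ∧ ∀ x ∈ satStep d l b J F S, x ∈ F ∨ x ∈ S := by
  unfold satStep
  rcases h : (F.map (fun q => q :: S)).find? (fun S' =>
    decide ((b + 1) * cst d l J S' ≤ b * cst d l J S ∧ 0 < cst d l J S)) with _ | S'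
  · exact ⟨Nat.le_succ _, fun x hx => Or.inr hx⟩
  · obtain ⟨s, hs, rfl⟩ := List.mem_map.1 (List.mem_of_find?_eq_some h)
    refine ⟨le_rfl, fun x hx => ?_⟩
    rw [Option.getD_some] at hx
    rcases List.mem_cons.1 hx with rfl | hx
    · exact Or.inl hs
    · exact Or.inr hx

omit [DecidableEq X] in
theorem satStep_iterate_spec (d : X → X → ℕ) (l b : ℕ) (J F S : List X) (j : ℕ) :
    ((satStep d l b J F)^[j] S).length ≤ S.length + j ∧
      ∀ x ∈ (satStep d l b J F)^[j] S, x ∈ F ∨ x ∈ S := by
  induction j with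
  | zero => exact ⟨le_rfl, fun x hx => Or.inr hx⟩
  | succ j ih =>
    rw [iterate_succ_apply']
    have h := satStep_spec d l b J F ((satStep d l b J F)^[j] S)
    refine ⟨by omega, fun x hx => ?_⟩
    rcases h.2 x hx with h | h
    · exact Or.inl h
    · exact ih.2 x h

omit [DecidableEq X] in
theorem PT_satStep [Enc X]
    {dd : α → X → X → ℕ} {l b : α → ℕ} {J F S : α → List X}
    (hd : PT A (fun p : α × X × X => dd p.1 p.2.1 p.2.2)) (hl : PT A l) (hb : PT A b)
    (hJ : PT A J) (hF : PT A F) (hS : PT A S) :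
    PT A (fun a => satStep (dd a) (l a) (b a) (J a) (F a) (S a)) := by
  have h1 : PT A (fun a => (F a).map (fun q => q :: S a)) :=
    PT.map hF (PT.cons PT.snd' (hS.comp PT.fst'))
  have h0 : PT A (fun p : α × List X => cst (dd p.1) (l p.1) (J p.1) p.2) :=
    PT_cst (dd := fun p : α × List X => dd p.1) (hd.comp (PT.fst'.fst.pair PT.snd'))
      (hl.comp PT.fst') (hJ.comp PT.fst') PT.snd'
  have h0' : PT A (fun p : α × List X => cst (dd p.1) (l p.1) (J p.1) (S p.1)) :=
    (PT_cst hd hl hJ hS).comp PT.fst'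
  have h2 : PT A (fun p : α × List X =>
      decide ((b p.1 + 1) * cst (dd p.1) (l p.1) (J p.1) p.2 ≤
        b p.1 * cst (dd p.1) (l p.1) (J p.1) (S p.1) ∧
          0 < cst (dd p.1) (l p.1) (J p.1) (S p.1))) :=
    PT.decide_and (PT.le (PT.mul (PT.add (hb.comp PT.fst') (PT.const 1)) h0)
      (PT.mul (hb.comp PT.fst') h0')) (PT.lt (PT.const 0) h0')
  exact PT.optGetD (PT.find? h1 h2) hS

omit [DecidableEq X] in
theorem PT_saturate [Enc X]
    {dd : α → X → X → ℕ} {l b t : α → ℕ} {J F S : α → List X}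
    (hd : PT A (fun p : α × X × X => dd p.1 p.2.1 p.2.2)) (hl : PT A l) (hb : PT A b)
    (hJ : PT A J) (hF : PT A F) (ht : PT A t) (htb : PBd t) (hS : PT A S) :
    PT A (fun a => saturate (dd a) (l a) (b a) (J a) (F a) (t a) (S a)) := by
  have hB : PBd (fun a => (esize (S a) + t a) * (2 * (esize (F a) + esize (S a)) + 1)) :=
    (hS.pbd.add htb).mul (((PBd.const 2).mul (hF.pbd.add hS.pbd)).add (PBd.const 1))
  refine PT.iterate' (step := fun a => satStep (dd a) (l a) (b a) (J a) (F a)) ht htb
    hS (PT_satStep (dd := fun p : α × List X => dd p.1)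
      (hd.comp (PT.fst'.fst.pair PT.snd')) (hl.comp PT.fst') (hb.comp PT.fst') (hJ.comp PT.fst')
      (hF.comp PT.fst') PT.snd') hB fun a j hj => ?_
  have h := satStep_iterate_spec (dd a) (l a) (b a) (J a) (F a) (S a) j
  exact esize_le_of_two (h.1.trans (add_le_add (length_le_esize _) hj)) h.2

end

end Vale.Agent.P334.Alg
end

section

/-!
Polynomial time for the basic list algorithms, part 3: local search with the potential.
-/

namespace Vale.Agent.P334.Alg

open Vale.Agent.Lib.PolyTime Function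

variable {A : Set Word} {α β γ δ : Type*} [Enc α] [Enc β] [Enc γ] [Enc δ]

/-- Numerical functions of a list element are polynomially bounded. -/
theorem PBd_bound_mem {l : α → List γ} {f : α → γ → ℕ} (hl : PT A l)
    (hf : PBd (fun p : α × γ => f p.1 p.2)) :
    ∃ b : α → ℕ, PBd b ∧ ∀ a, ∀ x ∈ l a, f a x ≤ b a := by
  obtain ⟨c, hc⟩ := hf
  obtain ⟨d, hd⟩ := hl.pbd
  refine ⟨fun a => pb c (2 * esize a + pb d (esize a) + 1), ?_, fun a x hx => ?_⟩
  · exact PBd.of_PB ((PB.pb c).comp ((((PB.const 2).mul PB.id).add (PB.pb d)).add (PB.const 1)))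
  · refine (hc (a, x)).trans (pb_mono c ?_)
    rw [esize_pair]
    have h1 := esize_le_of_mem hx
    have h2 := hd a
    beta_reduce at h2
    omega

/-- Polynomial bound of a sum over a computed list. -/
theorem PBd_sum_map {l : α → List γ} {f : α → γ → ℕ} (hl : PT A l)
    (hf : PBd (fun p : α × γ => f p.1 p.2)) : PBd (fun a => ((l a).map (f a)).sum) := by
  obtain ⟨b, hb, h⟩ := PBd_bound_mem hl hf
  refine ((PBd.length hl).mul hb).mono fun a => ?_
  have h' := h a
  generalize l a = L at h' ⊢
  induction L with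
  | nil => simp
  | cons x L ih =>
    rw [List.map_cons, List.sum_cons, List.length_cons, add_mul, one_mul, add_comm]
    exact add_le_add (ih fun y hy => h' y (List.mem_cons_of_mem _ hy)) (h' x List.mem_cons_self)

section

variable {X : Type}

/-! ### The potential -/

theorem phi_le (m : ℕ) : phi m ≤ 4 := by
  unfold phi
  split_ifs <;> norm_num

theorem PT_phi {m : α → ℕ} (hm : PT A m) : PT A (fun a => phi (m a)) :=
  PT.ite (PT.eqNat hm (PT.const 0)) (PT.const 4)
    (PT.ite (PT.eqNat hm (PT.const 1)) (PT.const 1) (PT.const 0))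

theorem potE_le (D : X → ℕ) (b : ℕ) (Q : List X) : potE D b Q ≤ 4 * b := by
  unfold potE
  have h : ∀ l : List ℕ, (l.map (fun t => phi (Q.countP (fun q => decide (D q ≤ t))))).sum ≤
      4 * l.length := by
    intro l
    induction l with
    | nil => simp only [List.map_nil, List.sum_nil, List.length_nil, mul_zero, Std.le_refl]
    | cons x l ih =>
      rw [List.map_cons, List.sum_cons, List.length_cons]
      have := phi_le (Q.countP (fun q => decide (D q ≤ x)))
      omega
  simpa only [ge_iff_le, List.length_range] using h (List.range b)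

variable [Enc X]

theorem PT_potE {D : α → X → ℕ} {b : α → ℕ} {Q : α → List X}
    (hD : PT A (fun p : α × X => D p.1 p.2)) (hb : PT A b) (hbb : PBd b) (hQ : PT A Q) :
    PT A (fun a => potE (D a) (b a) (Q a)) :=
  PT.sum (PT.map (f := fun a t => phi ((Q a).countP (fun q => decide (D a q ≤ t))))
    (PT.range hb hbb) (PT_phi (PT_countP (l := fun p : α × ℕ => Q p.1)
      (f := fun p q => decide (D p.1 q ≤ p.2)) (hQ.comp PT.fst')
      (PT.le (hD.comp (PT.fst'.fst.pair PT.snd')) PT.fst'.snd))))

variable {ι : Type} [Enc ι]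

theorem PT_pot {D : α → ι → X → ℕ} {b : α → ι → ℕ} {E : α → List ι} {Q : α → List X}
    (hD : PT A (fun p : α × ι × X => D p.1 p.2.1 p.2.2))
    (hb : PT A (fun p : α × ι => b p.1 p.2)) (hbb : PBd (fun p : α × ι => b p.1 p.2))
    (hE : PT A E) (hQ : PT A Q) : PT A (fun a => pot (D a) (b a) (E a) (Q a)) :=
  PT.sum (PT.map (f := fun a e => potE (D a e) (b a e) (Q a)) hE
    (PT_potE (D := fun p : α × ι => D p.1 p.2)
      (hD.comp (PT.fst'.fst.pair (PT.fst'.snd.pair PT.snd'))) hb hbb (hQ.comp PT.fst')))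

omit [Enc X] in
theorem PBd_pot {D : α → ι → X → ℕ} {b : α → ι → ℕ} {E : α → List ι} {Q : α → List X}
    (hbb : PBd (fun p : α × ι => b p.1 p.2)) (hE : PT A E) :
    PBd (fun a => pot (D a) (b a) (E a) (Q a)) :=
  PBd_sum_map (f := fun a e => potE (D a e) (b a e) (Q a)) hE
    (((PBd.const 4).mul hbb).mono fun _ => potE_le _ _ _)

/-! ### Moves -/

omit [Enc X] in
theorem ptMoves_nil (Q : List X) : moves [] Q = [] := by cases Q <;> rfl

omit [Enc X] in
theorem ptMoves_nil' (P : List X) (parts : List (List X)) : moves (P :: parts) [] = [] := rfl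

omit [Enc X] in
theorem ptMoves_cons (P : List X) (parts : List (List X)) (q : X) (Q : List X) :
    moves (P :: parts) (q :: Q) =
      P.map (fun x => x :: Q) ++ (moves parts Q).map (fun Q' => q :: Q') := rfl

omit [Enc X] in
theorem moves_eq (parts : List (List X)) (Q : List X) : moves parts Q =
    (List.range (min parts.length Q.length)).flatMap (fun i =>
      (parts.getD i []).map (fun x => Q.take i ++ x :: Q.drop (i + 1))) := by
  induction parts generalizing Q with
  | nil => simp only [ptMoves_nil, List.getD_eq_getElem?_getD, List.length_nil, not_lt_zero, not_false_eq_true, getElem?_neg, Option.getD_none, List.map_nil, zero_le, inf_of_le_left, List.range_zero, List.flatMap_nil]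
  | cons P parts ih =>
    cases Q with
    | nil => simp only [ptMoves_nil', List.take_nil, List.drop_nil, List.nil_append, List.getD_eq_getElem?_getD, List.length_cons, List.length_nil, le_add_iff_nonneg_left, zero_le, inf_of_le_right, List.range_zero, List.flatMap_nil]
    | cons q Q =>
      rw [ptMoves_cons, ih, List.length_cons, List.length_cons, Nat.succ_min_succ,
        List.range_succ_eq_map, List.flatMap_cons, List.flatMap_map, List.map_flatMap]
      congr 1
      refine List.flatMap_congr fun i _ => ?_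
      simp only [List.getD_eq_getElem?_getD, List.map_map, comp_def, Nat.succ_eq_add_one, List.take_succ_cons, List.drop_succ_cons, List.cons_append, List.getElem?_cons_succ]

theorem PT_moves {parts : α → List (List X)} {Q : α → List X} (hp : PT A parts) (hQ : PT A Q) :
    PT A (fun a => moves (parts a) (Q a)) := by
  have h0 : PT A (fun a => List.range (min (parts a).length (Q a).length)) :=
    PT.range (PT.min hp.length hQ.length) ((PBd.length hp).mono fun a => min_le_left _ _)
  have h1 : PT A (fun p : (α × ℕ) × X =>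
      (Q p.1.1).take p.1.2 ++ p.2 :: (Q p.1.1).drop (p.1.2 + 1)) :=
    PT.append (PT.take (hQ.comp PT.fst'.fst) PT.fst'.snd)
      (PT.cons PT.snd' (PT.drop (hQ.comp PT.fst'.fst) (PT.add PT.fst'.snd (PT.const 1))))
  refine (PT.flatMap (f := fun a i => ((parts a).getD i []).map
    (fun x => (Q a).take i ++ x :: (Q a).drop (i + 1))) h0
    (PT.map (PT.getD (hp.comp PT.fst') PT.snd' (PT.const [])) h1)).congr fun a => ?_
  rw [moves_eq]

omit [Enc X] in
theorem mem_moves {parts : List (List X)} {Q Q' : List X} (h : Q' ∈ moves parts Q) :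
    Q'.length = Q.length ∧ ∀ x ∈ Q', x ∈ parts.flatten ∨ x ∈ Q := by
  induction parts generalizing Q Q' with
  | nil => simp [ptMoves_nil] at h
  | cons P parts ih =>
    cases Q with
    | nil => simp [ptMoves_nil'] at h
    | cons q Q =>
      rw [ptMoves_cons, List.mem_append, List.mem_map, List.mem_map] at h
      rcases h with ⟨x, hx, rfl⟩ | ⟨R, hR, rfl⟩
      · refine ⟨rfl, fun y hy => ?_⟩
        rcases List.mem_cons.1 hy with rfl | hy
        · left; simp only [List.flatten_cons, List.mem_append, hx, List.mem_flatten, true_or]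
        · right; exact List.mem_cons_of_mem _ hy
      · have h' := ih hR
        refine ⟨by rw [List.length_cons, List.length_cons, h'.1], fun y hy => ?_⟩
        rcases List.mem_cons.1 hy with rfl | hy
        · right; exact List.mem_cons_self
        · rcases h'.2 y hy with h | h
          · left; rw [List.flatten_cons]; exact List.mem_append_right _ h
          · right; exact List.mem_cons_of_mem _ h

/-! ### Local search -/

omit [Enc X] [Enc ι] in
theorem lsStep_spec (D : ι → X → ℕ) (b : ι → ℕ) (E : List ι) (parts : List (List X))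
    (Q : List X) : (lsStep D b E parts Q).length = Q.length ∧
      ∀ x ∈ lsStep D b E parts Q, x ∈ parts.flatten ∨ x ∈ Q := by
  unfold lsStep
  rcases h : (moves parts Q).find? (fun Q' => decide (pot D b E Q' < pot D b E Q)) with _ | Q'
  · exact ⟨rfl, fun x hx => Or.inr hx⟩
  · exact mem_moves (List.mem_of_find?_eq_some h)

omit [Enc X] [Enc ι] in
theorem lsStep_iterate_spec (D : ι → X → ℕ) (b : ι → ℕ) (E : List ι) (parts : List (List X))
    (Q : List X) (j : ℕ) : ((lsStep D b E parts)^[j] Q).length = Q.length ∧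
      ∀ x ∈ (lsStep D b E parts)^[j] Q, x ∈ parts.flatten ∨ x ∈ Q := by
  induction j with
  | zero => exact ⟨rfl, fun x hx => Or.inr hx⟩
  | succ j ih =>
    rw [iterate_succ_apply']
    have h := lsStep_spec D b E parts ((lsStep D b E parts)^[j] Q)
    refine ⟨h.1.trans ih.1, fun x hx => ?_⟩
    rcases h.2 x hx with h | h
    · exact Or.inl h
    · exact ih.2 x h

theorem PT_lsStep {D : α → ι → X → ℕ} {b : α → ι → ℕ} {E : α → List ι}
    {parts : α → List (List X)} {Q : α → List X}
    (hD : PT A (fun p : α × ι × X => D p.1 p.2.1 p.2.2))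
    (hb : PT A (fun p : α × ι => b p.1 p.2)) (hbb : PBd (fun p : α × ι => b p.1 p.2))
    (hE : PT A E) (hp : PT A parts) (hQ : PT A Q) :
    PT A (fun a => lsStep (D a) (b a) (E a) (parts a) (Q a)) := by
  have h0 : PT A (fun a => pot (D a) (b a) (E a) (Q a)) := PT_pot hD hb hbb hE hQ
  have hbb' : PBd (fun p : (α × List X) × ι => b p.1.1 p.2) := by
    have h : PT (∅ : Set Word) (fun p : (α × List X) × ι => (p.1.1, p.2)) :=
      PT.fst'.fst.pair PT.snd'
    exact hbb.comp h
  have h1 : PT A (fun p : α × List X => pot (D p.1) (b p.1) (E p.1) p.2) :=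
    PT_pot (D := fun p : α × List X => D p.1) (b := fun p : α × List X => b p.1)
      (hD.comp (PT.fst'.fst.pair PT.snd')) (hb.comp (PT.fst'.fst.pair PT.snd')) hbb'
      (hE.comp PT.fst') PT.snd'
  exact PT.optGetD (PT.find? (f := fun a Q' => decide
    (pot (D a) (b a) (E a) Q' < pot (D a) (b a) (E a) (Q a))) (PT_moves hp hQ)
    (PT.lt h1 (h0.comp PT.fst'))) hQ

theorem PT_lsearch {D : α → ι → X → ℕ} {b : α → ι → ℕ} {E : α → List ι}
    {parts : α → List (List X)} {Q : α → List X}
    (hD : PT A (fun p : α × ι × X => D p.1 p.2.1 p.2.2))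
    (hb : PT A (fun p : α × ι => b p.1 p.2)) (hbb : PBd (fun p : α × ι => b p.1 p.2))
    (hE : PT A E) (hp : PT A parts) (hQ : PT A Q) :
    PT A (fun a => lsearch (D a) (b a) (E a) (parts a) (Q a)) := by
  have hB : PBd (fun a => esize (Q a) * (2 * (esize ((parts a).flatten) + esize (Q a)) + 1)) :=
    hQ.pbd.mul (((PBd.const 2).mul (hp.flatten.pbd.add hQ.pbd)).add (PBd.const 1))
  have hbb' : PBd (fun p : (α × List X) × ι => b p.1.1 p.2) := by
    have h : PT (∅ : Set Word) (fun p : (α × List X) × ι => (p.1.1, p.2)) :=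
      PT.fst'.fst.pair PT.snd'
    exact hbb.comp h
  refine PT.iterate' (step := fun a => lsStep (D a) (b a) (E a) (parts a))
    (PT_pot hD hb hbb hE hQ) (PBd_pot hbb hE) hQ
    (PT_lsStep (D := fun p : α × List X => D p.1) (b := fun p : α × List X => b p.1)
      (hD.comp (PT.fst'.fst.pair PT.snd')) (hb.comp (PT.fst'.fst.pair PT.snd')) hbb'
      (hE.comp PT.fst') (hp.comp PT.fst') PT.snd') hB fun a j _ => ?_
  have h := lsStep_iterate_spec (D a) (b a) (E a) (parts a) (Q a) j
  exact esize_le_of_two (h.1.le.trans (length_le_esize _)) h.2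

end

end Vale.Agent.P334.Alg
end

section

/-!
Polynomial time for the basic list algorithms, part 4: dynamic programming over color sets.
-/

namespace Vale.Agent.P334.Alg

open Vale.Agent.Lib.PolyTime Function

variable {A : Set Word} {α β γ δ : Type*} [Enc α] [Enc β] [Enc γ] [Enc δ]

section

variable {X : Type}

theorem better_foldl_mem (e : ℕ × List X) (l : List (ℕ × List X)) :
    l.foldl better e ∈ e :: l := by
  induction l generalizing e with
  | nil => simp
  | cons s l ih =>
    rw [List.foldl_cons]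
    have := ih (better e s)
    unfold better at this ⊢
    split_ifs at this ⊢ <;> simp only [List.mem_cons] at this ⊢ <;> tauto

theorem better_foldl_le (e : ℕ × List X) (l : List (ℕ × List X)) :
    (l.foldl better e).1 ≤ e.1 := by
  induction l generalizing e with
  | nil => simp
  | cons s l ih =>
    rw [List.foldl_cons]
    refine (ih _).trans ?_
    unfold better
    split_ifs with h
    · exact h.le
    · exact le_rfl

/-- The step of the dynamic program, with truncated keys. -/
def dpStepT (z : ℕ) (F : List X) (C : ℕ → X → ℕ) (tab : List (List ℕ × (ℕ × List X))) :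
    List (List ℕ × (ℕ × List X)) :=
  tab.map (fun e => (e.1, (((e.1.take z).sublists.flatMap (fun V => F.map (fun q =>
    ((look tab (e.1.filter (fun a => decide (a ∉ V)))).1 + (V.map (fun a => C a q)).sum,
      q :: (look tab (e.1.filter (fun a => decide (a ∉ V)))).2)))).foldl better e.2)))

theorem dpStepT_eq {z : ℕ} (F : List X) (C : ℕ → X → ℕ) {tab : List (List ℕ × (ℕ × List X))}
    (h : ∀ e ∈ tab, e.1.length ≤ z) : dpStepT z F C tab = dpStep F C tab := by
  unfold dpStepT dpStep
  refine List.map_congr_left fun e he => ?_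
  rw [List.take_of_length_le (h e he)]

theorem dpStep_keys (F : List X) (C : ℕ → X → ℕ) (tab : List (List ℕ × (ℕ × List X))) :
    (dpStep F C tab).map Prod.fst = tab.map Prod.fst := by
  unfold dpStep
  rw [List.map_map]
  rfl

theorem dpStep_iterate_keys (F : List X) (C : ℕ → X → ℕ) (tab : List (List ℕ × (ℕ × List X)))
    (j : ℕ) : ((dpStep F C)^[j] tab).map Prod.fst = tab.map Prod.fst := by
  induction j with
  | zero => rfl
  | succ j ih => rw [iterate_succ_apply', dpStep_keys, ih]

theorem dpStepT_iterate {z : ℕ} (F : List X) (C : ℕ → X → ℕ)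
    {tab : List (List ℕ × (ℕ × List X))} (h : ∀ e ∈ tab, e.1.length ≤ z) (j : ℕ) :
    (dpStepT z F C)^[j] tab = (dpStep F C)^[j] tab := by
  induction j with
  | zero => rfl
  | succ j ih =>
    rw [iterate_succ_apply', iterate_succ_apply', ih]
    apply dpStepT_eq
    intro e he
    have h1 : e.1 ∈ ((dpStep F C)^[j] tab).map Prod.fst := List.mem_map.2 ⟨e, he, rfl⟩
    rw [dpStep_iterate_keys] at h1
    obtain ⟨e', he', h2⟩ := List.mem_map.1 h1
    rw [← h2]
    exact h e' he'

theorem look_mem (tab : List (List ℕ × (ℕ × List X))) (U : List ℕ) :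
    look tab U = (0, []) ∨ ∃ e ∈ tab, look tab U = e.2 := by
  unfold look
  generalize h : List.find? _ tab = o
  rcases o with _ | e
  · exact Or.inl rfl
  · exact Or.inr ⟨e, List.mem_of_find?_eq_some h, rfl⟩

/-- Invariant of the dynamic program. -/
theorem dpStep_iterate_spec (F : List X) (C : ℕ → X → ℕ)
    (tab : List (List ℕ × (ℕ × List X))) (M : ℕ) (h : ∀ e ∈ tab, e.2.1 ≤ M ∧ e.2.2 = []) (j : ℕ) :
    ∀ e ∈ (dpStep F C)^[j] tab, e.2.1 ≤ M ∧ e.2.2.length ≤ j ∧ ∀ x ∈ e.2.2, x ∈ F := by
  induction j with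
  | zero =>
    intro e he
    have := h e he
    simp only [this.1, this.2, List.length_nil, Std.le_refl, List.not_mem_nil, IsEmpty.forall_iff, implies_true, and_self]
  | succ j ih =>
    intro e he
    rw [iterate_succ_apply'] at he
    unfold dpStep at he
    obtain ⟨e', he', rfl⟩ := List.mem_map.1 he
    have h0 := ih e' he'
    refine ⟨(better_foldl_le _ _).trans h0.1, ?_⟩
    rcases List.mem_cons.1 (better_foldl_mem e'.2 (e'.1.sublists.flatMap (fun V => F.map (fun q =>
      let r := look ((dpStep F C)^[j] tab) (e'.1.filter (fun a => decide (a ∉ V)))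
      (r.1 + (V.map (fun a => C a q)).sum, q :: r.2))))) with h1 | h1
    · refine ⟨?_, fun x hx => ?_⟩
      · show (List.foldl better e'.2 _).2.length ≤ j + 1
        unfold dpStep at h1
        rw [h1]
        omega
      · have hx' : x ∈ (List.foldl better e'.2 _).2 := hx
        unfold dpStep at h1
        rw [h1] at hx'
        exact h0.2.2 x hx'
    · obtain ⟨V, -, hV⟩ := List.mem_flatMap.1 h1
      obtain ⟨q, hq, hq'⟩ := List.mem_map.1 hV
      have h2 : (look ((dpStep F C)^[j] tab) (e'.1.filter (fun a => decide (a ∉ V)))).2.length ≤ j ∧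
          ∀ x ∈ (look ((dpStep F C)^[j] tab) (e'.1.filter (fun a => decide (a ∉ V)))).2,
            x ∈ F := by
        rcases look_mem ((dpStep F C)^[j] tab) (e'.1.filter (fun a => decide (a ∉ V))) with
          h3 | ⟨e'', he'', h3⟩
        · rw [h3]; simp only [List.length_nil, zero_le, List.not_mem_nil, IsEmpty.forall_iff, implies_true, and_self]
        · rw [h3]; exact (ih e'' he'').2
      refine ⟨?_, fun x hx => ?_⟩
      · show (List.foldl better e'.2 _).2.length ≤ j + 1
        unfold dpStep at hq'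
        rw [← hq']
        unfold dpStep at h2
        show (q :: _).length ≤ j + 1
        rw [List.length_cons]
        exact Nat.succ_le_succ h2.1
      · have hx' : x ∈ (List.foldl better e'.2 _).2 := hx
        unfold dpStep at hq'
        rw [← hq'] at hx'
        unfold dpStep at h2
        rcases List.mem_cons.1 hx' with rfl | hx'
        · exact hq
        · exact h2.2 x hx'

variable [Enc X]

theorem PT_look {tab : α → List (List ℕ × (ℕ × List X))} {U : α → List ℕ} (ht : PT A tab)
    (hU : PT A U) : PT A (fun a => look (tab a) (U a)) := by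
  refine (PT.optCase (f := fun _ => ((0, []) : ℕ × List X)) (g := fun _ e => e.2)
    (PT.find? (f := fun a e => decide (e.1 = U a)) ht
      (PT_eqListNat PT.snd'.fst (hU.comp PT.fst'))) (PT.const _) PT.snd'.snd).congr fun a => ?_
  unfold look
  generalize List.find? _ (tab a) = o
  rcases o with _ | e <;> rfl

theorem PT_betterFold {e : α → ℕ × List X} {l : α → List (ℕ × List X)} (he : PT A e)
    (hl : PT A l) : PT A (fun a => (l a).foldl better (e a)) := by
  refine PT.foldl (f := fun _ x y => better x y) hl he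
    (PT.ite (p := fun q : α × (ℕ × List X) × (ℕ × List X) => q.2.2.1 < q.2.1.1)
      (PT.lt PT.snd'.snd.fst PT.snd'.fst.fst) PT.snd'.snd PT.snd'.fst) (he.pbd.add hl.pbd)
    fun a i => ?_
  show esize (((l a).take i).foldl better (e a)) ≤ _
  rcases List.mem_cons.1 (better_foldl_mem (e a) ((l a).take i)) with h | h
  · rw [h]; omega
  · have := esize_le_of_mem h
    have := esize_take_le i (l a)
    omega

theorem PT_dpStepT {z : α → ℕ} {F : α → List X} {C : α → ℕ → X → ℕ}
    {tab : α → List (List ℕ × (ℕ × List X))} (hz : PT A z) (hzb : PBd (fun a => 2 ^ z a))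
    (hF : PT A F) (hC : PT A (fun p : α × ℕ × X => C p.1 p.2.1 p.2.2)) (ht : PT A tab) :
    PT A (fun a => dpStepT (z a) (F a) (C a) (tab a)) := by
  have h1 : PT A (fun p : α × (List ℕ × (ℕ × List X)) => (p.2.1.take (z p.1)).sublists) := by
    refine PT_sublists (PT.take PT.snd'.fst (hz.comp PT.fst')) ?_
    have h : PT A (fun p : α × (List ℕ × (ℕ × List X)) => p.1) := PT.fst'
    refine (hzb.comp h).mono fun p => ?_
    rw [List.length_take]
    exact Nat.pow_le_pow_right (by norm_num) (min_le_left _ _)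
  have h2 : PT A (fun p : ((α × (List ℕ × (ℕ × List X))) × List ℕ) × X =>
      look (tab p.1.1.1) (p.1.1.2.1.filter (fun a => decide (a ∉ p.1.2)))) :=
    PT_look (ht.comp PT.fst'.fst.fst) (PT.filter
      (f := fun (p : ((α × (List ℕ × (ℕ × List X))) × List ℕ) × X) a => decide (a ∉ p.1.2))
      PT.fst'.fst.snd.fst (PT.decide_not (PT.mem PT.fst'.fst.snd PT.snd')))
  have h3 : PT A (fun p : ((α × (List ℕ × (ℕ × List X))) × List ℕ) × X =>
      (p.1.2.map (fun a => C p.1.1.1 a p.2)).sum) :=
    PT.sum (PT.map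
      (f := fun (p : ((α × (List ℕ × (ℕ × List X))) × List ℕ) × X) a => C p.1.1.1 a p.2)
      PT.fst'.snd
      (hC.comp (PT.fst'.fst.fst.fst.pair (PT.snd'.pair PT.fst'.snd))))
  have h4 : PT A (fun p : (α × (List ℕ × (ℕ × List X))) × List ℕ => (F p.1.1).map (fun q =>
      ((look (tab p.1.1) (p.1.2.1.filter (fun a => decide (a ∉ p.2)))).1 +
        (p.2.map (fun a => C p.1.1 a q)).sum,
        q :: (look (tab p.1.1) (p.1.2.1.filter (fun a => decide (a ∉ p.2)))).2))) :=
    PT.map (hF.comp PT.fst'.fst) ((PT.add h2.fst h3).pair (PT.cons PT.snd' h2.snd))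
  exact PT.map ht (PT.snd'.fst.pair (PT_betterFold PT.snd'.snd (PT.flatMap h1 h4)))

theorem PT_dpInit {z : α → ℕ} {B : α → ℕ → ℕ} (hz : PT A z) (hzb : PBd (fun a => 2 ^ z a))
    (hB : PT A (fun p : α × ℕ => B p.1 p.2)) : PT A (fun a => dpInit (X := X) (z a) (B a)) := by
  have h0 : PT A (fun a => (List.range (z a)).sublists) :=
    PT_sublists (PT.range hz (hzb.mono fun a => Nat.lt_two_pow_self.le)) (by simpa using hzb)
  exact PT.map h0 (PT.snd'.pair ((PT.sum (PT.map (f := fun (p : α × List ℕ) a => B p.1 a) PT.snd'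
    (hB.comp (PT.fst'.fst.pair PT.snd')))).pair (PT.const [])))

theorem PT_dp {z h : α → ℕ} {F : α → List X} {B : α → ℕ → ℕ} {C : α → ℕ → X → ℕ}
    (hF : PT A F) (hz : PT A z) (hzb : PBd (fun a => 2 ^ z a))
    (hB : PT A (fun p : α × ℕ => B p.1 p.2))
    (hC : PT A (fun p : α × ℕ × X => C p.1 p.2.1 p.2.2)) (hh : PT A h) (hhb : PBd h) :
    PT A (fun a => dp (F a) (z a) (B a) (C a) (h a)) := by
  have hzb' : PBd z := hzb.mono fun a => Nat.lt_two_pow_self.le
  have hI : PT A (fun a => dpInit (X := X) (z a) (B a)) := PT_dpInit hz hzb hB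
  have hM : PT A (fun a => ((List.range (z a)).map (B a)).sum) :=
    PT.sum (PT.map (PT.range hz hzb') hB)
  have hBd : PBd (fun a => esize (dpInit (X := X) (z a) (B a)) *
      (2 * (2 * esize (dpInit (X := X) (z a) (B a)) +
        (2 * esize (((List.range (z a)).map (B a)).sum) + h a * (2 * esize (F a) + 1) + 1) + 1)
        + 1)) := by
    have h1 := hI.pbd
    have h2 := hM.pbd
    have h3 := hF.pbd
    exact h1.mul (((PBd.const 2).mul ((((PBd.const 2).mul h1).add
      ((((PBd.const 2).mul h2).add (hhb.mul (((PBd.const 2).mul h3).add (PBd.const 1)))).add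
        (PBd.const 1))).add (PBd.const 1))).add (PBd.const 1))
  have hkey : ∀ a, ∀ e ∈ dpInit (X := X) (z a) (B a), e.1.length ≤ z a := by
    intro a e he
    obtain ⟨U, hU, rfl⟩ := List.mem_map.1 he
    have := (List.mem_sublists.1 hU).length_le
    simpa only [ge_iff_le, List.length_range] using this
  have hit : PT A (fun a => (dpStepT (z a) (F a) (C a))^[h a] (dpInit (X := X) (z a) (B a))) := by
    have hzb2 : PBd (fun p : α × List (List ℕ × (ℕ × List X)) => 2 ^ z p.1) := by
      have h : PT A (fun p : α × List (List ℕ × (ℕ × List X)) => p.1) := PT.fst'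
      exact hzb.comp h
    refine PT.iterate' (step := fun a => dpStepT (z a) (F a) (C a)) hh hhb hI
      (PT_dpStepT (z := fun p : α × List (List ℕ × (ℕ × List X)) => z p.1)
        (C := fun p : α × List (List ℕ × (ℕ × List X)) => C p.1) (hz.comp PT.fst') hzb2
        (hF.comp PT.fst') (hC.comp (PT.fst'.fst.pair PT.snd')) PT.snd') hBd fun a j hj => ?_
    rw [dpStepT_iterate _ _ (hkey a)]
    have hspec := dpStep_iterate_spec (F a) (C a) (dpInit (X := X) (z a) (B a))
      (((List.range (z a)).map (B a)).sum) (by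
        intro e he
        obtain ⟨U, hU, rfl⟩ := List.mem_map.1 he
        refine ⟨?_, rfl⟩
        exact ((List.mem_sublists.1 hU).map (B a)).sum_le_sum fun _ _ => Nat.zero_le _) j
    have hkeys := dpStep_iterate_keys (F a) (C a) (dpInit (X := X) (z a) (B a)) j
    have hlen : ((dpStep (F a) (C a))^[j] (dpInit (X := X) (z a) (B a))).length =
        (dpInit (X := X) (z a) (B a)).length := by
      have := congrArg List.length hkeys
      simpa using this
    refine (esize_list_le fun e he => ?_).trans (Nat.mul_le_mul_right _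
      (hlen.le.trans (length_le_esize _)))
    have h1 := hspec e he
    have h2 : e.1 ∈ ((dpStep (F a) (C a))^[j] (dpInit (X := X) (z a) (B a))).map Prod.fst :=
      List.mem_map.2 ⟨e, he, rfl⟩
    rw [hkeys] at h2
    obtain ⟨e', he', h3⟩ := List.mem_map.1 h2
    have h4 : esize e.1 ≤ esize (dpInit (X := X) (z a) (B a)) := by
      rw [← h3]
      exact (esize_fst_le e').trans (esize_le_of_mem he')
    have h5 : esize e.2.1 ≤ esize (((List.range (z a)).map (B a)).sum) := esize_nat_mono h1.1
    have h6 : esize e.2.2 ≤ h a * (2 * esize (F a) + 1) :=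
      (esize_list_le (B := esize (F a)) fun x hx => esize_le_of_mem (h1.2.2 x hx)).trans
        (Nat.mul_le_mul_right _ (h1.2.1.trans hj))
    have h7 : esize e = 2 * esize e.1 + (2 * esize e.2.1 + esize e.2.2 + 1) + 1 := by
      have h8 := esize_pair e.1 e.2
      have h9 := esize_pair e.2.1 e.2.2
      simp only [Prod.mk.eta] at h8 h9
      omega
    rw [h7]
    (clear * - h4 h5 h6 h7; omega)
  refine (PT_look hit (PT.range hz hzb')).congr fun a => ?_
  rw [dpStepT_iterate _ _ (hkey a)]
  rfl

end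

end Vale.Agent.P334.Alg
end

section

/-!
Counting strings of random bits by blocks.
-/

namespace Vale.Agent.P334.Alg

theorem card_blocks_succ (L m t : ℕ) (B : Set (List Bool)) :
    Nat.card {r : Fin (L + t) → Bool //
        ∀ q < m + 1, ((List.ofFn r).drop (q * L)).take L ∈ B} =
      Nat.card {ρ : Fin L → Bool // List.ofFn ρ ∈ B} *
        Nat.card {r : Fin t → Bool // ∀ q < m, ((List.ofFn r).drop (q * L)).take L ∈ B} := by
  rw [← Nat.card_prod]
  refine Nat.card_congr (((Fin.appendEquiv L t).symm.subtypeEquiv ?_).trans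
    (Equiv.subtypeProdEquivProd (p := fun a : Fin L → Bool => List.ofFn a ∈ B)
      (q := fun b : Fin t → Bool => ∀ q < m, ((List.ofFn b).drop (q * L)).take L ∈ B)))
  intro r
  obtain ⟨⟨a, b⟩, rfl⟩ := (Fin.appendEquiv L t).surjective r
  rw [Equiv.symm_apply_apply]
  have h1 : List.ofFn ((Fin.appendEquiv L t) (a, b)) = List.ofFn a ++ List.ofFn b :=
    List.ofFn_fin_append a b
  have h2 : ∀ q, (List.ofFn a ++ List.ofFn b).drop ((q + 1) * L) =
      (List.ofFn b).drop (q * L) := by
    intro q
    have hl : (List.ofFn a).length = L := List.length_ofFn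
    rw [show (q + 1) * L = (List.ofFn a).length + q * L by rw [hl]; ring,
      List.drop_append, List.drop_eq_nil_of_le (by omega), List.nil_append]
    congr 1
    omega
  have h3 : (List.ofFn a ++ List.ofFn b).take L = List.ofFn a := by
    have hl : (List.ofFn a).length = L := List.length_ofFn
    rw [List.take_append, List.take_of_length_le (by omega), hl, Nat.sub_self, List.take_zero,
      List.append_nil]
  rw [h1]
  constructor
  · intro h
    refine ⟨?_, fun q hq => ?_⟩
    · have := h 0 (Nat.succ_pos m)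
      rwa [Nat.zero_mul, List.drop_zero, h3] at this
    · have := h (q + 1) (Nat.succ_lt_succ hq)
      rwa [h2] at this
  · rintro ⟨ha, hb⟩ q hq
    cases q with
    | zero => rwa [Nat.zero_mul, List.drop_zero, h3]
    | succ q =>
      rw [h2]
      exact hb q (Nat.lt_of_succ_lt_succ hq)

/-- The number of strings all of whose first `m` blocks of length `L` are in `B`. -/
theorem card_blocks (L m t : ℕ) (h : m * L ≤ t) (B : Set (List Bool)) :
    Nat.card {r : Fin t → Bool // ∀ q < m, ((List.ofFn r).drop (q * L)).take L ∈ B} =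
      (Nat.card {ρ : Fin L → Bool // List.ofFn ρ ∈ B}) ^ m * 2 ^ (t - m * L) := by
  induction m generalizing t with
  | zero =>
    have h1 : Nat.card {r : Fin t → Bool //
        ∀ q < 0, ((List.ofFn r).drop (q * L)).take L ∈ B} = Nat.card (Fin t → Bool) :=
      Nat.card_congr (Equiv.subtypeUnivEquiv (fun r q hq => absurd hq (Nat.not_lt_zero q)))
    rw [h1]
    simp only [Nat.card_eq_fintype_card, Fintype.card_pi, Fintype.card_bool, Finset.prod_const, Finset.card_univ, Fintype.card_fin, pow_zero, zero_mul, tsub_zero, one_mul]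
  | succ m ih =>
    have h0 : (m + 1) * L = m * L + L := Nat.succ_mul m L
    obtain ⟨u, rfl⟩ : ∃ u, t = L + u := ⟨t - L, by omega⟩
    rw [card_blocks_succ, ih u (by omega), pow_succ,
      show L + u - (m + 1) * L = u - m * L by omega]
    ring

/-- If a block is good with probability at least `1 / A`, then few strings have only bad blocks. -/
theorem card_bad {L m t A : ℕ} (h : m * L ≤ t) (hA : 0 < A) {G : Set (List Bool)}
    (hG : 2 ^ L ≤ A * Nat.card {ρ : Fin L → Bool // List.ofFn ρ ∈ G}) :
    (Nat.card {r : Fin t → Bool // ∀ q < m, ((List.ofFn r).drop (q * L)).take L ∉ G} : ℝ) ≤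
      Real.exp (-(m : ℝ) / A) * 2 ^ t := by
  have hb := card_blocks L m t h Gᶜ
  have hb' : Nat.card {r : Fin t → Bool //
      ∀ q < m, ((List.ofFn r).drop (q * L)).take L ∉ G} =
      (Nat.card {ρ : Fin L → Bool // List.ofFn ρ ∈ Gᶜ}) ^ m * 2 ^ (t - m * L) := hb
  rw [hb']
  -- number of bad blocks
  have hsum : Nat.card {ρ : Fin L → Bool // List.ofFn ρ ∈ G} +
      Nat.card {ρ : Fin L → Bool // List.ofFn ρ ∈ Gᶜ} = 2 ^ L := by
    classical
    have h1 : Nat.card ({ρ : Fin L → Bool // List.ofFn ρ ∈ G} ⊕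
        {ρ : Fin L → Bool // ¬ List.ofFn ρ ∈ G}) = Nat.card (Fin L → Bool) :=
      Nat.card_congr (Equiv.sumCompl (fun ρ : Fin L → Bool => List.ofFn ρ ∈ G))
    rw [Nat.card_sum] at h1
    have h2 : Nat.card (Fin L → Bool) = 2 ^ L := by simp only [Nat.card_eq_fintype_card, Fintype.card_pi, Fintype.card_bool, Finset.prod_const, Finset.card_univ, Fintype.card_fin]
    rw [h2] at h1
    exact h1
  set g : ℕ := Nat.card {ρ : Fin L → Bool // List.ofFn ρ ∈ G} with hg
  set b : ℕ := Nat.card {ρ : Fin L → Bool // List.ofFn ρ ∈ Gᶜ} with hbdef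
  have hA' : (0 : ℝ) < A := Nat.cast_pos.2 hA
  have h1 : (g : ℝ) + b = 2 ^ L := by exact_mod_cast hsum
  have h2 : (2 : ℝ) ^ L ≤ A * g := by exact_mod_cast hG
  have h3 : (b : ℝ) ≤ 2 ^ L * Real.exp (-1 / A) := by
    have h4 : (-1 / A : ℝ) + 1 ≤ Real.exp (-1 / A) := Real.add_one_le_exp _
    have h5 : (2 : ℝ) ^ L / A ≤ g := by
      rw [div_le_iff₀ hA']
      linarith only [h2]
    have h6 : (0 : ℝ) < 2 ^ L := by positivity
    calc (b : ℝ) ≤ 2 ^ L - 2 ^ L / A := by (clear * - h1 h5; linarith)
      _ = 2 ^ L * (-1 / A + 1) := by ring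
      _ ≤ 2 ^ L * Real.exp (-1 / A) := mul_le_mul_of_nonneg_left h4 h6.le
  have h7 : (b : ℝ) ^ m ≤ (2 ^ L * Real.exp (-1 / A)) ^ m :=
    pow_le_pow_left₀ (Nat.cast_nonneg b) h3 m
  have h8 : Real.exp (-1 / A) ^ m = Real.exp (-(m : ℝ) / A) := by
    rw [← Real.exp_nat_mul]
    congr 1
    ring
  push_cast
  calc (b : ℝ) ^ m * 2 ^ (t - m * L)
      ≤ (2 ^ L * Real.exp (-1 / A)) ^ m * 2 ^ (t - m * L) :=
        mul_le_mul_of_nonneg_right h7 (by positivity)
    _ = Real.exp (-(m : ℝ) / A) * (2 ^ (m * L) * 2 ^ (t - m * L)) := by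
        rw [mul_pow, h8, ← pow_mul, mul_comm L m]
        ring
    _ = Real.exp (-(m : ℝ) / A) * 2 ^ t := by
        rw [← pow_add, Nat.add_sub_cancel' h]

theorem exp_small {n E : ℕ} (hn : 1 ≤ n) (hE : 1 ≤ E) :
    3 * (n : ℝ) * Real.exp (-((E : ℝ) * n)) ≤ 2 / E := by
  have hE' : (0 : ℝ) < E := by exact_mod_cast hE
  have hn' : (0 : ℝ) < n := by exact_mod_cast hn
  have hx : (0 : ℝ) ≤ (E : ℝ) * n := by positivity
  have h1 := Real.quadratic_le_exp_of_nonneg hx
  have h2 : 0 < Real.exp ((E : ℝ) * n) := Real.exp_pos _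
  rw [Real.exp_neg, le_div_iff₀ hE', ← div_eq_mul_inv, div_mul_eq_mul_div, div_le_iff₀ h2]
  nlinarith only [h1]

end Vale.Agent.P334.Alg
end

section

/-!
The algorithm on rational instances.
-/

namespace Vale.Agent.P334.Alg.One

/-- Product of all denominators. -/
def den (M : List (List (ℕ × ℕ))) : ℕ := (M.flatMap (fun row => row.map (fun e => max e.2 1))).prod

/-- Numerator of an entry over the common denominator. -/
def Dint (M : List (List (ℕ × ℕ))) (a b : ℕ) : ℕ :=
  ((M.getD a []).getD b (0, 1)).1 *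
    (if ((M.getD a []).getD b (0, 1)).2 = 0 then 0 else
      den M / ((M.getD a []).getD b (0, 1)).2)

/-- A bound of all values. -/
def lint (M : List (List (ℕ × ℕ))) : ℕ :=
  den M * (M.flatMap (fun row => row.map (fun e => e.1))).sum

/-- The final algorithm. -/
def alg (P : Data) (x : Final.Input) : List ℕ :=
  P.kmed (Dint x.inst.M) (lint x.inst.M) x.inst.M.length x.inst.J x.inst.F
    (min x.inst.k x.inst.F.length) x.coins

end Vale.Agent.P334.Alg.One
end

section

/-!
Part 1: the algorithm on integral metrics runs in polynomial time.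
-/

namespace Vale.Agent.P334.Alg.One

open Vale.Agent.Lib.PolyTime

section

variable {α : Type} [Enc α]

/-- the scaled metric -/
theorem pt_scal {D : α → ℕ → ℕ → ℕ} {N R U cap nu : α → ℕ}
    (hD : PT ∅ (fun p : α × ℕ × ℕ => D p.1 p.2.1 p.2.2)) (hN : PT ∅ N) (hR : PT ∅ R)
    (hU : PT ∅ U) (hc : PT ∅ cap) (hn : PT ∅ nu) :
    PT ∅ (fun p : α × ℕ × ℕ =>
      scal (D p.1) (N p.1) (R p.1) (U p.1) (cap p.1) (nu p.1) p.2.1 p.2.2) := by
  have hN' : PT ∅ (fun p : α × ℕ × ℕ => N p.1) := hN.comp PT.fst'
  have hR' : PT ∅ (fun p : α × ℕ × ℕ => R p.1) := hR.comp PT.fst'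
  have hU' : PT ∅ (fun p : α × ℕ × ℕ => U p.1) := hU.comp PT.fst'
  have hc' : PT ∅ (fun p : α × ℕ × ℕ => cap p.1) := hc.comp PT.fst'
  have hn' : PT ∅ (fun p : α × ℕ × ℕ => nu p.1) := hn.comp PT.fst'
  have h1 : PT ∅ (fun p : α × ℕ × ℕ => p.2.1) := PT.snd'.fst
  have h2 : PT ∅ (fun p : α × ℕ × ℕ => p.2.2) := PT.snd'.snd
  exact PT.ite (p := fun p : α × ℕ × ℕ => p.2.1 = p.2.2) (PT.eqNat h1 h2) (PT.const 0)
    (PT.ite (p := fun p : α × ℕ × ℕ => p.2.1 < N p.1 ∧ p.2.2 < N p.1)
      (PT.decide_and (PT.lt h1 hN') (PT.lt h2 hN'))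
      (PT.mul hU' (PT.min hc' (PT.div (PT.add (PT.mul hn' hD) (PT.sub hR' (PT.const 1))) hR')))
      (PT.mul hU' hc'))

/-! ### The fallback -/

theorem pt_fbStep {D : α → ℕ → ℕ → ℕ} {F : α → List ℕ} {R : α → ℕ}
    {s : α → List ℕ × List ℕ} (hD : PT ∅ (fun p : α × ℕ × ℕ => D p.1 p.2.1 p.2.2))
    (hF : PT ∅ F) (hR : PT ∅ R) (hs : PT ∅ s) :
    PT ∅ (fun a => fbStep (D a) (F a) (R a) (s a)) := by
  have hh : PT ∅ (fun a => (s a).1.headD 0) := PT.headD hs.fst (PT.const 0)
  have hd : PT ∅ (fun p : α × ℕ => D p.1 ((s p.1).1.headD 0) p.2) :=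
    hD.comp (PT.fst'.pair ((hh.comp PT.fst').pair PT.snd'))
  have h1 : PT ∅ (fun a => (s a).1.filter
      (fun j => decide (2 * R a < D a ((s a).1.headD 0) j))) :=
    PT.filter (f := fun a j => decide (2 * R a < D a ((s a).1.headD 0) j)) hs.fst
      (PT.lt (PT.mul (PT.const 2) (hR.comp PT.fst')) hd)
  have h2 : PT ∅ (fun a => (F a).find? (fun i => decide (D a ((s a).1.headD 0) i ≤ R a))) :=
    PT.find? (f := fun a i => decide (D a ((s a).1.headD 0) i ≤ R a)) hF
      (PT.le hd (hR.comp PT.fst'))
  exact PT.ifNil hs.fst hs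
    (h1.pair (PT.cons (PT.optGetD h2 (PT.headD hF (PT.const 0))) hs.snd))

theorem fbStep_inv (D : ℕ → ℕ → ℕ) (F : List ℕ) (R : ℕ) (J : List ℕ) (m : ℕ) :
    ((fbStep D F R)^[m] (J, [])).1.Sublist J ∧ ((fbStep D F R)^[m] (J, [])).2.length ≤ m ∧
      ∀ x ∈ ((fbStep D F R)^[m] (J, [])).2, x = 0 ∨ x ∈ F := by
  induction m with
  | zero => simp
  | succ m ih =>
    rw [Function.iterate_succ_apply']
    obtain ⟨h1, h2, h3⟩ := ih
    generalize (fbStep D F R)^[m] (J, []) = s at h1 h2 h3
    unfold fbStep
    split_ifs with h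
    · exact ⟨h1, by omega, h3⟩
    · refine ⟨List.filter_sublist.trans h1, by simpa only [List.headD_eq_head?_getD, List.length_cons, add_le_add_iff_right] using h2, fun x hx => ?_⟩
      rcases List.mem_cons.1 hx with rfl | hx
      · cases hf : F.find? (fun i => decide (D (s.1.headD 0) i ≤ R)) with
        | none =>
          rw [Option.getD_none]
          cases F with
          | nil => exact Or.inl rfl
          | cons a F => exact Or.inr (by simp)
        | some y => exact Or.inr (by simpa using List.mem_of_find?_eq_some hf)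
      · exact h3 x hx

theorem pt_fallback {D : α → ℕ → ℕ → ℕ} {J F : α → List ℕ} {R : α → ℕ}
    (hD : PT ∅ (fun p : α × ℕ × ℕ => D p.1 p.2.1 p.2.2)) (hJ : PT ∅ J)
    (hF : PT ∅ F) (hR : PT ∅ R) : PT ∅ (fun a => fallback (D a) (J a) (F a) (R a)) := by
  have hB : PBd (fun a => 2 * esize (J a) + (J a).length * (2 * esize (F a) + 1) + 1) := by
    have h1 := hJ.pbd
    have h2 := hF.pbd
    have h3 := PBd.length hJ
    (clear * - hJ h3 hF; fun_prop)
  have h0 : PT ∅ (fun p : α × List ℕ × List ℕ => fbStep (D p.1) (F p.1) (R p.1) p.2) :=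
    pt_fbStep (D := fun p : α × List ℕ × List ℕ => D p.1)
      (hD.comp (PT.fst'.fst.pair PT.snd')) (hF.comp PT.fst') (hR.comp PT.fst') PT.snd'
  refine (PT.iterate' (init := fun a => (J a, [])) (step := fun a s => fbStep (D a) (F a) (R a) s)
    hJ.length (PBd.length hJ) (hJ.pair (PT.const [])) h0 hB fun a j hj => ?_).snd
  obtain ⟨h1, h2, h3⟩ := fbStep_inv (D a) (F a) (R a) (J a) j
  have h4 := esize_le_of_sublist h1
  have h5 : esize ((fbStep (D a) (F a) (R a))^[j] (J a, [])).2 ≤
      ((fbStep (D a) (F a) (R a))^[j] (J a, [])).2.length * (2 * esize (F a) + 1) := by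
    refine esize_list_le fun x hx => ?_
    rcases h3 x hx with rfl | h
    · exact (esize_nat_le_self 0).trans (Nat.zero_le _)
    · exact esize_le_of_mem h
  have h6 : ((fbStep (D a) (F a) (R a))^[j] (J a, [])).2.length * (2 * esize (F a) + 1) ≤
      (J a).length * (2 * esize (F a) + 1) := Nat.mul_le_mul_right _ (h2.trans hj)
  show esize ((fbStep (D a) (F a) (R a))^[j] (J a, [])) ≤ _
  generalize (fbStep (D a) (F a) (R a))^[j] (J a, []) = s at h4 h5 h6
  obtain ⟨s1, s2⟩ := s
  rw [esize_pair]
  simp only at h4 h5 h6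
  omega

/-! ### Selection -/

theorem pt_adm {F S : α → List ℕ} {k : α → ℕ} (hF : PT ∅ F) (hk : PT ∅ k) (hS : PT ∅ S) :
    PT ∅ (fun a => adm (F a) (k a) (S a)) := by
  have h1 : PT ∅ (fun a => (S a).all (fun x => decide (x ∈ F a))) :=
    PT.all (f := fun a x => decide (x ∈ F a)) hS (PT.mem (hF.comp PT.fst') PT.snd')
  exact hS.isEmpty.not.and ((PT.le hS.length hk).and h1)

theorem bestFold_mem (g : List ℕ → ℕ) (b : List ℕ) (C : List (List ℕ)) :
    C.foldl (fun b S => if g S < g b then S else b) b ∈ b :: C := by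
  induction C generalizing b with
  | nil => simp
  | cons s C ih =>
    rw [List.foldl_cons]
    have := ih (if g s < g b then s else b)
    split_ifs at this ⊢ with h <;> simp only [List.mem_cons] at this ⊢ <;> tauto

theorem pt_bestOf {D : α → ℕ → ℕ → ℕ} {l k : α → ℕ} {J F : α → List ℕ}
    {C : α → List (List ℕ)} (hD : PT ∅ (fun p : α × ℕ × ℕ => D p.1 p.2.1 p.2.2)) (hl : PT ∅ l)
    (hJ : PT ∅ J) (hF : PT ∅ F) (hk : PT ∅ k) (hC : PT ∅ C) :
    PT ∅ (fun a => bestOf (D a) (l a) (J a) (F a) (k a) (C a)) := by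
  have h1 : PT ∅ (fun a => (C a).filter (adm (F a) (k a))) :=
    PT.filter (f := fun a S => adm (F a) (k a) S) hC
      (pt_adm (hF.comp PT.fst') (hk.comp PT.fst') PT.snd')
  have h2 : PT ∅ (fun a => [(F a).headD 0]) := PT.cons (PT.headD hF (PT.const 0)) PT.nil
  have hc : ∀ {β : Type} [Enc β] {a : β → α} {S : β → List ℕ}, PT ∅ a → PT ∅ S →
      PT ∅ (fun b => cst (D (a b)) (l (a b)) (J (a b)) (S b)) := by
    intro β _ a S ha hS
    exact PT_cst (dd := fun b => D (a b)) (l := fun b => l (a b)) (J := fun b => J (a b))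
      (hD.comp ((ha.comp PT.fst').pair PT.snd')) (hl.comp ha) (hJ.comp ha) hS
  refine PT.foldl (l := fun a => (C a).filter (adm (F a) (k a))) (init := fun a => [(F a).headD 0])
    (f := fun a b S => if cst (D a) (l a) (J a) S < cst (D a) (l a) (J a) b then S else b) h1 h2
    (PT.ite (p := fun q : α × List ℕ × List ℕ =>
      cst (D q.1) (l q.1) (J q.1) q.2.2 < cst (D q.1) (l q.1) (J q.1) q.2.1)
      (PT.lt (hc PT.fst' PT.snd'.snd) (hc PT.fst' PT.snd'.fst)) PT.snd'.snd PT.snd'.fst)
    (h1.pbd.add h2.pbd) fun a i => ?_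
  have h := bestFold_mem (fun S => cst (D a) (l a) (J a) S) [(F a).headD 0]
    (((C a).filter (adm (F a) (k a))).take i)
  rcases List.mem_cons.1 h with h | h
  · rw [h]; omega
  · have h3 := esize_le_of_mem h
    have h4 := esize_take_le i ((C a).filter (adm (F a) (k a)))
    omega

/-! ### Numerical data -/

variable {P : Data}

theorem pt_nu {n : α → ℕ} (hn : PT ∅ n) : PT ∅ (fun a => P.nu (n a)) := PT.mul (PT.const _) hn

theorem pbd_nu {n : α → ℕ} (hn : PBd n) : PBd (fun a => P.nu (n a)) := (PBd.const _).mul hn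

theorem pt_cap {n : α → ℕ} (hn : PT ∅ n) : PT ∅ (fun a => P.cap (n a)) :=
  PT.mul (PT.mul (PT.const 4) (PT.add (pt_nu hn) (PT.const 1))) hn

theorem pbd_cap {n : α → ℕ} (hn : PBd n) : PBd (fun a => P.cap (n a)) :=
  ((PBd.const 4).mul ((pbd_nu hn).add (PBd.const 1))).mul hn

theorem pt_top (h3 : PTU P.Us) {n f : α → ℕ} (hn : PT ∅ n) (hnb : PBd n) (hf : PT ∅ f)
    (hfb : PBd f) : PT ∅ (fun a => P.top (n a) (f a)) :=
  PT.mul (h3 α n f hn hnb hf hfb).1 (pt_cap hn)

theorem pbd_top (h3 : PTU P.Us) {n f : α → ℕ} (hn : PT ∅ n) (hnb : PBd n) (hf : PT ∅ f)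
    (hfb : PBd f) : PBd (fun a => P.top (n a) (f a)) :=
  (h3 α n f hn hnb hf hfb).2.mul (pbd_cap hnb)

theorem pt_len (h3 : PTU P.Us) (h4 : PTL P.Lr) {n f : α → ℕ} (hn : PT ∅ n) (hnb : PBd n)
    (hf : PT ∅ f) (hfb : PBd f) : PT ∅ (fun a => P.len (n a) (f a)) :=
  (h4 α n f (fun a => P.top (n a) (f a)) hn hnb hf hfb (pt_top h3 hn hnb hf hfb)
    (pbd_top h3 hn hnb hf hfb)).1

theorem pbd_len (h3 : PTU P.Us) (h4 : PTL P.Lr) {n f : α → ℕ} (hn : PT ∅ n) (hnb : PBd n)
    (hf : PT ∅ f) (hfb : PBd f) : PBd (fun a => P.len (n a) (f a)) :=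
  (h4 α n f (fun a => P.top (n a) (f a)) hn hnb hf hfb (pt_top h3 hn hnb hf hfb)
    (pbd_top h3 hn hnb hf hfb)).2

theorem pt_reps {n f : α → ℕ} (hn : PT ∅ n) (hf : PT ∅ f) : PT ∅ (fun a => P.reps (n a) (f a)) :=
  PT.mul (PT.powConst (PT.mul (PT.const 2) (PT.add hn hf)) P.K2) (PT.mul (PT.const _) hn)

theorem pbd_reps {n f : α → ℕ} (hn : PBd n) (hf : PBd f) : PBd (fun a => P.reps (n a) (f a)) :=
  (((PBd.const 2).mul (hn.add hf)).pow P.K2).mul ((PBd.const _).mul hn)

theorem pbd_bits (h3 : PTU P.Us) (h4 : PTL P.Lr) {n f : α → ℕ}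
    (hn : PT ∅ n) (hnb : PBd n) (hf : PT ∅ f) (hfb : PBd f) :
    PBd (fun a => P.reps (n a) (f a) * P.len (n a) (f a)) :=
  (pbd_reps hnb hfb).mul (pbd_len h3 h4 hn hnb hf hfb)

theorem pt_blocks (h3 : PTU P.Us) (h4 : PTL P.Lr) {n f : α → ℕ} {r : α → List Bool}
    (hn : PT ∅ n) (hnb : PBd n) (hf : PT ∅ f) (hfb : PBd f) (hr : PT ∅ r) :
    PT ∅ (fun a => P.blocks (n a) (f a) (r a)) := by
  have hlen := pt_len h3 h4 hn hnb hf hfb
  have h1 : PT ∅ (fun p : α × ℕ =>
      ((r p.1).drop (p.2 * P.len (n p.1) (f p.1))).take (P.len (n p.1) (f p.1))) :=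
    PT.take (PT.drop (hr.comp PT.fst') (PT.mul PT.snd' (hlen.comp PT.fst'))) (hlen.comp PT.fst')
  exact PT.map (f := fun a q => ((r a).drop (q * P.len (n a) (f a))).take (P.len (n a) (f a)))
    (PT.range (pt_reps hn hf) (pbd_reps hnb hfb)) h1

/-! ### The candidates -/

theorem pt_candsD (h1 : PTPseudo P.pseudo) (h2 : PTTrial P.trial) (h3 : PTU P.Us)
    (h4 : PTL P.Lr) {d : α → ℕ → ℕ → ℕ} {l k : α → ℕ} {J F : α → List ℕ} {r : α → List Bool}
    (hd : PT ∅ (fun p : α × ℕ × ℕ => d p.1 p.2.1 p.2.2)) (hdl : ∀ a x y, d a x y ≤ l a)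
    (hl : PT ∅ l) (hlb : PBd l) (hJ : PT ∅ J) (hF : PT ∅ F) (hk : PT ∅ k) (hkb : PBd k)
    (hr : PT ∅ r) : PT ∅ (fun a => P.candsD (d a) (l a) (J a) (F a) (k a) (r a)) := by
  -- the pseudo-approximation in the context of an index
  have hps : PT ∅ (fun p : α × ℕ =>
      P.pseudo (d p.1) (l p.1) (J p.1) (F p.1) (Min.min p.2 (k p.1) + 1)) := by
    refine h1 (α × ℕ) (fun p => d p.1) (fun p => l p.1)
      (fun p => Min.min p.2 (k p.1) + 1) (fun p => J p.1) (fun p => F p.1)
      (hd.comp (PT.fst'.fst.pair PT.snd')) (fun a x y => hdl a.1 x y) (hl.comp PT.fst')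
      (hlb.comp (PT.fst' (A := ∅))) (hJ.comp PT.fst') (hF.comp PT.fst') ?_ ?_
    · exact PT.add (PT.min PT.snd' (hk.comp PT.fst')) (PT.const 1)
    · exact ((hkb.comp (PT.fst' (A := ∅))).add (PBd.const 1)).mono fun p =>
        Nat.add_le_add_right (min_le_right _ _) 1
  have htr : PT ∅ (fun q : (α × ℕ) × List Bool =>
      P.trial (d q.1.1) (l q.1.1) (J q.1.1) (F q.1.1) (Min.min q.1.2 (k q.1.1) + 1)
        (P.pseudo (d q.1.1) (l q.1.1) (J q.1.1) (F q.1.1) (Min.min q.1.2 (k q.1.1) + 1)) q.2) := by
    refine h2 ((α × ℕ) × List Bool) (fun q => d q.1.1) (fun q => l q.1.1)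
      (fun q => Min.min q.1.2 (k q.1.1) + 1) (fun q => J q.1.1) (fun q => F q.1.1)
      (fun q => P.pseudo (d q.1.1) (l q.1.1) (J q.1.1) (F q.1.1) (Min.min q.1.2 (k q.1.1) + 1))
      (fun q => q.2)
      (hd.comp (PT.fst'.fst.fst.pair PT.snd')) (fun a x y => hdl a.1.1 x y) (hl.comp PT.fst'.fst)
      (hlb.comp (PT.fst' (A := ∅)).fst) (hJ.comp PT.fst'.fst) (hF.comp PT.fst'.fst) ?_ ?_
      (hps.comp PT.fst') PT.snd'
    · exact PT.add (PT.min PT.fst'.snd (hk.comp PT.fst'.fst)) (PT.const 1)
    · exact ((hkb.comp (PT.fst' (A := ∅)).fst).add (PBd.const 1)).mono fun p =>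
        Nat.add_le_add_right (min_le_right _ _) 1
  have hbl : PT ∅ (fun a => P.blocks (J a).length (F a).length (r a)) :=
    pt_blocks h3 h4 hJ.length (PBd.length hJ) hF.length (PBd.length hF) hr
  have hmap : PT ∅ (fun p : α × ℕ => (P.blocks (J p.1).length (F p.1).length (r p.1)).map
      (fun ρ => P.trial (d p.1) (l p.1) (J p.1) (F p.1) (Min.min p.2 (k p.1) + 1)
        (P.pseudo (d p.1) (l p.1) (J p.1) (F p.1) (Min.min p.2 (k p.1) + 1)) ρ)) :=
    PT.map (l := fun p : α × ℕ => P.blocks (J p.1).length (F p.1).length (r p.1))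
      (f := fun p ρ => P.trial (d p.1) (l p.1) (J p.1) (F p.1) (Min.min p.2 (k p.1) + 1)
        (P.pseudo (d p.1) (l p.1) (J p.1) (F p.1) (Min.min p.2 (k p.1) + 1)) ρ)
      (hbl.comp PT.fst') htr
  have hfm : PT ∅ (fun a => (List.range (k a)).flatMap (fun i =>
      (P.blocks (J a).length (F a).length (r a)).map
        (fun ρ => P.trial (d a) (l a) (J a) (F a) (Min.min i (k a) + 1)
          (P.pseudo (d a) (l a) (J a) (F a) (Min.min i (k a) + 1)) ρ))) :=
    PT.flatMap (f := fun a i => (P.blocks (J a).length (F a).length (r a)).map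
        (fun ρ => P.trial (d a) (l a) (J a) (F a) (Min.min i (k a) + 1)
          (P.pseudo (d a) (l a) (J a) (F a) (Min.min i (k a) + 1)) ρ)) (PT.range hk hkb) hmap
  have hk' : PT ∅ (fun a => k a - P.K3 * Nat.size (J a).length) :=
    PT.sub hk (PT.mul (PT.const _) (PT.natSize hJ.length))
  have h0 : PT ∅ (fun a => P.pseudo (d a) (l a) (J a) (F a)
      (k a - P.K3 * Nat.size (J a).length)) :=
    h1 α d l (fun a => k a - P.K3 * Nat.size (J a).length) J F hd hdl hl hlb hJ hF hk'
      (hkb.mono fun a => Nat.sub_le _ _)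
  refine (PT.cons h0 hfm).congr fun a => ?_
  unfold Data.candsD
  congr 1
  refine List.flatMap_congr fun i hi => ?_
  rw [min_eq_left (List.mem_range.1 hi).le]

theorem pt_candsR (h1 : PTPseudo P.pseudo) (h2 : PTTrial P.trial) (h3 : PTU P.Us)
    (h4 : PTL P.Lr) {D : α → ℕ → ℕ → ℕ} {N k R : α → ℕ} {J F : α → List ℕ} {r : α → List Bool}
    (hD : PT ∅ (fun p : α × ℕ × ℕ => D p.1 p.2.1 p.2.2)) (hN : PT ∅ N)
    (hJ : PT ∅ J) (hF : PT ∅ F) (hk : PT ∅ k) (hkb : PBd k) (hR : PT ∅ R)
    (hr : PT ∅ r) : PT ∅ (fun a => P.candsR (D a) (N a) (J a) (F a) (k a) (R a) (r a)) := by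
  have hJl : PT ∅ (fun a => (J a).length) := hJ.length
  have hJb : PBd (fun a => (J a).length) := PBd.length hJ
  have hFl : PT ∅ (fun a => (F a).length) := hF.length
  have hFb : PBd (fun a => (F a).length) := PBd.length hF
  refine PT.cons (pt_fallback hD hJ hF hR) (pt_candsD h1 h2 h3 h4
    (d := fun a => P.met (D a) (N a) (J a).length (F a).length (R a))
    (l := fun a => P.top (J a).length (F a).length) ?_ ?_ (pt_top h3 hJl hJb hFl hFb)
    (pbd_top h3 hJl hJb hFl hFb) hJ hF hk hkb hr)
  · exact pt_scal (U := fun a => P.Us (J a).length (F a).length)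
      (cap := fun a => P.cap (J a).length) (nu := fun a => P.nu (J a).length) hD hN hR
      (h3 α _ _ hJl hJb hFl hFb).1 (pt_cap hJl) (pt_nu hJl)
  · intro a x y
    show scal (D a) (N a) (R a) (P.Us (J a).length (F a).length) (P.cap (J a).length)
      (P.nu (J a).length) x y ≤ P.Us (J a).length (F a).length * P.cap (J a).length
    unfold scal
    split_ifs
    · exact Nat.zero_le _
    · exact Nat.mul_le_mul_left _ (min_le_left _ _)
    · exact le_rfl

theorem pt_cands (h1 : PTPseudo P.pseudo) (h2 : PTTrial P.trial) (h3 : PTU P.Us)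
    (h4 : PTL P.Lr) {D : α → ℕ → ℕ → ℕ} {N k : α → ℕ} {J F : α → List ℕ} {r : α → List Bool}
    (hD : PT ∅ (fun p : α × ℕ × ℕ => D p.1 p.2.1 p.2.2)) (hN : PT ∅ N)
    (hJ : PT ∅ J) (hF : PT ∅ F) (hk : PT ∅ k) (hkb : PBd k)
    (hr : PT ∅ r) : PT ∅ (fun a => P.cands (D a) (N a) (J a) (F a) (k a) (r a)) := by
  have hR : PT ∅ (fun q : (α × ℕ) × ℕ => D q.1.1 q.1.2 q.2) :=
    hD.comp (PT.fst'.fst.pair (PT.fst'.snd.pair PT.snd'))
  have hc : PT ∅ (fun q : (α × ℕ) × ℕ =>
      if D q.1.1 q.1.2 q.2 = 0 then [] else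
        P.candsR (D q.1.1) (N q.1.1) (J q.1.1) (F q.1.1) (k q.1.1) (D q.1.1 q.1.2 q.2) (r q.1.1)) :=
    PT.ite (p := fun q : (α × ℕ) × ℕ => D q.1.1 q.1.2 q.2 = 0) (PT.eqNat hR (PT.const 0))
      (PT.const []) (pt_candsR h1 h2 h3 h4 (D := fun q : (α × ℕ) × ℕ => D q.1.1)
        (N := fun q => N q.1.1) (k := fun q => k q.1.1) (R := fun q => D q.1.1 q.1.2 q.2)
        (J := fun q => J q.1.1) (F := fun q => F q.1.1) (r := fun q => r q.1.1)
        (hD.comp (PT.fst'.fst.fst.pair PT.snd')) (hN.comp PT.fst'.fst) (hJ.comp PT.fst'.fst)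
        (hF.comp PT.fst'.fst) (hk.comp PT.fst'.fst) (hkb.comp (PT.fst' (A := ∅)).fst) hR
        (hr.comp PT.fst'.fst))
  have hc2 : PT ∅ (fun p : α × ℕ => (F p.1).flatMap (fun i =>
      if D p.1 p.2 i = 0 then [] else
        P.candsR (D p.1) (N p.1) (J p.1) (F p.1) (k p.1) (D p.1 p.2 i) (r p.1))) :=
    PT.flatMap (l := fun p : α × ℕ => F p.1) (f := fun p i =>
      if D p.1 p.2 i = 0 then [] else
        P.candsR (D p.1) (N p.1) (J p.1) (F p.1) (k p.1) (D p.1 p.2 i) (r p.1))
      (hF.comp PT.fst') hc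
  have hc3 : PT ∅ (fun a => (J a).flatMap (fun j => (F a).flatMap (fun i =>
      if D a j i = 0 then [] else
        P.candsR (D a) (N a) (J a) (F a) (k a) (D a j i) (r a)))) :=
    PT.flatMap (f := fun a j => (F a).flatMap (fun i =>
      if D a j i = 0 then [] else
        P.candsR (D a) (N a) (J a) (F a) (k a) (D a j i) (r a))) hJ hc2
  have hm : PT ∅ (fun a => (F a).map (fun i => [i])) :=
    PT.map (f := fun _ i => [i]) hF (PT.cons PT.snd' PT.nil)
  exact PT.cons hJ (PT.append hm hc3)

end

theorem PT.kmed {P : Data} (h1 : PTPseudo P.pseudo) (h2 : PTTrial P.trial) (h3 : PTU P.Us)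
    (h4 : PTL P.Lr) {α : Type} [Enc α] {D : α → ℕ → ℕ → ℕ} {l N k : α → ℕ} {J F : α → List ℕ}
    {r : α → List Bool} (hD : PT ∅ (fun p : α × ℕ × ℕ => D p.1 p.2.1 p.2.2)) (hl : PT ∅ l)
    (hN : PT ∅ N) (hJ : PT ∅ J) (hF : PT ∅ F) (hk : PT ∅ k)
    (hkb : ∀ a, k a ≤ (F a).length) (hr : PT ∅ r) :
    PT ∅ (fun a => P.kmed (D a) (l a) (N a) (J a) (F a) (k a) (r a)) :=
  pt_bestOf hD hl hJ hF hk
    (pt_cands h1 h2 h3 h4 hD hN hJ hF hk ((PBd.length hF).mono hkb) hr)

end Vale.Agent.P334.Alg.One
end

section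

/-!
Polynomial time for the definitions of Part 3: closing clusters.
-/

namespace Vale.Agent.P334.Alg

open Vale.Agent.Lib.PolyTime Function

variable {A : Set Word} {α β γ δ : Type*} [Enc α] [Enc β] [Enc γ] [Enc δ]

/-- Insertion sort with a relation depending on the context. -/
theorem PT_insertionSort' {r : α → γ → γ → Prop} [∀ a, DecidableRel (r a)] {l : α → List γ}
    (hr : PT A (fun p : α × γ × γ => decide (r p.1 p.2.1 p.2.2))) (hl : PT A l) :
    PT A (fun a => (l a).insertionSort (r a)) := by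
  have hins : PT A (fun p : α × γ × List γ => p.2.2.orderedInsert (r p.1) p.2.1) := by
    have h1 : PT A (fun q : (α × γ × List γ) × γ => decide (¬ r q.1.1 q.1.2.1 q.2)) :=
      PT.decide_not (hr.comp (PT.fst'.fst.pair (PT.fst'.snd.fst.pair PT.snd')))
    exact (PT.append (PT.takeWhile (f := fun (p : α × γ × List γ) y => decide (¬ r p.1 p.2.1 y))
      PT.snd'.snd h1)
      (PT.cons PT.snd'.fst (PT.dropWhile (f := fun (p : α × γ × List γ) y =>
        decide (¬ r p.1 p.2.1 y)) PT.snd'.snd h1))).congr fun p => by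
        rw [List.orderedInsert_eq_take_drop]
  have key : ∀ (a : α) (l : List γ), l.foldr (fun x s => s.orderedInsert (r a) x) [] =
      l.insertionSort (r a) := by
    intro a l
    rfl
  refine (PT.foldr (init := fun _ => ([] : List γ)) (f := fun a x s => s.orderedInsert (r a) x) hl
    PT.nil hins hl.pbd fun a i => ?_).congr fun a => key _ _
  rw [key, esize_perm (List.perm_insertionSort (r a) _)]
  exact esize_drop_le _ _

section

variable {X : Type} [Enc X] [DecidableEq X]

omit [Enc X] in
theorem peelStep_spec (π : X → X) (s : List X × List X) :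
    ((peelStep π s).1 = s.1 ∧ (peelStep π s).2 = s.2) ∨
      ∃ v ∈ s.1, (peelStep π s).1 = s.1.erase v ∧ (peelStep π s).2 = v :: s.2 := by
  unfold peelStep
  rcases h : s.1.find? (fun v => decide (s.1.countP (fun c => decide (π c = v)) ≤ 1)) with _ | v
  · exact Or.inl ⟨rfl, rfl⟩
  · exact Or.inr ⟨v, List.mem_of_find?_eq_some h, rfl, rfl⟩

omit [Enc X] in
theorem peelStep_iterate_spec (π : X → X) (V : List X) (j : ℕ) :
    (∀ x ∈ ((peelStep π)^[j] (V, [])).1, x ∈ V) ∧ (∀ x ∈ ((peelStep π)^[j] (V, [])).2, x ∈ V) ∧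
      ((peelStep π)^[j] (V, [])).1.length + ((peelStep π)^[j] (V, [])).2.length ≤ V.length := by
  induction j with
  | zero => exact ⟨fun x hx => hx, fun x hx => by simp at hx, by simp⟩
  | succ j ih =>
    rw [iterate_succ_apply']
    obtain ⟨h1, h2, h3⟩ := ih
    rcases peelStep_spec π ((peelStep π)^[j] (V, [])) with ⟨e1, e2⟩ | ⟨v, hv, e1, e2⟩
    · rw [e1, e2]; exact ⟨h1, h2, h3⟩
    · rw [e1, e2]
      refine ⟨fun x hx => h1 x (List.mem_of_mem_erase hx), fun x hx => ?_, ?_⟩
      · rcases List.mem_cons.1 hx with rfl | hx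
        · exact h1 _ hv
        · exact h2 x hx
      · rw [List.length_erase_of_mem hv, List.length_cons]
        have := List.length_pos_of_mem hv
        omega

theorem PT_peelStep (heq : PT A (fun p : X × X => decide (p.1 = p.2))) {π : α → X → X}
    {s : α → List X × List X} (hπ : PT A (fun p : α × X => π p.1 p.2)) (hs : PT A s) :
    PT A (fun a => peelStep (π a) (s a)) := by
  have h1 : PT A (fun p : α × X =>
      decide ((s p.1).1.countP (fun c => decide (π p.1 c = p.2)) ≤ 1)) :=
    PT.le (PT_countP (f := fun (p : α × X) c => decide (π p.1 c = p.2)) (hs.comp PT.fst').fst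
      (heq.comp ((hπ.comp (PT.fst'.fst.pair PT.snd')).pair PT.fst'.snd))) (PT.const 1)
  have h2 : PT A (fun a => (s a).1.find?
      (fun v => decide ((s a).1.countP (fun c => decide (π a c = v)) ≤ 1))) :=
    PT.find? (f := fun a v => decide ((s a).1.countP (fun c => decide (π a c = v)) ≤ 1)) hs.fst h1
  refine (PT.optCase (g := fun a v => ((s a).1.erase v, v :: (s a).2)) h2 hs
    ((PT_erase heq (hs.comp PT.fst').fst PT.snd').pair
      (PT.cons PT.snd' (hs.comp PT.fst').snd))).congr fun a => ?_
  unfold peelStep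
  rcases (s a).1.find? (fun v => decide ((s a).1.countP (fun c => decide (π a c = v)) ≤ 1))
    with _ | v <;> rfl

theorem PT_colStep (heq : PT A (fun p : X × X => decide (p.1 = p.2))) {π : α → X → X}
    {s : α → List X × List X × List X} {v : α → X}
    (hπ : PT A (fun p : α × X => π p.1 p.2)) (hs : PT A s) (hv : PT A v) :
    PT A (fun a => colStep (π a) (s a) (v a)) := by
  have hp : PT A (fun q : α × X => decide (π q.1 q.2 ≠ v q.1 ∧ π q.1 (v q.1) ≠ q.2)) :=
    PT.decide_and (PT.decide_not (heq.comp (hπ.pair (hv.comp PT.fst'))))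
      (PT.decide_not (heq.comp (((hπ.comp (PT.id.pair hv)).comp PT.fst').pair PT.snd')))
  have h1 : PT A (fun a => (s a).1.all
      (fun c => decide (π a c ≠ v a ∧ π a (v a) ≠ c))) :=
    PT.all (f := fun a c => decide (π a c ≠ v a ∧ π a (v a) ≠ c)) hs.fst hp
  have h2 : PT A (fun a => (s a).2.1.all
      (fun c => decide (π a c ≠ v a ∧ π a (v a) ≠ c))) :=
    PT.all (f := fun a c => decide (π a c ≠ v a ∧ π a (v a) ≠ c)) hs.snd.fst hp
  refine (PT.cond h1 ((PT.cons hv hs.fst).pair (hs.snd.fst.pair hs.snd.snd))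
    (PT.cond h2 (hs.fst.pair ((PT.cons hv hs.snd.fst).pair hs.snd.snd))
      (hs.fst.pair (hs.snd.fst.pair (PT.cons hv hs.snd.snd))))).congr fun a => ?_
  unfold colStep
  rcases (s a).1.all (fun c => decide (π a c ≠ v a ∧ π a (v a) ≠ c)) <;>
    rcases (s a).2.1.all (fun c => decide (π a c ≠ v a ∧ π a (v a) ≠ c)) <;> rfl

omit [Enc X] in
theorem ptColStep_spec (π : X → X) (s : List X × List X × List X) (v : X) :
    (colStep π s v = (v :: s.1, s.2.1, s.2.2)) ∨ (colStep π s v = (s.1, v :: s.2.1, s.2.2)) ∨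
      (colStep π s v = (s.1, s.2.1, v :: s.2.2)) := by
  unfold colStep
  split_ifs
  · exact Or.inl rfl
  · exact Or.inr (Or.inl rfl)
  · exact Or.inr (Or.inr rfl)

omit [Enc X] in
theorem colStep_foldl_spec (π : X → X) : ∀ (L : List X) (s : List X × List X × List X),
    (L.foldl (colStep π) s).1.length + (L.foldl (colStep π) s).2.1.length +
      (L.foldl (colStep π) s).2.2.length = L.length + (s.1.length + s.2.1.length + s.2.2.length) ∧
    (∀ x ∈ (L.foldl (colStep π) s).1, x ∈ L ∨ x ∈ s.1) ∧
    (∀ x ∈ (L.foldl (colStep π) s).2.1, x ∈ L ∨ x ∈ s.2.1) ∧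
    (∀ x ∈ (L.foldl (colStep π) s).2.2, x ∈ L ∨ x ∈ s.2.2) := by
  intro L
  induction L with
  | nil => intro s; exact ⟨by simp, fun x hx => Or.inr hx, fun x hx => Or.inr hx,
      fun x hx => Or.inr hx⟩
  | cons v L ih =>
    intro s
    rw [List.foldl_cons]
    obtain ⟨h1, h2, h3, h4⟩ := ih (colStep π s v)
    have aux : ∀ (x : X) (P Q : List X), (∀ y ∈ P, y = v ∨ y ∈ Q) → (x ∈ L ∨ x ∈ P) →
        x ∈ v :: L ∨ x ∈ Q := by
      intro x P Q hPQ h
      rcases h with h | h
      · exact Or.inl (List.mem_cons_of_mem v h)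
      · rcases hPQ x h with rfl | h
        · exact Or.inl List.mem_cons_self
        · exact Or.inr h
    have cns : ∀ Q : List X, ∀ y ∈ v :: Q, y = v ∨ y ∈ Q := fun Q y hy => List.mem_cons.1 hy
    have slf : ∀ Q : List X, ∀ y ∈ Q, y = v ∨ y ∈ Q := fun Q y hy => Or.inr hy
    rcases ptColStep_spec π s v with e | e | e
    · rw [e] at h1 h2 h3 h4 ⊢
      refine ⟨by rw [h1]; simp only [List.length_cons]; omega, fun x hx => aux x _ _ (cns _)
        (h2 x hx), fun x hx => aux x _ _ (slf _) (h3 x hx), fun x hx => aux x _ _ (slf _)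
        (h4 x hx)⟩
    · rw [e] at h1 h2 h3 h4 ⊢
      refine ⟨by rw [h1]; simp only [List.length_cons]; (clear * -; omega), fun x hx => aux x _ _ (slf _)
        (h2 x hx), fun x hx => aux x _ _ (cns _) (h3 x hx), fun x hx => aux x _ _ (slf _)
        (h4 x hx)⟩
    · rw [e] at h1 h2 h3 h4 ⊢
      refine ⟨by rw [h1]; simp only [List.length_cons]; omega, fun x hx => aux x _ _ (slf _)
        (h2 x hx), fun x hx => aux x _ _ (slf _) (h3 x hx), fun x hx => aux x _ _ (cns _)
        (h4 x hx)⟩

theorem PT_threeCol (heq : PT A (fun p : X × X => decide (p.1 = p.2))) {π : α → X → X}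
    {V : α → List X} (hπ : PT A (fun p : α × X => π p.1 p.2)) (hV : PT A V) :
    PT A (fun a => threeCol (π a) (V a)) := by
  have hbV : PBd (fun a => (V a).length * (2 * esize (V a) + 1)) :=
    (PBd.length hV).mul (((PBd.const 2).mul hV.pbd).add (PBd.const 1))
  have hpeel : PT A (fun a => (peelStep (π a))^[(V a).length] (V a, [])) := by
    refine PT.iterate' (step := fun a => peelStep (π a)) (init := fun a => (V a, ([] : List X)))
      hV.length (PBd.length hV) (hV.pair PT.nil)
      (PT_peelStep heq (π := fun p : α × List X × List X => π p.1)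
        (hπ.comp (PT.fst'.fst.pair PT.snd')) PT.snd')
      (b := fun a => 2 * ((V a).length * (2 * esize (V a) + 1)) +
        (V a).length * (2 * esize (V a) + 1) + 1)
      ((((PBd.const 2).mul hbV).add hbV).add (PBd.const 1)) fun a j _ => ?_
    obtain ⟨h1, h2, h3⟩ := peelStep_iterate_spec (π a) (V a) j
    have e : ((peelStep (π a))^[j] (V a, [])) =
      (((peelStep (π a))^[j] (V a, [])).1, ((peelStep (π a))^[j] (V a, [])).2) := rfl
    rw [e, esize_pair]
    have k1 : esize ((peelStep (π a))^[j] (V a, [])).1 ≤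
        (V a).length * (2 * esize (V a) + 1) :=
      (esize_list_le (B := esize (V a)) fun x hx => esize_le_of_mem (h1 x hx)).trans
        (Nat.mul_le_mul_right _ (by omega))
    have k2 : esize ((peelStep (π a))^[j] (V a, [])).2 ≤
        (V a).length * (2 * esize (V a) + 1) :=
      (esize_list_le (B := esize (V a)) fun x hx => esize_le_of_mem (h2 x hx)).trans
        (Nat.mul_le_mul_right _ (by (clear * - h3; omega)))
    (clear * - k1 k2; omega)
  refine PT.foldl (init := fun _ => (([] : List X), ([] : List X), ([] : List X)))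
    (f := fun a s v => colStep (π a) s v) hpeel.snd (PT.nil.pair (PT.nil.pair PT.nil))
    (PT_colStep heq (π := fun p : α × (List X × List X × List X) × X => π p.1)
      (hπ.comp (PT.fst'.fst.pair PT.snd')) PT.snd'.fst PT.snd'.snd)
    (b := fun a => 5 * ((V a).length * (2 * esize (V a) + 1)) + 2)
    (((PBd.const 5).mul hbV).add (PBd.const 2)) fun a i => ?_
  obtain ⟨_, g2, g3⟩ := peelStep_iterate_spec (π a) (V a) (V a).length
  set L := ((peelStep (π a))^[(V a).length] (V a, [])).2 with hL
  obtain ⟨h1, h2, h3, h4⟩ := colStep_foldl_spec (π a) (L.take i) ([], [], [])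
  have hlen : (L.take i).length ≤ (V a).length := by
    rw [List.length_take]
    have : L.length ≤ (V a).length := by omega
    omega
  have hmem : ∀ x ∈ L.take i, x ∈ V a := fun x hx => g2 x (List.mem_of_mem_take hx)
  change esize ((L.take i).foldl (fun s v => colStep (π a) s v) ([], [], [])) ≤ _
  change (((L.take i).foldl (fun s v => colStep (π a) s v) ([], [], [])).1.length + _ + _ = _) at h1
  generalize ((L.take i).foldl (fun s v => colStep (π a) s v) ([], [], [])) = T at *
  obtain ⟨T1, T2, T3⟩ := T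
  simp only [List.length_nil, Nat.add_zero] at h1
  have k1 : esize T1 ≤ (V a).length * (2 * esize (V a) + 1) :=
    (esize_list_le (B := esize (V a)) fun x hx => esize_le_of_mem (by
      rcases h2 x hx with h | h
      · exact hmem x h
      · simp at h)).trans (Nat.mul_le_mul_right _ (by omega))
  have k2 : esize T2 ≤ (V a).length * (2 * esize (V a) + 1) :=
    (esize_list_le (B := esize (V a)) fun x hx => esize_le_of_mem (by
      rcases h3 x hx with h | h
      · exact hmem x h
      · simp at h)).trans (Nat.mul_le_mul_right _ (by omega))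
  have k3 : esize T3 ≤ (V a).length * (2 * esize (V a) + 1) :=
    (esize_list_le (B := esize (V a)) fun x hx => esize_le_of_mem (by
      rcases h4 x hx with h | h
      · exact hmem x h
      · simp at h)).trans (Nat.mul_le_mul_right _ (by omega))
  rw [esize_pair, esize_pair]
  omega

theorem PT_closeCands (heq : PT A (fun p : X × X => decide (p.1 = p.2))) {π : α → X → X}
    {lam : α → X → ℕ} {V E : α → List X} (hπ : PT A (fun p : α × X => π p.1 p.2))
    (hlam : PT A (fun p : α × X => lam p.1 p.2)) (hV : PT A V) (hE : PT A E) :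
    PT A (fun a => closeCands (π a) (lam a) (V a) (E a)) := by
  have h3 : PT A (fun a => threeCol (π a) (V a)) := PT_threeCol heq hπ hV
  have hlist : PT A (fun a => [(threeCol (π a) (V a)).1, (threeCol (π a) (V a)).2.1,
      (threeCol (π a) (V a)).2.2]) :=
    PT.cons h3.fst (PT.cons h3.snd.fst (PT.cons h3.snd.snd PT.nil))
  refine PT.flatMap (f := fun a C => (List.range ((V a).length + 1)).map (fun z =>
      ((C.filter (fun c => decide (c ∈ E a))).insertionSort
        (fun x y => lam a x ≤ lam a y)).take z)) hlist ?_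
  refine PT.map (l := fun p : α × List X => List.range ((V p.1).length + 1))
    (f := fun p z => ((p.2.filter (fun c => decide (c ∈ E p.1))).insertionSort
        (fun x y => lam p.1 x ≤ lam p.1 y)).take z)
    (PT.range (PT.add (hV.comp PT.fst').length (PT.const 1))
      ((PBd.length (hV.comp PT.fst')).add (PBd.const 1))) ?_
  refine PT.take ?_ PT.snd'
  refine PT_insertionSort' (r := fun (q : (α × List X) × ℕ) x y => lam q.1.1 x ≤ lam q.1.1 y)
    (PT.le (hlam.comp (PT.fst'.fst.fst.pair PT.snd'.fst))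
      (hlam.comp (PT.fst'.fst.fst.pair PT.snd'.snd))) ?_
  exact PT.filter (f := fun (q : (α × List X) × ℕ) c => decide (c ∈ E q.1.1)) PT.fst'.snd
    (PT.mem' heq (hE.comp PT.fst'.fst.fst) PT.snd')

end

end Vale.Agent.P334.Alg
end
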