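import Vale.Agent.P334.MathlibUsed
import Vale.Agent.P334.Bdl.B2
import Vale.Agent.Lib.PolyTime.NatArith2
import Vale.Agent.P334.Bdl.B1

set_option linter.all false

section

/-!
The pseudo-approximation algorithm.
-/

namespace Vale.Agent.P334.Alg

section

variable {X : Type} [DecidableEq X]

/-- Remove duplicates. -/
def ddp (L : List X) : List X := L.foldr (fun a l => if a ∈ l then l else a :: l) []

/-- Price cap. -/
def gP (n D : ℕ) : ℕ := n * (D + 1) + 1

/-- Smoothing parameter. -/
def mP (n φ D : ℕ) : ℕ := 200 * φ * n * (D + 1)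

/-- Number of units of one facility. -/
def nP (n φ D : ℕ) : ℕ := 400 * φ * gP n D * gP n D * mP n φ D

/-- Number of levels. -/
def mS (C n : ℕ) : ℕ := C * Nat.size n

/-- Tolerance of the machine in the first case. -/
def dlP (M n : ℕ) : ℕ := n * (1 + (M + 1) * n)

/-- Length of the walks. -/
def tP (n φ D : ℕ) : ℕ :=
  2 * (n * (D + 1) + n * (D + 1) * (φ + 1)) + (φ + 1) * (2 * (n * (D + 1)) + 4) + φ + 3

/-- Number of clients at the position `v`. -/
def nq (J : List X) (pos : X → X) (v : X) : ℕ := J.countP (fun j => decide (pos j = v))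

/-- Outer units of the position `v`. -/
def aq (d : X → X → ℕ) (D1 N : ℕ) (J U : List X) (pos prj : X → X) (v : X) : ℕ :=
  ((J.filter (fun l => decide (pos l ≠ v))).map
    (fun l => (nearU d D1 N U l).countP (fun u => decide (prj u = v)))).sum

/-- Units at the position `v`. -/
def bq (U : List X) (prj : X → X) (v : X) : ℕ := U.countP (fun u => decide (prj u = v))

/-- The chain for given clusters, in the first case. -/
def run1 (d : X → X → ℕ) (D e M C k t : ℕ) (J F : List X) (pos : X → X) (F1 R : List X)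
    (n' a b : X → ℕ) : List X :=
  machine (fun f q => mgP d J pos (wlL (tauL (D + 1) t e) M R
      (fun v s => capL M t f (n' v) (a v) (b v) s) (q + 1)))
    F1 [] (k + 3 * ((M + 3) * mS C J.length)) ((M + 3) * mS C J.length) (J.length * (D + 1))
    (tP J.length F.length D) (dlP M J.length)

/-- Candidate of the first case. -/
def cand1 (d : X → X → ℕ) (D e M C k t : ℕ) (J F : List X) (N m gg : ℕ) (U : List X) : List X :=
  let CC := ccL d (D + 1) N m gg J F U
  let rho := rhoL d (D + 1) N m gg J F U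
  let prj := snapL CC (nearL d (D + 1) N m gg J F U) rho
  let pos := snapL CC (itrL d (D + 1) N J U) rho
  run1 d D e M C k t J F pos (ddp (F.map prj)) (CC.map rho) (nq J pos)
    (aq d (D + 1) N J U pos prj) (bq U prj)

/-- The chain for a given set of open facilities, in the second case. -/
def run2 (d : X → X → ℕ) (D e C k t : ℕ) (J F O : List X) : List X :=
  machine (fun _ q => mgP d J (fun j => j) (fun _ => tauL (D + 1) t e (q + 1))) F O
    (k + 3 * mS C J.length + 2) (mS C J.length) (J.length * (D + 1)) (tP J.length F.length D) 0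

/-- Candidates of the second case. -/
def cands2 (d : X → X → ℕ) (D e C k t : ℕ) (J F : List X) (N m gg : ℕ) (U : List X) :
    List (List X) :=
  let CC := ccL d (D + 1) N m gg J F U
  let rho := rhoL d (D + 1) N m gg J F U
  (closeCands (piL d CC rho) (lamN d (D + 1) N J F U CC rho) CC
    (CC.filter (fun c => !ibL d (D + 1) N F.length F U CC rho c))).map
    (fun Z => run2 d D e C k t J F ((CC.filter (fun c => decide (c ∉ Z))).map rho))

/-- Candidates for the parameter `w`. -/
def candsW (d : X → X → ℕ) (D e M C k : ℕ) (J F : List X) (w : ℕ) : List (List X) :=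
  let N := nP J.length F.length D
  let m := mP J.length F.length D
  let G := gP J.length D
  let U := lmSearch d (D + 1) N k w G m J F
  let gg := gfm k w N G m (U.length - 1)
  cand1 d D e M C k (w / (16 * J.length)) J F N m gg U ::
    cands2 d D e C k (w / (16 * J.length)) J F N m gg U

/-- All candidates. -/
def candsP (d : X → X → ℕ) (D e M C k : ℕ) (J F : List X) : List (List X) :=
  J :: F :: (F.map (fun i => [i])
    ++ (List.range (J.length * (D + 1) + 1)).flatMap (candsW d D e M C k J F))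

/-- Validity of a candidate. -/
def validP (b : ℕ) (F S : List X) : Bool :=
  decide (S ≠ [] ∧ S.Nodup ∧ (∀ x ∈ S, x ∈ F) ∧ S.length ≤ b)

/-- The pseudo-approximation algorithm with the constants `e`, `M`, `C`. -/
def pseudoP (e M C : ℕ) (d : X → X → ℕ) (D : ℕ) (J F : List X) (k : ℕ) : List X :=
  argmin (cst d D J) (F.take 1) ((candsP d D e M C k J F).filter
    (validP (k + 3 * ((M + 3) * mS C J.length)) F))

/-- Required divisor of the distances. -/
def usP (e M C n φ : ℕ) : ℕ :=
  1000 * e * (n * (dlP M n + 4) + (2 * dlP M n + 1) * (φ + 3 * ((M + 3) * mS C n) + 2)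
    + φ * (2 * dlP M n + 1) * ((M + 3) * mS C n) + 1000)

end

end Vale.Agent.P334.Alg
end

section

/-!
Potentials for the chain machine, greedy sequences, and the statement of the walk lemma.
-/

namespace Vale.Agent.P334.Alg

/-- Potentials with decreasing marginal gains. -/
structure NPot (X : Type) [DecidableEq X] where
  phi : List X → ℕ
  mg : X → List X → ℕ
  ins : ∀ x S, x ∉ S → phi (x :: S) + mg x S = phi S
  anti : ∀ x S R, S ⊆ R → mg x R ≤ mg x S
  mem : ∀ x S, x ∈ S → mg x S = 0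
  perm : ∀ S R, S.Perm R → phi S = phi R

namespace NPot

variable {X : Type} [DecidableEq X] (P : NPot X)

theorem mg_congr (x : X) {S R : List X} (h : S ⊆ R) (h' : R ⊆ S) : P.mg x S = P.mg x R :=
  le_antisymm (P.anti x R S h') (P.anti x S R h)

theorem mg_perm (x : X) {S R : List X} (h : S.Perm R) : P.mg x S = P.mg x R :=
  P.mg_congr x h.subset h.symm.subset

/-- The elements of `new` are added to `L` one by one (the last one first), with gains at
least `c`. -/
def Grd (c : ℕ) (L : List X) : List X → Prop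
  | [] => True
  | x :: R => Grd c L R ∧ x ∉ R ++ L ∧ c ≤ P.mg x (R ++ L)

end NPot

/-- The walk lemma. -/
def WalkSpec : Prop :=
  ∀ (X : Type) [DecidableEq X] (P : NPot X) (lo hi : ℕ) (F A W L new : List X)
    (st : List X → Bool) (T Bd : ℕ),
    lo ≤ hi → F.Nodup → A.Nodup → A ⊆ F → W ⊆ A → W.Nodup → L.Nodup → W ⊆ L →
    L.length ≤ W.length + 1 → (new ++ L).Nodup → new ++ L ⊆ F →
    (∀ x ∈ F, P.mg x A ≤ hi) → (∀ x ∈ F, P.mg x (new ++ L) ≤ hi) →
    P.phi A + lo * A.length ≤ P.phi W + lo * W.length →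
    P.Grd lo L new →
    (∀ S R, S.Perm R → st S = st R) → st A ≠ st (new ++ L) →
    (∀ S, P.phi S ≤ Bd) →
    2 * (Bd + lo * F.length) + (F.length + 1) * (2 * lo + 2) + F.length + 3 ≤ T →
    ∃ M M' : List X, wpair P.mg lo hi F st T A (new ++ L) W L = (M, M') ∧
      M.Nodup ∧ M'.Nodup ∧ M ⊆ M' ∧ M'.length = M.length + 1 ∧ W ⊆ M ∧ M' ⊆ F ∧
      st M ≠ st M' ∧ (∀ x ∈ F, P.mg x M ≤ hi) ∧
      P.phi M + lo * M.length
        ≤ P.phi W + lo * W.length + 3 * lo + F.length * (hi - lo) ∧
      P.phi M' + lo * M'.length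
        ≤ P.phi W + lo * W.length + 3 * lo + F.length * (hi - lo)

end Vale.Agent.P334.Alg
end

section

/-!
The chain machine: lemmas on `fill` and `cont`.
-/

namespace Vale.Agent.P334.Alg

namespace NPot

variable {X : Type} [DecidableEq X] (P : NPot X)

theorem fillStep_perm (f : ℕ) (F : List X) {S R : List X} (h : S.Perm R) :
    (fillStep P.mg f F S).Perm (fillStep P.mg f F R) := by
  have h1 : (fun x => decide (f < P.mg x S)) = (fun x => decide (f < P.mg x R)) := by
    funext x; rw [P.mg_perm x h]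
  unfold fillStep
  rw [h1]
  cases F.find? (fun x => decide (f < P.mg x R)) with
  | none => exact h
  | some x => exact h.cons x

theorem fill_perm (f : ℕ) (F : List X) {S R : List X} (h : S.Perm R) :
    (fill P.mg f F S).Perm (fill P.mg f F R) := by
  unfold fill
  generalize F.length = n
  induction n with
  | zero => simpa using h
  | succ n ih =>
    rw [Function.iterate_succ_apply', Function.iterate_succ_apply']
    exact P.fillStep_perm f F ih

theorem fillStep_iter (f : ℕ) {F : List X} (S : List X) (hS : S.Nodup)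
    (hSF : S ⊆ F) (n : ℕ) :
    ∃ new, (fillStep P.mg f F)^[n] S = new ++ S ∧ P.Grd (f + 1) S new ∧ (new ++ S).Nodup ∧
      new ++ S ⊆ F ∧ (new.length = n ∨ ∀ x ∈ F, P.mg x (new ++ S) ≤ f) := by
  induction n with
  | zero => exact ⟨[], rfl, trivial, by simpa using hS, by simpa using hSF, Or.inl rfl⟩
  | succ n ih =>
    obtain ⟨new, h1, h2, h3, h4, h5⟩ := ih
    rw [Function.iterate_succ_apply', h1]
    cases hfi : F.find? (fun x => decide (f < P.mg x (new ++ S))) with
    | none =>
      have h6 : fillStep P.mg f F (new ++ S) = new ++ S := by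
        unfold fillStep; rw [hfi]
      rw [List.find?_eq_none] at hfi
      refine ⟨new, h6, h2, h3, h4, Or.inr fun x hx => ?_⟩
      have := hfi x hx
      simpa using this
    | some x =>
      have h6 : fillStep P.mg f F (new ++ S) = (x :: new) ++ S := by
        unfold fillStep; rw [hfi]; rfl
      have h7 : f < P.mg x (new ++ S) := by
        have := List.find?_some hfi
        simpa using this
      have h8 : x ∈ F := List.mem_of_find?_eq_some hfi
      have h9 : x ∉ new ++ S := fun hx => by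
        have := P.mem x _ hx
        omega
      refine ⟨x :: new, h6, ⟨h2, h9, h7⟩, List.nodup_cons.mpr ⟨h9, h3⟩,
        List.cons_subset.mpr ⟨h8, h4⟩, ?_⟩
      rcases h5 with h5 | h5
      · left; simp [h5]
      · exact absurd (h5 x h8) (by omega)

theorem fill_spec (f : ℕ) {F : List X} {S : List X} (hS : S.Nodup) (hSF : S ⊆ F) :
    ∃ new, fill P.mg f F S = new ++ S ∧ P.Grd (f + 1) S new ∧ (new ++ S).Nodup ∧
      new ++ S ⊆ F ∧ ∀ x ∈ F, P.mg x (new ++ S) ≤ f := by
  obtain ⟨new, h1, h2, h3, h4, h5⟩ := P.fillStep_iter f S hS hSF F.length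
  refine ⟨new, h1, h2, h3, h4, ?_⟩
  rcases h5 with h5 | h5
  · intro x hx
    have h6 : (new ++ S).length ≤ F.length := (List.Nodup.subperm h3 h4).length_le
    have h7 : (new ++ S).Perm F := by
      refine (List.Nodup.subperm h3 h4).perm_of_length_le ?_
      simp only [List.length_append, h5, le_add_iff_nonneg_right, zero_le]
    rw [P.mem x _ (h7.symm.subset hx)]
    exact Nat.zero_le _
  · exact h5

theorem Grd.mono {P : NPot X} {c c' : ℕ} (h : c' ≤ c) {L new : List X} (hg : P.Grd c L new) :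
    P.Grd c' L new := by
  induction new with
  | nil => trivial
  | cons x R ih => exact ⟨ih hg.1, hg.2.1, h.trans hg.2.2⟩

theorem Grd.trans_pot {P Q : NPot X} {c c' : ℕ} (h : ∀ x S, c ≤ P.mg x S → c' ≤ Q.mg x S)
    {L new : List X} (hg : P.Grd c L new) : Q.Grd c' L new := by
  induction new with
  | nil => trivial
  | cons x R ih => exact ⟨ih hg.1, hg.2.1, h _ _ hg.2.2⟩

/-- Along a greedy sequence the total cost does not increase. -/
theorem Grd.tot {P : NPot X} {c : ℕ} {L new : List X} (hg : P.Grd c L new) :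
    P.phi (new ++ L) + c * (new ++ L).length ≤ P.phi L + c * L.length := by
  induction new with
  | nil => simp
  | cons x R ih =>
    have h1 := ih hg.1
    have h2 := P.ins x _ hg.2.1
    have h3 := hg.2.2
    rw [List.cons_append, List.length_cons]
    have h4 : c * ((R ++ L).length + 1) = c * (R ++ L).length + c := by ring
    rw [h4]
    omega

end NPot

section

variable {X : Type} [DecidableEq X]

omit [DecidableEq X] in
theorem cont_self (mg : ℕ → X → List X → ℕ) (f : ℕ) (F : List X) (m : ℕ) (S : List X) :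
    cont mg f F m m S = S := by
  unfold cont
  rw [List.drop_of_length_le (by simp)]
  rfl

omit [DecidableEq X] in
theorem cont_succ (mg : ℕ → X → List X → ℕ) (f : ℕ) (F : List X) {m q : ℕ} (hq : q < m)
    (S : List X) : cont mg f F m q S = cont mg f F m (q + 1) (fill (mg q) f F S) := by
  unfold cont
  rw [List.drop_eq_getElem_cons (by simpa using hq)]
  simp

omit [DecidableEq X] in
theorem cont_zero_succ (mg : ℕ → X → List X → ℕ) (f : ℕ) (F : List X) (m : ℕ) (S : List X) :
    cont mg f F (m + 1) 0 S = fill (mg m) f F (cont mg f F m 0 S) := by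
  unfold cont
  simp [List.range_succ]

omit [DecidableEq X] in
theorem cont_zero_zero (mg : ℕ → X → List X → ℕ) (f : ℕ) (F : List X) (S : List X) :
    cont mg f F 0 0 S = S := cont_self mg f F 0 S

theorem cont_perm (P : ℕ → NPot X) (f : ℕ) (F : List X) (m q : ℕ) {S R : List X}
    (h : S.Perm R) :
    (cont (fun q => (P q).mg) f F m q S).Perm (cont (fun q => (P q).mg) f F m q R) := by
  unfold cont
  generalize (List.range m).drop q = l
  induction l generalizing S R with
  | nil => exact h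
  | cons p l ih => exact ih ((P p).fill_perm f F h)

end

end Vale.Agent.P334.Alg
end

section

/-!
The chain machine.
-/

namespace Vale.Agent.P334.Alg

section

variable {X : Type} [DecidableEq X]

/-- One good step of the chain at the price `f`, with the tolerance `δ`. -/
def GStep (P : NPot X) (F : List X) (f δ : ℕ) (A B : List X) : Prop :=
  A ⊆ B ∧ B ⊆ F ∧ B.Nodup ∧ (∀ x ∈ F, P.mg x B ≤ f + 1 + δ) ∧
    P.phi B + (f - δ) * B.length
      ≤ P.phi A + (f - δ) * A.length + 3 * (f - δ) + F.length * (2 * δ + 1)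

/-- A critical pair before stage `q`. -/
def Crit (P : ℕ → NPot X) (F : List X) (N f m q : ℕ) (M M' : List X) : Prop :=
  M.Nodup ∧ M'.Nodup ∧ M ⊆ M' ∧ M'.length = M.length + 1 ∧ M' ⊆ F ∧
    decide (N ≤ (cont (fun q => (P q).mg) f F m q M).length)
      ≠ decide (N ≤ (cont (fun q => (P q).mg) f F m q M').length)

theorem hi_lo (f δ : ℕ) : f + 1 + δ - (f - δ) ≤ 2 * δ + 1 := by omega

theorem fill_tot (P : NPot X) (f δ : ℕ) {W new : List X} (hg : P.Grd (f + 1) W new) :
    P.phi (new ++ W) + (f - δ) * (new ++ W).length ≤ P.phi W + (f - δ) * W.length :=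
  (hg.mono (c' := f - δ) (by omega)).tot

/-- The walk between two maximal sets. -/
theorem walk_step (hw : WalkSpec) (P : ℕ → NPot X) {F : List X} {N m f δ T Bd q : ℕ}
    (hF : F.Nodup) (hB : ∀ S, (P q).phi S ≤ Bd)
    (hT : 2 * (Bd + (f - δ) * F.length) + (F.length + 1) * (2 * (f - δ) + 2) + F.length + 3 ≤ T)
    {W L A new : List X} (hW : W.Nodup) (hL : L.Nodup) (hWL : W ⊆ L)
    (hlen : L.length ≤ W.length + 1) (hA : A.Nodup) (hAF : A ⊆ F) (hWA : W ⊆ A)
    (hAm : ∀ x ∈ F, (P q).mg x A ≤ f + 1 + δ)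
    (hAt : (P q).phi A + (f - δ) * A.length ≤ (P q).phi W + (f - δ) * W.length)
    (hBn : (new ++ L).Nodup) (hBF : new ++ L ⊆ F)
    (hBm : ∀ x ∈ F, (P q).mg x (new ++ L) ≤ f + 1 + δ) (hBg : (P q).Grd (f - δ) L new)
    (hst : decide (N ≤ (cont (fun q => (P q).mg) f F m (q + 1) A).length)
      ≠ decide (N ≤ (cont (fun q => (P q).mg) f F m (q + 1) (new ++ L)).length)) :
    ∃ M M' : List X, wpair (P q).mg (f - δ) (f + 1 + δ) F
        (fun M => decide (N ≤ (cont (fun q => (P q).mg) f F m (q + 1) M).length)) T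
        A (new ++ L) W L = (M, M') ∧
      Crit P F N f m (q + 1) M M' ∧ GStep (P q) F f δ W M ∧ GStep (P q) F f δ W M' := by
  obtain ⟨M, M', h1, h2, h3, h4, h5, h6, h7, h8, h9, h10, h11⟩ := hw X (P q) (f - δ)
    (f + 1 + δ) F A W L new
    (fun M => decide (N ≤ (cont (fun q => (P q).mg) f F m (q + 1) M).length)) T Bd
    (by omega) hF hA hAF hWA hW hL hWL hlen hBn hBF hAm hBm hAt hBg
    (fun S R h => by
      have := (cont_perm P f F m (q + 1) h).length_eq
      simp only [this]) hst hB hT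
  have h12 : F.length * (f + 1 + δ - (f - δ)) ≤ F.length * (2 * δ + 1) :=
    Nat.mul_le_mul_left _ (hi_lo f δ)
  refine ⟨M, M', h1, ⟨h2, h3, h4, h5, h7, h8⟩, ⟨h6, fun x hx => h7 (h4 hx), h2, h9, ?_⟩,
    ⟨fun x hx => h4 (h6 hx), h7, h3, fun x hx => ((P q).anti x _ _ h4).trans (h9 x hx), ?_⟩⟩
  · omega
  · omega

/-- One stage. -/
theorem stage_spec (hw : WalkSpec) (P : ℕ → NPot X) {F : List X} {N m f δ T Bd q : ℕ}
    (hF : F.Nodup) (hB : ∀ S, (P q).phi S ≤ Bd)
    (hT : 2 * (Bd + (f - δ) * F.length) + (F.length + 1) * (2 * (f - δ) + 2) + F.length + 3 ≤ T)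
    (hq : q < m) {W L : List X} (hC : Crit P F N f m q W L) :
    ∃ M M' : List X, stage (fun q => (P q).mg) f (f - δ) (f + 1 + δ) F N m T q (W, L) = (M, M') ∧
      Crit P F N f m (q + 1) M M' ∧ GStep (P q) F f δ W M ∧ GStep (P q) F f δ W M' := by
  obtain ⟨h1, h2, h3, h4, h5, h6⟩ := hC
  obtain ⟨n1, a1, a2, a3, a4, a5⟩ := (P q).fill_spec f (F := F) (S := W) h1
    (fun x hx => h5 (h3 hx))
  obtain ⟨n2, b1, b2, b3, b4, b5⟩ := (P q).fill_spec f (F := F) (S := L) h2 h5
  have h7 := walk_step hw P (N := N) (m := m) (f := f) (δ := δ) (T := T) (Bd := Bd) (q := q)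
    hF hB hT (W := W) (L := L) (A := n1 ++ W) (new := n2) h1 h2 h3 h4.le a3 a4
    (List.subset_append_right _ _) (fun x hx => (a5 x hx).trans (by omega))
    (fill_tot (P q) f δ a2) b3 b4 (fun x hx => (b5 x hx).trans (by omega))
    (b2.mono (by omega)) (by
      rw [cont_succ _ _ _ hq, cont_succ _ _ _ hq] at h6
      rw [a1, b1] at h6
      exact h6)
  obtain ⟨M, M', e1, e2⟩ := h7
  refine ⟨M, M', ?_, e2⟩
  rw [← e1]
  unfold stage
  simp only [a1, b1]

/-- The stages after the critical one. -/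
theorem tail_spec (hw : WalkSpec) (P : ℕ → NPot X) {F : List X} {N m f δ T Bd : ℕ}
    (hF : F.Nodup) (hB : ∀ q S, (P q).phi S ≤ Bd)
    (hT : 2 * (Bd + (f - δ) * F.length) + (F.length + 1) * (2 * (f - δ) + 2) + F.length + 3 ≤ T)
    (r : ℕ) : ∀ (q : ℕ), q + r = m → ∀ (M M' : List X), Crit P F N f m q M M' →
    ∃ S : ℕ → List X, (S q = M ∨ S q = M') ∧
      S m = (((List.range m).drop q).foldl (fun Q p =>
        stage (fun q => (P q).mg) f (f - δ) (f + 1 + δ) F N m T p Q) (M, M')).2 ∧
      (S m).length = N ∧ ∀ i, q ≤ i → i < m → GStep (P i) F f δ (S i) (S (i + 1)) := by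
  induction r with
  | zero =>
    intro q hq M M' hC
    rw [Nat.add_zero] at hq
    subst hq
    obtain ⟨h1, h2, h3, h4, h5, h6⟩ := hC
    rw [cont_self, cont_self] at h6
    refine ⟨fun _ => M', Or.inr rfl, ?_, ?_, fun i h7 h8 => by omega⟩
    · rw [List.drop_of_length_le (by simp)]
      rfl
    · change M'.length = N
      by_contra hne
      apply h6
      rw [h4]
      rcases lt_or_ge M.length N with h7 | h7
      · rw [decide_eq_false (by omega), decide_eq_false (by omega)]
      · rw [decide_eq_true (by omega), decide_eq_true (by omega)]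
  | succ r ih =>
    intro q hq M M' hC
    have hqm : q < m := by omega
    obtain ⟨M1, M1', h1, h2, h3, h4⟩ := stage_spec hw P (δ := δ) (T := T) hF (hB q) hT hqm hC
    obtain ⟨S, h5, h6, h7, h8⟩ := ih (q + 1) (by omega) M1 M1' h2
    refine ⟨fun i => if i = q then M else S i, Or.inl (by simp), ?_, ?_, ?_⟩
    · simp only [if_neg (show m ≠ q by omega)]
      rw [h6, List.drop_eq_getElem_cons (i := q) (by simpa using hqm)]
      simp only [List.getElem_range, List.foldl_cons]
      rw [h1]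
    · simp only [if_neg (show m ≠ q by omega)]
      exact h7
    · intro i hi him
      by_cases hiq : i = q
      · subst hiq
        simp only [if_pos, if_neg (show i + 1 ≠ i by omega)]
        rcases h5 with h5 | h5
        · rw [h5]; exact h3
        · rw [h5]; exact h4
      · simp only [if_neg hiq, if_neg (show i + 1 ≠ q by omega)]
        exact h8 i (by omega) him

/-- The greedy chain. -/
theorem greedy_chain (P P' : ℕ → NPot X) {F O : List X} {f f' δ : ℕ} (hO : O.Nodup)
    (hOF : O ⊆ F) (hf : f' ≤ f + 1) (hff : f - δ ≤ f' + 1 - δ)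
    (h1 : ∀ q x S, (P' q).mg x S ≤ (P q).mg x S + δ)
    (h2 : ∀ q x S, (P q).mg x S ≤ (P' q).mg x S + δ) (q : ℕ) :
    (cont (fun q => (P' q).mg) f' F q 0 O).Nodup ∧ cont (fun q => (P' q).mg) f' F q 0 O ⊆ F ∧
      GStep (P q) F f δ (cont (fun q => (P' q).mg) f' F q 0 O)
        (cont (fun q => (P' q).mg) f' F (q + 1) 0 O) ∧
      ∀ x ∈ F, (P' q).mg x (cont (fun q => (P' q).mg) f' F (q + 1) 0 O) ≤ f' := by
  have key : ∀ q, (cont (fun q => (P' q).mg) f' F q 0 O).Nodup ∧
      cont (fun q => (P' q).mg) f' F q 0 O ⊆ F := by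
    intro q
    induction q with
    | zero => rw [cont_zero_zero]; exact ⟨hO, hOF⟩
    | succ q ih =>
      rw [cont_zero_succ]
      obtain ⟨new, a1, a2, a3, a4, a5⟩ := (P' q).fill_spec f' (F := F) ih.1 ih.2
      simp only [a1]
      exact ⟨a3, a4⟩
  obtain ⟨k1, k2⟩ := key q
  refine ⟨k1, k2, ?_⟩
  rw [cont_zero_succ]
  obtain ⟨new, a1, a2, a3, a4, a5⟩ := (P' q).fill_spec f' (F := F) k1 k2
  simp only [a1]
  refine ⟨⟨List.subset_append_right _ _, a4, a3, fun x hx => ?_, ?_⟩, a5⟩
  · have := a5 x hx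
    have := h2 q x (new ++ cont (fun q => (P' q).mg) f' F q 0 O)
    omega
  · have h3 : (P q).Grd (f - δ) (cont (fun q => (P' q).mg) f' F q 0 O) new :=
      NPot.Grd.trans_pot (c := f' + 1) (fun x S hx => by
        have := h1 q x S
        omega) a2
    have h4 := h3.tot
    omega

/-- The chain at the critical price. -/
theorem chainAt_spec (hw : WalkSpec) (P P' : ℕ → NPot X) {F O : List X} {N m f δ T Bd : ℕ}
    (hF : F.Nodup) (hO : O.Nodup) (hOF : O ⊆ F) (hB : ∀ q S, (P q).phi S ≤ Bd)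
    (hT : 2 * (Bd + (f - δ) * F.length) + (F.length + 1) * (2 * (f - δ) + 2) + F.length + 3 ≤ T)
    (h1 : ∀ q x S, (P' q).mg x S ≤ (P q).mg x S + δ)
    (h2 : ∀ q x S, (P q).mg x S ≤ (P' q).mg x S + δ)
    (hN : N ≤ (cont (fun q => (P q).mg) f F m 0 O).length)
    (hN' : (cont (fun q => (P' q).mg) (f + 1) F m 0 O).length < N) :
    ∃ S : ℕ → List X, S 0 = O ∧
      S m = chainAt (fun q => (P q).mg) (fun q => (P' q).mg) f (f - δ) (f + 1 + δ) F O N m T ∧
      (S m).length = N ∧ ∀ i, i < m → GStep (P i) F f δ (S i) (S (i + 1)) := by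
  have hch := greedy_chain P P' (F := F) (O := O) (f := f) (f' := f + 1) (δ := δ) hO hOF le_rfl
    (by omega) h1 h2
  -- the critical stage
  have hex : ∃ p, p < m ∧ N ≤ (cont (fun q => (P q).mg) f F m p
      (cont (fun q => (P' q).mg) (f + 1) F p 0 O)).length ∧
      (cont (fun q => (P q).mg) f F m (p + 1)
        (cont (fun q => (P' q).mg) (f + 1) F (p + 1) 0 O)).length < N := by
    by_contra hcon
    push Not at hcon
    have h3 : ∀ p, p ≤ m → N ≤ (cont (fun q => (P q).mg) f F m p
        (cont (fun q => (P' q).mg) (f + 1) F p 0 O)).length := by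
      intro p
      induction p with
      | zero => intro _; rw [cont_zero_zero]; exact hN
      | succ p ih => exact fun hp => hcon p (by omega) (ih (by omega))
    have h4 := h3 m le_rfl
    rw [cont_self] at h4
    omega
  unfold chainAt
  cases hfi : (List.range m).find? (fun p =>
      decide (N ≤ (cont (fun q => (P q).mg) f F m p
          (cont (fun q => (P' q).mg) (f + 1) F p 0 O)).length ∧
        (cont (fun q => (P q).mg) f F m (p + 1)
          (cont (fun q => (P' q).mg) (f + 1) F (p + 1) 0 O)).length < N)) with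
  | none =>
    rw [List.find?_eq_none] at hfi
    obtain ⟨p, hp, hp1, hp2⟩ := hex
    have := hfi p (List.mem_range.mpr hp)
    simp only [decide_eq_true_eq] at this
    exact absurd ⟨hp1, hp2⟩ this
  | some p =>
    have hp : p < m := List.mem_range.mp (List.mem_of_find?_eq_some hfi)
    have hp' := List.find?_some hfi
    simp only [decide_eq_true_eq] at hp'
    obtain ⟨hp1, hp2⟩ := hp'
    obtain ⟨k1, k2, k3, k4⟩ := hch p
    have hq1 : cont (fun q => (P' q).mg) (f + 1) F (p + 1) 0 O
        = fill (P' p).mg (f + 1) F (cont (fun q => (P' q).mg) (f + 1) F p 0 O) :=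
      cont_zero_succ _ _ _ _ _
    rw [hq1] at k3 k4 hp2
    rw [cont_succ _ _ _ hp] at hp1
    generalize hQ : cont (fun q => (P' q).mg) (f + 1) F p 0 O = Q at k1 k2 k3 k4 hp1 hp2 ⊢
    obtain ⟨n1, a1, a2, a3, a4, a5⟩ := (P p).fill_spec f (F := F) (S := Q) k1 k2
    obtain ⟨n2, b1, b2, b3, b4, b5⟩ := (P' p).fill_spec (f + 1) (F := F) (S := Q) k1 k2
    obtain ⟨M, M', e1, e2, e3, e4⟩ := walk_step hw P (N := N) (m := m) (f := f) (δ := δ)
      (T := T) (Bd := Bd) (q := p) hF (hB p) hT (W := Q) (L := Q) (A := n1 ++ Q) (new := n2)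
      k1 k1 (List.Subset.refl _) (by omega) a3 a4 (List.subset_append_right _ _)
      (fun x hx => (a5 x hx).trans (by omega)) (fill_tot (P p) f δ a2) b3 b4
      (fun x hx => by
        have := b5 x hx
        have := h2 p x (n2 ++ Q)
        omega)
      (NPot.Grd.trans_pot (c := f + 1 + 1) (fun x S hx => by
        have := h1 p x S
        omega) b2)
      (by
        simp only [a1] at hp1
        rw [b1] at hp2
        rw [decide_eq_true hp1, decide_eq_false (by omega)]
        exact Bool.true_eq_false_eq_False)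
    obtain ⟨S, s1, s2, s3, s4⟩ := tail_spec hw P (N := N) (m := m) (f := f) (δ := δ) (T := T)
      (Bd := Bd) hF hB hT (m - (p + 1)) (p + 1) (by omega) M M' e2
    refine ⟨fun i => if i ≤ p then cont (fun q => (P' q).mg) (f + 1) F i 0 O else S i, ?_, ?_,
      ?_, ?_⟩
    · simp only [Nat.zero_le, if_true]
      exact cont_zero_zero _ _ _ _
    · simp only [if_neg (show ¬ m ≤ p by omega)]
      rw [s2]
      simp only [a1, b1, hQ]
      rw [e1]
    · simp only [if_neg (show ¬ m ≤ p by omega)]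
      exact s3
    · intro i hi
      rcases lt_trichotomy i p with hip | hip | hip
      · simp only [if_pos (show i ≤ p by omega), if_pos (show i + 1 ≤ p by omega)]
        exact (hch i).2.2.1
      · subst hip
        simp only [le_refl, if_true, if_neg (show ¬ i + 1 ≤ i by omega), hQ]
        rcases s1 with s1 | s1
        · rw [s1]; exact e3
        · rw [s1]; exact e4
      · simp only [if_neg (show ¬ i ≤ p by omega), if_neg (show ¬ i + 1 ≤ p by omega)]
        exact s4 i (by omega) hi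

theorem fill_big (P : NPot X) (f : ℕ) (F S : List X) (h : ∀ x, P.mg x S ≤ f) :
    fill P.mg f F S = S := by
  unfold fill
  have h1 : fillStep P.mg f F S = S := by
    unfold fillStep
    have h2 : F.find? (fun x => decide (f < P.mg x S)) = none := by
      rw [List.find?_eq_none]
      intro x _
      have := h x
      simp only [decide_eq_true_eq]
      omega
    rw [h2]
  exact Function.iterate_fixed h1 _

theorem cont_big (P : ℕ → NPot X) (f : ℕ) (F S : List X) (h : ∀ q x, (P q).mg x S ≤ f)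
    (m : ℕ) : cont (fun q => (P q).mg) f F m 0 S = S := by
  induction m with
  | zero => exact cont_zero_zero _ _ _ _
  | succ m ih => rw [cont_zero_succ, ih]; exact fill_big (P m) f F S (h m)

/-- The chain machine. -/
theorem machine_spec_of (hw : WalkSpec) (P : ℕ → ℕ → NPot X) {F O : List X}
    {N m fmax T δ B : ℕ} (hF : F.Nodup) (hO : O.Nodup) (hOF : O ⊆ F) (hN : O.length < N)
    (h1 : ∀ f q x S, (P (f + 1) q).mg x S ≤ (P f q).mg x S + δ)
    (h2 : ∀ f q x S, (P f q).mg x S ≤ (P (f + 1) q).mg x S + δ)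
    (hbig : ∀ f, fmax ≤ f → ∀ q x S, (P f q).mg x S ≤ f) (hB : ∀ f q S, (P f q).phi S ≤ B)
    (hT : 2 * (B + fmax * (F.length + 1)) + (F.length + 1) * (2 * fmax + 4) + F.length + 3 ≤ T) :
    ∃ (f : ℕ) (S : ℕ → List X), S 0 = O ∧
      S m = machine (fun f q => (P f q).mg) F O N m fmax T δ ∧ (S m).length ≤ N ∧
      ((S m).length = N ∨ (f = 0 ∧ ∀ q < m, ∀ x ∈ F, (P 0 q).mg x (S (q + 1)) = 0)) ∧
      ∀ q < m, S q ⊆ S (q + 1) ∧ S (q + 1) ⊆ F ∧ (S (q + 1)).Nodup ∧
        (∀ x ∈ F, (P f q).mg x (S (q + 1)) ≤ f + 1 + δ) ∧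
        (P f q).phi (S (q + 1)) + (f - δ) * (S (q + 1)).length
          ≤ (P f q).phi (S q) + (f - δ) * (S q).length + 3 * (f - δ)
            + F.length * (2 * δ + 1) := by
  unfold machine
  by_cases h0 : (cont (fun q => (P 0 q).mg) 0 F m 0 O).length < N
  · rw [if_pos h0]
    have hch := greedy_chain (P 0) (P 0) (F := F) (O := O) (f := 0) (f' := 0) (δ := δ) hO hOF
      (by omega) (by omega) (fun q x S => by omega) (fun q x S => by omega)
    refine ⟨0, fun q => cont (fun q => (P 0 q).mg) 0 F q 0 O, cont_zero_zero _ _ _ _, rfl,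
      h0.le, Or.inr ⟨rfl, fun q _ x hx => ?_⟩, fun q _ => (hch q).2.2.1⟩
    exact Nat.le_zero.mp ((hch q).2.2.2 x hx)
  · rw [if_neg h0]
    have hex : ∃ f, f < fmax ∧ N ≤ (cont (fun q => (P f q).mg) f F m 0 O).length ∧
        (cont (fun q => (P (f + 1) q).mg) (f + 1) F m 0 O).length < N := by
      by_contra hcon
      push Not at hcon
      have h3 : ∀ f, f ≤ fmax → N ≤ (cont (fun q => (P f q).mg) f F m 0 O).length := by
        intro f
        induction f with
        | zero => intro _; omega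
        | succ f ih => exact fun hf => hcon f (by omega) (ih (by omega))
      have h4 := h3 fmax le_rfl
      rw [cont_big (P fmax) fmax F O (fun q x => hbig fmax le_rfl q x O)] at h4
      omega
    cases hfi : (List.range fmax).find? (fun f =>
        decide (N ≤ (cont (fun q => (P f q).mg) f F m 0 O).length ∧
          (cont (fun q => (P (f + 1) q).mg) (f + 1) F m 0 O).length < N)) with
    | none =>
      rw [List.find?_eq_none] at hfi
      obtain ⟨f, hf, hf1, hf2⟩ := hex
      have := hfi f (List.mem_range.mpr hf)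
      simp only [decide_eq_true_eq] at this
      exact absurd ⟨hf1, hf2⟩ this
    | some f =>
      have hf : f < fmax := List.mem_range.mp (List.mem_of_find?_eq_some hfi)
      have hf' := List.find?_some hfi
      simp only [decide_eq_true_eq] at hf'
      obtain ⟨hf1, hf2⟩ := hf'
      have hT' : 2 * (B + (f - δ) * F.length) + (F.length + 1) * (2 * (f - δ) + 2)
          + F.length + 3 ≤ T := by
        have e1 : (f - δ) * F.length ≤ fmax * (F.length + 1) :=
          Nat.mul_le_mul (by omega) (by omega)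
        have e2 : (F.length + 1) * (2 * (f - δ) + 2) ≤ (F.length + 1) * (2 * fmax + 4) :=
          Nat.mul_le_mul_left _ (by omega)
        omega
      obtain ⟨S, s1, s2, s3, s4⟩ := chainAt_spec hw (P f) (P (f + 1)) (m := m) (δ := δ) (T := T)
        hF hO hOF (hB f) hT' (h1 f) (h2 f) hf1 hf2
      exact ⟨f, S, s1, s2, s3.le, Or.inl s3, fun q hq => s4 q hq⟩

end

end Vale.Agent.P334.Alg
end

section

/-!
The hidden target of ALG 2 (note 5300, 2.3).
-/

namespace Vale.Agent.P334.Alg

open Finset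

variable {X : Type} [MetricSpace X]

/-- A saturated solution: no subset of the clients gains more than `b` from one new facility. -/
lemma sat_sub [DecidableEq X] {J F S : Finset X} {b : ℝ}
    (hsat : ∀ q ∈ F, cost J S ≤ cost J (insert q S) + b) {q : X} (hq : q ∈ F) {Y : Finset X}
    (hY : Y ⊆ J) (hS : S.Nonempty) :
    ∑ j ∈ Y, Metric.infDist j (S : Set X) ≤ ∑ j ∈ Y, dist j q + b := by
  have h1 := hsat q hq
  have h2 : cost J (insert q S) ≤ ∑ j ∈ Y, dist j q +
      ∑ j ∈ J \ Y, Metric.infDist j (S : Set X) := by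
    unfold cost
    rw [← Finset.sum_sdiff hY, add_comm]
    refine add_le_add (Finset.sum_le_sum fun j _ => ?_) (Finset.sum_le_sum fun j _ => ?_)
    · exact infDist_le (Finset.mem_insert_self _ _) j
    · obtain ⟨s, hs, hsd⟩ := exists_nearest hS j
      rw [hsd]
      exact infDist_le (Finset.mem_insert_of_mem hs) j
  have h3 : cost J S = ∑ j ∈ J \ Y, Metric.infDist j (S : Set X) +
      ∑ j ∈ Y, Metric.infDist j (S : Set X) := by
    unfold cost
    rw [Finset.sum_sdiff hY]
  linarith

/-- The core of a cluster. -/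
noncomputable def core (C : Finset X) (o : X) : Finset X :=
  C.filter fun j => dist j o * C.card ≤ 11 / 10 * ∑ i ∈ C, dist i o

lemma core_sub (C : Finset X) (o : X) : core C o ⊆ C := Finset.filter_subset _ _

/-- The cost of the clients of the cluster outside the core. -/
noncomputable def outc (C : Finset X) (o : X) : ℝ :=
  ∑ j ∈ C.filter (fun j => ¬ dist j o * C.card ≤ 11 / 10 * ∑ i ∈ C, dist i o), dist j o

lemma core_add_outc (C : Finset X) (o : X) :
    ∑ j ∈ core C o, dist j o + outc C o = ∑ j ∈ C, dist j o :=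
  Finset.sum_filter_add_sum_filter_not _ _ _

lemma outc_nonneg (C : Finset X) (o : X) : 0 ≤ outc C o :=
  Finset.sum_nonneg fun _ _ => dist_nonneg

lemma sum_dist_nonneg (C : Finset X) (o : X) : 0 ≤ ∑ j ∈ C, dist j o :=
  Finset.sum_nonneg fun _ _ => dist_nonneg

/-- The number of clients outside the core. -/
lemma out_card (C : Finset X) (o : X) :
    11 / 10 * (∑ i ∈ C, dist i o) * ((C.card : ℝ) - (core C o).card) ≤ C.card * outc C o := by
  have h1 : ((C.filter (fun j => ¬ dist j o * C.card ≤ 11 / 10 * ∑ i ∈ C, dist i o)).card : ℝ) =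
      (C.card : ℝ) - (core C o).card := by
    have := Finset.card_filter_add_card_filter_not (s := C)
      (fun j => dist j o * C.card ≤ 11 / 10 * ∑ i ∈ C, dist i o)
    have h2 : ((core C o).card : ℝ) +
        ((C.filter (fun j => ¬ dist j o * C.card ≤ 11 / 10 * ∑ i ∈ C, dist i o)).card : ℝ) =
        C.card := by exact_mod_cast this
    linarith only [h2]
  rw [← h1, outc]
  set O := C.filter (fun j => ¬ dist j o * C.card ≤ 11 / 10 * ∑ i ∈ C, dist i o) with hO
  calc 11 / 10 * (∑ i ∈ C, dist i o) * (O.card : ℝ) =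
        ∑ j ∈ O, 11 / 10 * (∑ i ∈ C, dist i o) := by
        rw [Finset.sum_const, nsmul_eq_mul]; ring
    _ ≤ ∑ j ∈ O, (C.card : ℝ) * dist j o := by
        refine Finset.sum_le_sum fun j hj => ?_
        have := (Finset.mem_filter.1 hj).2
        push Not at this
        rw [mul_comm (C.card : ℝ)]
        exact this.le
    _ = C.card * ∑ j ∈ O, dist j o := by rw [Finset.mul_sum]

lemma core_card (C : Finset X) (o : X) : (C.card : ℝ) ≤ 11 * (core C o).card := by
  set c := ∑ i ∈ C, dist i o with hc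
  have hc0 : 0 ≤ c := sum_dist_nonneg C o
  rcases hc0.eq_or_lt with h | h
  · have h1 : core C o = C := by
      refine Finset.filter_true_of_mem fun j hj => ?_
      have h2 : ∑ i ∈ C, dist i o = 0 := by rw [← hc, ← h]
      rw [h2, (Finset.sum_eq_zero_iff_of_nonneg fun _ _ => dist_nonneg).1 h2 j hj]
      simp
    rw [h1]
    have : (0 : ℝ) ≤ C.card := Nat.cast_nonneg _
    linarith only []
  · have h1 := out_card C o
    have h2 : outc C o ≤ c := by
      have := core_add_outc C o
      have := sum_dist_nonneg (core C o) o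
      (clear hc hc0 h h1; linarith)
    have h3 : (0 : ℝ) ≤ C.card := Nat.cast_nonneg _
    have h4 : (C.card : ℝ) * outc C o ≤ C.card * c := mul_le_mul_of_nonneg_left h2 h3
    have h5 : c * (11 / 10 * ((C.card : ℝ) - (core C o).card)) ≤ c * C.card := by
      rw [← hc] at h1
      linarith
    have h6 := le_of_mul_le_mul_left h5 h
    linarith only [h6]

/-- Serving a cluster by the old center of a well placed client. -/
lemma exists_star {C S : Finset X} {o : X} (hS : S.Nonempty) (hC : C.Nonempty) :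
    ∃ s ∈ S, ∑ j ∈ C, dist j s ≤ 2 * ∑ j ∈ C, dist j o - outc C o / 11 +
      11 * ∑ j ∈ core C o, Metric.infDist j (S : Set X) := by
  set c := ∑ i ∈ C, dist i o with hc
  set W := ∑ j ∈ core C o, Metric.infDist j (S : Set X) with hW
  have hn : (0 : ℝ) < C.card := by exact_mod_cast Finset.card_pos.2 hC
  have hN : (0 : ℝ) < (core C o).card := by
    have := core_card C o
    linarith only [hn, this]
  have hNne : (core C o).Nonempty := by
    rw [← Finset.card_pos]; exact_mod_cast hN
  obtain ⟨j0, hj0, hmin⟩ := (core C o).exists_min_image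
    (fun j => dist j o + Metric.infDist j (S : Set X)) hNne
  obtain ⟨s, hs, hsd⟩ := exists_nearest hS j0
  refine ⟨s, hs, ?_⟩
  set μ := dist j0 o + Metric.infDist j0 (S : Set X) with hμ
  have h1 : ∑ j ∈ C, dist j s ≤ c + C.card * μ := by
    have h2 : (C.card : ℝ) * μ = ∑ j ∈ C, μ := by rw [Finset.sum_const, nsmul_eq_mul]
    rw [h2, hc, ← Finset.sum_add_distrib]
    refine Finset.sum_le_sum fun j _ => ?_
    have e1 := dist_triangle j o s
    have e2 := dist_triangle o j0 s
    rw [dist_comm o j0, ← hsd] at e2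
    linarith only [e1, e2]
  have h2 : (core C o).card * μ ≤ (c - outc C o) + W := by
    have e1 := core_add_outc C o
    rw [← hc] at e1
    have e2 : c - outc C o = ∑ j ∈ core C o, dist j o := by linarith only [e1]
    rw [e2, hW, ← Finset.sum_add_distrib, ← nsmul_eq_mul]
    exact Finset.card_nsmul_le_sum _ _ _ fun j hj => hmin j hj
  have hy0 := outc_nonneg C o
  have hyc : outc C o ≤ c := by
    have := core_add_outc C o
    have := sum_dist_nonneg (core C o) o
    (clear S hS hC hc W hW hn hN hNne j0 hj0 s hs hsd μ hmin hμ h1 h2 hy0; linarith)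
  have hW0 : 0 ≤ W := Finset.sum_nonneg fun _ _ => Metric.infDist_nonneg
  have h3 : C.card * (c - outc C o) ≤ (core C o).card * (c - outc C o / 11) := by
    rcases (hy0.trans hyc).eq_or_lt with h | h
    · have : outc C o = 0 := le_antisymm (by rw [h]; exact hyc) hy0
      rw [this, ← h]; simp
    · have e1 := out_card C o
      rw [← hc] at e1
      have e2 : c * (C.card * (c - outc C o)) ≤ c * ((core C o).card * (c - outc C o / 11)) := by
        have e3 : 0 ≤ (c - outc C o / 11) := by linarith only [hyc, h]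
        have e4 := mul_le_mul_of_nonneg_right e1 e3
        have e5 : 0 ≤ (C.card : ℝ) * (outc C o) ^ 2 := by (clear * - hC; positivity)
        nlinarith only [e4, e5]
      exact le_of_mul_le_mul_left e2 h
  have h4 : C.card * W ≤ (core C o).card * (11 * W) := by
    have := mul_le_mul_of_nonneg_right (core_card C o) hW0
    linarith only [this]
  have h5 : (core C o).card * (C.card * μ) ≤
      (core C o).card * ((c - outc C o / 11) + 11 * W) := by
    have := mul_le_mul_of_nonneg_left h2 hn.le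
    linarith
  have h6 := le_of_mul_le_mul_left h5 hN
  linarith only [h1, h6]

/-- The hidden target of ALG 2: `K` are the kept centers of `S`, `Q` the new centers that have to
be found, `e j` is the center of client `j`. -/
structure Target [DecidableEq X] (J S T0 : Finset X) (τ : ℝ) (K Q : Finset X) (e : X → X)
    (v : X → ℝ) (G : X → Finset X) : Prop where
  inter_sub : S ∩ T0 ⊆ K
  K_sub : K ⊆ S
  Q_sub : Q ⊆ T0 \ S
  card_le : K.card + Q.card ≤ T0.card
  e_mem : ∀ j ∈ J, e j ∈ K ∪ Q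
  sat : ∀ Y ⊆ J, ∑ j ∈ Y, Metric.infDist j (S : Set X) ≤
    ∑ j ∈ Y, dist j (e j) + cost J S / (2 * 10 ^ 9)
  v_pos : ∀ o ∈ Q, 0 < v o
  v_big : ∀ o ∈ Q, ∃ j ∈ J, 0 < dist j o ∧ dist j o ≤ J.card * v o
  G_sub : ∀ o ∈ Q, G o ⊆ J
  G_e : ∀ o ∈ Q, ∀ p ∈ G o, e p = o
  G_disj : ∀ o ∈ Q, ∀ o' ∈ Q, o ≠ o' → Disjoint (G o) (G o')
  G_dist : ∀ o ∈ Q, ∀ p ∈ G o, dist p o ≤ 11 / 10 * v o
  G_lo : ∀ o ∈ Q, ∀ p ∈ G o, v o / 22000 ≤ Metric.infDist p (S : Set X)
  G_hi : ∀ o ∈ Q, ∀ p ∈ G o, Metric.infDist p (S : Set X) ≤ 21 / 10 * v o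
  G_wt : ∀ o ∈ Q, cost J S / (572000000 * τ) ≤ ∑ p ∈ G o, Metric.infDist p (S : Set X)
  total : (1 + 1 / 3000) * ∑ j ∈ J, dist j (e j) +
    231 / 250 * ∑ j ∈ J.filter (fun j => e j ∈ Q), v (e j) +
    (1 / (2 * 10 ^ 9) + 1 / 1000) * cost J S ≤ 199 / 100 * cost J T0

set_option maxHeartbeats 1000000 in
/-- The hidden target exists if `S` is saturated and not too cheap. -/
theorem exists_target [DecidableEq X] {J F S T0 : Finset X} {τ : ℝ} (hS : S.Nonempty)
    (hT : T0.Nonempty) (hTF : T0 ⊆ F) (hτ : ((T0 \ S).card : ℝ) ≤ τ) (hτ0 : 0 < τ)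
    (hsat : ∀ q ∈ F, cost J S ≤ cost J (insert q S) + cost J S / (2 * 10 ^ 9 * τ))
    (hA : cost J T0 < 5 * cost J S) :
    ∃ (K Q : Finset X) (e : X → X) (v : X → ℝ) (G : X → Finset X),
      Target J S T0 τ K Q e v G := by
  choose ω hωm hωd using exists_nearest hT
  set A := cost J S with hAdef
  set b := A / (2 * 10 ^ 9 * τ) with hb
  have hC00 : 0 ≤ cost J T0 := Finset.sum_nonneg fun _ _ => Metric.infDist_nonneg
  have hA0 : 0 < A := by linarith only [hA, hC00]
  have hb0 : 0 < b := by (clear * - hA0 hτ0; positivity)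
  set C : X → Finset X := fun o => J.filter fun j => ω j = o with hC
  set c : X → ℝ := fun o => ∑ j ∈ C o, dist j o with hc
  set W : X → ℝ := fun o => ∑ j ∈ core (C o) o, Metric.infDist j (S : Set X) with hW
  have hCJ : ∀ o, C o ⊆ J := fun o => Finset.filter_subset _ _
  have hfib : ∀ f : X → ℝ, ∑ o ∈ T0, ∑ j ∈ C o, f j = ∑ j ∈ J, f j := fun f =>
    Finset.sum_fiberwise_of_maps_to (fun j _ => hωm j) f
  have hsub : ∀ q ∈ T0, ∀ Y ⊆ J, ∑ j ∈ Y, Metric.infDist j (S : Set X) ≤
      ∑ j ∈ Y, dist j q + b := fun q hq Y hY => sat_sub hsat (hTF hq) hY hS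
  have hc0 : ∀ o, 0 ≤ c o := fun o => sum_dist_nonneg _ _
  have hy0 : ∀ o, 0 ≤ outc (C o) o := fun o => outc_nonneg _ _
  have hyc : ∀ o, ∑ j ∈ core (C o) o, dist j o = c o - outc (C o) o := fun o => by
    have := core_add_outc (C o) o
    linarith only [this]
  -- the classes
  set Q := (T0 \ S).filter fun o => A / (13000 * τ) ≤ c o ∧ c o / 11000 ≤ W o with hQ
  set R := (T0 \ S).filter fun o => ¬ (A / (13000 * τ) ≤ c o ∧ c o / 11000 ≤ W o) with hR
  set RB := R.filter fun o => A / (13000 * τ) ≤ c o with hRB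
  set RT := R.filter fun o => ¬ A / (13000 * τ) ≤ c o with hRT
  have hstar : ∀ o : X, ∃ s ∈ S, ∑ j ∈ C o, dist j s ≤ 2 * c o - outc (C o) o / 11 +
      11 * W o := by
    intro o
    rcases (C o).eq_empty_or_nonempty with h | h
    · obtain ⟨s, hs⟩ := hS
      refine ⟨s, hs, ?_⟩
      have e1 : c o = 0 := by rw [hc]; simp only [h, Finset.sum_empty]
      have e2 : outc (C o) o = 0 := by
        rw [h]; simp only [outc, card_empty, CharP.cast_eq_zero, mul_zero, sum_empty, Std.le_refl, not_true_eq_false, filter_empty]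
      have e3 : W o = 0 := by rw [hW]; simp only [h]; simp [core]
      rw [e1, e2, e3, h]; simp
    · exact exists_star hS h
  choose st hstS hst using hstar
  set K := (S ∩ T0) ∪ R.image st with hK
  set e : X → X := fun j => if ω j ∈ R then st (ω j) else ω j with he
  have hRT0 : ∀ o ∈ R, o ∈ T0 ∧ o ∉ S := fun o ho => by
    have := (Finset.mem_filter.1 ho).1
    exact Finset.mem_sdiff.1 this
  have hQT0 : ∀ o ∈ Q, o ∈ T0 ∧ o ∉ S := fun o ho => by
    have := (Finset.mem_filter.1 ho).1
    exact Finset.mem_sdiff.1 this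
  have hQR : ∀ o ∈ Q, o ∉ R := fun o ho hoR =>
    (Finset.mem_filter.1 hoR).2 (Finset.mem_filter.1 ho).2
  have hKS : K ⊆ S := by
    refine Finset.union_subset Finset.inter_subset_left ?_
    intro s hs
    obtain ⟨o, _, rfl⟩ := Finset.mem_image.1 hs
    exact hstS o
  have hQRcard : Q.card + R.card = (T0 \ S).card := Finset.card_filter_add_card_filter_not _
  have hcase : ∀ j, (ω j ∈ S ∩ T0 ∧ e j = ω j) ∨ (ω j ∈ Q ∧ e j = ω j) ∨
      (ω j ∈ R ∧ e j = st (ω j)) := by
    intro j
    by_cases h1 : ω j ∈ S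
    · left
      refine ⟨Finset.mem_inter.2 ⟨h1, hωm j⟩, ?_⟩
      rw [he]
      exact if_neg fun h => (hRT0 _ h).2 h1
    · right
      have h2 : ω j ∈ T0 \ S := Finset.mem_sdiff.2 ⟨hωm j, h1⟩
      by_cases h3 : A / (13000 * τ) ≤ c (ω j) ∧ c (ω j) / 11000 ≤ W (ω j)
      · left
        have h4 : ω j ∈ Q := Finset.mem_filter.2 ⟨h2, h3⟩
        exact ⟨h4, if_neg (hQR _ h4)⟩
      · right
        have h4 : ω j ∈ R := Finset.mem_filter.2 ⟨h2, h3⟩
        exact ⟨h4, if_pos h4⟩
  -- splitting of sums over `T0`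
  have hsplit : ∀ f : X → ℝ, ∑ o ∈ T0, f o = ∑ o ∈ S ∩ T0, f o + ∑ o ∈ Q, f o +
      (∑ o ∈ RB, f o + ∑ o ∈ RT, f o) := by
    intro f
    have e1 : ∑ o ∈ RB, f o + ∑ o ∈ RT, f o = ∑ o ∈ R, f o :=
      Finset.sum_filter_add_sum_filter_not _ _ _
    have e2 : ∑ o ∈ Q, f o + ∑ o ∈ R, f o = ∑ o ∈ T0 \ S, f o :=
      Finset.sum_filter_add_sum_filter_not _ _ _
    have e3 : ∑ o ∈ S ∩ T0, f o + ∑ o ∈ T0 \ S, f o = ∑ o ∈ T0, f o := by
      rw [Finset.inter_comm]
      exact Finset.sum_inter_add_sum_sdiff _ _ _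
    linarith only [e1, e2, e3]
  have hβ : ((T0 \ S).card : ℝ) * b ≤ A / (2 * 10 ^ 9) := by
    have h1 : τ * b = A / (2 * 10 ^ 9) := by
      rw [hb]; (clear * - hτ0 hA0; field_simp)
    rw [← h1]
    exact mul_le_mul_of_nonneg_right hτ hb0.le
  have hRTQ : (RT.card : ℝ) ≤ (T0 \ S).card := by
    have : RT.card ≤ (T0 \ S).card :=
      (Finset.card_filter_le _ _).trans (Finset.card_filter_le _ _)
    exact_mod_cast this
  -- the costs
  set CK := ∑ o ∈ S ∩ T0, c o with hCK
  set CN := ∑ o ∈ Q, c o with hCN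
  set CB := ∑ o ∈ RB, c o with hCB
  set CT := ∑ o ∈ RT, c o with hCT
  set YB := ∑ o ∈ RB, outc (C o) o with hYB
  have hC0 : cost J T0 = CK + CN + (CB + CT) := by
    rw [hCK, hCN, hCB, hCT, ← hsplit c]
    unfold cost
    rw [← hfib]
    refine Finset.sum_congr rfl fun o _ => Finset.sum_congr rfl fun j hj => ?_
    rw [hωd j, (Finset.mem_filter.1 hj).2]
  have hCT' : CT ≤ A / 13000 := by
    have h1 : CT ≤ RT.card * (A / (13000 * τ)) := by
      rw [hCT, ← nsmul_eq_mul]
      refine Finset.sum_le_card_nsmul _ _ _ fun o ho => ?_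
      exact (not_le.1 (Finset.mem_filter.1 ho).2).le
    have h2 : (RT.card : ℝ) * (A / (13000 * τ)) ≤ τ * (A / (13000 * τ)) :=
      mul_le_mul_of_nonneg_right (hRTQ.trans hτ) (by (clear * - hA0 hτ0; positivity))
    have h3 : τ * (A / (13000 * τ)) = A / 13000 := by (clear * - hτ0 hA0; field_simp)
    linarith only [h1, h2, h3]
  have hRTb : (RT.card : ℝ) * b ≤ A / (2 * 10 ^ 9) :=
    (mul_le_mul_of_nonneg_right hRTQ hb0.le).trans hβ
  -- bounds for the cost of `S` on the clusters
  have hSo : ∀ o ∈ T0, ∑ j ∈ C o, Metric.infDist j (S : Set X) ≤ c o + b := fun o ho =>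
    hsub o ho (C o) (hCJ o)
  have hSK : ∀ o ∈ S ∩ T0, ∑ j ∈ C o, Metric.infDist j (S : Set X) ≤ c o := fun o ho =>
    Finset.sum_le_sum fun j _ => infDist_le (Finset.mem_inter.1 ho).1 j
  have hSB : ∀ o ∈ RB, ∑ j ∈ C o, Metric.infDist j (S : Set X) ≤
      c o / 11000 + outc (C o) o + b := by
    intro o ho
    have ho1 := Finset.mem_filter.1 ho
    have hoR := Finset.mem_filter.1 ho1.1
    have h1 : W o < c o / 11000 := by
      by_contra h
      push Not at h
      exact hoR.2 ⟨ho1.2, h⟩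
    have h2 : ∑ j ∈ C o, Metric.infDist j (S : Set X) = W o +
        ∑ j ∈ (C o).filter (fun j => ¬ dist j o * (C o).card ≤ 11 / 10 * ∑ i ∈ C o, dist i o),
          Metric.infDist j (S : Set X) :=
      (Finset.sum_filter_add_sum_filter_not _ _ _).symm
    have h3 := hsub o (hRT0 o ho1.1).1
      ((C o).filter (fun j => ¬ dist j o * (C o).card ≤ 11 / 10 * ∑ i ∈ C o, dist i o))
      ((Finset.filter_subset _ _).trans (hCJ o))
    have h4 : outc (C o) o = ∑ j ∈ (C o).filter
      (fun j => ¬ dist j o * (C o).card ≤ 11 / 10 * ∑ i ∈ C o, dist i o), dist j o := rfl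
    rw [h2]
    linarith only [h1, h3, h4]
  -- the cost of `S`
  have hAle : A ≤ CK + (CN + Q.card * b) + ((CB / 11000 + YB + RB.card * b) +
      (CT + RT.card * b)) := by
    have h1 : A = ∑ o ∈ T0, ∑ j ∈ C o, Metric.infDist j (S : Set X) := (hfib _).symm
    rw [h1, hsplit]
    have h2 : ∑ o ∈ S ∩ T0, ∑ j ∈ C o, Metric.infDist j (S : Set X) ≤ CK :=
      Finset.sum_le_sum hSK
    have h3 : ∑ o ∈ Q, ∑ j ∈ C o, Metric.infDist j (S : Set X) ≤ CN + Q.card * b := by
      rw [hCN, ← nsmul_eq_mul, ← Finset.sum_const, ← Finset.sum_add_distrib]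
      exact Finset.sum_le_sum fun o ho => hSo o (hQT0 o ho).1
    have h4 : ∑ o ∈ RT, ∑ j ∈ C o, Metric.infDist j (S : Set X) ≤ CT + RT.card * b := by
      rw [hCT, ← nsmul_eq_mul, ← Finset.sum_const, ← Finset.sum_add_distrib]
      exact Finset.sum_le_sum fun o ho => hSo o (hRT0 o (Finset.mem_filter.1 ho).1).1
    have h5 : ∑ o ∈ RB, ∑ j ∈ C o, Metric.infDist j (S : Set X) ≤
        CB / 11000 + YB + RB.card * b := by
      rw [hCB, hYB, ← nsmul_eq_mul, ← Finset.sum_const, Finset.sum_div,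
        ← Finset.sum_add_distrib, ← Finset.sum_add_distrib]
      exact Finset.sum_le_sum hSB
    linarith only [h2, h3, h4, h5]
  have hcards : (Q.card : ℝ) * b + RB.card * b + RT.card * b ≤ A / (2 * 10 ^ 9) := by
    have h1 : RB.card + RT.card = R.card := Finset.card_filter_add_card_filter_not _
    have h2 : (Q.card : ℝ) + (RB.card + RT.card) = (T0 \ S).card := by
      rw [← hQRcard, ← h1]; push_cast; ring
    have h3 : (Q.card : ℝ) * b + RB.card * b + RT.card * b = (T0 \ S).card * b := by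
      rw [← h2]; ring
    rw [h3]; exact hβ
  -- the cost of the target
  have hsum : ∑ j ∈ J, dist j (e j) ≤ CK + CN + ((2 * CB - YB / 11 + CB / 1000) +
      (13 * CT + 11 * (RT.card * b))) := by
    rw [← hfib, hsplit]
    have h1 : ∑ o ∈ S ∩ T0, ∑ j ∈ C o, dist j (e j) = CK := by
      refine Finset.sum_congr rfl fun o ho => Finset.sum_congr rfl fun j hj => ?_
      have hj' := (Finset.mem_filter.1 hj).2
      rcases hcase j with h | h | h
      · rw [h.2, hj']
      · rw [h.2, hj']
      · exact absurd (Finset.mem_inter.1 ho).1 (by rw [← hj']; exact (hRT0 _ h.1).2)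
    have h2 : ∑ o ∈ Q, ∑ j ∈ C o, dist j (e j) = CN := by
      refine Finset.sum_congr rfl fun o ho => Finset.sum_congr rfl fun j hj => ?_
      have hj' := (Finset.mem_filter.1 hj).2
      rcases hcase j with h | h | h
      · rw [h.2, hj']
      · rw [h.2, hj']
      · exact absurd h.1 (by rw [hj']; exact hQR o ho)
    have h3 : ∀ o ∈ R, ∑ j ∈ C o, dist j (e j) = ∑ j ∈ C o, dist j (st o) := by
      intro o ho
      refine Finset.sum_congr rfl fun j hj => ?_
      have hj' := (Finset.mem_filter.1 hj).2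
      have : e j = st o := by
        rw [he]
        show (if ω j ∈ R then st (ω j) else ω j) = st o
        rw [hj', if_pos ho]
      rw [this]
    have h4 : ∑ o ∈ RB, ∑ j ∈ C o, dist j (e j) ≤ 2 * CB - YB / 11 + CB / 1000 := by
      rw [hCB, hYB, Finset.sum_div, Finset.mul_sum, ← Finset.sum_sub_distrib, Finset.sum_div,
        ← Finset.sum_add_distrib]
      refine Finset.sum_le_sum fun o ho => ?_
      have ho1 := Finset.mem_filter.1 ho
      have hoR := Finset.mem_filter.1 ho1.1
      have h5 : W o < c o / 11000 := by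
        by_contra h
        push Not at h
        exact hoR.2 ⟨ho1.2, h⟩
      rw [h3 o ho1.1]
      have := hst o
      linarith only [h5, this]
    have h5 : ∑ o ∈ RT, ∑ j ∈ C o, dist j (e j) ≤ 13 * CT + 11 * (RT.card * b) := by
      rw [hCT, ← nsmul_eq_mul, ← Finset.sum_const, Finset.mul_sum, Finset.mul_sum,
        ← Finset.sum_add_distrib]
      refine Finset.sum_le_sum fun o ho => ?_
      have ho1 := Finset.mem_filter.1 ho
      rw [h3 o ho1.1]
      have h6 := hst o
      have h7 : W o ≤ (c o - outc (C o) o) + b := by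
        rw [← hyc o]
        exact hsub o (hRT0 o ho1.1).1 _ ((core_sub _ _).trans (hCJ o))
      have h8 := hy0 o
      linarith only [h6, h7, h8]
    linarith only [h1, h2, h4, h5]
  -- radii
  set v : X → ℝ := fun o => c o / (C o).card with hv
  have hQc : ∀ o ∈ Q, 0 < c o := fun o ho => by
    have h1 := (Finset.mem_filter.1 ho).2.1
    exact lt_of_lt_of_le (by (clear * - hA0 hτ0; positivity)) h1
  have hQn : ∀ o ∈ Q, (0 : ℝ) < (C o).card := fun o ho => by
    rcases (C o).eq_empty_or_nonempty with h | h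
    · exfalso
      have h1 := hQc o ho
      have : c o = 0 := by rw [hc]; simp only [h, Finset.sum_empty]
      linarith only [h1, this]
    · exact_mod_cast Finset.card_pos.2 h
  have hvc : ∀ o ∈ Q, v o * (C o).card = c o := fun o ho => by
    rw [hv]; exact div_mul_cancel₀ _ (hQn o ho).ne'
  have hvpos : ∀ o ∈ Q, 0 < v o := fun o ho => div_pos (hQc o ho) (hQn o ho)
  have hvsum : ∑ j ∈ J.filter (fun j => e j ∈ Q), v (e j) = CN := by
    have h1 : J.filter (fun j => e j ∈ Q) = J.filter (fun j => ω j ∈ Q) := by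
      refine Finset.filter_congr fun j _ => ?_
      rcases hcase j with h | h | h
      · rw [h.2]
      · rw [h.2]
      · rw [h.2]
        constructor
        · intro h'
          exact absurd (hstS _) (hQT0 _ h').2
        · intro h'
          exact absurd h.1 (hQR _ h')
    have h2 : ∀ o ∈ Q, ∑ j ∈ C o, v (e j) = c o := by
      intro o ho
      rw [← hvc o ho, mul_comm, ← nsmul_eq_mul, ← Finset.sum_const]
      refine Finset.sum_congr rfl fun j hj => ?_
      have hj' := (Finset.mem_filter.1 hj).2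
      have : e j = o := by
        rcases hcase j with h | h | h
        · rw [h.2, hj']
        · rw [h.2, hj']
        · exact absurd h.1 (by rw [hj']; exact hQR o ho)
      rw [this]
    rw [h1, hCN, ← Finset.sum_fiberwise_of_maps_to (g := ω) (t := Q)
      (fun j hj => (Finset.mem_filter.1 hj).2)]
    refine Finset.sum_congr rfl fun o ho => ?_
    rw [← h2 o ho]
    refine Finset.sum_congr ?_ fun _ _ => rfl
    ext j
    simp only [mem_filter, hC]
    constructor
    · rintro ⟨⟨h3, _⟩, h5⟩; exact ⟨h3, h5⟩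
    · rintro ⟨h3, h5⟩; exact ⟨⟨h3, by rw [h5]; exact ho⟩, h5⟩
  -- the sets `G`
  set G : X → Finset X := fun o => (core (C o) o).filter fun p =>
    v o / 22000 ≤ Metric.infDist p (S : Set X) ∧ Metric.infDist p (S : Set X) ≤ 21 / 10 * v o
    with hG
  have hcoredist : ∀ o ∈ Q, ∀ p ∈ core (C o) o, dist p o ≤ 11 / 10 * v o := by
    intro o ho p hp
    have h1 := (Finset.mem_filter.1 hp).2
    have h2 := hQn o ho
    rw [hv]
    show dist p o ≤ 11 / 10 * (c o / (C o).card)
    rw [← mul_div_assoc, le_div_iff₀ h2]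
    exact h1
  refine ⟨K, Q, e, v, G, ?_⟩
  refine ⟨Finset.subset_union_left, hKS, Finset.filter_subset _ _, ?_, ?_, ?_, hvpos, ?_, ?_, ?_,
    ?_, ?_, ?_, ?_, ?_, ?_⟩
  · -- cardinality
    have h1 : K.card ≤ (S ∩ T0).card + R.card :=
      (Finset.card_union_le _ _).trans (Nat.add_le_add_left Finset.card_image_le _)
    have h2 : (S ∩ T0).card + (T0 \ S).card = T0.card := by
      rw [Finset.inter_comm]
      exact Finset.card_inter_add_card_sdiff _ _
    omega
  · intro j _
    rcases hcase j with h | h | h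
    · rw [h.2]
      exact Finset.mem_union_left _ (Finset.mem_union_left _ h.1)
    · rw [h.2]
      exact Finset.mem_union_right _ h.1
    · rw [h.2]
      exact Finset.mem_union_left _ (Finset.mem_union_right _ (Finset.mem_image_of_mem _ h.1))
  · -- saturation
    intro Y hY
    have h1 : ∑ j ∈ Y.filter (fun j => ω j ∈ Q), Metric.infDist j (S : Set X) ≤
        ∑ j ∈ Y.filter (fun j => ω j ∈ Q), dist j (e j) + Q.card * b := by
      rw [← Finset.sum_fiberwise_of_maps_to (g := ω) (t := Q)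
        (fun j hj => (Finset.mem_filter.1 hj).2),
        ← Finset.sum_fiberwise_of_maps_to (g := ω) (t := Q) (f := fun j => dist j (e j))
        (fun j hj => (Finset.mem_filter.1 hj).2), ← nsmul_eq_mul, ← Finset.sum_const,
        ← Finset.sum_add_distrib]
      refine Finset.sum_le_sum fun o ho => ?_
      refine (hsub o (hQT0 o ho).1 _ ?_).trans ?_
      · exact ((Finset.filter_subset _ _).trans (Finset.filter_subset _ _)).trans hY
      · refine add_le_add (Finset.sum_le_sum fun j hj => ?_) le_rfl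
        have hj' := (Finset.mem_filter.1 hj).2
        rcases hcase j with h | h | h
        · rw [h.2, hj']
        · rw [h.2, hj']
        · exact absurd h.1 (by rw [hj']; exact hQR o ho)
    have h2 : ∑ j ∈ Y.filter (fun j => ¬ ω j ∈ Q), Metric.infDist j (S : Set X) ≤
        ∑ j ∈ Y.filter (fun j => ¬ ω j ∈ Q), dist j (e j) := by
      refine Finset.sum_le_sum fun j hj => ?_
      have hj' := (Finset.mem_filter.1 hj).2
      refine infDist_le ?_ j
      rcases hcase j with h | h | h
      · rw [h.2]; exact (Finset.mem_inter.1 h.1).1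
      · exact absurd h.1 hj'
      · rw [h.2]; exact hstS _
    have h3 := Finset.sum_filter_add_sum_filter_not Y (fun j => ω j ∈ Q)
      (fun j => Metric.infDist j (S : Set X))
    have h4 := Finset.sum_filter_add_sum_filter_not Y (fun j => ω j ∈ Q)
      (fun j => dist j (e j))
    have h5 : (Q.card : ℝ) * b ≤ A / (2 * 10 ^ 9) := by
      have : (0 : ℝ) ≤ RB.card * b := by (clear * - hA0 hτ0; positivity)
      have : (0 : ℝ) ≤ RT.card * b := by (clear * - hA0 hτ0; positivity)
      (clear F hS hT hTF hωm hωd hAdef hsat hC hc hW hCJ hfib hsub hc0 hy0 hyc hQ hR hRB hRT st hstS hst K hK e he hRT0 hQT0 hQR hKS hcase hsplit hRTQ CK hCK CN hCN CB hCB CT hCT YB hYB hC0 hCT' hRTb hSo hSK hSB hAle hsum v hv hQc hQn hvc hvpos hvsum G hG hcoredist Y hY h1 h2 h3 h4; linarith)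
    linarith only [h1, h2, h3, h4, h5]
  · -- `v` is not small
    intro o ho
    have h1 := hQc o ho
    obtain ⟨j, hj, hjpos⟩ : ∃ j ∈ C o, 0 < dist j o := by
      by_contra h
      push Not at h
      have : c o ≤ 0 := Finset.sum_nonpos h
      linarith only [h1, this]
    refine ⟨j, hCJ o hj, hjpos, ?_⟩
    have h2 : dist j o ≤ c o :=
      Finset.single_le_sum (f := fun i => dist i o) (fun i _ => dist_nonneg) hj
    rw [← hvc o ho] at h2
    have h3 : ((C o).card : ℝ) ≤ J.card := by exact_mod_cast Finset.card_le_card (hCJ o)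
    have h4 := mul_le_mul_of_nonneg_left h3 (hvpos o ho).le
    linarith only [h2, h4]
  · intro o _
    exact ((Finset.filter_subset _ _).trans (core_sub _ _)).trans (hCJ o)
  · intro o ho p hp
    have h1 := core_sub _ _ (Finset.mem_filter.1 hp).1
    have hp' := (Finset.mem_filter.1 h1).2
    rcases hcase p with h | h | h
    · rw [h.2, hp']
    · rw [h.2, hp']
    · exact absurd h.1 (by rw [hp']; exact hQR o ho)
  · intro o _ o' _ hne
    rw [Finset.disjoint_left]
    intro p hp hp'
    have h1 := core_sub _ _ (Finset.mem_filter.1 hp).1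
    have h2 := core_sub _ _ (Finset.mem_filter.1 hp').1
    exact hne ((Finset.mem_filter.1 h1).2.symm.trans (Finset.mem_filter.1 h2).2)
  · intro o ho p hp
    exact hcoredist o ho p (Finset.mem_filter.1 hp).1
  · intro o _ p hp
    exact (Finset.mem_filter.1 hp).2.1
  · intro o _ p hp
    exact (Finset.mem_filter.1 hp).2.2
  · -- weight of `G`
    intro o ho
    have hoQ := Finset.mem_filter.1 ho
    set N := core (C o) o with hN
    set H := N.filter fun p => 21 / 10 * v o < Metric.infDist p (S : Set X) with hH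
    set L := N.filter fun p => Metric.infDist p (S : Set X) < v o / 22000 with hL
    have h1 : ∑ p ∈ H, Metric.infDist p (S : Set X) ≤ 21 / 10 * b := by
      have e1 := hsub o (hQT0 o ho).1 H (((Finset.filter_subset _ _).trans
        (core_sub _ _)).trans (hCJ o))
      have e2 : ∑ p ∈ H, dist p o ≤ 11 / 21 * ∑ p ∈ H, Metric.infDist p (S : Set X) := by
        rw [Finset.mul_sum]
        refine Finset.sum_le_sum fun p hp => ?_
        have hp' := Finset.mem_filter.1 hp
        have := hcoredist o ho p hp'.1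
        linarith only [hp', this]
      linarith only [e1, e2]
    have h2 : ∑ p ∈ L, Metric.infDist p (S : Set X) ≤ c o / 22000 := by
      have e1 : ∑ p ∈ L, Metric.infDist p (S : Set X) ≤ L.card * (v o / 22000) := by
        rw [← nsmul_eq_mul]
        exact Finset.sum_le_card_nsmul _ _ _ fun p hp => (Finset.mem_filter.1 hp).2.le
      have e2 : (L.card : ℝ) ≤ (C o).card := by
        exact_mod_cast Finset.card_le_card ((Finset.filter_subset _ _).trans (core_sub _ _))
      have e3 := hvpos o ho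
      have e4 : (L.card : ℝ) * (v o / 22000) ≤ (C o).card * (v o / 22000) :=
        mul_le_mul_of_nonneg_right e2 (by (clear * - e3; positivity))
      have e5 := hvc o ho
      have e6 : ((C o).card : ℝ) * (v o / 22000) = c o / 22000 := by rw [← e5]; ring
      linarith only [e1, e4, e5]
    have h3 : W o ≤ ∑ p ∈ G o, Metric.infDist p (S : Set X) +
        (∑ p ∈ H, Metric.infDist p (S : Set X) + ∑ p ∈ L, Metric.infDist p (S : Set X)) := by
      have e1 : N ⊆ G o ∪ (H ∪ L) := by
        intro p hp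
        by_cases hp1 : 21 / 10 * v o < Metric.infDist p (S : Set X)
        · exact Finset.mem_union_right _ (Finset.mem_union_left _
            (Finset.mem_filter.2 ⟨hp, hp1⟩))
        · by_cases hp2 : Metric.infDist p (S : Set X) < v o / 22000
          · exact Finset.mem_union_right _ (Finset.mem_union_right _
              (Finset.mem_filter.2 ⟨hp, hp2⟩))
          · exact Finset.mem_union_left _ (Finset.mem_filter.2
              ⟨hp, not_lt.1 hp2, not_lt.1 hp1⟩)
      have e2 : ∀ P P' : Finset X, ∑ p ∈ P ∪ P', Metric.infDist p (S : Set X) ≤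
          ∑ p ∈ P, Metric.infDist p (S : Set X) + ∑ p ∈ P', Metric.infDist p (S : Set X) := by
        intro P P'
        rw [← Finset.sum_union_inter]
        have : 0 ≤ ∑ p ∈ P ∩ P', Metric.infDist p (S : Set X) :=
          Finset.sum_nonneg fun _ _ => Metric.infDist_nonneg
        linarith only [this]
      calc W o ≤ ∑ p ∈ G o ∪ (H ∪ L), Metric.infDist p (S : Set X) :=
            Finset.sum_le_sum_of_subset_of_nonneg e1 fun _ _ _ => Metric.infDist_nonneg
        _ ≤ _ := (e2 _ _).trans (by linarith only [e2 H L])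
    have h4 := hoQ.2.2
    have h5 := hoQ.2.1
    have h6 : 21 / 10 * b = 21 / 10 / (2 * 10 ^ 9) * (A / τ) := by
      rw [hb]; (clear * - hτ0 hA0; field_simp)
    have h7 : A / (13000 * τ) = 1 / 13000 * (A / τ) := by field_simp
    have h8 : A / (572000000 * τ) = 1 / 572000000 * (A / τ) := by field_simp
    have h9 : 0 < A / τ := by positivity
    rw [h8]
    rw [h7] at h5
    rw [h6] at h1
    norm_num at h1 ⊢
    linarith only [hb0, hoQ, h2, h3, h5, h6, h1]
  · -- the total
    rw [hvsum, hC0]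
    rw [hC0] at hA
    have g1 : 0 ≤ CK := Finset.sum_nonneg fun o _ => hc0 o
    have g2 : 0 ≤ CN := Finset.sum_nonneg fun o _ => hc0 o
    have g3 : 0 ≤ CB := Finset.sum_nonneg fun o _ => hc0 o
    have g4 : 0 ≤ CT := Finset.sum_nonneg fun o _ => hc0 o
    have g5 : 0 ≤ YB := Finset.sum_nonneg fun o _ => hy0 o
    have g6 : YB ≤ CB := by
      refine Finset.sum_le_sum fun o _ => ?_
      have e1 := hyc o
      have e2 := sum_dist_nonneg (core (C o) o) o
      linarith only [e1, e2]
    have g7 : A ≤ CK + CN + (CB + CT) + A / (2 * 10 ^ 9) := by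
      have h1 : A = ∑ o ∈ T0, ∑ j ∈ C o, Metric.infDist j (S : Set X) := (hfib _).symm
      have h2 : ∑ o ∈ S ∩ T0, ∑ j ∈ C o, Metric.infDist j (S : Set X) ≤ CK :=
        Finset.sum_le_sum hSK
      have h3 : ∀ P : Finset X, P ⊆ T0 → ∑ o ∈ P, ∑ j ∈ C o, Metric.infDist j (S : Set X) ≤
          ∑ o ∈ P, c o + P.card * b := by
        intro P hP
        rw [← nsmul_eq_mul, ← Finset.sum_const, ← Finset.sum_add_distrib]
        exact Finset.sum_le_sum fun o ho => hSo o (hP ho)
      have h4 := h3 Q fun o ho => (hQT0 o ho).1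
      have h5 := h3 RB fun o ho => (hRT0 o (Finset.mem_filter.1 ho).1).1
      have h6 := h3 RT fun o ho => (hRT0 o (Finset.mem_filter.1 ho).1).1
      have h7 := hsplit fun o => ∑ j ∈ C o, Metric.infDist j (S : Set X)
      linarith only [hcards, h1, h2, h4, h5, h6, h7]
    norm_num at hcards g7 hRTb ⊢
    linarith only [hA0, hA, hCT', hAle, hsum, g1, g5, hcards, hRTb]

end Vale.Agent.P334.Alg
end

section

/-!
Polynomial time for the levels, the potentials and the chain machine.
-/

namespace Vale.Agent.P334.Alg.MachPT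

open Vale.Agent.Lib.PolyTime Function

variable {A : Set Word} {α X : Type} [Enc α] [Enc X]

/-! ### Lists with elements from a given list -/

omit [Enc α] in
theorem esize_bnd {E l : List X} {n : ℕ} (h1 : l.length ≤ n) (h2 : ∀ x ∈ l, x ∈ E) :
    esize l ≤ n * (2 * esize E + 1) :=
  (esize_list_le (B := esize E) fun x hx => esize_le_of_mem (h2 x hx)).trans
    (Nat.mul_le_mul_right _ h1)

/-! ### Filling -/

omit [Enc α] [Enc X] in
theorem fillStep_spec (mg : X → List X → ℕ) (f : ℕ) (F S : List X) :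
    (fillStep mg f F S).length ≤ S.length + 1 ∧ ∀ x ∈ fillStep mg f F S, x ∈ F ∨ x ∈ S := by
  unfold fillStep
  rcases h : F.find? (fun x => decide (f < mg x S)) with _ | x
  · exact ⟨Nat.le_succ _, fun x hx => Or.inr hx⟩
  · refine ⟨le_rfl, fun y hy => ?_⟩
    rcases List.mem_cons.1 hy with rfl | hy
    · exact Or.inl (List.mem_of_find?_eq_some h)
    · exact Or.inr hy

omit [Enc α] [Enc X] in
theorem fillStep_iterate_spec (mg : X → List X → ℕ) (f : ℕ) (F S : List X) (j : ℕ) :
    ((fillStep mg f F)^[j] S).length ≤ S.length + j ∧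
      ∀ x ∈ (fillStep mg f F)^[j] S, x ∈ F ∨ x ∈ S := by
  induction j with
  | zero => exact ⟨le_rfl, fun x hx => Or.inr hx⟩
  | succ j ih =>
    rw [iterate_succ_apply']
    have h := fillStep_spec mg f F ((fillStep mg f F)^[j] S)
    refine ⟨by omega, fun x hx => ?_⟩
    rcases h.2 x hx with h | h
    · exact Or.inl h
    · exact ih.2 x h

omit [Enc α] [Enc X] in
theorem fill_spec (mg : X → List X → ℕ) (f : ℕ) (F S : List X) :
    (fill mg f F S).length ≤ S.length + F.length ∧ ∀ x ∈ fill mg f F S, x ∈ F ∨ x ∈ S :=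
  fillStep_iterate_spec mg f F S F.length

theorem PT_fillStep {mg : α → X → List X → ℕ} {f : α → ℕ} {F S : α → List X}
    (hmg : PT A (fun p : α × X × List X => mg p.1 p.2.1 p.2.2)) (hf : PT A f) (hF : PT A F)
    (hS : PT A S) : PT A (fun a => fillStep (mg a) (f a) (F a) (S a)) := by
  refine (PT.optCase (o := fun a => (F a).find? (fun x => decide (f a < mg a x (S a))))
    (f := S) (g := fun a x => x :: S a) (PT.find? (f := fun a x => decide (f a < mg a x (S a)))
      hF (PT.lt (hf.comp PT.fst') (hmg.comp (PT.fst'.pair (PT.snd'.pair (hS.comp PT.fst'))))))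
    hS (PT.cons PT.snd' (hS.comp PT.fst'))).congr fun a => ?_
  unfold fillStep
  cases (F a).find? (fun x => decide (f a < mg a x (S a))) <;> rfl

theorem PT_fill {mg : α → X → List X → ℕ} {f : α → ℕ} {F S : α → List X}
    (hmg : PT A (fun p : α × X × List X => mg p.1 p.2.1 p.2.2)) (hf : PT A f) (hF : PT A F)
    (hS : PT A S) : PT A (fun a => fill (mg a) (f a) (F a) (S a)) := by
  have hB : PBd (fun a => (esize (S a) + esize (F a)) * (2 * (esize (F a) + esize (S a)) + 1)) :=
    (hS.pbd.add hF.pbd).mul (((PBd.const 2).mul (hF.pbd.add hS.pbd)).add (PBd.const 1))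
  refine PT.iterate' (step := fun a => fillStep (mg a) (f a) (F a)) hF.length (PBd.length hF)
    hS (PT_fillStep (mg := fun p : α × List X => mg p.1)
      (hmg.comp (PT.fst'.fst.pair PT.snd')) (hf.comp PT.fst') (hF.comp PT.fst') PT.snd') hB
    fun a j hj => ?_
  have h := fillStep_iterate_spec (mg a) (f a) (F a) (S a) j
  exact esize_le_of_two (h.1.trans (add_le_add (length_le_esize _)
    (hj.trans (length_le_esize _)))) h.2

/-! ### Running stages -/

omit [Enc α] [Enc X] in
theorem foldl_fill_spec (mg : ℕ → X → List X → ℕ) (f : ℕ) (F : List X) (l : List ℕ)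
    (S : List X) : (l.foldl (fun S p => fill (mg p) f F S) S).length ≤
        S.length + l.length * F.length ∧
      ∀ x ∈ l.foldl (fun S p => fill (mg p) f F S) S, x ∈ F ∨ x ∈ S := by
  induction l generalizing S with
  | nil => exact ⟨by simp, fun x hx => Or.inr hx⟩
  | cons p l ih =>
    rw [List.foldl_cons]
    have h1 := fill_spec (mg p) f F S
    have h2 := ih (fill (mg p) f F S)
    refine ⟨?_, fun x hx => ?_⟩
    · rw [List.length_cons, add_mul, one_mul]
      omega
    · rcases h2.2 x hx with h | h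
      · exact Or.inl h
      · exact h1.2 x h

omit [Enc α] [Enc X] in
theorem cont_spec (mg : ℕ → X → List X → ℕ) (f : ℕ) (F : List X) (m q : ℕ) (S : List X) :
    (cont mg f F m q S).length ≤ S.length + m * F.length ∧
      ∀ x ∈ cont mg f F m q S, x ∈ F ∨ x ∈ S := by
  have h := foldl_fill_spec mg f F ((List.range m).drop q) S
  refine ⟨h.1.trans (Nat.add_le_add_left (Nat.mul_le_mul_right _ ?_) _), h.2⟩
  rw [List.length_drop, List.length_range]
  omega

theorem PT_cont {mg : α → ℕ → X → List X → ℕ} {f m q : α → ℕ} {F S : α → List X}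
    (hmg : PT A (fun p : α × ℕ × X × List X => mg p.1 p.2.1 p.2.2.1 p.2.2.2)) (hf : PT A f)
    (hF : PT A F) (hm : PT A m) (hmb : PBd m) (hq : PT A q) (hS : PT A S) :
    PT A (fun a => cont (mg a) (f a) (F a) (m a) (q a) (S a)) := by
  have hB : PBd (fun a => (esize (S a) + m a * esize (F a)) *
      (2 * (esize (F a) + esize (S a)) + 1)) :=
    (hS.pbd.add (hmb.mul hF.pbd)).mul
      (((PBd.const 2).mul (hF.pbd.add hS.pbd)).add (PBd.const 1))
  refine PT.foldl (f := fun a S p => fill (mg a p) (f a) (F a) S)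
    (PT.drop (PT.range hm hmb) hq) hS
    (PT_fill (mg := fun p : α × List X × ℕ => mg p.1 p.2.2)
      (hmg.comp (PT.fst'.fst.pair (PT.fst'.snd.snd.pair PT.snd')))
      (hf.comp PT.fst') (hF.comp PT.fst') PT.snd'.fst) hB fun a i => ?_
  have h := foldl_fill_spec (mg a) (f a) (F a) (((List.range (m a)).drop (q a)).take i) (S a)
  refine esize_le_of_two (h.1.trans (add_le_add (length_le_esize _)
    (Nat.mul_le_mul ?_ (length_le_esize _)))) h.2
  rw [List.length_take, List.length_drop, List.length_range]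
  omega

/-! ### The walk -/

/-- Invariant of the walk: elements from `E`, the current set has at most `n` elements, and all
lists together have at most `k` elements. -/
structure WB (E : List X) (n k : ℕ) (s : WState X) : Prop where
  m1 : ∀ x ∈ s.1, x ∈ E
  m2 : ∀ x ∈ s.2.1, x ∈ E
  m3 : ∀ x ∈ s.2.2.1, x ∈ E
  m4 : ∀ x ∈ s.2.2.2, x ∈ E
  ln : s.1.length + s.2.1.length ≤ n
  lk : s.1.length + s.2.1.length + s.2.2.1.length + s.2.2.2.length ≤ k

omit [Enc X] in
theorem WB.mono {E : List X} {n k n' k' : ℕ} {s : WState X} (h : WB E n k s) (hn : n ≤ n')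
    (hk : k ≤ k') : WB E n' k' s :=
  ⟨h.m1, h.m2, h.m3, h.m4, h.ln.trans hn, h.lk.trans hk⟩

theorem WB.esize_le {E : List X} {n k : ℕ} {s : WState X} (h : WB E n k s) :
    esize s ≤ 15 * (k * (2 * esize E + 1)) + 7 := by
  obtain ⟨a, b, c, e⟩ := s
  have h1 := esize_bnd (E := E) (l := a) (n := k) (by have := h.lk; dsimp at this; omega) h.m1
  have h2 := esize_bnd (E := E) (l := b) (n := k) (by have := h.lk; dsimp at this; omega) h.m2
  have h3 := esize_bnd (E := E) (l := c) (n := k) (by have := h.lk; dsimp at this; omega) h.m3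
  have h4 := esize_bnd (E := E) (l := e) (n := k) (by have := h.lk; dsimp at this; omega) h.m4
  rw [esize_pair, esize_pair, esize_pair]
  omega

variable [DecidableEq X]

omit [Enc X] in
theorem WB.wnext {E : List X} {n k : ℕ} {s : WState X} (h : WB E n k s)
    (mg : X → List X → ℕ) (lo hi : ℕ) {F : List X} (hF : ∀ x ∈ F, x ∈ E) :
    WB E (n + 1) (k + 1) (wnext mg lo hi F s) := by
  obtain ⟨a, b, c, e⟩ := s
  have hn := h.ln
  have hk := h.lk
  have m1 := h.m1
  have m2 := h.m2
  have m3 := h.m3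
  have m4 := h.m4
  dsimp only at hn hk m1 m2 m3 m4
  unfold Alg.wnext
  dsimp only
  by_cases ha : a = []
  · rw [if_pos ha]
    subst ha
    rcases h1 : b.find? (fun z => decide (z ∉ c ∧ mg z (b.erase z) < lo)) with _ | z
    · dsimp only
      rcases e with _ | ⟨x, bs⟩
      · dsimp only
        rcases h2 : b.find? (fun z => decide (z ∉ c)) with _ | z
        · exact h.mono (Nat.le_succ _) (Nat.le_succ _)
        · dsimp only
          have hz := List.mem_of_find?_eq_some h2
          have hl := List.length_erase_of_mem hz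
          have hp := List.length_pos_of_mem hz
          refine ⟨by simp, fun x hx => m2 x (List.mem_of_mem_erase hx), m3, by simp, ?_, ?_⟩
          · dsimp only; simp only [List.length_nil] at hn ⊢; omega
          · dsimp only; simp only [List.length_nil] at hk ⊢; omega
      · dsimp only
        by_cases hx : x ∈ b
        · rw [if_pos hx]
          refine ⟨by simp, m2, fun y hy => ?_, fun y hy => m4 y (List.mem_cons_of_mem _ hy),
            ?_, ?_⟩
          · rcases List.mem_cons.1 hy with rfl | hy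
            · exact m2 _ hx
            · exact m3 y hy
          · dsimp only; simp only [List.length_nil] at hn ⊢; omega
          · dsimp only; simp only [List.length_nil, List.length_cons] at hk ⊢; omega
        · rw [if_neg hx]
          refine ⟨by simp, fun y hy => ?_, fun y hy => ?_,
            fun y hy => m4 y (List.mem_cons_of_mem _ hy), ?_, ?_⟩
          · rcases List.mem_cons.1 hy with rfl | hy
            · exact m4 _ List.mem_cons_self
            · exact m2 y hy
          · rcases List.mem_cons.1 hy with rfl | hy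
            · exact m4 _ List.mem_cons_self
            · exact m3 y hy
          · dsimp only; simp only [List.length_nil, List.length_cons] at hn ⊢; omega
          · dsimp only; simp only [List.length_nil, List.length_cons] at hk ⊢; omega
    · dsimp only
      have hz := List.mem_of_find?_eq_some h1
      have hl := List.length_erase_of_mem hz
      have hp := List.length_pos_of_mem hz
      refine ⟨fun x hx => ?_, fun x hx => m2 x (List.mem_of_mem_erase hx), m3, m4, ?_, ?_⟩
      · rw [List.mem_singleton] at hx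
        rw [hx]; exact m2 z hz
      · dsimp only; simp only [List.length_nil, List.length_cons] at hn ⊢; omega
      · dsimp only; simp only [List.length_nil, List.length_cons] at hk ⊢; omega
  · rw [if_neg ha]
    rcases h1 : F.find? (fun x => decide (hi < mg x b)) with _ | x
    · dsimp only
      refine ⟨by simp, m2, m3, m4, ?_, ?_⟩
      · dsimp only; simp only [List.length_nil] at hn ⊢; omega
      · dsimp only; simp only [List.length_nil] at hk ⊢; omega
    · dsimp only
      have hz := List.mem_of_find?_eq_some h1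
      refine ⟨m1, fun y hy => ?_, m3, m4, ?_, ?_⟩
      · rcases List.mem_cons.1 hy with rfl | hy
        · exact hF _ hz
        · exact m2 y hy
      · dsimp only; simp only [List.length_cons] at hn ⊢; omega
      · dsimp only; simp only [List.length_cons] at hk ⊢; omega

omit [Enc X] in
theorem walk_iterate_spec {E : List X} {n k : ℕ} {s : WState X} (h : WB E n k s)
    (mg : X → List X → ℕ) (lo hi : ℕ) {F : List X} (hF : ∀ x ∈ F, x ∈ E) (st : List X → Bool)
    (j : ℕ) : WB E (n + j) (k + j)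
      ((fun s => if st (wset (Alg.wnext mg lo hi F s)) = st (wset s) then Alg.wnext mg lo hi F s
        else s)^[j] s) := by
  induction j with
  | zero => exact h
  | succ j ih =>
    rw [iterate_succ_apply']
    split_ifs
    · exact ih.wnext mg lo hi hF
    · exact ih.mono (Nat.le_succ _) (Nat.le_succ _)

omit [DecidableEq X] in
theorem PT_wset {s : α → WState X} (hs : PT A s) : PT A (fun a => wset (s a)) :=
  PT.append hs.fst hs.snd.fst

theorem PT_wnext (heq : PT A (fun p : X × X => decide (p.1 = p.2)))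
    {mg : α → X → List X → ℕ} {lo hi : α → ℕ} {F : α → List X} {s : α → WState X}
    (hmg : PT A (fun p : α × X × List X => mg p.1 p.2.1 p.2.2)) (hlo : PT A lo) (hhi : PT A hi)
    (hF : PT A F) (hs : PT A s) :
    PT A (fun a => Alg.wnext (mg a) (lo a) (hi a) (F a) (s a)) := by
  have h1 : PT A (fun a => (s a).2.1) := hs.snd.fst
  have hW : PT A (fun a => (s a).2.2.1) := hs.snd.snd.fst
  have hb : PT A (fun a => (s a).2.2.2) := hs.snd.snd.snd
  -- the last case
  have c3 : PT A (fun a => (match (s a).2.1.find? (fun z => decide (z ∉ (s a).2.2.1)) with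
      | none => s a
      | some z => (([], (s a).2.1.erase z, (s a).2.2.1, []) : WState X))) :=
    PT.optCase (o := fun a => (s a).2.1.find? (fun z => decide (z ∉ (s a).2.2.1)))
      (f := s) (g := fun a z => (([], (s a).2.1.erase z, (s a).2.2.1, []) : WState X))
      (PT.find? (f := fun a z => decide (z ∉ (s a).2.2.1)) h1
        (PT.decide_not (PT.mem' heq (hW.comp PT.fst') PT.snd'))) hs
      ((PT.const []).pair ((PT_erase heq (h1.comp PT.fst') PT.snd').pair
        ((hW.comp PT.fst').pair (PT.const []))))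
  -- adding the next element
  have c2 : PT A (fun p : α × X × List X => if p.2.1 ∈ (s p.1).2.1
      then (([], (s p.1).2.1, p.2.1 :: (s p.1).2.2.1, p.2.2) : WState X)
      else ([], p.2.1 :: (s p.1).2.1, p.2.1 :: (s p.1).2.2.1, p.2.2)) :=
    PT.ite (PT.mem' heq (h1.comp PT.fst') PT.snd'.fst)
      ((PT.const []).pair ((h1.comp PT.fst').pair
        ((PT.cons PT.snd'.fst (hW.comp PT.fst')).pair PT.snd'.snd)))
      ((PT.const []).pair ((PT.cons PT.snd'.fst (h1.comp PT.fst')).pair
        ((PT.cons PT.snd'.fst (hW.comp PT.fst')).pair PT.snd'.snd)))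
  have c23 := PT.listCase (l := fun a => (s a).2.2.2)
    (f := fun a => (match (s a).2.1.find? (fun z => decide (z ∉ (s a).2.2.1)) with
      | none => s a
      | some z => (([], (s a).2.1.erase z, (s a).2.2.1, []) : WState X)))
    (g := fun a b bs => if b ∈ (s a).2.1
      then (([], (s a).2.1, b :: (s a).2.2.1, bs) : WState X)
      else ([], b :: (s a).2.1, b :: (s a).2.2.1, bs)) hb c3 c2
  have c1 : PT A (fun p : α × X =>
      (([p.2], (s p.1).2.1.erase p.2, (s p.1).2.2.1, (s p.1).2.2.2) : WState X)) :=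
    (PT.cons PT.snd' (PT.const [])).pair ((PT_erase heq (h1.comp PT.fst') PT.snd').pair
      ((hW.comp PT.fst').pair (hb.comp PT.fst')))
  have c123 := PT.optCase
    (o := fun a => (s a).2.1.find? (fun z =>
      decide (z ∉ (s a).2.2.1 ∧ mg a z ((s a).2.1.erase z) < lo a)))
    (g := fun a z => (([z], (s a).2.1.erase z, (s a).2.2.1, (s a).2.2.2) : WState X))
    (PT.find? (f := fun a z => decide (z ∉ (s a).2.2.1 ∧ mg a z ((s a).2.1.erase z) < lo a)) h1
      (PT.decide_and (PT.decide_not (PT.mem' heq (hW.comp PT.fst') PT.snd'))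
        (PT.lt (hmg.comp (PT.fst'.pair (PT.snd'.pair (PT_erase heq (h1.comp PT.fst') PT.snd'))))
          (hlo.comp PT.fst')))) c23 c1
  -- the other case
  have c4 := PT.optCase (o := fun a => (F a).find? (fun x => decide (hi a < mg a x (s a).2.1)))
    (f := fun a => (([], (s a).2.1, (s a).2.2.1, (s a).2.2.2) : WState X))
    (g := fun a x => (((s a).1, x :: (s a).2.1, (s a).2.2.1, (s a).2.2.2) : WState X))
    (PT.find? (f := fun a x => decide (hi a < mg a x (s a).2.1)) hF
      (PT.lt (hhi.comp PT.fst') (hmg.comp (PT.fst'.pair (PT.snd'.pair (h1.comp PT.fst'))))))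
    ((PT.const []).pair (h1.pair (hW.pair hb)))
    ((hs.fst.comp PT.fst').pair ((PT.cons PT.snd' (h1.comp PT.fst')).pair
      ((hW.comp PT.fst').pair (hb.comp PT.fst'))))
  refine (PT.listCase (l := fun a => (s a).1) (g := fun a _ _ =>
    (match (F a).find? (fun x => decide (hi a < mg a x (s a).2.1)) with
      | none => (([], (s a).2.1, (s a).2.2.1, (s a).2.2.2) : WState X)
      | some x => (((s a).1, x :: (s a).2.1, (s a).2.2.1, (s a).2.2.2) : WState X)))
    hs.fst c123 (c4.comp PT.fst')).congr fun a => ?_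
  unfold Alg.wnext
  obtain ⟨u, v, w, e⟩ := s a
  dsimp only
  cases u with
  | nil =>
    rw [if_pos rfl]
    dsimp only
    cases v.find? (fun z => decide (z ∉ w ∧ mg a z (v.erase z) < lo a)) with
    | none =>
      dsimp only
      cases e with
      | nil =>
        dsimp only
        cases v.find? (fun z => decide (z ∉ w)) <;> rfl
      | cons b bs => rfl
    | some z => rfl
  | cons y u =>
    rw [if_neg (List.cons_ne_nil y u)]
    dsimp only
    cases (F a).find? (fun x => decide (hi a < mg a x v)) <;> rfl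

theorem PT_walkTo (heq : PT A (fun p : X × X => decide (p.1 = p.2)))
    {mg : α → X → List X → ℕ} {lo hi T : α → ℕ} {F : α → List X} {st : α → List X → Bool}
    {s : α → WState X}
    (hmg : PT A (fun p : α × X × List X => mg p.1 p.2.1 p.2.2)) (hlo : PT A lo) (hhi : PT A hi)
    (hF : PT A F) (hst : PT A (fun p : α × List X => st p.1 p.2)) (hT : PT A T) (hTb : PBd T)
    (hs : PT A s) :
    PT A (fun a => walkTo (mg a) (lo a) (hi a) (F a) (st a) (T a) (s a)) := by
  have hk : PBd (fun a => (s a).1.length + (s a).2.1.length + (s a).2.2.1.length +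
      (s a).2.2.2.length + T a) :=
    ((((PBd.length hs.fst).add (PBd.length hs.snd.fst)).add (PBd.length hs.snd.snd.fst)).add
      (PBd.length hs.snd.snd.snd)).add hTb
  have hE : PT A (fun a => F a ++ (s a).1 ++ (s a).2.1 ++ (s a).2.2.1 ++ (s a).2.2.2) :=
    (((hF.append hs.fst).append hs.snd.fst).append hs.snd.snd.fst).append hs.snd.snd.snd
  have hB := ((PBd.const 15).mul (hk.mul (((PBd.const 2).mul hE.pbd).add (PBd.const 1)))).add
    (PBd.const 7)
  have hn : PT A (fun p : α × WState X => Alg.wnext (mg p.1) (lo p.1) (hi p.1) (F p.1) p.2) :=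
    PT_wnext heq (mg := fun p : α × WState X => mg p.1) (hmg.comp (PT.fst'.fst.pair PT.snd'))
      (hlo.comp PT.fst') (hhi.comp PT.fst') (hF.comp PT.fst') PT.snd'
  have hstep : PT A (fun p : α × WState X =>
      if st p.1 (wset (Alg.wnext (mg p.1) (lo p.1) (hi p.1) (F p.1) p.2)) = st p.1 (wset p.2)
      then Alg.wnext (mg p.1) (lo p.1) (hi p.1) (F p.1) p.2 else p.2) := by
    refine (PT.cond (c := fun p : α × WState X =>
      !(Bool.xor (st p.1 (wset (Alg.wnext (mg p.1) (lo p.1) (hi p.1) (F p.1) p.2)))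
        (st p.1 (wset p.2))))
      (PT.not (PT.xor (hst.comp (PT.fst'.pair (PT_wset hn)))
        (hst.comp (PT.fst'.pair (PT_wset PT.snd'))))) hn PT.snd').congr fun p => ?_
    cases st p.1 (wset (Alg.wnext (mg p.1) (lo p.1) (hi p.1) (F p.1) p.2)) <;>
      cases st p.1 (wset p.2) <;> rfl
  refine PT.iterate' (step := fun a s =>
    if st a (wset (Alg.wnext (mg a) (lo a) (hi a) (F a) s)) = st a (wset s)
    then Alg.wnext (mg a) (lo a) (hi a) (F a) s else s) hT hTb hs hstep hB fun a j hj => ?_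
  have h0 : WB (F a ++ (s a).1 ++ (s a).2.1 ++ (s a).2.2.1 ++ (s a).2.2.2)
      ((s a).1.length + (s a).2.1.length)
      ((s a).1.length + (s a).2.1.length + (s a).2.2.1.length + (s a).2.2.2.length) (s a) := by
    refine ⟨?_, ?_, ?_, ?_, le_rfl, le_rfl⟩ <;> intro x hx <;> simp [hx]
  have h1 := walk_iterate_spec h0 (mg a) (lo a) (hi a) (F := F a)
    (by intro x hx; simp [hx]) (st a) j
  refine (h1.esize_le).trans ?_
  have : (s a).1.length + (s a).2.1.length + (s a).2.2.1.length + (s a).2.2.2.length + j ≤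
      (s a).1.length + (s a).2.1.length + (s a).2.2.1.length + (s a).2.2.2.length + T a := by
    omega
  have := Nat.mul_le_mul_right (2 * esize (F a ++ (s a).1 ++ (s a).2.1 ++ (s a).2.2.1 ++
    (s a).2.2.2) + 1) this
  omega

theorem PT_wpair (heq : PT A (fun p : X × X => decide (p.1 = p.2)))
    {mg : α → X → List X → ℕ} {lo hi T : α → ℕ} {F : α → List X} {st : α → List X → Bool}
    {M B W L : α → List X}
    (hmg : PT A (fun p : α × X × List X => mg p.1 p.2.1 p.2.2)) (hlo : PT A lo) (hhi : PT A hi)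
    (hF : PT A F) (hst : PT A (fun p : α × List X => st p.1 p.2)) (hT : PT A T) (hTb : PBd T)
    (hM : PT A M) (hB : PT A B) (hW : PT A W) (hL : PT A L) :
    PT A (fun a => wpair (mg a) (lo a) (hi a) (F a) (st a) (T a) (M a) (B a) (W a) (L a)) := by
  have h0 : PT A (fun a => (([], M a, W a, (L a).filter (fun x => decide (x ∉ W a)) ++
      ((B a).take ((B a).length - (L a).length)).reverse) : WState X)) :=
    (PT.const []).pair (hM.pair (hW.pair (PT.append
      (PT.filter (f := fun a x => decide (x ∉ W a)) hL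
        (PT.decide_not (PT.mem' heq (hW.comp PT.fst') PT.snd')))
      (PT.take hB (PT.sub hB.length hL.length)).reverse)))
  have hs := PT_walkTo heq hmg hlo hhi hF hst hT hTb h0
  have h1 := PT_wset hs
  have h2 := PT_wset (PT_wnext heq hmg hlo hhi hF hs)
  exact PT.ite (PT.le h1.length h2.length) (h1.pair h2) (h2.pair h1)

omit [Enc X] in
theorem wpair_spec (mg : X → List X → ℕ) (lo hi : ℕ) (F : List X) (st : List X → Bool) (T : ℕ)
    (M B W L : List X) (E : List X) (hF : ∀ x ∈ F, x ∈ E) (hM : ∀ x ∈ M, x ∈ E)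
    (hB : ∀ x ∈ B, x ∈ E) (hW : ∀ x ∈ W, x ∈ E) (hL : ∀ x ∈ L, x ∈ E) :
    ((wpair mg lo hi F st T M B W L).1.length ≤ M.length + T + 1 ∧
      ∀ x ∈ (wpair mg lo hi F st T M B W L).1, x ∈ E) ∧
    ((wpair mg lo hi F st T M B W L).2.length ≤ M.length + T + 1 ∧
      ∀ x ∈ (wpair mg lo hi F st T M B W L).2, x ∈ E) := by
  have h0 : WB E M.length (0 + M.length + W.length + (L.filter (fun x => decide (x ∉ W)) ++
      (B.take (B.length - L.length)).reverse).length)
      (([], M, W, L.filter (fun x => decide (x ∉ W)) ++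
        (B.take (B.length - L.length)).reverse) : WState X) := by
    refine ⟨by simp, hM, hW, fun x hx => ?_, by simp, by simp only [List.length_nil, zero_add, decide_not, List.length_append, List.length_reverse, List.length_take, tsub_le_iff_right, le_add_iff_nonneg_right, zero_le, inf_of_le_left, Std.le_refl]⟩
    rcases List.mem_append.1 hx with hx | hx
    · exact hL x (List.mem_filter.1 hx).1
    · exact hB x (List.mem_of_mem_take (List.mem_reverse.1 hx))
  have h1 := walk_iterate_spec h0 mg lo hi hF st T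
  have h2 := h1.wnext mg lo hi hF
  have key : ∀ {n k : ℕ} {s : WState X}, WB E n k s → (wset s).length ≤ n ∧
      ∀ x ∈ wset s, x ∈ E := by
    intro n k s h
    refine ⟨by unfold wset; rw [List.length_append]; exact h.ln, fun x hx => ?_⟩
    rcases List.mem_append.1 hx with hx | hx
    · exact h.m1 x hx
    · exact h.m2 x hx
  have k1 := key h1
  have k2 := key h2
  unfold wpair walkTo
  dsimp only
  split_ifs
  · exact ⟨⟨k1.1.trans (Nat.le_succ _), k1.2⟩, k2⟩
  · exact ⟨k2, ⟨k1.1.trans (Nat.le_succ _), k1.2⟩⟩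

/-! ### Stages -/

theorem PT_stage (heq : PT A (fun p : X × X => decide (p.1 = p.2)))
    {mg : α → ℕ → X → List X → ℕ} {f lo hi N m T q : α → ℕ} {F : α → List X}
    {P : α → List X × List X}
    (hmg : PT A (fun p : α × ℕ × X × List X => mg p.1 p.2.1 p.2.2.1 p.2.2.2)) (hf : PT A f)
    (hlo : PT A lo) (hhi : PT A hi) (hF : PT A F) (hN : PT A N) (hm : PT A m) (hmb : PBd m)
    (hT : PT A T) (hTb : PBd T) (hq : PT A q) (hP : PT A P) :
    PT A (fun a => stage (mg a) (f a) (lo a) (hi a) (F a) (N a) (m a) (T a) (q a) (P a)) := by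
  have hmq : PT A (fun p : α × X × List X => mg p.1 (q p.1) p.2.1 p.2.2) :=
    hmg.comp (PT.fst'.pair ((hq.comp PT.fst').pair PT.snd'))
  have hst : PT A (fun p : α × List X => decide (N p.1 ≤
      (cont (mg p.1) (f p.1) (F p.1) (m p.1) (q p.1 + 1) p.2).length)) := by
    have hmb' : PBd (fun p : α × List X => m p.1) := hmb.comp (A := (∅ : Set Word)) PT.fst'
    exact PT.le (hN.comp PT.fst') (PT_cont (mg := fun p : α × List X => mg p.1)
      (hmg.comp (PT.fst'.fst.pair PT.snd')) (hf.comp PT.fst') (hF.comp PT.fst')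
      (hm.comp PT.fst') hmb' (PT.add (hq.comp PT.fst') (PT.const 1)) PT.snd').length
  exact PT_wpair heq (mg := fun a => mg a (q a)) (st := fun a M => decide (N a ≤
    (cont (mg a) (f a) (F a) (m a) (q a + 1) M).length)) hmq hlo hhi hF hst hT hTb
    (PT_fill (mg := fun a => mg a (q a)) hmq hf hF hP.fst)
    (PT_fill (mg := fun a => mg a (q a)) hmq hf hF hP.snd) hP.fst hP.snd

omit [Enc X] in
theorem stage_spec (mg : ℕ → X → List X → ℕ) (f lo hi : ℕ) (F : List X) (N m T q : ℕ)
    (P : List X × List X) (E : List X) (hF : ∀ x ∈ F, x ∈ E) (h1 : ∀ x ∈ P.1, x ∈ E)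
    (h2 : ∀ x ∈ P.2, x ∈ E) :
    ((stage mg f lo hi F N m T q P).1.length ≤ P.1.length + (F.length + T + 1) ∧
      ∀ x ∈ (stage mg f lo hi F N m T q P).1, x ∈ E) ∧
    ((stage mg f lo hi F N m T q P).2.length ≤ P.1.length + (F.length + T + 1) ∧
      ∀ x ∈ (stage mg f lo hi F N m T q P).2, x ∈ E) := by
  have e1 := fill_spec (mg q) f F P.1
  have e2 := fill_spec (mg q) f F P.2
  have h := wpair_spec (mg q) lo hi F
    (fun M => decide (N ≤ (cont mg f F m (q + 1) M).length)) T
    (fill (mg q) f F P.1) (fill (mg q) f F P.2) P.1 P.2 E hF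
    (fun x hx => (e1.2 x hx).elim (hF x) (h1 x)) (fun x hx => (e2.2 x hx).elim (hF x) (h2 x))
    h1 h2
  refine ⟨⟨h.1.1.trans ?_, h.1.2⟩, ⟨h.2.1.trans ?_, h.2.2⟩⟩ <;> omega

omit [Enc X] in
theorem foldl_stage_spec (mg : ℕ → X → List X → ℕ) (f lo hi : ℕ) (F : List X) (N m T : ℕ)
    (E : List X) (hF : ∀ x ∈ F, x ∈ E) (l : List ℕ) (n : ℕ) :
    ∀ P : List X × List X, P.1.length ≤ n → P.2.length ≤ n → (∀ x ∈ P.1, x ∈ E) →
      (∀ x ∈ P.2, x ∈ E) →
      ((l.foldl (fun P q => stage mg f lo hi F N m T q P) P).1.length ≤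
          n + l.length * (F.length + T + 1) ∧
        ∀ x ∈ (l.foldl (fun P q => stage mg f lo hi F N m T q P) P).1, x ∈ E) ∧
      ((l.foldl (fun P q => stage mg f lo hi F N m T q P) P).2.length ≤
          n + l.length * (F.length + T + 1) ∧
        ∀ x ∈ (l.foldl (fun P q => stage mg f lo hi F N m T q P) P).2, x ∈ E) := by
  induction l generalizing n with
  | nil =>
    intro P h1 h2 h3 h4
    exact ⟨⟨by simpa only [List.foldl_nil, List.length_nil, zero_mul, add_zero] using h1, h3⟩, ⟨by simpa only [List.foldl_nil, List.length_nil, zero_mul, add_zero] using h2, h4⟩⟩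
  | cons q l ih =>
    intro P h1 h2 h3 h4
    rw [List.foldl_cons]
    have h := stage_spec mg f lo hi F N m T q P E hF h3 h4
    have h' := ih (n + (F.length + T + 1)) (stage mg f lo hi F N m T q P)
      (h.1.1.trans (Nat.add_le_add_right h1 _)) (h.2.1.trans (Nat.add_le_add_right h1 _))
      h.1.2 h.2.2
    have e : n + (F.length + T + 1) + l.length * (F.length + T + 1) =
        n + (l.length + 1) * (F.length + T + 1) := by ring
    rw [e] at h'
    exact h'

omit [Enc X] [DecidableEq X] in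
theorem find?_congr' {l : List ℕ} {p q : ℕ → Bool} (h : ∀ x ∈ l, p x = q x) :
    l.find? p = l.find? q := by
  induction l with
  | nil => rfl
  | cons a l ih =>
    rw [List.find?_cons, List.find?_cons, h a List.mem_cons_self,
      ih fun x hx => h x (List.mem_cons_of_mem _ hx)]

theorem PT_chainAt (heq : PT A (fun p : X × X => decide (p.1 = p.2)))
    {mg mg' : α → ℕ → X → List X → ℕ} {f lo hi N m T : α → ℕ} {F O : α → List X}
    (hmg : PT A (fun p : α × ℕ × X × List X => mg p.1 p.2.1 p.2.2.1 p.2.2.2))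
    (hmg' : PT A (fun p : α × ℕ × X × List X => mg' p.1 p.2.1 p.2.2.1 p.2.2.2)) (hf : PT A f)
    (hlo : PT A lo) (hhi : PT A hi) (hF : PT A F) (hO : PT A O) (hN : PT A N) (hm : PT A m)
    (hmb : PBd m) (hT : PT A T) (hTb : PBd T) :
    PT A (fun a => chainAt (mg a) (mg' a) (f a) (lo a) (hi a) (F a) (O a) (N a) (m a)
      (T a)) := by
  have hmb' : PBd (fun p : α × ℕ => m p.1) := hmb.comp (A := (∅ : Set Word)) PT.fst'
  have hTb' : PBd (fun p : α × ℕ => T p.1) := hTb.comp (A := (∅ : Set Word)) PT.fst'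
  have hmg1 : PT A (fun p : (α × ℕ) × ℕ × X × List X =>
      mg p.1.1 p.2.1 p.2.2.1 p.2.2.2) := hmg.comp (PT.fst'.fst.pair PT.snd')
  have hmg1' : PT A (fun p : (α × ℕ) × ℕ × X × List X =>
      mg' p.1.1 p.2.1 p.2.2.1 p.2.2.2) := hmg'.comp (PT.fst'.fst.pair PT.snd')
  -- stages up to `p` at the price `f + 1`
  have hQ : ∀ {g : α × ℕ → ℕ}, PT A g → PT A (fun p : α × ℕ =>
      cont (mg' p.1) (f p.1 + 1) (F p.1) (min (g p) (m p.1)) 0 (O p.1)) := by
    intro g hg
    exact PT_cont (mg := fun p : α × ℕ => mg' p.1) hmg1'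
      (PT.add (hf.comp PT.fst') (PT.const 1)) (hF.comp PT.fst')
      (PT.min hg (hm.comp PT.fst')) (hmb'.mono fun p => min_le_right _ _) (PT.const 0)
      (hO.comp PT.fst')
  have hR : ∀ {g : α × ℕ → ℕ}, PT A g → PT A (fun p : α × ℕ =>
      (cont (mg p.1) (f p.1) (F p.1) (m p.1) (g p)
        (cont (mg' p.1) (f p.1 + 1) (F p.1) (min (g p) (m p.1)) 0 (O p.1))).length) := by
    intro g hg
    exact (PT_cont (mg := fun p : α × ℕ => mg p.1) hmg1 (hf.comp PT.fst') (hF.comp PT.fst')
      (hm.comp PT.fst') hmb' hg (hQ hg)).length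
  have hfind := PT.find? (f := fun a p =>
    decide (N a ≤ (cont (mg a) (f a) (F a) (m a) p
        (cont (mg' a) (f a + 1) (F a) (min p (m a)) 0 (O a))).length ∧
      (cont (mg a) (f a) (F a) (m a) (p + 1)
        (cont (mg' a) (f a + 1) (F a) (min (p + 1) (m a)) 0 (O a))).length < N a))
    (PT.range hm hmb)
    (PT.decide_and (PT.le (hN.comp PT.fst') (hR PT.snd'))
      (PT.lt (hR (PT.add PT.snd' (PT.const 1))) (hN.comp PT.fst')))
  -- the first pair
  have hst : PT A (fun q : (α × ℕ) × List X => decide (N q.1.1 ≤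
      (cont (mg q.1.1) (f q.1.1) (F q.1.1) (m q.1.1) (q.1.2 + 1) q.2).length)) := by
    have hmb'' : PBd (fun p : (α × ℕ) × List X => m p.1.1) :=
      hmb'.comp (A := (∅ : Set Word)) PT.fst'
    exact PT.le (hN.comp PT.fst'.fst) (PT_cont (mg := fun p : (α × ℕ) × List X => mg p.1.1)
      (hmg.comp (PT.fst'.fst.fst.pair PT.snd')) (hf.comp PT.fst'.fst) (hF.comp PT.fst'.fst)
      (hm.comp PT.fst'.fst) hmb'' (PT.add PT.fst'.snd (PT.const 1)) PT.snd').length
  have hmp : PT A (fun p : (α × ℕ) × X × List X => mg p.1.1 p.1.2 p.2.1 p.2.2) :=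
    hmg.comp (PT.fst'.fst.pair (PT.fst'.snd.pair PT.snd'))
  have hmp' : PT A (fun p : (α × ℕ) × X × List X => mg' p.1.1 p.1.2 p.2.1 p.2.2) :=
    hmg'.comp (PT.fst'.fst.pair (PT.fst'.snd.pair PT.snd'))
  have hQ0 := hQ (g := fun p => p.2) PT.snd'
  have hpair := PT_wpair heq (mg := fun p : α × ℕ => mg p.1 p.2)
    (st := fun (p : α × ℕ) M => decide (N p.1 ≤
      (cont (mg p.1) (f p.1) (F p.1) (m p.1) (p.2 + 1) M).length))
    (T := fun p : α × ℕ => T p.1) hmp (hlo.comp PT.fst') (hhi.comp PT.fst') (hF.comp PT.fst')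
    hst (hT.comp PT.fst') hTb'
    (PT_fill (mg := fun p : α × ℕ => mg p.1 p.2) hmp (hf.comp PT.fst') (hF.comp PT.fst') hQ0)
    (PT_fill (mg := fun p : α × ℕ => mg' p.1 p.2) hmp' (PT.add (hf.comp PT.fst') (PT.const 1))
      (hF.comp PT.fst') hQ0) hQ0 hQ0
  -- the remaining stages
  have hE := ((hF.comp (f := fun p : α × ℕ => p.1) PT.fst').append hpair.fst).append hpair.snd
  have hn := (PBd.length hpair.fst).add (PBd.length hpair.snd)
  have hlen := hn.add (hmb'.mul (((PBd.length hF).comp (A := (∅ : Set Word))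
    (f := fun p : α × ℕ => p.1) PT.fst').add (hTb'.add (PBd.const 1))))
  have hB0 := hlen.mul (((PBd.const 2).mul hE.pbd).add (PBd.const 1))
  have hB := (((PBd.const 2).mul hB0).add hB0).add (PBd.const 1)
  have hfold := PT.foldl (f := fun (p : α × ℕ) P q =>
      stage (mg p.1) (f p.1) (lo p.1) (hi p.1) (F p.1) (N p.1) (m p.1) (T p.1) q P)
    (l := fun p : α × ℕ => (List.range (m p.1)).drop (p.2 + 1))
    (PT.drop (PT.range (hm.comp PT.fst') hmb') (PT.add PT.snd' (PT.const 1))) hpair
    (PT_stage heq (mg := fun p : (α × ℕ) × (List X × List X) × ℕ => mg p.1.1)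
      (m := fun p => m p.1.1) (T := fun p => T p.1.1)
      (hmg.comp (PT.fst'.fst.fst.pair PT.snd')) (hf.comp PT.fst'.fst) (hlo.comp PT.fst'.fst)
      (hhi.comp PT.fst'.fst) (hF.comp PT.fst'.fst) (hN.comp PT.fst'.fst)
      (hm.comp PT.fst'.fst) (hmb'.comp (A := (∅ : Set Word)) PT.fst')
      (hT.comp PT.fst'.fst) (hTb'.comp (A := (∅ : Set Word)) PT.fst') PT.snd'.snd PT.snd'.fst)
    hB fun p i => by
      obtain ⟨a, p⟩ := p
      dsimp only
      generalize hP : wpair (mg a p) (lo a) (hi a) (F a) (fun M => decide (N a ≤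
        (cont (mg a) (f a) (F a) (m a) (p + 1) M).length)) (T a)
        (fill (mg a p) (f a) (F a)
          (cont (mg' a) (f a + 1) (F a) (min p (m a)) 0 (O a)))
        (fill (mg' a p) (f a + 1) (F a)
          (cont (mg' a) (f a + 1) (F a) (min p (m a)) 0 (O a)))
        (cont (mg' a) (f a + 1) (F a) (min p (m a)) 0 (O a))
        (cont (mg' a) (f a + 1) (F a) (min p (m a)) 0 (O a)) = P
      have h := foldl_stage_spec (mg a) (f a) (lo a) (hi a) (F a) (N a) (m a) (T a)
        (F a ++ P.1 ++ P.2) (by intro x hx; simp [hx])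
        (((List.range (m a)).drop (p + 1)).take i) (P.1.length + P.2.length) P (by omega)
        (by omega) (by intro x hx; simp [hx]) (by intro x hx; simp [hx])
      have hl : (((List.range (m a)).drop (p + 1)).take i).length ≤ m a := by
        rw [List.length_take, List.length_drop, List.length_range]
        omega
      have hl' : P.1.length + P.2.length + (((List.range (m a)).drop (p + 1)).take i).length *
          ((F a).length + T a + 1) ≤
          P.1.length + P.2.length + m a * ((F a).length + (T a + 1)) := by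
        rw [← add_assoc (F a).length]
        exact Nat.add_le_add_left (Nat.mul_le_mul_right _ hl) _
      generalize hR : (((List.range (m a)).drop (p + 1)).take i).foldl
        (fun P q => stage (mg a) (f a) (lo a) (hi a) (F a) (N a) (m a) (T a) q P) P = R at h ⊢
      have e1 := esize_bnd (h.1.1.trans hl') h.1.2
      have e2 := esize_bnd (h.2.1.trans hl') h.2.2
      obtain ⟨R1, R2⟩ := R
      rw [esize_pair]
      dsimp only at e1 e2
      omega
  refine (PT.optCase (g := fun a p => (((List.range (m a)).drop (p + 1)).foldl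
    (fun P q => stage (mg a) (f a) (lo a) (hi a) (F a) (N a) (m a) (T a) q P)
    (wpair (mg a p) (lo a) (hi a) (F a) (fun M => decide (N a ≤
        (cont (mg a) (f a) (F a) (m a) (p + 1) M).length)) (T a)
        (fill (mg a p) (f a) (F a)
          (cont (mg' a) (f a + 1) (F a) (min p (m a)) 0 (O a)))
        (fill (mg' a p) (f a + 1) (F a)
          (cont (mg' a) (f a + 1) (F a) (min p (m a)) 0 (O a)))
        (cont (mg' a) (f a + 1) (F a) (min p (m a)) 0 (O a))
        (cont (mg' a) (f a + 1) (F a) (min p (m a)) 0 (O a)))).2)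
    hfind hO hfold.snd).congr fun a => ?_
  unfold chainAt
  have hc : (List.range (m a)).find? (fun p =>
      decide (N a ≤ (cont (mg a) (f a) (F a) (m a) p
          (cont (mg' a) (f a + 1) (F a) (min p (m a)) 0 (O a))).length ∧
        (cont (mg a) (f a) (F a) (m a) (p + 1)
          (cont (mg' a) (f a + 1) (F a) (min (p + 1) (m a)) 0 (O a))).length < N a)) =
      (List.range (m a)).find? (fun p =>
      decide (N a ≤ (cont (mg a) (f a) (F a) (m a) p
          (cont (mg' a) (f a + 1) (F a) p 0 (O a))).length ∧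
        (cont (mg a) (f a) (F a) (m a) (p + 1)
          (cont (mg' a) (f a + 1) (F a) (p + 1) 0 (O a))).length < N a)) := by
    refine find?_congr' fun p hp => ?_
    have hp := List.mem_range.1 hp
    rw [min_eq_left hp.le, min_eq_left (by omega : p + 1 ≤ m a)]
  rw [hc]
  rcases hx : (List.range (m a)).find? (fun p =>
      decide (N a ≤ (cont (mg a) (f a) (F a) (m a) p
          (cont (mg' a) (f a + 1) (F a) p 0 (O a))).length ∧
        (cont (mg a) (f a) (F a) (m a) (p + 1)
          (cont (mg' a) (f a + 1) (F a) (p + 1) 0 (O a))).length < N a)) with _ | p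
  · rfl
  · have hp := List.mem_range.1 (List.mem_of_find?_eq_some hx)
    dsimp only
    rw [min_eq_left hp.le]

theorem PT_machine (heq : PT A (fun p : X × X => decide (p.1 = p.2)))
    {mg : α → ℕ → ℕ → X → List X → ℕ} {N m fmax T δ : α → ℕ} {F O : α → List X}
    (hmg : PT A (fun p : α × ℕ × ℕ × X × List X =>
      mg p.1 p.2.1 p.2.2.1 p.2.2.2.1 p.2.2.2.2))
    (hF : PT A F) (hO : PT A O) (hN : PT A N) (hm : PT A m)
    (hmb : PBd m) (hfm : PT A fmax) (hfmb : PBd fmax) (hT : PT A T) (hTb : PBd T)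
    (hδ : PT A δ) :
    PT A (fun a => machine (mg a) (F a) (O a) (N a) (m a) (fmax a) (T a) (δ a)) := by
  have hmb' : PBd (fun p : α × ℕ => m p.1) := hmb.comp (A := (∅ : Set Word)) PT.fst'
  have hTb' : PBd (fun p : α × ℕ => T p.1) := hTb.comp (A := (∅ : Set Word)) PT.fst'
  have hc : ∀ {g : α × ℕ → ℕ}, PT A g → PT A (fun p : α × ℕ =>
      cont (mg p.1 (g p)) (g p) (F p.1) (m p.1) 0 (O p.1)) := by
    intro g hg
    exact PT_cont (mg := fun p : α × ℕ => mg p.1 (g p))
      (hmg.comp (PT.fst'.fst.pair ((hg.comp PT.fst').pair PT.snd'))) hg (hF.comp PT.fst')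
      (hm.comp PT.fst') hmb' (PT.const 0) (hO.comp PT.fst')
  have h0 : PT A (fun a => cont (mg a 0) 0 (F a) (m a) 0 (O a)) :=
    (hc (g := fun p => p.2) PT.snd').comp (f := fun a : α => (a, (0 : ℕ)))
      (PT.id.pair (PT.const 0))
  have hfind := PT.find? (f := fun a g =>
    decide (N a ≤ (cont (mg a g) g (F a) (m a) 0 (O a)).length ∧
      (cont (mg a (g + 1)) (g + 1) (F a) (m a) 0 (O a)).length < N a))
    (PT.range hfm hfmb)
    (PT.decide_and (PT.le (hN.comp PT.fst') (hc PT.snd').length)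
      (PT.lt (hc (PT.add PT.snd' (PT.const 1))).length (hN.comp PT.fst')))
  have hch : PT A (fun p : α × ℕ => chainAt (mg p.1 p.2) (mg p.1 (p.2 + 1)) p.2
      (p.2 - δ p.1) (p.2 + 1 + δ p.1) (F p.1) (O p.1) (N p.1) (m p.1) (T p.1)) :=
    PT_chainAt heq (mg := fun p : α × ℕ => mg p.1 p.2)
      (mg' := fun p : α × ℕ => mg p.1 (p.2 + 1))
      (hmg.comp (PT.fst'.fst.pair (PT.fst'.snd.pair PT.snd')))
      (hmg.comp (PT.fst'.fst.pair ((PT.add PT.fst'.snd (PT.const 1)).pair PT.snd')))
      PT.snd' (PT.sub PT.snd' (hδ.comp PT.fst'))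
      (PT.add (PT.add PT.snd' (PT.const 1)) (hδ.comp PT.fst')) (hF.comp PT.fst')
      (hO.comp PT.fst') (hN.comp PT.fst') (hm.comp PT.fst') hmb' (hT.comp PT.fst') hTb'
  have h1 := PT.optCase (g := fun a g => chainAt (mg a g) (mg a (g + 1)) g
      (g - δ a) (g + 1 + δ a) (F a) (O a) (N a) (m a) (T a)) hfind hO hch
  refine (PT.ite (p := fun a => (cont (mg a 0) 0 (F a) (m a) 0 (O a)).length < N a)
    (PT.lt h0.length hN) h0 h1).congr fun a => ?_
  unfold machine
  split_ifs
  · rfl
  · rcases (List.range (fmax a)).find? (fun g =>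
      decide (N a ≤ (cont (mg a g) g (F a) (m a) 0 (O a)).length ∧
        (cont (mg a (g + 1)) (g + 1) (F a) (m a) 0 (O a)).length < N a)) with _ | g <;> rfl

/-! ### Levels and marginal gains -/

omit [Enc α] [Enc X] [DecidableEq X] in
theorem tauL_le (top t e p : ℕ) : tauL top t e p ≤ top := by
  unfold tauL
  cases p with
  | zero => exact Nat.zero_le _
  | succ p => rw [iterate_succ_apply']; exact min_le_left _ _

omit [Enc α] [Enc X] [DecidableEq X] in
theorem tauL_min (top t e p : ℕ) : tauL top t e (min p top) = tauL top t e p := by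
  rcases Nat.eq_zero_or_pos t with ht | ht
  · have h : ∀ p, tauL top t e p = 0 := by
      intro p
      unfold tauL
      induction p with
      | zero => rfl
      | succ p ih => rw [iterate_succ_apply', ih, ht]; simp only [Nat.zero_div, add_zero, zero_le, inf_of_le_right]
    rw [h, h]
  · have h : ∀ p, min p top ≤ tauL top t e p := by
      intro p
      induction p with
      | zero => simp only [zero_le, inf_of_le_left]
      | succ p ih =>
        have h1 : tauL top t e (p + 1) = min top (tauL top t e p + tauL top t e p / e + t) := by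
          unfold tauL; rw [iterate_succ_apply']
        rw [h1]
        have h2 : 0 ≤ tauL top t e p / e := Nat.zero_le _
        omega
    rcases le_total p top with hp | hp
    · rw [min_eq_left hp]
    · rw [min_eq_right hp]
      have h1 := h top
      have h2 := h p
      have h3 := tauL_le top t e top
      have h4 := tauL_le top t e p
      omega

omit [Enc X] [DecidableEq X] in
theorem PT_tauL {top t e p : α → ℕ} (htop : PT A top) (htopb : PBd top) (ht : PT A t)
    (he : PT A e) (hp : PT A p) : PT A (fun a => tauL (top a) (t a) (e a) (p a)) := by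
  refine (PT.iterate' (k := fun a => min (p a) (top a)) (init := fun _ => 0)
    (step := fun a x => min (top a) (x + x / e a + t a)) (PT.min hp htop)
    (htopb.mono fun a => min_le_right _ _) (PT.const 0)
    (PT.min (htop.comp PT.fst') (PT.add (PT.add PT.snd' (PT.div PT.snd' (he.comp PT.fst')))
      (ht.comp PT.fst'))) htop.pbd fun a j _ => esize_nat_mono (tauL_le _ _ _ _)).congr
    fun a => tauL_min _ _ _ _

omit [Enc X] [DecidableEq X] in
theorem PBd_tauL {top t e p : α → ℕ} (htopb : PBd top) :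
    PBd (fun a => tauL (top a) (t a) (e a) (p a)) := htopb.mono fun _ => tauL_le _ _ _ _

omit [Enc X] [DecidableEq X] in
theorem PT_capL {M t f n x b s : α → ℕ} (hM : PT A M) (ht : PT A t) (hf : PT A f)
    (hn : PT A n) (hx : PT A x) (hb : PT A b) (hs : PT A s) :
    PT A (fun a => capL (M a) (t a) (f a) (n a) (x a) (b a) (s a)) := by
  unfold capL
  exact PT.add (PT.div (PT.mul hf (PT.sub (PT.mul hb hn) hx)) (PT.mul (PT.mul hb hn) hn))
    (PT.mul hs (PT.add (PT.add (PT.div (PT.mul hf hx)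
      (PT.mul (PT.mul (PT.mul hb hn) hn) hM)) (PT.const 1)) ht))

theorem PT_wlL (heq : PT A (fun p : X × X => decide (p.1 = p.2)))
    {τ : α → ℕ → ℕ} {M q : α → ℕ} {R : α → List X} {cap : α → X → ℕ → ℕ} {v : α → X}
    (hτ : PT A (fun p : α × ℕ => τ p.1 p.2)) (hM : PT A M) (hR : PT A R)
    (hcap : PT A (fun p : α × X × ℕ => cap p.1 p.2.1 p.2.2)) (hq : PT A q) (hv : PT A v) :
    PT A (fun a => wlL (τ a) (M a) (R a) (cap a) (q a) (v a)) := by
  have h3 : PT A (fun a => M a + 3) := PT.add hM (PT.const 3)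
  have hd : PT A (fun a => q a / (M a + 3)) := PT.div hq h3
  have hm : PT A (fun a => q a % (M a + 3)) := PT.mod hq h3
  have h1 : PT A (fun a => τ a (q a / (M a + 3))) := hτ.comp (PT.id.pair hd)
  have h2 : PT A (fun a => τ a (q a / (M a + 3) + 1)) :=
    hτ.comp (PT.id.pair (PT.add hd (PT.const 1)))
  exact PT.ite (PT.eqNat hm (PT.const 0)) h1 (PT.ite (PT.mem' heq hR hv)
    (PT.min h2 (PT.max h1 (hcap.comp (PT.id.pair (hv.pair (PT.sub hm (PT.const 1))))))) h2)

omit [DecidableEq X] in
theorem PT_mgP {dd : α → X → X → ℕ} {J S : α → List X} {pos : α → X → X} {lv : α → X → ℕ}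
    {x : α → X} (hd : PT A (fun p : α × X × X => dd p.1 p.2.1 p.2.2)) (hJ : PT A J)
    (hpos : PT A (fun p : α × X => pos p.1 p.2)) (hlv : PT A (fun p : α × X => lv p.1 p.2))
    (hx : PT A x) (hS : PT A S) :
    PT A (fun a => mgP (dd a) (J a) (pos a) (lv a) (x a) (S a)) := by
  have hlv' : PT A (fun p : α × X => lv p.1 (pos p.1 p.2)) := hlv.comp (PT.fst'.pair hpos)
  exact PT.sum (PT.map (f := fun a j => mins (dd a) (lv a (pos a j)) (pos a j) (S a) -
    dd a (pos a j) (x a)) hJ (PT.sub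
      (PT_mins (dd := fun p : α × X => dd p.1) (hd.comp (PT.fst'.fst.pair PT.snd')) hlv' hpos
        (hS.comp PT.fst'))
      (hd.comp (PT.fst'.pair (hpos.pair (hx.comp PT.fst'))))))

end Vale.Agent.P334.Alg.MachPT
end

section

/-!
Polynomial time for the definitions of Part 3: fractional solutions as lists of units.
-/

namespace Vale.Agent.P334.Alg

open Vale.Agent.Lib.PolyTime Function

variable {A : Set Word} {α β γ δ : Type*} [Enc α] [Enc β] [Enc γ] [Enc δ]

/-- Multiplicity of an element. -/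
theorem PT_count [DecidableEq γ] (heq : PT A (fun p : γ × γ => decide (p.1 = p.2)))
    {l : α → List γ} {x : α → γ} (hl : PT A l) (hx : PT A x) :
    PT A (fun a => (l a).count (x a)) :=
  (PT_countP (f := fun a y => decide (y = x a)) hl
    (heq.comp (PT.snd'.pair (hx.comp PT.fst')))).congr fun a => by
      rw [List.count]
      congr 1

/-- Sums over an initial segment. -/
theorem PT_sumRange {k : α → ℕ} {f : α → ℕ → ℕ} (hk : PT A k) (hkb : PBd k)
    (hf : PT A (fun p : α × ℕ => f p.1 p.2)) :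
    PT A (fun a => ((List.range (k a)).map (f a)).sum) :=
  PT.sum (PT.map (PT.range hk hkb) hf)

/-- Sums over a list. -/
theorem PT_sumMap {l : α → List γ} {f : α → γ → ℕ} (hl : PT A l)
    (hf : PT A (fun p : α × γ => f p.1 p.2)) :
    PT A (fun a => ((l a).map (f a)).sum) :=
  PT.sum (PT.map hl hf)

section

variable {X : Type} [Enc X]

theorem PT_ballN {dd : α → X → X → ℕ} {U : α → List X} {p : α → X} {r : α → ℕ}
    (hd : PT A (fun p : α × X × X => dd p.1 p.2.1 p.2.2)) (hU : PT A U) (hp : PT A p)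
    (hr : PT A r) : PT A (fun a => ballN (dd a) (U a) (p a) (r a)) :=
  PT_countP (f := fun a u => decide (dd a u (p a) ≤ r a)) hU
    (PT.le (hd.comp (PT.fst'.pair (PT.snd'.pair (hp.comp PT.fst')))) (hr.comp PT.fst'))

theorem PT_sh {m u : α → ℕ} (hm : PT A m) (hu : PT A u) (hub : PBd u) :
    PT A (fun a => sh (m a) (u a)) :=
  PT_sumRange (f := fun a v => min (v + 1) (m a)) hu hub
    (PT.min (PT.add PT.snd' (PT.const 1)) (hm.comp PT.fst'))

theorem PT_gfm {k w N G m v : α → ℕ} (hk : PT A k) (hw : PT A w) (hN : PT A N) (hG : PT A G)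
    (hm : PT A m) (hv : PT A v) :
    PT A (fun a => gfm (k a) (w a) (N a) (G a) (m a) (v a)) :=
  PT.ite (PT.lt hv (PT.mul hk hN))
    (PT.min (PT.mul hm hG) (PT.div (PT.mul (PT.mul hm hw) hN) (PT.sub (PT.mul hk hN) hv)))
    (PT.mul hm hG)

theorem PT_lmH {dd : α → X → X → ℕ} {D1 N k w G m : α → ℕ} {J U : α → List X}
    (hd : PT A (fun p : α × X × X => dd p.1 p.2.1 p.2.2)) (hD1 : PT A D1) (hD1b : PBd D1)
    (hN : PT A N) (hNb : PBd N) (hk : PT A k) (hw : PT A w) (hG : PT A G) (hm : PT A m)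
    (hJ : PT A J) (hU : PT A U) :
    PT A (fun a => lmH (dd a) (D1 a) (N a) (k a) (w a) (G a) (m a) (J a) (U a)) := by
  have h1 : PT A (fun a => ((J a).map (fun j => ((List.range (D1 a)).map
      (fun r => sh (m a) (N a - ballN (dd a) (U a) j r))).sum)).sum) := by
    refine PT_sumMap (f := fun a j => ((List.range (D1 a)).map
      (fun r => sh (m a) (N a - ballN (dd a) (U a) j r))).sum) hJ ?_
    refine PT_sumRange (k := fun p : α × X => D1 p.1)
      (f := fun p r => sh (m p.1) (N p.1 - ballN (dd p.1) (U p.1) p.2 r)) (hD1.comp PT.fst')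
      (hD1b.comp (A := A) PT.fst') ?_
    have hq : PT A (fun p : (α × X) × ℕ => p.1.1) := PT.fst'.fst
    refine PT_sh (m := fun p : (α × X) × ℕ => m p.1.1)
      (u := fun p : (α × X) × ℕ => N p.1.1 - ballN (dd p.1.1) (U p.1.1) p.1.2 p.2)
      (hm.comp hq) (PT.sub (hN.comp hq) ?_) ?_
    · exact PT_ballN (dd := fun p : (α × X) × ℕ => dd p.1.1) (U := fun p => U p.1.1)
        (p := fun p => p.1.2) (r := fun p => p.2) (hd.comp (PT.fst'.fst.fst.pair PT.snd'))
        (hU.comp hq) PT.fst'.snd PT.snd'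
    · exact (hNb.comp (A := A) hq).mono fun _ => Nat.sub_le _ _
  have h2 : PT A (fun a => ((List.range (U a).length).map
      (gfm (k a) (w a) (N a) (G a) (m a))).sum) :=
    PT_sumRange (f := fun a v => gfm (k a) (w a) (N a) (G a) (m a) v) hU.length (PBd.length hU)
      (PT_gfm (hk.comp PT.fst') (hw.comp PT.fst') (hN.comp PT.fst') (hG.comp PT.fst')
        (hm.comp PT.fst') PT.snd')
  exact PT.add h1 h2

theorem PT_radN {dd : α → X → X → ℕ} {D1 N : α → ℕ} {U : α → List X} {p : α → X}
    (hd : PT A (fun p : α × X × X => dd p.1 p.2.1 p.2.2)) (hD1 : PT A D1) (hD1b : PBd D1)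
    (hN : PT A N) (hU : PT A U) (hp : PT A p) :
    PT A (fun a => radN (dd a) (D1 a) (N a) (U a) (p a)) :=
  PT_countP (f := fun a r => decide (ballN (dd a) (U a) (p a) r ≤ N a)) (PT.range hD1 hD1b)
    (PT.le (PT_ballN (dd := fun q : α × ℕ => dd q.1) (hd.comp (PT.fst'.fst.pair PT.snd'))
      (hU.comp PT.fst') (hp.comp PT.fst') PT.snd') (hN.comp PT.fst'))

omit [Enc X] in
theorem radN_le (d : X → X → ℕ) (D1 N : ℕ) (U : List X) (p : X) : radN d D1 N U p ≤ D1 := by
  unfold radN
  exact List.countP_le_length.trans (by simp)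

theorem PT_nearU {dd : α → X → X → ℕ} {D1 N : α → ℕ} {U : α → List X} {j : α → X}
    (hd : PT A (fun p : α × X × X => dd p.1 p.2.1 p.2.2)) (hD1 : PT A D1) (hD1b : PBd D1)
    (hN : PT A N) (hU : PT A U) (hj : PT A j) :
    PT A (fun a => nearU (dd a) (D1 a) (N a) (U a) (j a)) := by
  have hrad : PT A (fun a => radN (dd a) (D1 a) (N a) (U a) (j a)) :=
    PT_radN hd hD1 hD1b hN hU hj
  have hdist : PT A (fun p : α × X => dd p.1 p.2 (j p.1)) :=
    hd.comp (PT.fst'.pair (PT.snd'.pair (hj.comp PT.fst')))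
  have h1 : PT A (fun a => (U a).filter
      (fun u => decide (dd a u (j a) < radN (dd a) (D1 a) (N a) (U a) (j a)))) :=
    PT.filter (f := fun a u => decide (dd a u (j a) < radN (dd a) (D1 a) (N a) (U a) (j a)))
      hU (PT.lt hdist (hrad.comp PT.fst'))
  have h2 : PT A (fun a => (U a).filter
      (fun u => decide (dd a u (j a) = radN (dd a) (D1 a) (N a) (U a) (j a)))) :=
    PT.filter (f := fun a u => decide (dd a u (j a) = radN (dd a) (D1 a) (N a) (U a) (j a)))
      hU (PT.eqNat hdist (hrad.comp PT.fst'))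
  exact PT.append h1 (PT.take h2 (PT.sub hN h1.length))

theorem PT_clN {dd : α → X → X → ℕ} {D1 N : α → ℕ} {U : α → List X} {j : α → X}
    (hd : PT A (fun p : α × X × X => dd p.1 p.2.1 p.2.2)) (hD1 : PT A D1) (hD1b : PBd D1)
    (hN : PT A N) (hU : PT A U) (hj : PT A j) :
    PT A (fun a => clN (dd a) (D1 a) (N a) (U a) (j a)) :=
  PT_sumMap (f := fun a u => dd a u (j a)) (PT_nearU hd hD1 hD1b hN hU hj)
    (hd.comp (PT.fst'.pair (PT.snd'.pair (hj.comp PT.fst'))))

variable [DecidableEq X]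

theorem PT_fclN (heq : PT A (fun p : X × X => decide (p.1 = p.2)))
    {dd : α → X → X → ℕ} {D1 N : α → ℕ} {J U : α → List X} {i : α → X}
    (hd : PT A (fun p : α × X × X => dd p.1 p.2.1 p.2.2)) (hD1 : PT A D1) (hD1b : PBd D1)
    (hN : PT A N) (hJ : PT A J) (hU : PT A U) (hi : PT A i) :
    PT A (fun a => fclN (dd a) (D1 a) (N a) (J a) (U a) (i a)) := by
  refine PT_sumMap (f := fun a j => (nearU (dd a) (D1 a) (N a) (U a) j).count (i a) * dd a (i a) j)
    hJ (PT.mul (PT_count heq ?_ (hi.comp PT.fst'))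
      (hd.comp (PT.fst'.pair ((hi.comp PT.fst').pair PT.snd'))))
  exact PT_nearU (dd := fun p : α × X => dd p.1) (hd.comp (PT.fst'.fst.pair PT.snd'))
    (hD1.comp PT.fst') (hD1b.comp (A := A) PT.fst') (hN.comp PT.fst') (hU.comp PT.fst') PT.snd'

theorem PT_lmMoves (heq : PT A (fun p : X × X => decide (p.1 = p.2))) {N : α → ℕ}
    {F U : α → List X} (hN : PT A N) (hF : PT A F) (hU : PT A U) :
    PT A (fun a => lmMoves (N a) (F a) (U a)) := by
  have h1 : PT A (fun a => (F a).filter (fun i => decide ((U a).count i < N a))) :=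
    PT.filter (f := fun a i => decide ((U a).count i < N a)) hF
      (PT.lt (PT_count heq (hU.comp PT.fst') PT.snd') (hN.comp PT.fst'))
  have h2 : PT A (fun a => (F a).filter (fun i => decide (i ∈ U a))) :=
    PT.filter (f := fun a i => decide (i ∈ U a)) hF (PT.mem' heq (hU.comp PT.fst') PT.snd')
  exact PT.append (PT.map (f := fun a i => i :: U a) h1 (PT.cons PT.snd' (hU.comp PT.fst')))
    (PT.map (f := fun a i => (U a).erase i) h2 (PT_erase heq (hU.comp PT.fst') PT.snd'))

theorem PT_lmStep (heq : PT A (fun p : X × X => decide (p.1 = p.2)))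
    {dd : α → X → X → ℕ} {D1 N k w G m : α → ℕ} {J F U : α → List X}
    (hd : PT A (fun p : α × X × X => dd p.1 p.2.1 p.2.2)) (hD1 : PT A D1) (hD1b : PBd D1)
    (hN : PT A N) (hNb : PBd N) (hk : PT A k) (hw : PT A w) (hG : PT A G) (hm : PT A m)
    (hJ : PT A J) (hF : PT A F) (hU : PT A U) :
    PT A (fun a => lmStep (dd a) (D1 a) (N a) (k a) (w a) (G a) (m a) (J a) (F a) (U a)) := by
  have h0 : PT A (fun a => lmH (dd a) (D1 a) (N a) (k a) (w a) (G a) (m a) (J a) (U a)) :=
    PT_lmH hd hD1 hD1b hN hNb hk hw hG hm hJ hU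
  have h1 : PT A (fun p : α × List X =>
      lmH (dd p.1) (D1 p.1) (N p.1) (k p.1) (w p.1) (G p.1) (m p.1) (J p.1) p.2) :=
    PT_lmH (dd := fun p : α × List X => dd p.1) (hd.comp (PT.fst'.fst.pair PT.snd'))
      (hD1.comp PT.fst') (hD1b.comp (A := A) PT.fst') (hN.comp PT.fst')
      (hNb.comp (A := A) PT.fst') (hk.comp PT.fst') (hw.comp PT.fst') (hG.comp PT.fst')
      (hm.comp PT.fst') (hJ.comp PT.fst') PT.snd'
  exact PT.optGetD (PT.find? (f := fun a U' =>
    decide (lmH (dd a) (D1 a) (N a) (k a) (w a) (G a) (m a) (J a) U' <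
      lmH (dd a) (D1 a) (N a) (k a) (w a) (G a) (m a) (J a) (U a)))
    (PT_lmMoves heq hN hF hU) (PT.lt h1 (h0.comp PT.fst'))) hU

omit [Enc X] in
theorem lmStep_spec (d : X → X → ℕ) (D1 N k w G m : ℕ) (J F U : List X) :
    (lmStep d D1 N k w G m J F U).length ≤ U.length + 1 ∧
      ∀ x ∈ lmStep d D1 N k w G m J F U, x ∈ F ∨ x ∈ U := by
  unfold lmStep
  rcases h : (lmMoves N F U).find?
    (fun U' => decide (lmH d D1 N k w G m J U' < lmH d D1 N k w G m J U)) with _ | U'
  · exact ⟨Nat.le_succ _, fun x hx => Or.inr hx⟩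
  · have h1 := List.mem_of_find?_eq_some h
    unfold lmMoves at h1
    rcases List.mem_append.1 h1 with h1 | h1
    · obtain ⟨i, hi, rfl⟩ := List.mem_map.1 h1
      refine ⟨le_rfl, fun x hx => ?_⟩
      rw [Option.getD_some] at hx
      rcases List.mem_cons.1 hx with rfl | hx
      · exact Or.inl (List.mem_filter.1 hi).1
      · exact Or.inr hx
    · obtain ⟨i, hi, rfl⟩ := List.mem_map.1 h1
      refine ⟨?_, fun x hx => Or.inr (List.mem_of_mem_erase hx)⟩
      rw [Option.getD_some]
      exact (List.length_erase_le).trans (Nat.le_succ _)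

omit [Enc X] in
theorem lmStep_iterate_spec (d : X → X → ℕ) (D1 N k w G m : ℕ) (J F U : List X) (j : ℕ) :
    ((lmStep d D1 N k w G m J F)^[j] U).length ≤ U.length + j ∧
      ∀ x ∈ (lmStep d D1 N k w G m J F)^[j] U, x ∈ F ∨ x ∈ U := by
  induction j with
  | zero => exact ⟨le_rfl, fun x hx => Or.inr hx⟩
  | succ j ih =>
    rw [iterate_succ_apply']
    have h := lmStep_spec d D1 N k w G m J F ((lmStep d D1 N k w G m J F)^[j] U)
    refine ⟨by omega, fun x hx => ?_⟩
    rcases h.2 x hx with h | h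
    · exact Or.inl h
    · exact ih.2 x h

omit [Enc X] [DecidableEq X] in
theorem ptSum_map_le_mul {ι : Type*} (l : List ι) {f : ι → ℕ} {b : ℕ} (h : ∀ i ∈ l, f i ≤ b) :
    (l.map f).sum ≤ l.length * b := by
  induction l with
  | nil => simp
  | cons a l ih =>
    simp only [List.map_cons, List.sum_cons, List.length_cons]
    have h1 := ih (fun i hi => h i (List.mem_cons_of_mem a hi))
    have h2 := h a List.mem_cons_self
    rw [add_mul, one_mul, add_comm]
    exact Nat.add_le_add h1 h2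

omit [Enc X] [DecidableEq X] in
theorem sh_le (m u : ℕ) : sh m u ≤ u * m := by
  unfold sh
  refine (ptSum_map_le_mul _ (b := m) (fun v _ => min_le_right _ _)).trans ?_
  rw [List.length_range]

omit [Enc X] [DecidableEq X] in
theorem lmH_nil_le (d : X → X → ℕ) (D1 N k w G m : ℕ) (J : List X) :
    lmH d D1 N k w G m J [] ≤ J.length * (D1 * (N * m)) := by
  unfold lmH
  simp only [List.length_nil, List.range_zero, List.map_nil, List.sum_nil, add_zero]
  refine ptSum_map_le_mul _ (fun j _ => ?_)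
  refine (ptSum_map_le_mul _ (b := N * m) (fun r _ => ?_)).trans (by rw [List.length_range])
  exact (sh_le _ _).trans (Nat.mul_le_mul_right _ (Nat.sub_le _ _))

theorem PT_lmSearch (heq : PT A (fun p : X × X => decide (p.1 = p.2)))
    {dd : α → X → X → ℕ} {D1 N k w G m : α → ℕ} {J F : α → List X}
    (hd : PT A (fun p : α × X × X => dd p.1 p.2.1 p.2.2)) (hD1 : PT A D1) (hD1b : PBd D1)
    (hN : PT A N) (hNb : PBd N) (hk : PT A k) (hw : PT A w) (hG : PT A G) (hm : PT A m)
    (hmb : PBd m) (hJ : PT A J) (hF : PT A F) :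
    PT A (fun a => lmSearch (dd a) (D1 a) (N a) (k a) (w a) (G a) (m a) (J a) (F a)) := by
  have hb : PBd (fun a => (J a).length * (D1 a * (N a * m a))) :=
    (PBd.length hJ).mul (hD1b.mul (hNb.mul hmb))
  have hkb : PBd (fun a => lmH (dd a) (D1 a) (N a) (k a) (w a) (G a) (m a) (J a) []) :=
    hb.mono fun a => lmH_nil_le _ _ _ _ _ _ _ _
  refine PT.iterate' (step := fun a => lmStep (dd a) (D1 a) (N a) (k a) (w a) (G a) (m a) (J a)
    (F a)) (init := fun _ => ([] : List X)) (PT_lmH hd hD1 hD1b hN hNb hk hw hG hm hJ PT.nil)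
    hkb PT.nil ?_
    (b := fun a => ((J a).length * (D1 a * (N a * m a))) * (2 * esize (F a) + 1))
    (hb.mul (((PBd.const 2).mul hF.pbd).add (PBd.const 1))) fun a j hj => ?_
  · exact PT_lmStep heq (dd := fun p : α × List X => dd p.1)
      (hd.comp (PT.fst'.fst.pair PT.snd')) (hD1.comp PT.fst') (hD1b.comp (A := A) PT.fst')
      (hN.comp PT.fst') (hNb.comp (A := A) PT.fst') (hk.comp PT.fst') (hw.comp PT.fst')
      (hG.comp PT.fst') (hm.comp PT.fst') (hJ.comp PT.fst') (hF.comp PT.fst') PT.snd'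
  · have h := lmStep_iterate_spec (dd a) (D1 a) (N a) (k a) (w a) (G a) (m a) (J a) (F a) [] j
    refine (esize_list_le (B := esize (F a)) fun x hx => ?_).trans (Nat.mul_le_mul_right _ ?_)
    · rcases h.2 x hx with h | h
      · exact esize_le_of_mem h
      · simp at h
    · have := lmH_nil_le (dd a) (D1 a) (N a) (k a) (w a) (G a) (m a) (J a)
      have h1 := h.1
      simp only [List.length_nil, Nat.zero_add] at h1
      omega

end

end Vale.Agent.P334.Alg
end

section

/-!
Polynomial time for the definitions of Part 3: clusters.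
-/

namespace Vale.Agent.P334.Alg

open Vale.Agent.Lib.PolyTime Function

variable {A : Set Word} {α β γ δ : Type*} [Enc α] [Enc β] [Enc γ] [Enc δ]

/-- Universal quantifier over a list. -/
theorem PT_ballList {l : α → List γ} {p : α → γ → Prop} [∀ a x, Decidable (p a x)]
    (hl : PT A l) (hp : PT A (fun q : α × γ => decide (p q.1 q.2))) :
    PT A (fun a => decide (∀ x ∈ l a, p a x)) :=
  (PT.all (f := fun a x => decide (p a x)) hl hp).congr fun a => by
    rw [Bool.eq_iff_iff]
    simp only [List.all_eq_true, decide_eq_true_eq]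

/-- Folds that keep the list or add an element of the list over which one folds. -/
theorem foldl_keep {ι : Type*} (f : List ι → ι → List ι)
    (hf : ∀ C j, f C j = C ∨ f C j = j :: C) :
    ∀ (L C : List ι), (L.foldl f C).length ≤ L.length + C.length ∧
      ∀ x ∈ L.foldl f C, x ∈ L ∨ x ∈ C := by
  intro L
  induction L with
  | nil => intro C; exact ⟨by simp, fun x hx => Or.inr hx⟩
  | cons a L ih =>
    intro C
    rw [List.foldl_cons]
    have h := ih (f C a)
    rcases hf C a with e | e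
    · rw [e] at h ⊢
      refine ⟨by rw [List.length_cons]; omega, fun x hx => ?_⟩
      rcases h.2 x hx with h | h
      · exact Or.inl (List.mem_cons_of_mem a h)
      · exact Or.inr h
    · rw [e] at h ⊢
      refine ⟨?_, fun x hx => ?_⟩
      · have := h.1
        rw [List.length_cons] at this ⊢
        omega
      · rcases h.2 x hx with h | h
        · exact Or.inl (List.mem_cons_of_mem a h)
        · rcases List.mem_cons.1 h with rfl | h
          · exact Or.inl List.mem_cons_self
          · exact Or.inr h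

section

variable {X : Type} [Enc X]

theorem PT_goodL {dd : α → X → X → ℕ} {D1 N : α → ℕ} {J U : α → List X}
    (hd : PT A (fun p : α × X × X => dd p.1 p.2.1 p.2.2)) (hD1 : PT A D1) (hD1b : PBd D1)
    (hN : PT A N) (hJ : PT A J) (hU : PT A U) :
    PT A (fun a => goodL (dd a) (D1 a) (N a) (J a) (U a)) := by
  have hd' : PT A (fun p : (α × X) × X × X => dd p.1.1 p.2.1 p.2.2) :=
    hd.comp (PT.fst'.fst.pair PT.snd')
  have h1 : PT A (fun p : α × X => clN (dd p.1) (D1 p.1) (N p.1) (U p.1) p.2) :=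
    PT_clN (dd := fun p : α × X => dd p.1) hd' (hD1.comp PT.fst') (hD1b.comp (A := A) PT.fst')
      (hN.comp PT.fst') (hU.comp PT.fst') PT.snd'
  have h2 : PT A (fun p : α × X => radN (dd p.1) (D1 p.1) (N p.1) (U p.1) p.2) :=
    PT_radN (dd := fun p : α × X => dd p.1) hd' (hD1.comp PT.fst') (hD1b.comp (A := A) PT.fst')
      (hN.comp PT.fst') (hU.comp PT.fst') PT.snd'
  exact PT.filter (f := fun a j => decide (10 ^ 6 * clN (dd a) (D1 a) (N a) (U a) j ≤
    N a * radN (dd a) (D1 a) (N a) (U a) j)) hJ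
    (PT.le (PT.mul (PT.const (10 ^ 6)) h1) (PT.mul (hN.comp PT.fst') h2))

theorem PT_itrL {dd : α → X → X → ℕ} {D1 N : α → ℕ} {J U : α → List X} {c : α → X}
    (hd : PT A (fun p : α × X × X => dd p.1 p.2.1 p.2.2)) (hD1 : PT A D1) (hD1b : PBd D1)
    (hN : PT A N) (hJ : PT A J) (hU : PT A U) (hc : PT A c) :
    PT A (fun a => itrL (dd a) (D1 a) (N a) (J a) (U a) (c a)) :=
  PT.filter (f := fun a j => decide (8 * dd a j (c a) ≤ radN (dd a) (D1 a) (N a) (U a) (c a))) hJ
    (PT.le (PT.mul (PT.const 8) (hd.comp (PT.fst'.pair (PT.snd'.pair (hc.comp PT.fst')))))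
      ((PT_radN hd hD1 hD1b hN hU hc).comp PT.fst'))

theorem PT_fullL {dd : α → X → X → ℕ} {D1 N : α → ℕ} {F U : α → List X} {c : α → X}
    (hd : PT A (fun p : α × X × X => dd p.1 p.2.1 p.2.2)) (hD1 : PT A D1) (hD1b : PBd D1)
    (hN : PT A N) (hF : PT A F) (hU : PT A U) (hc : PT A c) :
    PT A (fun a => fullL (dd a) (D1 a) (N a) (F a) (U a) (c a)) :=
  PT.filter (f := fun a i => decide (100 * dd a i (c a) ≤ radN (dd a) (D1 a) (N a) (U a) (c a)))
    hF (PT.le (PT.mul (PT.const 100) (hd.comp (PT.fst'.pair (PT.snd'.pair (hc.comp PT.fst')))))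
      ((PT_radN hd hD1 hD1b hN hU hc).comp PT.fst'))

variable [DecidableEq X]

theorem PT_nearL (heq : PT A (fun p : X × X => decide (p.1 = p.2)))
    {dd : α → X → X → ℕ} {D1 N m gg : α → ℕ} {J F U : α → List X} {c : α → X}
    (hd : PT A (fun p : α × X × X => dd p.1 p.2.1 p.2.2)) (hD1 : PT A D1) (hD1b : PBd D1)
    (hN : PT A N) (hm : PT A m) (hgg : PT A gg) (hJ : PT A J) (hF : PT A F) (hU : PT A U)
    (hc : PT A c) :
    PT A (fun a => nearL (dd a) (D1 a) (N a) (m a) (gg a) (J a) (F a) (U a) (c a)) := by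
  have hd' : PT A (fun p : (α × X) × X × X => dd p.1.1 p.2.1 p.2.2) :=
    hd.comp (PT.fst'.fst.pair PT.snd')
  have hcount : PT A (fun p : α × X => (U p.1).count p.2) :=
    PT_count heq (hU.comp PT.fst') PT.snd'
  have hfcl : PT A (fun p : α × X => fclN (dd p.1) (D1 p.1) (N p.1) (J p.1) (U p.1) p.2) :=
    PT_fclN heq (dd := fun p : α × X => dd p.1) hd' (hD1.comp PT.fst')
      (hD1b.comp (A := A) PT.fst') (hN.comp PT.fst') (hJ.comp PT.fst') (hU.comp PT.fst') PT.snd'
  exact PT.filter (f := fun a i => decide (0 < (U a).count i ∧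
    10 ^ 4 * m a * fclN (dd a) (D1 a) (N a) (J a) (U a) i ≤ gg a * (U a).count i ∧
    100 * dd a i (c a) ≤ radN (dd a) (D1 a) (N a) (U a) (c a))) hF
    (PT.decide_and (PT.lt (PT.const 0) hcount) (PT.decide_and
      (PT.le (PT.mul (PT.mul (PT.const (10 ^ 4)) (hm.comp PT.fst')) hfcl)
        (PT.mul (hgg.comp PT.fst') hcount))
      (PT.le (PT.mul (PT.const 100) (hd.comp (PT.fst'.pair (PT.snd'.pair (hc.comp PT.fst')))))
        ((PT_radN hd hD1 hD1b hN hU hc).comp PT.fst'))))

theorem PT_meetL (heq : PT A (fun p : X × X => decide (p.1 = p.2)))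
    {dd : α → X → X → ℕ} {D1 N : α → ℕ} {F U : α → List X} {c c' : α → X}
    (hd : PT A (fun p : α × X × X => dd p.1 p.2.1 p.2.2)) (hD1 : PT A D1) (hD1b : PBd D1)
    (hN : PT A N) (hF : PT A F) (hU : PT A U) (hc : PT A c) (hc' : PT A c') :
    PT A (fun a => meetL (dd a) (D1 a) (N a) (F a) (U a) (c a) (c' a)) := by
  have hcount : PT A (fun p : α × X => (U p.1).count p.2) :=
    PT_count heq (hU.comp PT.fst') PT.snd'
  exact PT.any (f := fun a i => decide (0 < (U a).count i ∧
    2000 * dd a i (c a) ≤ radN (dd a) (D1 a) (N a) (U a) (c a) ∧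
    2000 * dd a i (c' a) ≤ radN (dd a) (D1 a) (N a) (U a) (c' a))) hF
    (PT.decide_and (PT.lt (PT.const 0) hcount) (PT.decide_and
      (PT.le (PT.mul (PT.const 2000) (hd.comp (PT.fst'.pair (PT.snd'.pair (hc.comp PT.fst')))))
        ((PT_radN hd hD1 hD1b hN hU hc).comp PT.fst'))
      (PT.le (PT.mul (PT.const 2000) (hd.comp (PT.fst'.pair (PT.snd'.pair (hc'.comp PT.fst')))))
        ((PT_radN hd hD1 hD1b hN hU hc').comp PT.fst'))))

theorem PT_famL (heq : PT A (fun p : X × X => decide (p.1 = p.2)))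
    {dd : α → X → X → ℕ} {D1 N : α → ℕ} {J F U : α → List X}
    (hd : PT A (fun p : α × X × X => dd p.1 p.2.1 p.2.2)) (hD1 : PT A D1) (hD1b : PBd D1)
    (hN : PT A N) (hJ : PT A J) (hF : PT A F) (hU : PT A U) :
    PT A (fun a => famL (dd a) (D1 a) (N a) (J a) (F a) (U a)) := by
  have hg : PT A (fun a => goodL (dd a) (D1 a) (N a) (J a) (U a)) :=
    PT_goodL hd hD1 hD1b hN hJ hU
  have hmeet : PT A (fun p : (α × List X × X) × X =>
      meetL (dd p.1.1) (D1 p.1.1) (N p.1.1) (F p.1.1) (U p.1.1) p.1.2.2 p.2) :=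
    PT_meetL heq (dd := fun p : (α × List X × X) × X => dd p.1.1)
      (hd.comp (PT.fst'.fst.fst.pair PT.snd')) (hD1.comp PT.fst'.fst)
      (hD1b.comp (A := A) PT.fst'.fst) (hN.comp PT.fst'.fst) (hF.comp PT.fst'.fst)
      (hU.comp PT.fst'.fst) PT.fst'.snd.snd PT.snd'
  have hstep : PT A (fun p : α × List X × X =>
      if p.2.1.any (fun c => meetL (dd p.1) (D1 p.1) (N p.1) (F p.1) (U p.1) p.2.2 c)
        then p.2.1 else p.2.2 :: p.2.1) := by
    refine (PT.cond (c := fun p : α × List X × X =>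
      p.2.1.any (fun c => meetL (dd p.1) (D1 p.1) (N p.1) (F p.1) (U p.1) p.2.2 c))
      (PT.any (f := fun p : α × List X × X =>
        fun c => meetL (dd p.1) (D1 p.1) (N p.1) (F p.1) (U p.1) p.2.2 c) PT.snd'.fst hmeet)
      PT.snd'.fst (PT.cons PT.snd'.snd PT.snd'.fst)).congr fun p => ?_
    rcases (p.2.1.any (fun c => meetL (dd p.1) (D1 p.1) (N p.1) (F p.1) (U p.1) p.2.2 c)) <;> rfl
  refine PT.foldl (init := fun _ => ([] : List X)) (f := fun a C j =>
    if C.any (fun c => meetL (dd a) (D1 a) (N a) (F a) (U a) j c) then C else j :: C) hg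
    PT.nil hstep (b := fun a => (goodL (dd a) (D1 a) (N a) (J a) (U a)).length *
      (2 * esize (goodL (dd a) (D1 a) (N a) (J a) (U a)) + 1))
    ((PBd.length hg).mul (((PBd.const 2).mul hg.pbd).add (PBd.const 1))) fun a i => ?_
  have h := foldl_keep (fun (C : List X) j =>
    if C.any (fun c => meetL (dd a) (D1 a) (N a) (F a) (U a) j c) then C else j :: C)
    (fun C j => by
      by_cases h : C.any (fun c => meetL (dd a) (D1 a) (N a) (F a) (U a) j c) = true
      · left; rw [if_pos h]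
      · right; rw [if_neg h])
    ((goodL (dd a) (D1 a) (N a) (J a) (U a)).take i) []
  refine (esize_list_le (B := esize (goodL (dd a) (D1 a) (N a) (J a) (U a)))
    fun x hx => ?_).trans (Nat.mul_le_mul_right _ ?_)
  · rcases h.2 x hx with h | h
    · exact esize_le_of_mem (List.mem_of_mem_take h)
    · simp at h
  · have h1 := h.1
    rw [List.length_nil, Nat.add_zero, List.length_take] at h1
    exact h1.trans (min_le_right _ _)

theorem PT_ccL (heq : PT A (fun p : X × X => decide (p.1 = p.2)))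
    {dd : α → X → X → ℕ} {D1 N m gg : α → ℕ} {J F U : α → List X}
    (hd : PT A (fun p : α × X × X => dd p.1 p.2.1 p.2.2)) (hD1 : PT A D1) (hD1b : PBd D1)
    (hN : PT A N) (hm : PT A m) (hgg : PT A gg) (hJ : PT A J) (hF : PT A F) (hU : PT A U) :
    PT A (fun a => ccL (dd a) (D1 a) (N a) (m a) (gg a) (J a) (F a) (U a)) := by
  have hd' : PT A (fun p : (α × X) × X × X => dd p.1.1 p.2.1 p.2.2) :=
    hd.comp (PT.fst'.fst.pair PT.snd')
  have hitr : PT A (fun p : α × X => itrL (dd p.1) (D1 p.1) (N p.1) (J p.1) (U p.1) p.2) :=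
    PT_itrL (dd := fun p : α × X => dd p.1) hd' (hD1.comp PT.fst') (hD1b.comp (A := A) PT.fst')
      (hN.comp PT.fst') (hJ.comp PT.fst') (hU.comp PT.fst') PT.snd'
  have hrad : PT A (fun p : α × X => radN (dd p.1) (D1 p.1) (N p.1) (U p.1) p.2) :=
    PT_radN (dd := fun p : α × X => dd p.1) hd' (hD1.comp PT.fst') (hD1b.comp (A := A) PT.fst')
      (hN.comp PT.fst') (hU.comp PT.fst') PT.snd'
  have hnear : PT A (fun p : α × X =>
      nearL (dd p.1) (D1 p.1) (N p.1) (m p.1) (gg p.1) (J p.1) (F p.1) (U p.1) p.2) :=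
    PT_nearL heq (dd := fun p : α × X => dd p.1) hd' (hD1.comp PT.fst')
      (hD1b.comp (A := A) PT.fst') (hN.comp PT.fst') (hm.comp PT.fst') (hgg.comp PT.fst')
      (hJ.comp PT.fst') (hF.comp PT.fst') (hU.comp PT.fst') PT.snd'
  have hsum : PT A (fun p : α × X => ((nearL (dd p.1) (D1 p.1) (N p.1) (m p.1) (gg p.1) (J p.1)
      (F p.1) (U p.1) p.2).map (fun i => (U p.1).count i)).sum) :=
    PT_sumMap (f := fun (p : α × X) i => (U p.1).count i) hnear
      (PT_count heq (hU.comp PT.fst'.fst) PT.snd')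
  exact PT.filter (f := fun a c => decide (gg a ≤ 5 * m a *
    ((itrL (dd a) (D1 a) (N a) (J a) (U a) c).length * radN (dd a) (D1 a) (N a) (U a) c) ∧
    249 * N a ≤ 250 * ((nearL (dd a) (D1 a) (N a) (m a) (gg a) (J a) (F a) (U a) c).map
      (fun i => (U a).count i)).sum)) (PT_famL heq hd hD1 hD1b hN hJ hF hU)
    (PT.decide_and (PT.le (hgg.comp PT.fst')
      (PT.mul (PT.mul (PT.const 5) (hm.comp PT.fst')) (PT.mul hitr.length hrad)))
      (PT.le (PT.mul (PT.const 249) (hN.comp PT.fst')) (PT.mul (PT.const 250) hsum)))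

theorem PT_rhoL (heq : PT A (fun p : X × X => decide (p.1 = p.2)))
    {dd : α → X → X → ℕ} {D1 N m gg : α → ℕ} {J F U : α → List X} {c : α → X}
    (hd : PT A (fun p : α × X × X => dd p.1 p.2.1 p.2.2)) (hD1 : PT A D1) (hD1b : PBd D1)
    (hN : PT A N) (hm : PT A m) (hgg : PT A gg) (hJ : PT A J) (hF : PT A F) (hU : PT A U)
    (hc : PT A c) :
    PT A (fun a => rhoL (dd a) (D1 a) (N a) (m a) (gg a) (J a) (F a) (U a) (c a)) :=
  PT_argmin (f := fun a i => ((itrL (dd a) (D1 a) (N a) (J a) (U a) (c a)).map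
    (fun j => dd a i j)).sum)
    (PT_sumMap (f := fun (p : α × X) j => dd p.1 p.2 j)
      ((PT_itrL hd hD1 hD1b hN hJ hU hc).comp PT.fst')
      (hd.comp (PT.fst'.fst.pair (PT.fst'.snd.pair PT.snd')))) hc
    (PT_nearL heq hd hD1 hD1b hN hm hgg hJ hF hU hc)

theorem PT_snapL (heq : PT A (fun p : X × X => decide (p.1 = p.2)))
    {CC : α → List X} {AA : α → X → List X} {ρ : α → X → X} {i : α → X}
    (hC : PT A CC) (hA : PT A (fun p : α × X => AA p.1 p.2))
    (hρ : PT A (fun p : α × X => ρ p.1 p.2)) (hi : PT A i) :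
    PT A (fun a => snapL (CC a) (AA a) (ρ a) (i a)) := by
  have h1 : PT A (fun a => (CC a).find? (fun c => decide (i a ∈ AA a c))) :=
    PT.find? (f := fun a c => decide (i a ∈ AA a c)) hC (PT.mem' heq hA (hi.comp PT.fst'))
  refine (PT.optCase (g := fun a c => ρ a c) h1 hi hρ).congr fun a => ?_
  unfold snapL
  rcases (CC a).find? (fun c => decide (i a ∈ AA a c)) with _ | c <;> rfl

theorem PT_xcN (heq : PT A (fun p : X × X => decide (p.1 = p.2)))
    {dd : α → X → X → ℕ} {D1 N : α → ℕ} {F U : α → List X} {c l : α → X}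
    (hd : PT A (fun p : α × X × X => dd p.1 p.2.1 p.2.2)) (hD1 : PT A D1) (hD1b : PBd D1)
    (hN : PT A N) (hF : PT A F) (hU : PT A U) (hc : PT A c) (hl : PT A l) :
    PT A (fun a => xcN (dd a) (D1 a) (N a) (F a) (U a) (c a) (l a)) :=
  PT_countP (f := fun a u => decide (u ∈ fullL (dd a) (D1 a) (N a) (F a) (U a) (c a)))
    (PT_nearU hd hD1 hD1b hN hU hl)
    (PT.mem' heq ((PT_fullL hd hD1 hD1b hN hF hU hc).comp PT.fst') PT.snd')

theorem PT_qcN (heq : PT A (fun p : X × X => decide (p.1 = p.2)))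
    {dd : α → X → X → ℕ} {D1 N : α → ℕ} {F U : α → List X} {c l : α → X}
    (hd : PT A (fun p : α × X × X => dd p.1 p.2.1 p.2.2)) (hD1 : PT A D1) (hD1b : PBd D1)
    (hN : PT A N) (hF : PT A F) (hU : PT A U) (hc : PT A c) (hl : PT A l) :
    PT A (fun a => qcN (dd a) (D1 a) (N a) (F a) (U a) (c a) (l a)) :=
  PT_sumMap (f := fun a u => dd a u (l a))
    (PT.filter (f := fun a u => decide (u ∈ fullL (dd a) (D1 a) (N a) (F a) (U a) (c a)))
      (PT_nearU hd hD1 hD1b hN hU hl)
      (PT.mem' heq ((PT_fullL hd hD1 hD1b hN hF hU hc).comp PT.fst') PT.snd'))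
    (hd.comp (PT.fst'.pair (PT.snd'.pair (hl.comp PT.fst'))))

theorem PT_isoL (heq : PT A (fun p : X × X => decide (p.1 = p.2)))
    {dd : α → X → X → ℕ} {D1 N : α → ℕ} {U CC : α → List X} {ρ : α → X → X} {c : α → X}
    (hd : PT A (fun p : α × X × X => dd p.1 p.2.1 p.2.2)) (hD1 : PT A D1) (hD1b : PBd D1)
    (hN : PT A N) (hU : PT A U) (hC : PT A CC) (hρ : PT A (fun p : α × X => ρ p.1 p.2))
    (hc : PT A c) :
    PT A (fun a => isoL (dd a) (D1 a) (N a) (U a) (CC a) (ρ a) (c a)) :=
  PT.all (f := fun a c' => decide (c' = c a ∨ 5 * radN (dd a) (D1 a) (N a) (U a) (c a) <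
    dd a (ρ a (c a)) (ρ a c'))) hC
    (PT.decide_or (heq.comp (PT.snd'.pair (hc.comp PT.fst')))
      (PT.lt (PT.mul (PT.const 5) ((PT_radN hd hD1 hD1b hN hU hc).comp PT.fst'))
        (hd.comp (PT.fst'.pair (((hρ.comp (PT.id.pair hc)).comp PT.fst').pair hρ)))))

theorem PT_piL (heq : PT A (fun p : X × X => decide (p.1 = p.2)))
    {dd : α → X → X → ℕ} {CC : α → List X} {ρ : α → X → X} {c : α → X}
    (hd : PT A (fun p : α × X × X => dd p.1 p.2.1 p.2.2)) (hC : PT A CC)
    (hρ : PT A (fun p : α × X => ρ p.1 p.2)) (hc : PT A c) :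
    PT A (fun a => piL (dd a) (CC a) (ρ a) (c a)) :=
  PT_argmin (f := fun a c' => dd a (ρ a (c a)) (ρ a c'))
    (hd.comp (PT.fst'.pair (((hρ.comp (PT.id.pair hc)).comp PT.fst').pair hρ))) hc
    (PT.filter (f := fun a c' => decide (c' ≠ c a)) hC
      (PT.decide_not (heq.comp (PT.snd'.pair (hc.comp PT.fst')))))

theorem PT_ibL (heq : PT A (fun p : X × X => decide (p.1 = p.2)))
    {dd : α → X → X → ℕ} {D1 N φ : α → ℕ} {F U CC : α → List X} {ρ : α → X → X} {c : α → X}
    (hd : PT A (fun p : α × X × X => dd p.1 p.2.1 p.2.2)) (hD1 : PT A D1) (hD1b : PBd D1)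
    (hN : PT A N) (hφ : PT A φ) (hF : PT A F) (hU : PT A U) (hC : PT A CC)
    (hρ : PT A (fun p : α × X => ρ p.1 p.2)) (hc : PT A c) :
    PT A (fun a => ibL (dd a) (D1 a) (N a) (φ a) (F a) (U a) (CC a) (ρ a) (c a)) := by
  have hfull : PT A (fun p : (α × X) × X =>
      fullL (dd p.1.1) (D1 p.1.1) (N p.1.1) (F p.1.1) (U p.1.1) p.2) :=
    PT_fullL (dd := fun p : (α × X) × X => dd p.1.1) (hd.comp (PT.fst'.fst.fst.pair PT.snd'))
      (hD1.comp PT.fst'.fst) (hD1b.comp (A := A) PT.fst'.fst) (hN.comp PT.fst'.fst)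
      (hF.comp PT.fst'.fst) (hU.comp PT.fst'.fst) PT.snd'
  have h1 : PT A (fun p : α × X =>
      decide (∀ c' ∈ CC p.1, p.2 ∉ fullL (dd p.1) (D1 p.1) (N p.1) (F p.1) (U p.1) c')) :=
    PT_ballList (p := fun (q : α × X) c' =>
      q.2 ∉ fullL (dd q.1) (D1 q.1) (N q.1) (F q.1) (U q.1) c') (hC.comp PT.fst')
      (PT.decide_not (PT.mem' heq hfull PT.fst'.snd))
  have h2 : PT A (fun p : α × X => decide (dd p.1 p.2 (c p.1) ≤
      2 * radN (dd p.1) (D1 p.1) (N p.1) (U p.1) (c p.1))) :=
    PT.le (hd.comp (PT.fst'.pair (PT.snd'.pair (hc.comp PT.fst'))))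
      (PT.mul (PT.const 2) ((PT_radN hd hD1 hD1b hN hU hc).comp PT.fst'))
  have h3 : PT A (fun a => (U a).countP (fun u =>
      decide ((∀ c' ∈ CC a, u ∉ fullL (dd a) (D1 a) (N a) (F a) (U a) c') ∧
        dd a u (c a) ≤ 2 * radN (dd a) (D1 a) (N a) (U a) (c a)))) :=
    PT_countP (f := fun a u =>
      decide ((∀ c' ∈ CC a, u ∉ fullL (dd a) (D1 a) (N a) (F a) (U a) c') ∧
        dd a u (c a) ≤ 2 * radN (dd a) (D1 a) (N a) (U a) (c a))) hU (PT.decide_and h1 h2)
  exact PT.and (PT_isoL heq hd hD1 hD1b hN hU hC hρ hc)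
    (PT.le (PT.mul (PT.mul (PT.const 8) hφ) h3)
      (PT.mul (PT.sub (PT.mul (PT.const 8) hφ) (PT.const 1)) hN))

theorem PT_crossN (heq : PT A (fun p : X × X => decide (p.1 = p.2)))
    {dd : α → X → X → ℕ} {D1 N : α → ℕ} {J F U CC : α → List X} {c : α → X}
    (hd : PT A (fun p : α × X × X => dd p.1 p.2.1 p.2.2)) (hD1 : PT A D1) (hD1b : PBd D1)
    (hN : PT A N) (hJ : PT A J) (hF : PT A F) (hU : PT A U) (hC : PT A CC) (hc : PT A c) :
    PT A (fun a => crossN (dd a) (D1 a) (N a) (J a) (F a) (U a) (CC a) (c a)) := by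
  have hitr : PT A (fun p : (α × X) × X =>
      itrL (dd p.1.1) (D1 p.1.1) (N p.1.1) (J p.1.1) (U p.1.1) p.2) :=
    PT_itrL (dd := fun p : (α × X) × X => dd p.1.1) (hd.comp (PT.fst'.fst.fst.pair PT.snd'))
      (hD1.comp PT.fst'.fst) (hD1b.comp (A := A) PT.fst'.fst) (hN.comp PT.fst'.fst)
      (hJ.comp PT.fst'.fst) (hU.comp PT.fst'.fst) PT.snd'
  have hq : PT A (fun p : (α × X) × X =>
      qcN (dd p.1.1) (D1 p.1.1) (N p.1.1) (F p.1.1) (U p.1.1) p.2 p.1.2) :=
    PT_qcN heq (dd := fun p : (α × X) × X => dd p.1.1) (hd.comp (PT.fst'.fst.fst.pair PT.snd'))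
      (hD1.comp PT.fst'.fst) (hD1b.comp (A := A) PT.fst'.fst) (hN.comp PT.fst'.fst)
      (hF.comp PT.fst'.fst) (hU.comp PT.fst'.fst) PT.snd' PT.fst'.snd
  refine PT_sumMap (f := fun a l => (((CC a).filter (fun c' =>
    decide (l ∉ itrL (dd a) (D1 a) (N a) (J a) (U a) c'))).map
    (fun c' => qcN (dd a) (D1 a) (N a) (F a) (U a) c' l)).sum)
    (PT_itrL hd hD1 hD1b hN hJ hU hc) ?_
  exact PT_sumMap (f := fun (p : α × X) c' =>
    qcN (dd p.1) (D1 p.1) (N p.1) (F p.1) (U p.1) c' p.2)
    (PT.filter (f := fun (p : α × X) c' =>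
      decide (p.2 ∉ itrL (dd p.1) (D1 p.1) (N p.1) (J p.1) (U p.1) c')) (hC.comp PT.fst')
      (PT.decide_not (PT.mem' heq hitr PT.fst'.snd))) hq

theorem PT_lamN (heq : PT A (fun p : X × X => decide (p.1 = p.2)))
    {dd : α → X → X → ℕ} {D1 N : α → ℕ} {J F U CC : α → List X} {ρ : α → X → X} {c : α → X}
    (hd : PT A (fun p : α × X × X => dd p.1 p.2.1 p.2.2)) (hD1 : PT A D1) (hD1b : PBd D1)
    (hN : PT A N) (hJ : PT A J) (hF : PT A F) (hU : PT A U) (hC : PT A CC)
    (hρ : PT A (fun p : α × X => ρ p.1 p.2)) (hc : PT A c) :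
    PT A (fun a => lamN (dd a) (D1 a) (N a) (J a) (F a) (U a) (CC a) (ρ a) (c a)) := by
  have hρc : PT A (fun a => ρ a (c a)) := hρ.comp (PT.id.pair hc)
  have hx : PT A (fun p : α × X =>
      xcN (dd p.1) (D1 p.1) (N p.1) (F p.1) (U p.1) (c p.1) p.2) :=
    PT_xcN heq (dd := fun p : α × X => dd p.1) (hd.comp (PT.fst'.fst.pair PT.snd'))
      (hD1.comp PT.fst') (hD1b.comp (A := A) PT.fst') (hN.comp PT.fst') (hF.comp PT.fst')
      (hU.comp PT.fst') (hc.comp PT.fst') PT.snd'
  have hrad : PT A (fun a => radN (dd a) (D1 a) (N a) (U a) (c a)) :=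
    PT_radN hd hD1 hD1b hN hU hc
  have hpi : PT A (fun a => piL (dd a) (CC a) (ρ a) (c a)) := PT_piL heq hd hC hρ hc
  have hdpi : PT A (fun a => dd a (ρ a (c a)) (ρ a (piL (dd a) (CC a) (ρ a) (c a)))) :=
    hd.comp (PT.id.pair (hρc.pair (hρ.comp (PT.id.pair hpi))))
  have h1 : PT A (fun a => ((J a).map (fun l => xcN (dd a) (D1 a) (N a) (F a) (U a) (c a) l *
      (50 * dd a (ρ a (c a)) l + 201 * radN (dd a) (D1 a) (N a) (U a) (c a)))).sum) :=
    PT_sumMap (f := fun a l => xcN (dd a) (D1 a) (N a) (F a) (U a) (c a) l *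
      (50 * dd a (ρ a (c a)) l + 201 * radN (dd a) (D1 a) (N a) (U a) (c a))) hJ
      (PT.mul hx (PT.add (PT.mul (PT.const 50)
        (hd.comp (PT.fst'.pair ((hρc.comp PT.fst').pair PT.snd'))))
        (PT.mul (PT.const 201) (hrad.comp PT.fst'))))
  have h2 : PT A (fun a => ((J a).map (fun l => xcN (dd a) (D1 a) (N a) (F a) (U a) (c a) l *
      (50 * dd a (ρ a (c a)) (ρ a (piL (dd a) (CC a) (ρ a) (c a)))))).sum) :=
    PT_sumMap (f := fun a l => xcN (dd a) (D1 a) (N a) (F a) (U a) (c a) l *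
      (50 * dd a (ρ a (c a)) (ρ a (piL (dd a) (CC a) (ρ a) (c a))))) hJ
      (PT.mul hx (PT.mul (PT.const 50) (hdpi.comp PT.fst')))
  have h3 : PT A (fun a => if isoL (dd a) (D1 a) (N a) (U a) (CC a) (ρ a) (c a)
      then ((J a).map (fun l => xcN (dd a) (D1 a) (N a) (F a) (U a) (c a) l *
        (50 * dd a (ρ a (c a)) l + 201 * radN (dd a) (D1 a) (N a) (U a) (c a)))).sum
      else ((J a).map (fun l => xcN (dd a) (D1 a) (N a) (F a) (U a) (c a) l *
        (50 * dd a (ρ a (c a)) (ρ a (piL (dd a) (CC a) (ρ a) (c a)))))).sum) := by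
    refine (PT.cond (PT_isoL heq hd hD1 hD1b hN hU hC hρ hc) h1 h2).congr fun a => ?_
    rcases isoL (dd a) (D1 a) (N a) (U a) (CC a) (ρ a) (c a) <;> rfl
  exact PT.add (PT.mul (PT.const 60) (PT_crossN heq hd hD1 hD1b hN hJ hF hU hC hc)) h3

end

end Vale.Agent.P334.Alg
end

section
attribute [-instance] ProperSMul.toContinuousSMul IsTopologicalTorsor.toContinuousSMul IdemSemiring.toCanonicallyOrderedAdd IdemSemiring.toMulLeftMono IdemSemiring.toMulRightMono AddQuantale.instAddLeftMono AddQuantale.instAddRightMono Quantale.instMulLeftMono Quantale.instMulRightMono FiniteDimensional.rclike_to_real IsScalarTower.complexToReal FiniteDimensional.complexToReal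

/-!
Polynomial time for the pseudo-approximation algorithm.
-/

namespace Vale.Agent.P334.Alg

open Vale.Agent.Lib.PolyTime Function MachPT

variable {A : Set Word} {α X : Type} [Enc α] [Enc X]

/-! ### Parameters -/

/-- Computable in polynomial time with a polynomially bounded value. -/
def PN (A : Set Word) (f : α → ℕ) : Prop := PT A f ∧ PBd f

omit [Enc X] in
theorem PN.add {f g : α → ℕ} (hf : PN A f) (hg : PN A g) : PN A (fun a => f a + g a) :=
  ⟨PT.add hf.1 hg.1, hf.2.add hg.2⟩

omit [Enc X] in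
theorem PN.mul {f g : α → ℕ} (hf : PN A f) (hg : PN A g) : PN A (fun a => f a * g a) :=
  ⟨PT.mul hf.1 hg.1, hf.2.mul hg.2⟩

omit [Enc X] in
theorem PN.const (n : ℕ) : PN A (fun _ : α => n) := ⟨PT.const n, PBd.const n⟩

omit [Enc X] in
theorem PN.comp {β : Type} [Enc β] {f : α → ℕ} (hf : PN A f) {g : β → α} (hg : PT A g) :
    PN A (fun b => f (g b)) := ⟨hf.1.comp hg, hf.2.comp hg⟩

theorem PN.length {L : α → List X} (hL : PT A L) : PN A (fun a => (L a).length) :=
  ⟨hL.length, PBd.length hL⟩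

omit [Enc X] in
theorem PN_gP {n D : α → ℕ} (hn : PN A n) (hD : PN A D) : PN A (fun a => gP (n a) (D a)) :=
  (hn.mul (hD.add (PN.const 1))).add (PN.const 1)

omit [Enc X] in
theorem PN_mP {n φ D : α → ℕ} (hn : PN A n) (hφ : PN A φ) (hD : PN A D) :
    PN A (fun a => mP (n a) (φ a) (D a)) :=
  (((PN.const 200).mul hφ).mul hn).mul (hD.add (PN.const 1))

omit [Enc X] in
theorem PN_nP {n φ D : α → ℕ} (hn : PN A n) (hφ : PN A φ) (hD : PN A D) :
    PN A (fun a => nP (n a) (φ a) (D a)) :=
  ((((PN.const 400).mul hφ).mul (PN_gP hn hD)).mul (PN_gP hn hD)).mul (PN_mP hn hφ hD)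

omit [Enc X] in
theorem PN_mS {n : α → ℕ} (C : ℕ) (hn : PN A n) : PN A (fun a => mS C (n a)) :=
  (PN.const C).mul ⟨PT.natSize hn.1, hn.2.mono fun _ => Nat.size_le.2 Nat.lt_two_pow_self⟩

omit [Enc X] in
theorem PN_dlP {n : α → ℕ} (M : ℕ) (hn : PN A n) : PN A (fun a => dlP M (n a)) :=
  hn.mul ((PN.const 1).add ((PN.const (M + 1)).mul hn))

omit [Enc X] in
theorem PN_tP {n φ D : α → ℕ} (hn : PN A n) (hφ : PN A φ) (hD : PN A D) :
    PN A (fun a => tP (n a) (φ a) (D a)) := by
  have hD1 := hD.add (PN.const 1)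
  have hφ1 := hφ.add (PN.const 1)
  exact (((((PN.const 2).mul ((hn.mul hD1).add ((hn.mul hD1).mul hφ1))).add
    (hφ1.mul (((PN.const 2).mul (hn.mul hD1)).add (PN.const 4)))).add hφ).add (PN.const 3))

omit [Enc X] in
theorem PN_usP {n φ : α → ℕ} (e M C : ℕ) (hn : PN A n) (hφ : PN A φ) :
    PN A (fun a => usP e M C (n a) (φ a)) := by
  have hd := PN_dlP M hn
  have hm := (PN.const (α := α) (A := A) (M + 3)).mul (PN_mS C hn)
  have h2 := ((PN.const 2).mul hd).add (PN.const 1)
  exact (PN.const (1000 * e)).mul ((((hn.mul (hd.add (PN.const 4))).add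
    (h2.mul ((hφ.add ((PN.const 3).mul hm)).add (PN.const 2)))).add
      ((hφ.mul h2).mul hm)).add (PN.const 1000))

/-! ### Parts of the algorithm -/

section

variable [DecidableEq X]

omit [Enc X] in
theorem ddp_spec' (L : List X) : (ddp L).length ≤ L.length ∧ ∀ x ∈ ddp L, x ∈ L := by
  unfold ddp
  induction L with
  | nil => exact ⟨le_rfl, fun x hx => hx⟩
  | cons a L ih =>
    rw [List.foldr_cons]
    split_ifs with h
    · exact ⟨ih.1.trans (Nat.le_succ _), fun x hx => List.mem_cons_of_mem _ (ih.2 x hx)⟩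
    · refine ⟨Nat.succ_le_succ ih.1, fun x hx => ?_⟩
      rcases List.mem_cons.1 hx with rfl | hx
      · exact List.mem_cons_self
      · exact List.mem_cons_of_mem _ (ih.2 x hx)

theorem PT_ddp (heq : PT A (fun p : X × X => decide (p.1 = p.2))) {L : α → List X}
    (hL : PT A L) : PT A (fun a => ddp (L a)) := by
  refine PT.foldr (init := fun _ => ([] : List X)) (f := fun _ x l => if x ∈ l then l else x :: l)
    hL PT.nil (PT.ite (p := fun p : α × X × List X => p.2.1 ∈ p.2.2)
      (PT.mem' heq PT.snd'.snd PT.snd'.fst) PT.snd'.snd (PT.cons PT.snd'.fst PT.snd'.snd))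
    (b := fun a => (L a).length * (2 * esize (L a) + 1))
    ((PBd.length hL).mul (((PBd.const 2).mul hL.pbd).add (PBd.const 1))) fun a i => ?_
  have h := ddp_spec' ((L a).drop i)
  refine (esize_list_le (B := esize (L a)) fun x hx => ?_).trans (Nat.mul_le_mul_right _ ?_)
  · exact esize_le_of_mem (List.mem_of_mem_drop (h.2 x hx))
  · exact h.1.trans (by rw [List.length_drop]; omega)

theorem PT_nq (heq : PT A (fun p : X × X => decide (p.1 = p.2))) {J : α → List X}
    {pos : α → X → X} {v : α → X} (hJ : PT A J) (hpos : PT A (fun p : α × X => pos p.1 p.2))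
    (hv : PT A v) : PT A (fun a => nq (J a) (pos a) (v a)) :=
  PT_countP (f := fun a j => decide (pos a j = v a)) hJ (heq.comp (hpos.pair (hv.comp PT.fst')))

theorem PT_bq (heq : PT A (fun p : X × X => decide (p.1 = p.2))) {U : α → List X}
    {prj : α → X → X} {v : α → X} (hU : PT A U) (hprj : PT A (fun p : α × X => prj p.1 p.2))
    (hv : PT A v) : PT A (fun a => bq (U a) (prj a) (v a)) :=
  PT_countP (f := fun a u => decide (prj a u = v a)) hU (heq.comp (hprj.pair (hv.comp PT.fst')))

theorem PT_aq (heq : PT A (fun p : X × X => decide (p.1 = p.2)))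
    {dd : α → X → X → ℕ} {D1 N : α → ℕ} {J U : α → List X} {pos prj : α → X → X} {v : α → X}
    (hd : PT A (fun p : α × X × X => dd p.1 p.2.1 p.2.2)) (hD1 : PT A D1) (hD1b : PBd D1)
    (hN : PT A N) (hJ : PT A J) (hU : PT A U) (hpos : PT A (fun p : α × X => pos p.1 p.2))
    (hprj : PT A (fun p : α × X => prj p.1 p.2)) (hv : PT A v) :
    PT A (fun a => aq (dd a) (D1 a) (N a) (J a) (U a) (pos a) (prj a) (v a)) := by
  have h1 : PT A (fun a => (J a).filter (fun l => decide (pos a l ≠ v a))) :=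
    PT.filter (f := fun a l => decide (pos a l ≠ v a)) hJ
      (PT.decide_not (heq.comp (hpos.pair (hv.comp PT.fst'))))
  refine PT_sumMap (f := fun a l => (nearU (dd a) (D1 a) (N a) (U a) l).countP
    (fun u => decide (prj a u = v a))) h1 ?_
  exact PT_countP (f := fun (p : α × X) u => decide (prj p.1 u = v p.1))
    (PT_nearU (dd := fun p : α × X => dd p.1) (hd.comp (PT.fst'.fst.pair PT.snd'))
      (hD1.comp PT.fst') (hD1b.comp (A := A) PT.fst') (hN.comp PT.fst') (hU.comp PT.fst') PT.snd')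
    (heq.comp ((hprj.comp (PT.fst'.fst.pair PT.snd')).pair (hv.comp PT.fst'.fst)))

/-- The levels of the first case. -/
theorem PT_lv1 (heq : PT A (fun p : X × X => decide (p.1 = p.2))) (e M : ℕ)
    {top t f q : α → ℕ} {R : α → List X} {n' x b : α → X → ℕ} {v : α → X}
    (htop : PN A top) (ht : PT A t) (hf : PT A f) (hq : PT A q) (hR : PT A R)
    (hn : PT A (fun p : α × X => n' p.1 p.2)) (hx : PT A (fun p : α × X => x p.1 p.2))
    (hb : PT A (fun p : α × X => b p.1 p.2)) (hv : PT A v) :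
    PT A (fun a => wlL (tauL (top a) (t a) e) M (R a)
      (fun v s => capL M (t a) (f a) (n' a v) (x a v) (b a v) s) (q a) (v a)) := by
  have hv' : PT A (fun p : α × X × ℕ => (p.1, p.2.1)) := PT.fst'.pair PT.snd'.fst
  exact PT_wlL heq (τ := fun a => tauL (top a) (t a) e) (M := fun _ => M)
    (cap := fun a v s => capL M (t a) (f a) (n' a v) (x a v) (b a v) s)
    (PT_tauL (htop.1.comp PT.fst') (htop.2.comp (A := A) PT.fst') (ht.comp PT.fst') (PT.const e)
      PT.snd') (PT.const M) hR
    (PT_capL (PT.const M) (ht.comp PT.fst') (hf.comp PT.fst') (hn.comp hv') (hx.comp hv')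
      (hb.comp hv') PT.snd'.snd) hq hv

theorem PT_run1 (heq : PT A (fun p : X × X => decide (p.1 = p.2))) (e M C : ℕ)
    {dd : α → X → X → ℕ} {D k t : α → ℕ} {J F F1 R : α → List X} {pos : α → X → X}
    {n' x b : α → X → ℕ} (hd : PT A (fun p : α × X × X => dd p.1 p.2.1 p.2.2)) (hD : PN A D)
    (hk : PT A k) (ht : PT A t) (hJ : PT A J) (hF : PT A F)
    (hpos : PT A (fun p : α × X => pos p.1 p.2)) (hF1 : PT A F1) (hR : PT A R)
    (hn : PT A (fun p : α × X => n' p.1 p.2)) (hx : PT A (fun p : α × X => x p.1 p.2))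
    (hb : PT A (fun p : α × X => b p.1 p.2)) :
    PT A (fun a => run1 (dd a) (D a) e M C (k a) (t a) (J a) (F a) (pos a) (F1 a) (R a) (n' a)
      (x a) (b a)) := by
  have hJn := PN.length hJ
  have hFn := PN.length hF
  have hm := (PN.const (α := α) (A := A) (M + 3)).mul (PN_mS C hJn)
  have hD1 := hD.add (PN.const 1)
  have hT := PN_tP hJn hFn hD
  have hfm := hJn.mul hD1
  refine PT_machine heq (mg := fun a f q => mgP (dd a) (J a) (pos a)
      (wlL (tauL (D a + 1) (t a) e) M (R a)
        (fun v s => capL M (t a) f (n' a v) (x a v) (b a v) s) (q + 1)))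
    (F := F1) (O := fun _ => []) ?_ hF1 PT.nil
    (PT.add hk (PT.mul (PT.const 3) hm.1)) hm.1 hm.2 hfm.1 hfm.2 hT.1 hT.2 (PN_dlP M hJn).1
  refine PT_mgP (dd := fun p : α × ℕ × ℕ × X × List X => dd p.1) (pos := fun p => pos p.1)
    (lv := fun p => wlL (tauL (D p.1 + 1) (t p.1) e) M (R p.1)
        (fun v s => capL M (t p.1) p.2.1 (n' p.1 v) (x p.1 v) (b p.1 v) s) (p.2.2.1 + 1))
    (hd.comp (PT.fst'.fst.pair PT.snd')) (hJ.comp PT.fst')
    (hpos.comp (PT.fst'.fst.pair PT.snd')) ?_ PT.snd'.snd.snd.fst PT.snd'.snd.snd.snd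
  exact PT_lv1 heq e M (top := fun p : (α × ℕ × ℕ × X × List X) × X => D p.1.1 + 1)
    (n' := fun p => n' p.1.1) (x := fun p => x p.1.1) (b := fun p => b p.1.1)
    (hD1.comp PT.fst'.fst) (ht.comp PT.fst'.fst)
    PT.fst'.snd.fst (PT.add PT.fst'.snd.snd.fst (PT.const 1)) (hR.comp PT.fst'.fst)
    (hn.comp (PT.fst'.fst.fst.pair PT.snd')) (hx.comp (PT.fst'.fst.fst.pair PT.snd'))
    (hb.comp (PT.fst'.fst.fst.pair PT.snd')) PT.snd'

theorem PT_cand1 (heq : PT A (fun p : X × X => decide (p.1 = p.2))) (e M C : ℕ)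
    {dd : α → X → X → ℕ} {D k t N m gg : α → ℕ} {J F U : α → List X}
    (hd : PT A (fun p : α × X × X => dd p.1 p.2.1 p.2.2)) (hD : PN A D)
    (hk : PT A k) (ht : PT A t) (hJ : PT A J) (hF : PT A F) (hN : PT A N) (hm : PT A m)
    (hgg : PT A gg) (hU : PT A U) :
    PT A (fun a => cand1 (dd a) (D a) e M C (k a) (t a) (J a) (F a) (N a) (m a) (gg a)
      (U a)) := by
  have hD1 := hD.add (PN.const 1)
  have hD1' : PBd (fun p : α × X => D p.1 + 1) := hD1.2.comp (A := A) PT.fst'
  have hd' : PT A (fun p : (α × X) × X × X => dd p.1.1 p.2.1 p.2.2) :=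
    hd.comp (PT.fst'.fst.pair PT.snd')
  have hCC := PT_ccL heq hd hD1.1 hD1.2 hN hm hgg hJ hF hU
  have hrho : PT A (fun p : α × X =>
      rhoL (dd p.1) (D p.1 + 1) (N p.1) (m p.1) (gg p.1) (J p.1) (F p.1) (U p.1) p.2) :=
    PT_rhoL heq (dd := fun p : α × X => dd p.1) hd' (hD1.1.comp PT.fst') hD1' (hN.comp PT.fst')
      (hm.comp PT.fst') (hgg.comp PT.fst') (hJ.comp PT.fst') (hF.comp PT.fst') (hU.comp PT.fst')
      PT.snd'
  have hnear : PT A (fun p : α × X =>
      nearL (dd p.1) (D p.1 + 1) (N p.1) (m p.1) (gg p.1) (J p.1) (F p.1) (U p.1) p.2) :=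
    PT_nearL heq (dd := fun p : α × X => dd p.1) hd' (hD1.1.comp PT.fst') hD1' (hN.comp PT.fst')
      (hm.comp PT.fst') (hgg.comp PT.fst') (hJ.comp PT.fst') (hF.comp PT.fst') (hU.comp PT.fst')
      PT.snd'
  have hitr : PT A (fun p : α × X =>
      itrL (dd p.1) (D p.1 + 1) (N p.1) (J p.1) (U p.1) p.2) :=
    PT_itrL (dd := fun p : α × X => dd p.1) hd' (hD1.1.comp PT.fst') hD1' (hN.comp PT.fst')
      (hJ.comp PT.fst') (hU.comp PT.fst') PT.snd'
  have hprj : PT A (fun p : α × X =>
      snapL (ccL (dd p.1) (D p.1 + 1) (N p.1) (m p.1) (gg p.1) (J p.1) (F p.1) (U p.1))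
        (nearL (dd p.1) (D p.1 + 1) (N p.1) (m p.1) (gg p.1) (J p.1) (F p.1) (U p.1))
        (rhoL (dd p.1) (D p.1 + 1) (N p.1) (m p.1) (gg p.1) (J p.1) (F p.1) (U p.1)) p.2) :=
    PT_snapL heq (AA := fun p : α × X =>
        nearL (dd p.1) (D p.1 + 1) (N p.1) (m p.1) (gg p.1) (J p.1) (F p.1) (U p.1))
      (ρ := fun p : α × X =>
        rhoL (dd p.1) (D p.1 + 1) (N p.1) (m p.1) (gg p.1) (J p.1) (F p.1) (U p.1))
      (hCC.comp PT.fst') (hnear.comp (PT.fst'.fst.pair PT.snd'))
      (hrho.comp (PT.fst'.fst.pair PT.snd')) PT.snd'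
  have hpos : PT A (fun p : α × X =>
      snapL (ccL (dd p.1) (D p.1 + 1) (N p.1) (m p.1) (gg p.1) (J p.1) (F p.1) (U p.1))
        (itrL (dd p.1) (D p.1 + 1) (N p.1) (J p.1) (U p.1))
        (rhoL (dd p.1) (D p.1 + 1) (N p.1) (m p.1) (gg p.1) (J p.1) (F p.1) (U p.1)) p.2) :=
    PT_snapL heq (AA := fun p : α × X => itrL (dd p.1) (D p.1 + 1) (N p.1) (J p.1) (U p.1))
      (ρ := fun p : α × X =>
        rhoL (dd p.1) (D p.1 + 1) (N p.1) (m p.1) (gg p.1) (J p.1) (F p.1) (U p.1))
      (hCC.comp PT.fst') (hitr.comp (PT.fst'.fst.pair PT.snd'))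
      (hrho.comp (PT.fst'.fst.pair PT.snd')) PT.snd'
  have hF1 := PT_ddp heq (PT.map (f := fun a =>
      snapL (ccL (dd a) (D a + 1) (N a) (m a) (gg a) (J a) (F a) (U a))
        (nearL (dd a) (D a + 1) (N a) (m a) (gg a) (J a) (F a) (U a))
        (rhoL (dd a) (D a + 1) (N a) (m a) (gg a) (J a) (F a) (U a))) hF hprj)
  have hR := PT.map (f := fun a =>
    rhoL (dd a) (D a + 1) (N a) (m a) (gg a) (J a) (F a) (U a)) hCC hrho
  exact PT_run1 heq e M C
    (pos := fun a => snapL (ccL (dd a) (D a + 1) (N a) (m a) (gg a) (J a) (F a) (U a))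
      (itrL (dd a) (D a + 1) (N a) (J a) (U a))
      (rhoL (dd a) (D a + 1) (N a) (m a) (gg a) (J a) (F a) (U a)))
    hd hD hk ht hJ hF hpos hF1 hR
    (PT_nq heq (pos := fun p : α × X => snapL
        (ccL (dd p.1) (D p.1 + 1) (N p.1) (m p.1) (gg p.1) (J p.1) (F p.1) (U p.1))
        (itrL (dd p.1) (D p.1 + 1) (N p.1) (J p.1) (U p.1))
        (rhoL (dd p.1) (D p.1 + 1) (N p.1) (m p.1) (gg p.1) (J p.1) (F p.1) (U p.1)))
      (hJ.comp PT.fst') (hpos.comp (PT.fst'.fst.pair PT.snd')) PT.snd')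
    (PT_aq heq (dd := fun p : α × X => dd p.1) (pos := fun p : α × X => snapL
        (ccL (dd p.1) (D p.1 + 1) (N p.1) (m p.1) (gg p.1) (J p.1) (F p.1) (U p.1))
        (itrL (dd p.1) (D p.1 + 1) (N p.1) (J p.1) (U p.1))
        (rhoL (dd p.1) (D p.1 + 1) (N p.1) (m p.1) (gg p.1) (J p.1) (F p.1) (U p.1)))
      (prj := fun p : α × X => snapL
        (ccL (dd p.1) (D p.1 + 1) (N p.1) (m p.1) (gg p.1) (J p.1) (F p.1) (U p.1))
        (nearL (dd p.1) (D p.1 + 1) (N p.1) (m p.1) (gg p.1) (J p.1) (F p.1) (U p.1))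
        (rhoL (dd p.1) (D p.1 + 1) (N p.1) (m p.1) (gg p.1) (J p.1) (F p.1) (U p.1)))
      hd' (hD1.1.comp PT.fst') hD1' (hN.comp PT.fst') (hJ.comp PT.fst') (hU.comp PT.fst')
      (hpos.comp (PT.fst'.fst.pair PT.snd')) (hprj.comp (PT.fst'.fst.pair PT.snd')) PT.snd')
    (PT_bq heq (prj := fun p : α × X => snapL
        (ccL (dd p.1) (D p.1 + 1) (N p.1) (m p.1) (gg p.1) (J p.1) (F p.1) (U p.1))
        (nearL (dd p.1) (D p.1 + 1) (N p.1) (m p.1) (gg p.1) (J p.1) (F p.1) (U p.1))
        (rhoL (dd p.1) (D p.1 + 1) (N p.1) (m p.1) (gg p.1) (J p.1) (F p.1) (U p.1)))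
      (hU.comp PT.fst') (hprj.comp (PT.fst'.fst.pair PT.snd')) PT.snd')

theorem PT_run2 (heq : PT A (fun p : X × X => decide (p.1 = p.2))) (e C : ℕ)
    {dd : α → X → X → ℕ} {D k t : α → ℕ} {J F O : α → List X}
    (hd : PT A (fun p : α × X × X => dd p.1 p.2.1 p.2.2)) (hD : PN A D)
    (hk : PT A k) (ht : PT A t) (hJ : PT A J) (hF : PT A F) (hO : PT A O) :
    PT A (fun a => run2 (dd a) (D a) e C (k a) (t a) (J a) (F a) (O a)) := by
  have hJn := PN.length hJ
  have hm := PN_mS C hJn
  have hD1 := hD.add (PN.const 1)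
  have hT := PN_tP hJn (PN.length hF) hD
  have hfm := hJn.mul hD1
  refine PT_machine heq (mg := fun a _ q => mgP (dd a) (J a) (fun j => j)
      (fun _ => tauL (D a + 1) (t a) e (q + 1))) ?_ hF hO
    (PT.add (PT.add hk (PT.mul (PT.const 3) hm.1)) (PT.const 2)) hm.1 hm.2 hfm.1 hfm.2 hT.1 hT.2
    (PT.const 0)
  exact PT_mgP (dd := fun p : α × ℕ × ℕ × X × List X => dd p.1) (pos := fun _ j => j)
    (lv := fun p _ => tauL (D p.1 + 1) (t p.1) e (p.2.2.1 + 1))
    (hd.comp (PT.fst'.fst.pair PT.snd')) (hJ.comp PT.fst') PT.snd'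
    (PT_tauL (hD1.1.comp PT.fst'.fst) (hD1.2.comp (A := A) PT.fst'.fst) (ht.comp PT.fst'.fst)
      (PT.const e) (PT.add PT.fst'.snd.snd.fst (PT.const 1)))
    PT.snd'.snd.snd.fst PT.snd'.snd.snd.snd

theorem PT_cands2 (heq : PT A (fun p : X × X => decide (p.1 = p.2))) (e C : ℕ)
    {dd : α → X → X → ℕ} {D k t N m gg : α → ℕ} {J F U : α → List X}
    (hd : PT A (fun p : α × X × X => dd p.1 p.2.1 p.2.2)) (hD : PN A D)
    (hk : PT A k) (ht : PT A t) (hJ : PT A J) (hF : PT A F) (hN : PT A N) (hm : PT A m)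
    (hgg : PT A gg) (hU : PT A U) :
    PT A (fun a => cands2 (dd a) (D a) e C (k a) (t a) (J a) (F a) (N a) (m a) (gg a)
      (U a)) := by
  have hD1 := hD.add (PN.const 1)
  have hD1' : PBd (fun p : α × X => D p.1 + 1) := hD1.2.comp (A := A) PT.fst'
  have hd' : PT A (fun p : (α × X) × X × X => dd p.1.1 p.2.1 p.2.2) :=
    hd.comp (PT.fst'.fst.pair PT.snd')
  have hCC := PT_ccL heq hd hD1.1 hD1.2 hN hm hgg hJ hF hU
  have hrho : PT A (fun p : α × X =>
      rhoL (dd p.1) (D p.1 + 1) (N p.1) (m p.1) (gg p.1) (J p.1) (F p.1) (U p.1) p.2) :=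
    PT_rhoL heq (dd := fun p : α × X => dd p.1) hd' (hD1.1.comp PT.fst') hD1' (hN.comp PT.fst')
      (hm.comp PT.fst') (hgg.comp PT.fst') (hJ.comp PT.fst') (hF.comp PT.fst') (hU.comp PT.fst')
      PT.snd'
  have hpi : PT A (fun p : α × X => piL (dd p.1)
      (ccL (dd p.1) (D p.1 + 1) (N p.1) (m p.1) (gg p.1) (J p.1) (F p.1) (U p.1))
      (rhoL (dd p.1) (D p.1 + 1) (N p.1) (m p.1) (gg p.1) (J p.1) (F p.1) (U p.1)) p.2) :=
    PT_piL heq (dd := fun p : α × X => dd p.1)
      (ρ := fun p : α × X =>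
        rhoL (dd p.1) (D p.1 + 1) (N p.1) (m p.1) (gg p.1) (J p.1) (F p.1) (U p.1))
      hd' (hCC.comp PT.fst') (hrho.comp (PT.fst'.fst.pair PT.snd')) PT.snd'
  have hlam : PT A (fun p : α × X =>
      lamN (dd p.1) (D p.1 + 1) (N p.1) (J p.1) (F p.1) (U p.1)
      (ccL (dd p.1) (D p.1 + 1) (N p.1) (m p.1) (gg p.1) (J p.1) (F p.1) (U p.1))
      (rhoL (dd p.1) (D p.1 + 1) (N p.1) (m p.1) (gg p.1) (J p.1) (F p.1) (U p.1)) p.2) :=
    PT_lamN heq (dd := fun p : α × X => dd p.1)
      (ρ := fun p : α × X =>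
        rhoL (dd p.1) (D p.1 + 1) (N p.1) (m p.1) (gg p.1) (J p.1) (F p.1) (U p.1))
      hd' (hD1.1.comp PT.fst') hD1' (hN.comp PT.fst') (hJ.comp PT.fst') (hF.comp PT.fst')
      (hU.comp PT.fst') (hCC.comp PT.fst') (hrho.comp (PT.fst'.fst.pair PT.snd')) PT.snd'
  have hib : PT A (fun p : α × X => !ibL (dd p.1) (D p.1 + 1) (N p.1) (F p.1).length (F p.1)
      (U p.1) (ccL (dd p.1) (D p.1 + 1) (N p.1) (m p.1) (gg p.1) (J p.1) (F p.1) (U p.1))
      (rhoL (dd p.1) (D p.1 + 1) (N p.1) (m p.1) (gg p.1) (J p.1) (F p.1) (U p.1)) p.2) :=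
    (PT_ibL heq (dd := fun p : α × X => dd p.1)
      (ρ := fun p : α × X =>
        rhoL (dd p.1) (D p.1 + 1) (N p.1) (m p.1) (gg p.1) (J p.1) (F p.1) (U p.1))
      hd' (hD1.1.comp PT.fst') hD1' (hN.comp PT.fst') (hF.length.comp PT.fst')
      (hF.comp PT.fst') (hU.comp PT.fst') (hCC.comp PT.fst')
      (hrho.comp (PT.fst'.fst.pair PT.snd')) PT.snd').not
  have hcl := PT_closeCands heq
    (π := fun a => piL (dd a)
      (ccL (dd a) (D a + 1) (N a) (m a) (gg a) (J a) (F a) (U a))
      (rhoL (dd a) (D a + 1) (N a) (m a) (gg a) (J a) (F a) (U a)))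
    (lam := fun a => lamN (dd a) (D a + 1) (N a) (J a) (F a) (U a)
      (ccL (dd a) (D a + 1) (N a) (m a) (gg a) (J a) (F a) (U a))
      (rhoL (dd a) (D a + 1) (N a) (m a) (gg a) (J a) (F a) (U a)))
    hpi hlam hCC (PT.filter (f := fun a c => !ibL (dd a) (D a + 1) (N a) (F a).length (F a)
      (U a) (ccL (dd a) (D a + 1) (N a) (m a) (gg a) (J a) (F a) (U a))
      (rhoL (dd a) (D a + 1) (N a) (m a) (gg a) (J a) (F a) (U a)) c) hCC hib)
  have hO : PT A (fun p : α × List X =>
      ((ccL (dd p.1) (D p.1 + 1) (N p.1) (m p.1) (gg p.1) (J p.1) (F p.1) (U p.1)).filter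
        (fun c => decide (c ∉ p.2))).map
      (rhoL (dd p.1) (D p.1 + 1) (N p.1) (m p.1) (gg p.1) (J p.1) (F p.1) (U p.1))) :=
    PT.map (f := fun p : α × List X =>
      rhoL (dd p.1) (D p.1 + 1) (N p.1) (m p.1) (gg p.1) (J p.1) (F p.1) (U p.1))
      (PT.filter (f := fun (p : α × List X) c => decide (c ∉ p.2)) (hCC.comp PT.fst')
        (PT.decide_not (PT.mem' heq PT.fst'.snd PT.snd')))
      (hrho.comp (PT.fst'.fst.pair PT.snd'))
  refine PT.map (f := fun a Z => run2 (dd a) (D a) e C (k a) (t a) (J a) (F a)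
    (((ccL (dd a) (D a + 1) (N a) (m a) (gg a) (J a) (F a) (U a)).filter
      (fun c => decide (c ∉ Z))).map
      (rhoL (dd a) (D a + 1) (N a) (m a) (gg a) (J a) (F a) (U a)))) hcl ?_
  exact PT_run2 heq e C (dd := fun p : α × List X => dd p.1) (D := fun p => D p.1)
    (hd.comp (PT.fst'.fst.pair PT.snd')) (hD.comp PT.fst') (hk.comp PT.fst') (ht.comp PT.fst')
    (hJ.comp PT.fst') (hF.comp PT.fst') hO

theorem PT_candsW (heq : PT A (fun p : X × X => decide (p.1 = p.2))) (e M C : ℕ)
    {dd : α → X → X → ℕ} {D k w : α → ℕ} {J F : α → List X}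
    (hd : PT A (fun p : α × X × X => dd p.1 p.2.1 p.2.2)) (hD : PN A D)
    (hk : PT A k) (hJ : PT A J) (hF : PT A F) (hw : PT A w) :
    PT A (fun a => candsW (dd a) (D a) e M C (k a) (J a) (F a) (w a)) := by
  have hJn := PN.length hJ
  have hFn := PN.length hF
  have hD1 := hD.add (PN.const 1)
  have hN := PN_nP hJn hFn hD
  have hm := PN_mP hJn hFn hD
  have hG := PN_gP hJn hD
  have hU := PT_lmSearch heq hd hD1.1 hD1.2 hN.1 hN.2 hk hw hG.1 hm.1 hm.2 hJ hF
  have hgg := PT_gfm hk hw hN.1 hG.1 hm.1 (PT.sub hU.length (PT.const 1))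
  have ht := PT.div hw (PT.mul (PT.const 16) hJ.length)
  exact PT.cons (PT_cand1 heq e M C hd hD hk ht hJ hF hN.1 hm.1 hgg hU)
    (PT_cands2 heq e C hd hD hk ht hJ hF hN.1 hm.1 hgg hU)

theorem PT_candsP (heq : PT A (fun p : X × X => decide (p.1 = p.2))) (e M C : ℕ)
    {dd : α → X → X → ℕ} {D k : α → ℕ} {J F : α → List X}
    (hd : PT A (fun p : α × X × X => dd p.1 p.2.1 p.2.2)) (hD : PN A D)
    (hk : PT A k) (hJ : PT A J) (hF : PT A F) :
    PT A (fun a => candsP (dd a) (D a) e M C (k a) (J a) (F a)) := by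
  have hr := ((PN.length hJ).mul (hD.add (PN.const 1))).add (PN.const 1)
  exact PT.cons hJ (PT.cons hF (PT.append
    (PT.map (f := fun _ i => [i]) hF (PT.cons PT.snd' (PT.const [])))
    (PT.flatMap (f := fun a => candsW (dd a) (D a) e M C (k a) (J a) (F a))
      (PT.range hr.1 hr.2)
      (PT_candsW heq e M C (dd := fun p : α × ℕ => dd p.1) (D := fun p => D p.1)
        (hd.comp (PT.fst'.fst.pair PT.snd')) (hD.comp PT.fst') (hk.comp PT.fst')
        (hJ.comp PT.fst') (hF.comp PT.fst') PT.snd'))))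

theorem PT_validP (heq : PT A (fun p : X × X => decide (p.1 = p.2))) {b : α → ℕ}
    {F S : α → List X} (hb : PT A b) (hF : PT A F) (hS : PT A S) :
    PT A (fun a => validP (b a) (F a) (S a)) := by
  have h1 : PT A (fun a => decide (S a ≠ [])) :=
    (PT.lt (PT.const 0) hS.length).congr fun a => by
      rw [Bool.eq_iff_iff]
      simp [List.length_pos_iff]
  exact PT.decide_and h1 (PT.decide_and (PT_nodup heq hS) (PT.decide_and
    (PT_ballList (p := fun a x => x ∈ F a) hS (PT.mem' heq (hF.comp PT.fst') PT.snd'))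
    (PT.le hS.length hb)))

/-- The pseudo-approximation algorithm runs in polynomial time. -/
theorem PT_pseudoP (heq : PT A (fun p : X × X => decide (p.1 = p.2))) (e M C : ℕ)
    {dd : α → X → X → ℕ} {D k : α → ℕ} {J F : α → List X}
    (hd : PT A (fun p : α × X × X => dd p.1 p.2.1 p.2.2)) (hD : PT A D) (hDb : PBd D)
    (hk : PT A k) (hJ : PT A J) (hF : PT A F) :
    PT A (fun a => pseudoP e M C (dd a) (D a) (J a) (F a) (k a)) := by
  have hm := (PN.const (α := α) (A := A) (M + 3)).mul (PN_mS C (PN.length hJ))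
  refine PT_argmin (f := fun a => cst (dd a) (D a) (J a))
    (PT_cst (dd := fun p : α × List X => dd p.1) (hd.comp (PT.fst'.fst.pair PT.snd'))
      (hD.comp PT.fst') (hJ.comp PT.fst') PT.snd') (PT.take hF (PT.const 1))
    (PT.filter (f := fun a => validP (k a + 3 * ((M + 3) * mS C (J a).length)) (F a))
      (PT_candsP heq e M C hd ⟨hD, hDb⟩ hk hJ hF) ?_)
  exact PT_validP heq (b := fun p : α × List X =>
    k p.1 + 3 * ((M + 3) * mS C (J p.1).length))
    (PT.add (hk.comp PT.fst') (PT.mul (PT.const 3) (hm.1.comp PT.fst'))) (hF.comp PT.fst') PT.snd'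

end

/-- The pseudo-approximation algorithm, in the form used in Part 1. -/
theorem PTPseudo_pseudoP (e M C : ℕ) : One.PTPseudo (pseudoP e M C) :=
  fun _ _ _ _ _ _ _ hd _ hl hlb hJ hF hk _ =>
    PT_pseudoP (PT.eqNat PT.fst' PT.snd') e M C hd hl hlb hk hJ hF

theorem PTU_usP (e M C : ℕ) : One.PTU (usP e M C) :=
  fun _ _ _ _ hn hnb hf hfb => PN_usP e M C ⟨hn, hnb⟩ ⟨hf, hfb⟩

end Vale.Agent.P334.Alg
end
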