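import Vale.Agent.P334.MathlibUsed
import Vale.Agent.P334.Bdl.B1
import Vale.Agent.P334.Bdl.B2
import Vale.Agent.P334.Defs
import Vale.Agent.Lib.PolyTime.NatArith2
import Vale.Agent.Lib.PolyTime.Lists2
import Vale.Agent.Lib.PolyTime.TypedTM2

set_option linter.all false

section

/-!
Chains with interpolated levels: the dual fitting inequality without loss in the price for stars
with many clients at the facility.
-/

namespace Vale.Agent.P334

open Finset

variable {X : Type} [MetricSpace X]

section Pos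

variable [DecidableEq X]

/-- The potential for clients placed at the positions `pos j`. -/
noncomputable def posPot (J : Finset X) (pos : X → X) (lev : X → ℝ) : Pot X where
  φ S := ∑ j ∈ J, tr (lev (pos j)) (pos j) S
  mg x S := ∑ j ∈ J, max (tr (lev (pos j)) (pos j) S - dist x (pos j)) 0
  ins x Q _ := by
    rw [← Finset.sum_sub_distrib]
    refine Finset.sum_congr rfl (fun j _ => ?_)
    rw [tr_insert]
    rcases le_total (dist x (pos j)) (tr (lev (pos j)) (pos j) Q) with h | h
    · rw [min_eq_left h, max_eq_left (by linarith)]; ring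
    · rw [min_eq_right h, max_eq_right (by linarith)]; ring
  anti x Q R h := Finset.sum_le_sum (fun j _ => max_le_max (by
    linarith [tr_anti (t := lev (pos j)) (j := pos j) h]) le_rfl)
  nonneg x Q := Finset.sum_nonneg (fun j _ => le_max_right _ _)
  mem x Q hx := Finset.sum_eq_zero (fun j _ => max_eq_right (by
    linarith [tr_le_dist (t := lev (pos j)) (j := pos j) hx]))

lemma continuous_tr {l : ℝ → ℝ} (hl : Continuous l) (v : X) (S : Finset X) :
    Continuous (fun f => tr (l f) v S) := by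
  induction S using Finset.induction_on with
  | empty =>
    have : (fun f => tr (l f) v (∅ : Finset X)) = l := by
      funext f; simp only [tr, fold_empty]
    rw [this]; exact hl
  | insert a S ha ih =>
    simp only [tr_insert]
    exact continuous_const.min ih

/-- A small value of the potential is an upper bound for the cost. -/
lemma pos_cost_le {J S : Finset X} {pos : X → X} {lev : X → ℝ} {τ : ℝ} (hlev : ∀ v, lev v = τ)
    (hτ : 0 ≤ τ) (h : (posPot J pos lev).φ S < τ) :
    ∑ j ∈ J, Metric.infDist (pos j) (S : Set X) ≤ (posPot J pos lev).φ S := by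
  show _ ≤ ∑ j ∈ J, tr (lev (pos j)) (pos j) S
  refine Finset.sum_le_sum (fun j hj => ?_)
  apply infDist_le_tr
  have h1 : tr (lev (pos j)) (pos j) S ≤ ∑ j ∈ J, tr (lev (pos j)) (pos j) S :=
    Finset.single_le_sum (f := fun j => tr (lev (pos j)) (pos j) S)
      (fun j' _ => tr_nonneg (by rw [hlev]; exact hτ) (pos j') S) hj
  have h2 : ∑ j ∈ J, tr (lev (pos j)) (pos j) S < τ := h
  rw [hlev] at h1 ⊢
  linarith

/-- The accounting along a chain. -/
lemma pos_chain_total (J : Finset X) (pos : X → X) (α : ℕ → X → ℝ) (f : ℝ) (S : ℕ → Finset X)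
    (m : ℕ) (h : ∀ q, q < m → (posPot J pos (α (q + 1))).tot f (S (q + 1))
      ≤ (posPot J pos (α (q + 1))).tot f (S q) + 3 * f) :
    ∀ q, q ≤ m → (posPot J pos (α q)).tot f (S q) ≤ (posPot J pos (α 0)).tot f (S 0)
      + ∑ j ∈ J, ∑ p ∈ Finset.range q,
        (tr (α (p + 1) (pos j)) (pos j) (S p) - tr (α p (pos j)) (pos j) (S p))
      + 3 * f * q := by
  intro q
  induction q with
  | zero => intro _; simp
  | succ q ih =>
    intro hq
    have h1 := ih (by omega)
    have h2 := h q (by omega)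
    have h3 : (posPot J pos (α (q + 1))).tot f (S q) = (posPot J pos (α q)).tot f (S q)
        + ∑ j ∈ J, (tr (α (q + 1) (pos j)) (pos j) (S q) - tr (α q (pos j)) (pos j) (S q)) := by
      unfold Pot.tot
      rw [Finset.sum_sub_distrib]
      show ∑ j ∈ J, tr (α (q + 1) (pos j)) (pos j) (S q) + f * _
        = ∑ j ∈ J, tr (α q (pos j)) (pos j) (S q) + f * _ + _
      ring
    have h4 : ∑ j ∈ J, ∑ p ∈ Finset.range (q + 1),
          (tr (α (p + 1) (pos j)) (pos j) (S p) - tr (α p (pos j)) (pos j) (S p))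
        = ∑ j ∈ J, ∑ p ∈ Finset.range q,
          (tr (α (p + 1) (pos j)) (pos j) (S p) - tr (α p (pos j)) (pos j) (S p))
          + ∑ j ∈ J, (tr (α (q + 1) (pos j)) (pos j) (S q) - tr (α q (pos j)) (pos j) (S q)) := by
      rw [← Finset.sum_add_distrib]
      refine Finset.sum_congr rfl (fun j _ => ?_)
      rw [Finset.sum_range_succ]
    rw [h4]
    push_cast
    linarith only [h1, h2, h3]

/-- The star constraints for uniform levels and clients at positions. -/
lemma pos_star_constraint {J F : Finset X} {pos : X → X} {τ : ℕ → ℝ} {S : ℕ → Finset X} {m : ℕ}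
    {f : ℝ} (hf : 0 ≤ f) (hτ0 : τ 0 = 0) (hτ : ∀ p, τ p ≤ τ (p + 1))
    (hS : ∀ q, q < m → S q ⊆ S (q + 1))
    (hmax : ∀ q, q < m → (posPot J pos (fun _ => τ (q + 1))).IsMax F f (S (q + 1)))
    {i : X} (hi : i ∈ F) {w : X → ℝ} (hw1 : ∀ j ∈ J, w j ≤ 1)
    {l₁ l₂ : X} (hl : lastLev (fun p _ => τ p) S m (pos l₁)
      ≤ lastLev (fun p _ => τ p) S m (pos l₂)) :
    ∑ j ∈ J, (if lastLev (fun p _ => τ p) S m (pos j) < lastLev (fun p _ => τ p) S m (pos l₁)
      then w j * max (τ (lastLev (fun p _ => τ p) S m (pos l₂)) - dist i (pos l₂)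
        - 2 * dist i (pos j)) 0
      else w j * max (τ (lastLev (fun p _ => τ p) S m (pos l₁)) - dist i (pos j)) 0) ≤ f := by
  set c := lastLev (fun p (_ : X) => τ p) S m with hc
  have hτmono : Monotone τ := monotone_nat_of_le_succ hτ
  have hτnn : ∀ p, 0 ≤ τ p := fun p => by rw [← hτ0]; exact hτmono (Nat.zero_le p)
  have hα0 : ∀ j : X, (fun (p : ℕ) (_ : X) => τ p) 0 j = 0 := fun _ => hτ0
  have hα : ∀ (p : ℕ) (j : X), (fun (p : ℕ) (_ : X) => τ p) p j
      ≤ (fun (p : ℕ) (_ : X) => τ p) (p + 1) j := fun p _ => hτ p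
  rcases Nat.eq_zero_or_pos (c (pos l₁)) with hq | hq
  · rw [hq, hτ0]
    refine le_trans (Finset.sum_nonpos (fun j _ => ?_)) hf
    rw [if_neg (Nat.not_lt_zero _),
      max_eq_right (by linarith only [dist_nonneg (x := i) (y := pos j)]), mul_zero]
  · obtain ⟨q, hq'⟩ : ∃ q, c (pos l₁) = q + 1 := ⟨c (pos l₁) - 1, by omega⟩
    have hqm : q + 1 ≤ m := by rw [← hq']; exact lastLev_le (pos l₁)
    have h1 := hmax q (by omega) i hi
    refine le_trans (Finset.sum_le_sum (fun j hj => ?_)) h1
    rw [hq']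
    have hpos : 0 ≤ max (tr (τ (q + 1)) (pos j) (S (q + 1)) - dist i (pos j)) 0 := le_max_right _ _
    have hkey : ∀ z : ℝ, z ≤ tr (τ (q + 1)) (pos j) (S (q + 1)) - dist i (pos j) →
        w j * max z 0 ≤ max (tr (τ (q + 1)) (pos j) (S (q + 1)) - dist i (pos j)) 0 := by
      intro z hz
      have h2 : max z 0 ≤ max (tr (τ (q + 1)) (pos j) (S (q + 1)) - dist i (pos j)) 0 :=
        max_le_max hz le_rfl
      have h3 : 0 ≤ max z 0 := le_max_right _ _
      calc w j * max z 0 ≤ 1 * max z 0 := mul_le_mul_of_nonneg_right (hw1 j hj) h3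
        _ ≤ _ := by rw [one_mul]; exact h2
    split_ifs with hjc
    · apply hkey
      have hfar : ∀ i' ∈ S (q + 1), τ (c (pos l₂)) - dist i (pos l₂) - dist i (pos j)
          ≤ dist i' (pos j) := by
        intro i' hi'
        have h2 := lev_le_dist (j := pos l₂) hα0 hα hS
          (by show q + 1 ≤ c (pos l₂); omega) i' hi'
        have h3 : dist i' (pos l₂) ≤ dist i' (pos j) + dist i (pos j) + dist i (pos l₂) := by
          calc dist i' (pos l₂) ≤ dist i' (pos j) + dist (pos j) (pos l₂) := dist_triangle _ _ _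
            _ ≤ dist i' (pos j) + (dist (pos j) i + dist i (pos l₂)) := by
                linarith only [dist_triangle (pos j) i (pos l₂)]
            _ = _ := by rw [dist_comm (pos j) i]; ring
        change τ (c (pos l₂)) ≤ dist i' (pos l₂) at h2
        linarith only [h3, h2]
      obtain ⟨i', hi', hlt⟩ := exists_near (α := fun p _ => τ p) (S := S) (m := m) (pos j)
        (by show c (pos j) < q + 1; omega) hqm
      have : τ (c (pos l₂)) - dist i (pos l₂) - dist i (pos j)
          ≤ tr (τ (q + 1)) (pos j) (S (q + 1)) := by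
        refine le_tr.mpr ⟨?_, hfar⟩
        have := hfar i' hi'
        change dist i' (pos j) < τ (q + 1) at hlt
        linarith only [this, hlt]
      linarith only [this]
    · apply hkey
      have : τ (q + 1) ≤ tr (τ (q + 1)) (pos j) (S (q + 1)) := by
        refine le_tr.mpr ⟨le_rfl, fun i' hi' => ?_⟩
        refine le_trans (hτmono (by omega : q + 1 ≤ c (pos j))) ?_
        exact lev_le_dist (j := pos j) hα0 hα hS
          (by show q + 1 ≤ c (pos j); omega) i' hi'
      linarith only [this]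

end Pos

section WL

variable (R : Finset X) (τ : ℕ → ℝ) (M : ℕ) (cap : X → ℕ → ℝ)

/-- The interpolated levels. -/
noncomputable def wl (q : ℕ) (v : X) : ℝ :=
  open Classical in
  if q % (M + 3) = 0 then τ (q / (M + 3))
  else if v ∈ R then min (τ (q / (M + 3) + 1)) (max (τ (q / (M + 3))) (cap v (q % (M + 3) - 1)))
  else τ (q / (M + 3) + 1)

variable {R τ M cap}

set_option linter.unusedSectionVars false

lemma wl_zero (p : ℕ) (v : X) : wl R τ M cap ((M + 3) * p) v = τ p := by
  unfold wl
  rw [Nat.mul_mod_right, if_pos rfl, Nat.mul_div_cancel_left p (by omega)]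

lemma wl_mem {p s : ℕ} (hs : s + 1 < M + 3) {v : X} (hv : v ∈ R) :
    wl R τ M cap ((M + 3) * p + (s + 1)) v = min (τ (p + 1)) (max (τ p) (cap v s)) := by
  unfold wl
  have h1 : ((M + 3) * p + (s + 1)) % (M + 3) = s + 1 := by
    rw [Nat.mul_add_mod, Nat.mod_eq_of_lt hs]
  have h2 : ((M + 3) * p + (s + 1)) / (M + 3) = p := by
    rw [Nat.mul_add_div (by omega), Nat.div_eq_of_lt hs, add_zero]
  rw [h1, h2, if_neg (by omega), if_pos hv, Nat.add_sub_cancel]

lemma wl_notMem {p s : ℕ} (hs : s + 1 < M + 3) {v : X} (hv : v ∉ R) :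
    wl R τ M cap ((M + 3) * p + (s + 1)) v = τ (p + 1) := by
  unfold wl
  have h1 : ((M + 3) * p + (s + 1)) % (M + 3) = s + 1 := by
    rw [Nat.mul_add_mod, Nat.mod_eq_of_lt hs]
  have h2 : ((M + 3) * p + (s + 1)) / (M + 3) = p := by
    rw [Nat.mul_add_div (by omega), Nat.div_eq_of_lt hs, add_zero]
  rw [h1, h2, if_neg (by omega), if_neg hv]

lemma wl_bounds (hτ : ∀ p, τ p ≤ τ (p + 1)) {p s : ℕ} (hs : s < M + 3) (v : X) :
    τ p ≤ wl R τ M cap ((M + 3) * p + s) v ∧ wl R τ M cap ((M + 3) * p + s) v ≤ τ (p + 1) := by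
  classical
  rcases s with _ | s
  · rw [add_zero, wl_zero]; exact ⟨le_rfl, hτ p⟩
  · by_cases hv : v ∈ R
    · rw [wl_mem hs hv]
      exact ⟨le_min (hτ p) (le_max_left _ _), min_le_left _ _⟩
    · rw [wl_notMem hs hv]; exact ⟨hτ p, le_rfl⟩

lemma wl_bounds' (hτ : ∀ p, τ p ≤ τ (p + 1)) (q : ℕ) (v : X) :
    τ (q / (M + 3)) ≤ wl R τ M cap q v ∧ wl R τ M cap (q + 1) v ≤ τ (q / (M + 3) + 1) := by
  have hq := Nat.div_add_mod q (M + 3)
  have hs := Nat.mod_lt q (show M + 3 > 0 by omega)
  set p := q / (M + 3)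
  set s := q % (M + 3)
  rw [← hq]
  refine ⟨(wl_bounds hτ hs v).1, ?_⟩
  rcases Nat.lt_or_ge (s + 1) (M + 3) with h | h
  · exact (wl_bounds (cap := cap) (R := R) hτ h v).2
  · have h1 : (M + 3) * p + s + 1 = (M + 3) * (p + 1) := by
      have : s = M + 2 := by omega
      rw [this]; ring
    rw [h1, wl_zero]

lemma clamp_lip {a b c d η : ℝ} (hη : 0 ≤ η) (hcd : d ≤ c + η) :
    min b (max a d) ≤ min b (max a c) + η := by
  rw [min_add_add_right b (max a c) η |>.symm]
  refine le_min ((min_le_left _ _).trans (by linarith only [hη])) ((min_le_right _ _).trans ?_)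
  refine max_le (le_trans (le_max_left a c) (by linarith only [hη])) ?_
  exact hcd.trans (by linarith [le_max_right a c])

lemma wl_mono (hτ : ∀ p, τ p ≤ τ (p + 1)) (hcap : ∀ v ∈ R, ∀ s, cap v s ≤ cap v (s + 1))
    (q : ℕ) (v : X) : wl R τ M cap q v ≤ wl R τ M cap (q + 1) v := by
  classical
  have hq := Nat.div_add_mod q (M + 3)
  have hs := Nat.mod_lt q (show M + 3 > 0 by omega)
  set p := q / (M + 3)
  set s := q % (M + 3)
  rw [← hq]
  rcases Nat.lt_or_ge (s + 1) (M + 3) with h | h
  · rw [add_assoc]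
    rcases s with _ | s
    · rw [add_zero, wl_zero, zero_add]
      exact (wl_bounds (cap := cap) (R := R) hτ (s := 1) h v).1
    · by_cases hv : v ∈ R
      · rw [wl_mem (by omega) hv, wl_mem h hv]
        exact min_le_min le_rfl (max_le_max le_rfl (hcap v hv s))
      · rw [wl_notMem (by omega) hv, wl_notMem h hv]
  · have h1 : (M + 3) * p + s + 1 = (M + 3) * (p + 1) := by
      have : s = M + 2 := by omega
      rw [this]; ring
    rw [h1, wl_zero]
    exact (wl_bounds hτ hs v).2

/-- A step of the level at a position of `R`. -/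
lemma wl_step {v : X} (hv : v ∈ R) {η A : ℝ} (hη : 0 ≤ η)
    (hcap : ∀ s, s ≤ M → cap v (s + 1) ≤ cap v s + η) (hA : A < cap v (M + 1)) (q : ℕ) :
    wl R τ M cap (q + 1) v ≤ cap v 0 ∨ wl R τ M cap (q + 1) v ≤ wl R τ M cap q v + η ∨
      A < wl R τ M cap q v := by
  classical
  have hq := Nat.div_add_mod q (M + 3)
  have hs := Nat.mod_lt q (show M + 3 > 0 by omega)
  set p := q / (M + 3)
  set s := q % (M + 3)
  rw [← hq]
  rcases Nat.lt_or_ge (s + 1) (M + 3) with h | h
  · rw [add_assoc]
    rcases s with _ | s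
    · rw [wl_mem (s := 0) h hv, add_zero, wl_zero]
      rcases le_total (cap v 0) (τ p) with h1 | h1
      · right; left
        rw [max_eq_left h1]
        exact (min_le_right _ _).trans (by linarith only [hη])
      · left
        rw [max_eq_right h1]
        exact min_le_right _ _
    · right; left
      rw [wl_mem (s := s + 1) h hv, wl_mem (s := s) (by omega) hv]
      exact clamp_lip hη (hcap s (by omega))
  · have hsM : s = M + 1 + 1 := by omega
    have h1 : (M + 3) * p + s + 1 = (M + 3) * (p + 1) := by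
      rw [hsM]; ring
    rw [h1, wl_zero, hsM, wl_mem (by omega) hv]
    rcases le_total (τ (p + 1)) (cap v (M + 1)) with h2 | h2
    · right; left
      rw [min_eq_left (h2.trans (le_max_right _ _))]
      linarith only [hη]
    · right; right
      refine lt_of_lt_of_le hA (le_min h2 (le_max_right _ _))

end WL

section Rep

variable [DecidableEq X]

/-- The growth of the truncated distance at position `v` along a chain. -/
noncomputable def gr (α : ℕ → X → ℝ) (S : ℕ → Finset X) (m : ℕ) (v : X) : ℝ :=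
  if m ≤ lastLev α S m v then α m v
    else tr (α (lastLev α S m v + 1) v) v (S (lastLev α S m v))

variable {α : ℕ → X → ℝ} {S : ℕ → Finset X} {m : ℕ}

omit [DecidableEq X] in
lemma gr_le (hα : ∀ p j, α p j ≤ α (p + 1) j) (v : X) :
    gr α S m v ≤ α (lastLev α S m v + 1) v := by
  unfold gr
  split_ifs with h
  · have : lastLev α S m v = m := le_antisymm (lastLev_le v) h
    rw [this]; exact hα m v
  · exact tr_le

omit [DecidableEq X] in
/-- A client that is still far when `v` sees a facility at distance less than `b`. -/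
lemma gr_le_dist (hα0 : ∀ j, α 0 j = 0) (hα : ∀ p j, α p j ≤ α (p + 1) j)
    (hS : ∀ q, q < m → S q ⊆ S (q + 1)) {v : X} {q : ℕ} (hq : q ≤ lastLev α S m v) {i : X}
    (hi : i ∈ S q) : gr α S m v ≤ dist i v := by
  unfold gr
  split_ifs with h
  · have h1 : lastLev α S m v = m := le_antisymm (lastLev_le v) h
    have h2 := lev_le_dist (j := v) hα0 hα hS hq i hi
    rwa [h1] at h2
  · exact tr_le_dist (chain_mono hS _ q hq (lastLev_le v) hi)

omit [DecidableEq X] in
/-- The truncated distance of a client that is still far. -/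
lemma tr_ge_of_far (hα0 : ∀ j, α 0 j = 0) (hα : ∀ p j, α p j ≤ α (p + 1) j)
    (hS : ∀ q, q < m → S q ⊆ S (q + 1)) {v : X} {q : ℕ} (hq : q ≤ lastLev α S m v) :
    α q v ≤ tr (α q v) v (S q) := by
  refine le_tr.mpr ⟨le_rfl, fun i hi => ?_⟩
  exact (lev_mono hα v hq).trans (lev_le_dist (j := v) hα0 hα hS hq i hi)

variable {J F : Finset X} {pos : X → X} {f : ℝ}

/-- The static bound at the last stage at which `ρ` sees nothing. -/
lemma static_bound (hf : 0 ≤ f) (hα0 : ∀ j, α 0 j = 0) (hα : ∀ p j, α p j ≤ α (p + 1) j)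
    (hS : ∀ q, q < m → S q ⊆ S (q + 1))
    (hmax : ∀ q, q < m → (posPot J pos (α (q + 1))).IsMax F f (S (q + 1)))
    {ρ : X} (hρ : ρ ∈ F) {w : X → ℝ} (hw1 : ∀ j ∈ J, w j ≤ 1) {n : ℝ}
    (hn : n = (J.filter (fun j => pos j = ρ)).card) :
    n * α (lastLev α S m ρ) ρ + ∑ l ∈ J with pos l ≠ ρ,
      w l * max (tr (α (lastLev α S m ρ) (pos l)) (pos l) (S (lastLev α S m ρ))
        - dist ρ (pos l)) 0 ≤ f := by
  set q := lastLev α S m ρ with hq
  rcases Nat.eq_zero_or_pos q with hq0 | hq0
  · rw [hq0, hα0, mul_zero, zero_add]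
    refine le_trans (Finset.sum_nonpos (fun l _ => ?_)) hf
    rw [hα0]
    have : tr 0 (pos l) (S 0) ≤ 0 := tr_le
    rw [max_eq_right (by linarith only [this, dist_nonneg (x := ρ) (y := pos l)]), mul_zero]
  · obtain ⟨q', hq'⟩ : ∃ q', q = q' + 1 := ⟨q - 1, by omega⟩
    have hqm : q ≤ m := lastLev_le ρ
    have h1 := hmax q' (by omega) ρ hρ
    rw [← hq'] at h1
    change ∑ j ∈ J, max (tr (α q (pos j)) (pos j) (S q) - dist ρ (pos j)) 0 ≤ f at h1
    rw [← Finset.sum_filter_add_sum_filter_not J (fun j => pos j = ρ)] at h1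
    have h2 : n * α q ρ ≤ ∑ j ∈ J with pos j = ρ,
        max (tr (α q (pos j)) (pos j) (S q) - dist ρ (pos j)) 0 := by
      rw [hn, ← nsmul_eq_mul]
      refine Finset.card_nsmul_le_sum _ _ _ (fun j hj => ?_)
      rw [(Finset.mem_filter.mp hj).2, dist_self, sub_zero]
      exact (tr_ge_of_far hα0 hα hS le_rfl).trans (le_max_left _ _)
    have h3 : ∑ l ∈ J with pos l ≠ ρ, w l * max (tr (α q (pos l)) (pos l) (S q)
        - dist ρ (pos l)) 0 ≤ ∑ l ∈ J with ¬ pos l = ρ,
          max (tr (α q (pos l)) (pos l) (S q) - dist ρ (pos l)) 0 := by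
      refine Finset.sum_le_sum (fun l hl => ?_)
      have := mul_le_mul_of_nonneg_right (hw1 l (Finset.mem_filter.mp hl).1)
        (le_max_right (tr (α q (pos l)) (pos l) (S q) - dist ρ (pos l)) 0)
      linarith only [this]
    linarith only [h1, h2, h3]

omit [DecidableEq X] in
/-- The bound of the growth of a client in terms of the static quantities at `ρ`. -/
lemma gr_le_static (hα0 : ∀ j, α 0 j = 0) (hα : ∀ p j, α p j ≤ α (p + 1) j)
    (hS : ∀ q, q < m → S q ⊆ S (q + 1)) {ρ v : X} {θ e a : ℝ}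
    (hθa : θ ≤ a) (ha : a = α (lastLev α S m ρ) ρ) (hθv : θ ≤ α (lastLev α S m ρ) v)
    (hup : ∀ v, α (lastLev α S m ρ + 1) v ≤ θ + e) (he : 0 ≤ e) :
    gr α S m v ≤ tr (α (lastLev α S m ρ) v) v (S (lastLev α S m ρ)) + dist ρ v + e := by
  have hd : 0 ≤ dist ρ v := dist_nonneg
  set q := lastLev α S m ρ with hq
  have hqm : q ≤ m := lastLev_le ρ
  rcases lt_trichotomy (lastLev α S m v) q with hc | hc | hc
  · -- frozen before
    have h1 : gr α S m v ≤ α q v := (gr_le hα v).trans (lev_mono hα v hc)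
    have h2 : α q v ≤ θ + e := (hα q v).trans (hup v)
    have h3 : min (α q v) (a - dist ρ v) ≤ tr (α q v) v (S q) := by
      refine le_tr.mpr ⟨min_le_left _ _, fun i hi => (min_le_right _ _).trans ?_⟩
      have h4 := lastLev_spec (m := m) (S := S) hα0 ρ i hi
      rw [← hq, ← ha] at h4
      have := dist_triangle i v ρ
      rw [dist_comm v ρ] at this
      linarith only [h4, this]
    rcases min_le_iff.mp h3 with h4 | h4
    · linarith only [he, hd, h1, h4]
    · linarith only [hθa, h1, h2, h4]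
  · have h1 := gr_le (S := S) (m := m) hα v
    rw [hc] at h1
    have h2 := hup v
    have h3 : α q v ≤ tr (α q v) v (S q) := tr_ge_of_far hα0 hα hS hc.ge
    linarith only [hd, hθv, h1, h2, h3]
  · have h3 : α q v ≤ tr (α q v) v (S q) := tr_ge_of_far hα0 hα hS hc.le
    obtain ⟨i, hi, hlt⟩ := exists_near (α := α) (S := S) (m := m) ρ (p := q + 1)
      (by omega) (by have := lastLev_le (α := α) (S := S) (m := m) v; omega)
    have h1 := gr_le_dist hα0 hα hS (v := v) (q := q + 1) hc hi
    have h2 := hup ρ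
    have h4 := dist_triangle i ρ v
    linarith only [hθv, h3, hlt, h1, h2, h4]

/-- The dual fitting bound for a star with `n` clients at its facility. -/
lemma rep_star (hf : 0 ≤ f) (hα0 : ∀ j, α 0 j = 0) (hα : ∀ p j, α p j ≤ α (p + 1) j)
    (hS : ∀ q, q < m → S q ⊆ S (q + 1))
    (hmax : ∀ q, q < m → (posPot J pos (α (q + 1))).IsMax F f (S (q + 1)))
    {ρ : X} (hρ : ρ ∈ F) {w : X → ℝ} (hw0 : ∀ j ∈ J, 0 ≤ w j) (hw1 : ∀ j ∈ J, w j ≤ 1) {n : ℝ}
    (hn : n = (J.filter (fun j => pos j = ρ)).card) (hn0 : 0 < n) {ε t η A V : ℝ}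
    (hε : 0 ≤ ε) (ht : 0 ≤ t) (hη : 0 ≤ η)
    (hlev : ∀ q, ∃ θ, 0 ≤ θ ∧ (∀ v, θ ≤ α q v) ∧ ∀ v, α (q + 1) v ≤ (1 + ε) * θ + t)
    (hA : n * A = f) (hV : V = ∑ l ∈ J with pos l ≠ ρ, w l * max (A - dist ρ (pos l)) 0)
    (hstep : ∀ q, α (q + 1) ρ ≤ A - V / n ∨ α (q + 1) ρ ≤ α q ρ + η ∨ A < α q ρ) :
    n * gr α S m ρ + ∑ l ∈ J with pos l ≠ ρ, w l * gr α S m (pos l)
      ≤ f + 2 * ∑ l ∈ J with pos l ≠ ρ, w l * dist ρ (pos l) + n * η
        + (ε * A + t) * ∑ l ∈ J with pos l ≠ ρ, w l := by
  have hsb := static_bound (w := w) hf hα0 hα hS hmax hρ hw1 hn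
  set q := lastLev α S m ρ with hq
  have hsb1 : 0 ≤ ∑ l ∈ J with pos l ≠ ρ,
      w l * max (tr (α q (pos l)) (pos l) (S q) - dist ρ (pos l)) 0 :=
    Finset.sum_nonneg (fun l hl => mul_nonneg (hw0 l (Finset.mem_filter.mp hl).1)
      (le_max_right _ _))
  have haA : α q ρ ≤ A := by
    have : n * α q ρ ≤ n * A := by rw [hA]; linarith only [hsb, hsb1]
    exact le_of_mul_le_mul_left this hn0
  obtain ⟨θ, hθ0, hθ1, hθ2⟩ := hlev q
  have hθA : θ ≤ A := (hθ1 ρ).trans haA
  have heA : ε * θ + t ≤ ε * A + t := by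
    have := mul_le_mul_of_nonneg_left hθA hε
    linarith only [this]
  rcases hstep q with hc | hc | hc
  · -- the window has not been reached
    have hgrl : ∀ l ∈ J.filter (fun l => pos l ≠ ρ), w l * gr α S m (pos l)
        ≤ w l * max (A - dist ρ (pos l)) 0 + 2 * (w l * dist ρ (pos l)) + (ε * A + t) * w l := by
      intro l hl
      have hwl := hw0 l (Finset.mem_filter.mp hl).1
      have h1 : gr α S m (pos l) ≤ α (q + 1) ρ + dist ρ (pos l) + (ε * A + t) := by
        rcases Nat.lt_or_ge q (lastLev α S m (pos l)) with h | h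
        · obtain ⟨i, hi, hlt⟩ := exists_near (α := α) (S := S) (m := m) ρ (p := q + 1)
            (by omega) (by have := lastLev_le (α := α) (S := S) (m := m) (pos l); omega)
          have h2 := gr_le_dist hα0 hα hS (v := pos l) (q := q + 1) h hi
          have h4 := dist_triangle i ρ (pos l)
          have h5 : 0 ≤ ε * A + t := by
            have := mul_nonneg hε hθ0
            linarith only [ht, heA, this]
          linarith only [hlt, h2, h4, h5]
        · have h2 := (gr_le (S := S) (m := m) hα (pos l)).trans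
            (lev_mono hα (pos l) (Nat.succ_le_succ h))
          have h3 : gr α S m (pos l) ≤ α (q + 1) (pos l) := h2
          have h4 := hθ2 (pos l)
          have h5 := (hθ1 ρ).trans (hα q ρ)
          have h6 := dist_nonneg (x := ρ) (y := pos l)
          linarith only [heA, h2, h4, h5, h6]
      have h2 : α (q + 1) ρ ≤ A := by
        refine hc.trans ?_
        have : 0 ≤ V / n := div_nonneg (by
          rw [hV]
          exact Finset.sum_nonneg (fun l hl => mul_nonneg (hw0 l (Finset.mem_filter.mp hl).1)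
            (le_max_right _ _))) hn0.le
        linarith only [this]
      have h3 := le_max_left (A - dist ρ (pos l)) 0
      have h4 : gr α S m (pos l) ≤ max (A - dist ρ (pos l)) 0 + 2 * dist ρ (pos l)
          + (ε * A + t) := by linarith only [h1, h2, h3]
      have h5 := mul_le_mul_of_nonneg_left h4 hwl
      linarith only [h5]
    have h1 := Finset.sum_le_sum hgrl
    rw [Finset.sum_add_distrib, Finset.sum_add_distrib, ← Finset.mul_sum, ← Finset.mul_sum,
      ← hV] at h1
    have h2 : gr α S m ρ ≤ A - V / n := (gr_le hα ρ).trans hc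
    have h3 := mul_le_mul_of_nonneg_left h2 hn0.le
    have h4 : n * (A - V / n) = f - V := by
      rw [mul_sub, hA]; (clear * - hn0; field_simp)
    have h5 := mul_nonneg hn0.le hη
    linarith only [h1, h3, h4, h5]
  · have hgrl : ∀ l ∈ J.filter (fun l => pos l ≠ ρ), w l * gr α S m (pos l)
        ≤ w l * max (tr (α q (pos l)) (pos l) (S q) - dist ρ (pos l)) 0
          + 2 * (w l * dist ρ (pos l)) + (ε * A + t) * w l := by
      intro l hl
      have hwl := hw0 l (Finset.mem_filter.mp hl).1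
      have h1 := gr_le_static (S := S) (m := m) hα0 hα hS (ρ := ρ) (v := pos l) (θ := θ)
        (e := ε * θ + t) (a := α q ρ) (hθ1 ρ) rfl (hθ1 (pos l))
        (fun v => by have := hθ2 v; linarith only [this]) (by have := mul_nonneg hε hθ0; linarith only [ht, this])
      rw [← hq] at h1
      have h3 := le_max_left (tr (α q (pos l)) (pos l) (S q) - dist ρ (pos l)) 0
      have h4 : gr α S m (pos l) ≤ max (tr (α q (pos l)) (pos l) (S q) - dist ρ (pos l)) 0
          + 2 * dist ρ (pos l) + (ε * A + t) := by linarith only [heA, h1, h3]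
      have h5 := mul_le_mul_of_nonneg_left h4 hwl
      linarith only [h5]
    have h1 := Finset.sum_le_sum hgrl
    rw [Finset.sum_add_distrib, Finset.sum_add_distrib, ← Finset.mul_sum, ← Finset.mul_sum] at h1
    have h2 : gr α S m ρ ≤ α q ρ + η := (gr_le hα ρ).trans hc
    have h3 := mul_le_mul_of_nonneg_left h2 hn0.le
    linarith only [hsb, h1, h3]
  · exfalso; linarith only [haA, hc]

end Rep

section Unif

variable [DecidableEq X]

omit [DecidableEq X] in
lemma chain_mono_step {S : ℕ → Finset X} {M m : ℕ}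
    (hS : ∀ q, q < (M + 3) * m → S q ⊆ S (q + 1)) :
    ∀ p, p < m → S ((M + 3) * p) ⊆ S ((M + 3) * (p + 1)) := by
  intro p hp
  have h1 : (M + 3) * (p + 1) ≤ (M + 3) * m := Nat.mul_le_mul_left _ hp
  exact chain_mono hS _ _ (Nat.mul_le_mul_left _ (Nat.le_succ p)) h1

/-- The dual fitting bound at a general facility along a chain with interpolated levels. -/
lemma unif_star {J F R : Finset X} {pos : X → X} {τ : ℕ → ℝ} {cap : X → ℕ → ℝ}
    {S : ℕ → Finset X} {M m : ℕ} {f T ε t : ℝ} (hf : 0 ≤ f) (hT : 0 < T) (hε : 0 ≤ ε)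
    (hτ0 : τ 0 = 0) (hτ : ∀ p, τ p ≤ τ (p + 1))
    (hτs : ∀ p, τ (p + 1) ≤ (1 + ε) * τ p + t)
    (hcap : ∀ v ∈ R, ∀ s, cap v s ≤ cap v (s + 1))
    (hS : ∀ q, q < (M + 3) * m → S q ⊆ S (q + 1))
    (hmax : ∀ q, q < (M + 3) * m →
      (posPot J pos (wl R τ M cap (q + 1))).IsMax F f (S (q + 1)))
    {i : X} (hi : i ∈ F) {x : X → ℝ} {y : ℝ} (hx0 : ∀ j ∈ J, 0 ≤ x j) (hxy : ∀ j ∈ J, x j ≤ y)
    (hy0 : 0 ≤ y) :
    ∑ j ∈ J, x j * gr (wl R τ M cap) S ((M + 3) * m) (pos j)
      ≤ (1 + ε) * ((1 + 1 / (2048 * (T + 2)) / T) * f * y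
        + (2 - 1 / (2048 * (T + 2))) * ∑ j ∈ J, x j * dist i (pos j)) + t * ∑ j ∈ J, x j := by
  have hτmono : Monotone τ := monotone_nat_of_le_succ hτ
  have hα0 : ∀ v, wl R τ M cap 0 v = 0 := fun v => by
    have := wl_zero (R := R) (τ := τ) (M := M) (cap := cap) 0 v
    rwa [mul_zero, hτ0] at this
  have hα : ∀ q v, wl R τ M cap q v ≤ wl R τ M cap (q + 1) v := fun q v => wl_mono hτ hcap q v
  set S' : ℕ → Finset X := fun p => S ((M + 3) * p) with hS'
  set c' := lastLev (fun p (_ : X) => τ p) S' m with hc'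
  have hS'mono : ∀ p, p < m → S' p ⊆ S' (p + 1) := chain_mono_step hS
  have hmax' : ∀ p, p < m → (posPot J pos (fun _ => τ (p + 1))).IsMax F f (S' (p + 1)) := by
    intro p hp
    have h1 : (M + 3) * (p + 1) ≤ (M + 3) * m := Nat.mul_le_mul_left _ hp
    obtain ⟨q, hq⟩ : ∃ q, (M + 3) * (p + 1) = q + 1 :=
      ⟨(M + 3) * (p + 1) - 1, by have : 0 < (M + 3) * (p + 1) := by (clear * -; positivity)
                                 omega⟩
    have h2 := hmax q (by omega)
    rw [← hq] at h2
    have h3 : wl R τ M cap ((M + 3) * (p + 1)) = fun _ => τ (p + 1) := by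
      funext v; exact wl_zero (p + 1) v
    rwa [h3] at h2
  have hgr : ∀ v, gr (wl R τ M cap) S ((M + 3) * m) v ≤ (1 + ε) * τ (c' v) + t := by
    intro v
    set c := lastLev (wl R τ M cap) S ((M + 3) * m) v with hc
    have h1 : gr (wl R τ M cap) S ((M + 3) * m) v ≤ wl R τ M cap (c + 1) v := gr_le hα v
    obtain ⟨h2, h3⟩ := wl_bounds' (R := R) (M := M) (cap := cap) hτ c v
    have hcm : c ≤ (M + 3) * m := lastLev_le v
    have hpm : c / (M + 3) ≤ m := Nat.div_le_of_le_mul hcm
    have h4 : c / (M + 3) ≤ c' v := by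
      rw [hc']
      unfold lastLev
      apply Nat.le_findGreatest hpm
      intro i' hi'
      have h5 : (M + 3) * (c / (M + 3)) ≤ c := Nat.mul_div_le c (M + 3)
      have h6 := lev_le_dist (j := v) hα0 hα hS h5 i' hi'
      exact h2.trans h6
    have h5 := hτmono h4
    have h6 := hτs (c / (M + 3))
    have h7 := mul_le_mul_of_nonneg_left h5 (by linarith only [hε] : 0 ≤ 1 + ε)
    linarith only [h1, h3, h6, h7]
  have h1 : ∑ j ∈ J, x j * gr (wl R τ M cap) S ((M + 3) * m) (pos j)
      ≤ ∑ j ∈ J, (x j * ((1 + ε) * τ (c' (pos j))) + t * x j) := by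
    refine Finset.sum_le_sum (fun j hj => ?_)
    have := mul_le_mul_of_nonneg_left (hgr (pos j)) (hx0 j hj)
    linarith only [this]
  rw [Finset.sum_add_distrib, ← Finset.mul_sum] at h1
  have h2 : ∑ j ∈ J, x j * ((1 + ε) * τ (c' (pos j))) = (1 + ε) * ∑ j ∈ J, x j * τ (c' (pos j)) := by
    rw [Finset.mul_sum]
    exact Finset.sum_congr rfl (fun j _ => by ring)
  rw [h2] at h1
  suffices h3 : ∑ j ∈ J, x j * τ (c' (pos j)) ≤ (1 + 1 / (2048 * (T + 2)) / T) * f * y
      + (2 - 1 / (2048 * (T + 2))) * ∑ j ∈ J, x j * dist i (pos j) by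
    have := mul_le_mul_of_nonneg_left h3 (by linarith only [hε] : 0 ≤ 1 + ε)
    linarith only [h1, this]
  rcases hy0.eq_or_lt with hy | hy
  · have hz : ∀ j ∈ J, x j = 0 := fun j hj =>
      le_antisymm (by rw [hy]; exact hxy j hj) (hx0 j hj)
    rw [Finset.sum_eq_zero (fun j hj => by rw [hz j hj, zero_mul]),
      Finset.sum_eq_zero (fun j hj => by rw [hz j hj, zero_mul]), ← hy]
    simp only [one_div, mul_inv_rev, mul_zero, add_zero, Std.le_refl]
  · have hb := star_bound (J := J) (w := fun j => x j / y) (d := fun j => dist i (pos j))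
      (a := fun j => τ (c' (pos j))) (c := fun j => c' (pos j)) (f := f) (T := T)
      (fun j hj => div_nonneg (hx0 j hj) hy.le) (fun j _ => dist_nonneg) hf hT
      (fun l₁ _ l₂ _ hl => pos_star_constraint hf hτ0 hτ hS'mono hmax' hi
        (fun j hj => by rw [div_le_one hy]; exact hxy j hj) hl)
    have e1 : ∑ j ∈ J, x j * τ (c' (pos j)) = y * ∑ j ∈ J, x j / y * τ (c' (pos j)) := by
      rw [Finset.mul_sum]
      refine Finset.sum_congr rfl (fun j _ => ?_)
      (clear * - hy; field_simp)
    have e2 : ∑ j ∈ J, x j * dist i (pos j) = y * ∑ j ∈ J, x j / y * dist i (pos j) := by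
      rw [Finset.mul_sum]
      refine Finset.sum_congr rfl (fun j _ => ?_)
      (clear * - hy; field_simp)
    rw [e1, e2]
    have := mul_le_mul_of_nonneg_left hb hy.le
    linarith only [this]

end Unif

section Cap

/-- The number of clients at `ρ`. -/
noncomputable def nR (J : Finset X) (pos : X → X) (ρ : X) : ℝ :=
  open Classical in ((J.filter (fun j => pos j = ρ)).card : ℝ)

/-- The share of the price covered by the clients away from `ρ`. -/
noncomputable def VR (J : Finset X) (pos : X → X) (w : X → X → ℝ) (f : ℝ) (ρ : X) : ℝ :=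
  open Classical in
  ∑ l ∈ J with pos l ≠ ρ, w ρ l * max (f / nR J pos ρ - dist ρ (pos l)) 0

/-- The thresholds of the interpolated levels. -/
noncomputable def capR (J : Finset X) (pos : X → X) (w : X → X → ℝ) (M : ℕ) (t f : ℝ) (ρ : X)
    (s : ℕ) : ℝ :=
  if s ≤ M then f / nR J pos ρ - VR J pos w f ρ / nR J pos ρ
    + s / M * (VR J pos w f ρ / nR J pos ρ) else f / nR J pos ρ + t

variable {J : Finset X} {pos : X → X} {w : X → X → ℝ} {M : ℕ} {t f : ℝ} {ρ : X}

lemma VR_nonneg (hw : ∀ l ∈ J, 0 ≤ w ρ l) : 0 ≤ VR J pos w f ρ := by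
  classical
  exact Finset.sum_nonneg (fun l hl => mul_nonneg (hw l (Finset.mem_filter.mp hl).1)
    (le_max_right _ _))

lemma capR_mono (hn : 0 < nR J pos ρ) (hM : 1 ≤ M) (ht : 0 ≤ t) (hw : ∀ l ∈ J, 0 ≤ w ρ l)
    (s : ℕ) : capR J pos w M t f ρ s ≤ capR J pos w M t f ρ (s + 1) := by
  have hV := VR_nonneg (pos := pos) (f := f) hw
  have hVn : 0 ≤ VR J pos w f ρ / nR J pos ρ := div_nonneg hV hn.le
  have hM' : (0 : ℝ) < M := by exact_mod_cast hM
  unfold capR
  by_cases h1 : s + 1 ≤ M
  · rw [if_pos h1, if_pos (by omega)]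
    have h2 : (s : ℝ) / M ≤ ((s + 1 : ℕ) : ℝ) / M := by
      apply div_le_div_of_nonneg_right _ hM'.le
      push_cast; linarith only []
    have := mul_le_mul_of_nonneg_right h2 hVn
    linarith only [this]
  · rw [if_neg h1]
    split_ifs with h2
    · have h3 : s = M := by omega
      rw [h3, div_self hM'.ne']
      linarith only [ht]
    · exact le_rfl

lemma capR_step (hn : 0 < nR J pos ρ) (hM : 1 ≤ M) (ht : 0 ≤ t) (hw : ∀ l ∈ J, 0 ≤ w ρ l)
    (s : ℕ) (hs : s ≤ M) : capR J pos w M t f ρ (s + 1)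
      ≤ capR J pos w M t f ρ s + (VR J pos w f ρ / nR J pos ρ / M + t) := by
  have hV := VR_nonneg (pos := pos) (f := f) hw
  have hVn : 0 ≤ VR J pos w f ρ / nR J pos ρ := div_nonneg hV hn.le
  have hM' : (0 : ℝ) < M := by exact_mod_cast hM
  have hVM : 0 ≤ VR J pos w f ρ / nR J pos ρ / M := div_nonneg hVn hM'.le
  unfold capR
  rw [if_pos hs]
  by_cases h1 : s + 1 ≤ M
  · rw [if_pos h1]
    have h2 : ((s + 1 : ℕ) : ℝ) / M * (VR J pos w f ρ / nR J pos ρ)
        = s / M * (VR J pos w f ρ / nR J pos ρ) + VR J pos w f ρ / nR J pos ρ / M := by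
      push_cast; ring
    rw [h2]
    linarith only [ht]
  · rw [if_neg h1]
    have h3 : s = M := by omega
    rw [h3, div_self hM'.ne']
    linarith only [hVM]

lemma capR_top (ht : 0 < t) : f / nR J pos ρ < capR J pos w M t f ρ (M + 1) := by
  unfold capR
  rw [if_neg (by omega)]
  linarith only [ht]

lemma capR_zero : capR J pos w M t f ρ 0 = f / nR J pos ρ - VR J pos w f ρ / nR J pos ρ := by
  unfold capR
  rw [if_pos (Nat.zero_le _)]
  simp

lemma continuous_capR (s : ℕ) : Continuous (fun f => capR J pos w M t f ρ s) := by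
  have h1 : Continuous (fun f : ℝ => f / nR J pos ρ) := continuous_id.div_const _
  have h2 : Continuous (fun f : ℝ => VR J pos w f ρ) := by
    classical
    unfold VR
    refine continuous_finsetSum _ (fun l _ => ?_)
    exact continuous_const.mul ((h1.sub continuous_const).max continuous_const)
  unfold capR
  by_cases h : s ≤ M
  · simp only [h, if_true]
    exact (h1.sub (h2.div_const _)).add (continuous_const.mul (h2.div_const _))
  · simp only [h, if_false]
    exact h1.add continuous_const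

lemma continuous_wl {R : Finset X} {τ : ℕ → ℝ} (q : ℕ) (v : X) :
    Continuous (fun f => wl R τ M (capR J pos w M t f) q v) := by
  unfold wl
  by_cases h1 : q % (M + 3) = 0
  · simp only [h1, if_true]; exact continuous_const
  · simp only [h1, if_false]
    by_cases h2 : v ∈ R
    · simp only [h2, if_true]
      exact continuous_const.min (continuous_const.max (continuous_capR _))
    · simp only [h2, if_false]; exact continuous_const

/-- `V` is at most the price times the weight. -/
lemma VR_le (hn : 0 < nR J pos ρ) (hf : 0 ≤ f) (hw : ∀ l ∈ J, 0 ≤ w ρ l)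
    [DecidablePred fun l => pos l ≠ ρ] :
    VR J pos w f ρ ≤ f / nR J pos ρ * ∑ l ∈ J with pos l ≠ ρ, w ρ l := by
  classical
  have h0 : 0 ≤ f / nR J pos ρ := div_nonneg hf hn.le
  unfold VR
  rw [Finset.mul_sum]
  refine (Finset.sum_le_sum (g := fun l => f / nR J pos ρ * w ρ l) (fun l hl => ?_)).trans
    (le_of_eq (Finset.sum_congr (by ext; simp only [ne_eq, mem_filter]) (fun _ _ => rfl)))
  have hlJ : l ∈ J := by
    simp only [Finset.mem_filter] at hl
    exact hl.1
  rw [mul_comm]
  apply mul_le_mul_of_nonneg_right _ (hw l hlJ)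
  exact max_le (by linarith only [dist_nonneg (x := ρ) (y := pos l)]) h0

end Cap

section Chain

variable [DecidableEq X]

omit [MetricSpace X] in
lemma sum_split_pos (J : Finset X) (pos : X → X) (ρ : X) (a : X → ℝ) (b : ℝ)
    (h : ∀ j ∈ J, pos j = ρ → a j = b) :
    ∑ j ∈ J, a j = nR J pos ρ * b + ∑ l ∈ J with pos l ≠ ρ, a l := by
  classical
  rw [← Finset.sum_filter_add_sum_filter_not J (fun j => pos j = ρ)]
  congr 1
  rw [Finset.sum_congr rfl (fun j hj => h j (Finset.mem_filter.mp hj).1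
    (Finset.mem_filter.mp hj).2), Finset.sum_const, nsmul_eq_mul]
  congr 1
  unfold nR
  norm_cast
  congr 1
  ext; simp

/-- The star bound at an element of `R` along a chain with interpolated levels. -/
lemma rep_star_chain {J F R : Finset X} (hR : R ⊆ F) {pos : X → X} {x : X → X → ℝ} {y : X → ℝ}
    {τ : ℕ → ℝ} {S : ℕ → Finset X} {M m : ℕ} {f ε t : ℝ} (hf : 0 ≤ f) (hε : 0 ≤ ε) (ht : 0 < t)
    (hM : 1 ≤ M) (hMε : 1 ≤ ε * M)
    (hτ0 : τ 0 = 0) (hτ : ∀ p, τ p ≤ τ (p + 1)) (hτs : ∀ p, τ (p + 1) ≤ (1 + ε) * τ p + t)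
    (hx0 : ∀ i ∈ F, ∀ j ∈ J, 0 ≤ x i j) (hxy : ∀ i ∈ F, ∀ j ∈ J, x i j ≤ y i)
    (hRn : ∀ ρ ∈ R, 0 < nR J pos ρ) (hRy : ∀ ρ ∈ R, 0 < y ρ)
    (hRx : ∀ ρ ∈ R, ∀ j ∈ J, pos j = ρ → x ρ j = y ρ)
    (hS : ∀ q, q < (M + 3) * m → S q ⊆ S (q + 1))
    (hmax : ∀ q, q < (M + 3) * m → (posPot J pos
      (wl R τ M (capR J pos (fun i j => x i j / y i) M t f) (q + 1))).IsMax F f (S (q + 1)))
    {ρ : X} (hρ : ρ ∈ R) :
    ∑ j ∈ J, x ρ j * gr (wl R τ M (capR J pos (fun i j => x i j / y i) M t f)) S
        ((M + 3) * m) (pos j)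
      ≤ f * y ρ + 2 * ∑ j ∈ J, x ρ j * dist ρ (pos j)
        + 2 * ε * (f / nR J pos ρ) * ∑ l ∈ J with pos l ≠ ρ, x ρ l + t * ∑ j ∈ J, x ρ j := by
  set w : X → X → ℝ := fun i j => x i j / y i with hw
  set cap := capR J pos w M t f with hcapdef
  have hn := hRn ρ hρ
  have hy := hRy ρ hρ
  have hwnn : ∀ v ∈ R, ∀ l ∈ J, 0 ≤ w v l := fun v hv l hl =>
    div_nonneg (hx0 v (hR hv) l hl) (hRy v hv).le
  have hcap : ∀ v ∈ R, ∀ s, cap v s ≤ cap v (s + 1) := fun v hv s =>
    capR_mono (hRn v hv) hM ht.le (hwnn v hv) s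
  have hα0 : ∀ v, wl R τ M cap 0 v = 0 := fun v => by
    have := wl_zero (R := R) (τ := τ) (M := M) (cap := cap) 0 v
    rwa [mul_zero, hτ0] at this
  have hα : ∀ q v, wl R τ M cap q v ≤ wl R τ M cap (q + 1) v := fun q v => wl_mono hτ hcap q v
  have hτmono : Monotone τ := monotone_nat_of_le_succ hτ
  have hlev : ∀ q, ∃ θ, 0 ≤ θ ∧ (∀ v, θ ≤ wl R τ M cap q v) ∧
      ∀ v, wl R τ M cap (q + 1) v ≤ (1 + ε) * θ + t := by
    intro q
    refine ⟨τ (q / (M + 3)), ?_, fun v => (wl_bounds' hτ q v).1, fun v => ?_⟩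
    · rw [← hτ0]; exact hτmono (Nat.zero_le _)
    · exact (wl_bounds' hτ q v).2.trans (hτs _)
  have hM' : (0 : ℝ) < M := by exact_mod_cast hM
  have hV0 : 0 ≤ VR J pos w f ρ := VR_nonneg (hwnn ρ hρ)
  have hη : 0 ≤ VR J pos w f ρ / nR J pos ρ / M + t := by (clear * - hV0 hn hM ht; positivity)
  have hstep : ∀ q, wl R τ M cap (q + 1) ρ ≤ f / nR J pos ρ - VR J pos w f ρ / nR J pos ρ ∨
      wl R τ M cap (q + 1) ρ ≤ wl R τ M cap q ρ + (VR J pos w f ρ / nR J pos ρ / M + t) ∨
      f / nR J pos ρ < wl R τ M cap q ρ := by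
    intro q
    have := wl_step (R := R) (τ := τ) (M := M) (cap := cap) hρ hη
      (fun s hs => capR_step hn hM ht.le (hwnn ρ hρ) s hs) (A := f / nR J pos ρ)
      (capR_top ht) q
    rwa [hcapdef, capR_zero, ← hcapdef] at this
  have hA : nR J pos ρ * (f / nR J pos ρ) = f := by (clear * - hn; field_simp)
  have hmain := rep_star (J := J) (F := F) (pos := pos) (ρ := ρ) (w := fun l => w ρ l)
    (n := nR J pos ρ) hf hα0 hα hS hmax (hR hρ) (fun j hj => hwnn ρ hρ j hj)
    (fun j hj => by
      show x ρ j / y ρ ≤ 1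
      rw [div_le_one hy]; exact hxy ρ (hR hρ) j hj)
    (by unfold nR; norm_cast; congr 1; ext; simp) hn hε ht.le hη hlev hA (V := VR J pos w f ρ)
    (by unfold VR; exact Finset.sum_congr (by ext; simp) (fun _ _ => rfl)) hstep
  -- multiply by `y ρ`
  have h1 := mul_le_mul_of_nonneg_left hmain hy.le
  have e1 : ∀ b : X → ℝ, y ρ * ∑ l ∈ J with pos l ≠ ρ, w ρ l * b l
      = ∑ l ∈ J with pos l ≠ ρ, x ρ l * b l := by
    intro b
    rw [Finset.mul_sum]
    refine Finset.sum_congr rfl (fun l _ => ?_)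
    simp only [hw]; (clear * - hy; field_simp)
  have e2 : y ρ * ∑ l ∈ J with pos l ≠ ρ, w ρ l = ∑ l ∈ J with pos l ≠ ρ, x ρ l := by
    rw [Finset.mul_sum]
    refine Finset.sum_congr rfl (fun l _ => ?_)
    simp only [hw]; (clear * - hy; field_simp)
  have e3 : ∑ j ∈ J, x ρ j * gr (wl R τ M cap) S ((M + 3) * m) (pos j)
      = nR J pos ρ * (y ρ * gr (wl R τ M cap) S ((M + 3) * m) ρ)
        + ∑ l ∈ J with pos l ≠ ρ, x ρ l * gr (wl R τ M cap) S ((M + 3) * m) (pos l) :=
    sum_split_pos J pos ρ _ _ (fun j hj hp => by rw [hp, hRx ρ hρ j hj hp])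
  have e4 : ∑ j ∈ J, x ρ j * dist ρ (pos j)
      = nR J pos ρ * 0 + ∑ l ∈ J with pos l ≠ ρ, x ρ l * dist ρ (pos l) :=
    sum_split_pos J pos ρ _ _ (fun j hj hp => by rw [hp, dist_self, mul_zero])
  have e5 : ∑ j ∈ J, x ρ j = nR J pos ρ * y ρ + ∑ l ∈ J with pos l ≠ ρ, x ρ l :=
    sum_split_pos J pos ρ _ _ (fun j hj hp => hRx ρ hρ j hj hp)
  have hVle := VR_le (J := J) (pos := pos) (w := w) (f := f) (ρ := ρ) hn hf (hwnn ρ hρ)
  have hΩ0 : 0 ≤ ∑ l ∈ J with pos l ≠ ρ, w ρ l :=
    Finset.sum_nonneg (fun l hl => hwnn ρ hρ l (Finset.mem_filter.mp hl).1)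
  have h2 : nR J pos ρ * (VR J pos w f ρ / nR J pos ρ / M + t)
      ≤ ε * (f / nR J pos ρ) * ∑ l ∈ J with pos l ≠ ρ, w ρ l + t * nR J pos ρ := by
    have h3 : nR J pos ρ * (VR J pos w f ρ / nR J pos ρ / M + t)
        = VR J pos w f ρ / M + t * nR J pos ρ := by (clear * - hM hn hV0 ht; field_simp)
    rw [h3]
    have h4 : VR J pos w f ρ / M ≤ ε * VR J pos w f ρ := by
      rw [div_le_iff₀ hM']
      nlinarith only [hMε, hV0]
    have h5 := mul_le_mul_of_nonneg_left hVle hε
    linarith only [h4, h5]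
  have h3 := mul_le_mul_of_nonneg_left h2 hy.le
  have e6 : y ρ * (ε * (f / nR J pos ρ) * ∑ l ∈ J with pos l ≠ ρ, w ρ l + t * nR J pos ρ)
      = ε * (f / nR J pos ρ) * (y ρ * ∑ l ∈ J with pos l ≠ ρ, w ρ l)
        + t * (nR J pos ρ * y ρ) := by ring
  rw [e6, e2] at h3
  have e7 : y ρ * (f + 2 * ∑ l ∈ J with pos l ≠ ρ, w ρ l * dist ρ (pos l)
        + nR J pos ρ * (VR J pos w f ρ / nR J pos ρ / M + t)
        + (ε * (f / nR J pos ρ) + t) * ∑ l ∈ J with pos l ≠ ρ, w ρ l)
      = f * y ρ + 2 * (y ρ * ∑ l ∈ J with pos l ≠ ρ, w ρ l * dist ρ (pos l))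
        + y ρ * (nR J pos ρ * (VR J pos w f ρ / nR J pos ρ / M + t))
        + (ε * (f / nR J pos ρ) + t) * (y ρ * ∑ l ∈ J with pos l ≠ ρ, w ρ l) := by ring
  rw [e7, e2, e1, mul_add, e1] at h1
  rw [e3, e4, e5]
  linarith only [h1, h3]

/-- Existence of a set of exactly `N` facilities with the dual fitting guarantee without loss in
the price for the facilities of `R`. -/
theorem windows_chain (J F R : Finset X) (hR : R ⊆ F) (pos : X → X) (x : X → X → ℝ) (y : X → ℝ)
    {ε t : ℝ} (hε : 0 ≤ ε) (ht : 0 < t) {M : ℕ} (hM : 1 ≤ M) (hMε : 1 ≤ ε * M)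
    (hx0 : ∀ i ∈ F, ∀ j ∈ J, 0 ≤ x i j) (hxy : ∀ i ∈ F, ∀ j ∈ J, x i j ≤ y i)
    (hy0 : ∀ i ∈ F, 0 ≤ y i) (hasg : ∀ j ∈ J, ∑ i ∈ F, x i j = 1)
    (hRn : ∀ ρ ∈ R, 0 < nR J pos ρ) (hRy : ∀ ρ ∈ R, 0 < y ρ)
    (hRx : ∀ ρ ∈ R, ∀ j ∈ J, pos j = ρ → x ρ j = y ρ)
    {m N : ℕ} (hm : 1 ≤ m) (hN1 : 0 < N) (hN2 : N ≤ F.card) :
    ∃ (f : ℝ) (S : Finset X), 0 ≤ f ∧ S ⊆ F ∧ S.card = N ∧
      ∃ φ : ℝ, 0 ≤ φ ∧ (φ < t * (1 + ε) ^ (m - 1) →
        ∑ j ∈ J, Metric.infDist (pos j) (S : Set X) ≤ φ) ∧
      ∀ T : ℝ, 0 < T → φ + f * N ≤ 3 * f * ((M + 3) * m) + t * J.card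
        + ∑ ρ ∈ R, (f * y ρ + 2 * ∑ j ∈ J, x ρ j * dist ρ (pos j)
          + 2 * ε * (f / nR J pos ρ) * ∑ l ∈ J with pos l ≠ ρ, x ρ l)
        + (1 + ε) * ∑ i ∈ F \ R, ((1 + 1 / (2048 * (T + 2)) / T) * f * y i
          + (2 - 1 / (2048 * (T + 2))) * ∑ j ∈ J, x i j * dist i (pos j)) := by
  classical
  set w : X → X → ℝ := fun i j => x i j / y i with hw
  set τ : ℕ → ℝ := lev t ε m with hτdef
  have hτ0 : τ 0 = 0 := lev_zero
  have hτ : ∀ p, τ p ≤ τ (p + 1) := fun p => lev_mono_succ ht.le hε p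
  have hτs : ∀ p, τ (p + 1) ≤ (1 + ε) * τ p + t := fun p => lev_step ht.le hε p
  have hτnn : ∀ p, 0 ≤ τ p := fun p => by
    rw [← hτ0]; exact monotone_nat_of_le_succ hτ (Nat.zero_le p)
  have htop : 0 ≤ t * (1 + ε) ^ (m - 1) := by (clear * - ht hε; positivity)
  have hQ : 1 ≤ (M + 3) * m := Nat.mul_pos (by omega) hm
  obtain ⟨f, hf, S, hS0, hSm, hS⟩ := exists_chain (V := X)
    (fun f q => posPot J pos (wl R τ M (capR J pos w M t f) (q + 1))) F
    (fun q x Q => by
      show Continuous (fun f => ∑ j ∈ J,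
        max (tr (wl R τ M (capR J pos w M t f) (q + 1) (pos j)) (pos j) Q - dist x (pos j)) 0)
      refine continuous_finsetSum _ (fun j _ => ?_)
      exact ((continuous_tr (continuous_wl (q + 1) (pos j)) (pos j) Q).sub
        continuous_const).max continuous_const)
    ⟨J.card * (t * (1 + ε) ^ (m - 1)), by
      intro f hf q x Q _
      refine lt_of_le_of_lt ?_ hf
      show ∑ j ∈ J, max (tr (wl R τ M (capR J pos w M t f) (q + 1) (pos j)) (pos j) Q
        - dist x (pos j)) 0 ≤ _
      rw [← nsmul_eq_mul]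
      refine Finset.sum_le_card_nsmul _ _ _ (fun j _ => ?_)
      have h1 : tr (wl R τ M (capR J pos w M t f) (q + 1) (pos j)) (pos j) Q
        ≤ wl R τ M (capR J pos w M t f) (q + 1) (pos j) := tr_le
      have h2 := (wl_bounds' (R := R) (M := M) (cap := capR J pos w M t f) hτ q (pos j)).2
      have h3 : τ (q / (M + 3) + 1) ≤ t * (1 + ε) ^ (m - 1) := lev_le_top ht.le hε _
      exact max_le (by linarith only [h1, h2, h3, dist_nonneg (x := x) (y := pos j)]) htop⟩
    (O := ∅) (Finset.empty_subset F) hQ (by rw [Finset.card_empty]; exact hN1) hN2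
  have hmono : ∀ q, q < (M + 3) * m → S q ⊆ S (q + 1) := fun q hq => (hS q hq).1
  have hmax : ∀ q, q < (M + 3) * m → (posPot J pos
      (wl R τ M (capR J pos w M t f) (q + 1))).IsMax F f (S (q + 1)) :=
    fun q hq => (hS q hq).2.2.1
  have hSF : S ((M + 3) * m) ⊆ F := by
    obtain ⟨m', hm'⟩ : ∃ m', (M + 3) * m = m' + 1 := ⟨(M + 3) * m - 1, by omega⟩
    rw [hm']
    exact (hS m' (by omega)).2.1
  set α := wl R τ M (capR J pos w M t f) with hα
  have hαtop : ∀ v, α ((M + 3) * m) v = τ m := fun v => wl_zero m v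
  have hα0 : ∀ v, α 0 v = 0 := fun v => by
    have := wl_zero (R := R) (τ := τ) (M := M) (cap := capR J pos w M t f) 0 v
    rwa [mul_zero, hτ0] at this
  have hαmono : ∀ q v, α q v ≤ α (q + 1) v := fun q v => wl_mono hτ (fun v hv s =>
    capR_mono (hRn v hv) hM ht.le (fun l hl => div_nonneg (hx0 v (hR hv) l hl) (hRy v hv).le) s)
    q v
  refine ⟨f, S ((M + 3) * m), hf, hSF, hSm, (posPot J pos (α ((M + 3) * m))).φ (S ((M + 3) * m)),
    ?_, ?_, ?_⟩
  · exact Finset.sum_nonneg (fun j _ => tr_nonneg (by rw [hαtop]; exact hτnn m) _ _)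
  · intro h
    have e : τ m = t * (1 + ε) ^ (m - 1) := lev_top hm
    rw [← e] at h
    exact pos_cost_le hαtop (hτnn m) h
  · intro T hT
    have h1 := pos_chain_total J pos α f S ((M + 3) * m)
      (fun q hq => (hS q hq).2.2.2) _ le_rfl
    have h2 : (posPot J pos (α 0)).tot f (S 0) ≤ 0 := by
      unfold Pot.tot
      rw [hS0, Finset.card_empty, Nat.cast_zero, mul_zero, add_zero]
      refine Finset.sum_nonpos (fun j _ => ?_)
      show tr (α 0 (pos j)) (pos j) ∅ ≤ 0
      rw [← hα0 (pos j)]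
      exact tr_le
    have h3 : ∑ j ∈ J, ∑ p ∈ Finset.range ((M + 3) * m),
        (tr (α (p + 1) (pos j)) (pos j) (S p) - tr (α p (pos j)) (pos j) (S p))
        ≤ ∑ j ∈ J, gr α S ((M + 3) * m) (pos j) :=
      Finset.sum_le_sum (fun j _ => growth_le hα0 hαmono hmono (pos j) _ le_rfl)
    have h4 : ∑ j ∈ J, gr α S ((M + 3) * m) (pos j)
        = ∑ i ∈ F, ∑ j ∈ J, x i j * gr α S ((M + 3) * m) (pos j) := by
      rw [Finset.sum_comm]
      refine Finset.sum_congr rfl (fun j hj => ?_)
      rw [← Finset.sum_mul, hasg j hj, one_mul]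
    have h5 : ∑ i ∈ F, ∑ j ∈ J, x i j * gr α S ((M + 3) * m) (pos j)
        = ∑ i ∈ F \ R, ∑ j ∈ J, x i j * gr α S ((M + 3) * m) (pos j)
          + ∑ ρ ∈ R, ∑ j ∈ J, x ρ j * gr α S ((M + 3) * m) (pos j) :=
      (Finset.sum_sdiff hR).symm
    have h6 : ∑ ρ ∈ R, ∑ j ∈ J, x ρ j * gr α S ((M + 3) * m) (pos j)
        ≤ ∑ ρ ∈ R, (f * y ρ + 2 * ∑ j ∈ J, x ρ j * dist ρ (pos j)
          + 2 * ε * (f / nR J pos ρ) * ∑ l ∈ J with pos l ≠ ρ, x ρ l + t * ∑ j ∈ J, x ρ j) :=
      Finset.sum_le_sum (fun ρ hρ => rep_star_chain hR hf hε ht hM hMε hτ0 hτ hτs hx0 hxy hRn hRy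
        hRx hmono hmax hρ)
    have h7 : ∑ i ∈ F \ R, ∑ j ∈ J, x i j * gr α S ((M + 3) * m) (pos j)
        ≤ ∑ i ∈ F \ R, ((1 + ε) * ((1 + 1 / (2048 * (T + 2)) / T) * f * y i
          + (2 - 1 / (2048 * (T + 2))) * ∑ j ∈ J, x i j * dist i (pos j))
          + t * ∑ j ∈ J, x i j) := by
      refine Finset.sum_le_sum (fun i hi => ?_)
      have hiF : i ∈ F := (Finset.mem_sdiff.mp hi).1
      exact unif_star hf hT hε hτ0 hτ hτs (fun v hv s =>
        capR_mono (hRn v hv) hM ht.le (fun l hl => div_nonneg (hx0 v (hR hv) l hl) (hRy v hv).le) s)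
        hmono hmax hiF (hx0 i hiF) (hxy i hiF) (hy0 i hiF)
    have h8 : ∑ i ∈ F \ R, ∑ j ∈ J, x i j + ∑ ρ ∈ R, ∑ j ∈ J, x ρ j = J.card := by
      rw [Finset.sum_sdiff hR, Finset.sum_comm]
      rw [Finset.sum_congr rfl hasg]
      simp
    rw [Finset.sum_add_distrib (s := R), ← Finset.mul_sum (s := R)] at h6
    rw [Finset.sum_add_distrib (s := F \ R), ← Finset.mul_sum (s := F \ R),
      ← Finset.mul_sum (s := F \ R)] at h7
    have h9 : (posPot J pos (α ((M + 3) * m))).tot f (S ((M + 3) * m))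
        = (posPot J pos (α ((M + 3) * m))).φ (S ((M + 3) * m)) + f * N := by
      unfold Pot.tot; rw [hSm]
    rw [h9] at h1
    have h10 : t * (∑ i ∈ F \ R, ∑ j ∈ J, x i j + ∑ ρ ∈ R, ∑ j ∈ J, x ρ j) = t * J.card := by
      rw [h8]
    push_cast at h1
    (clear * - h2 h3 h4 h5 h6 h7 h10 h1; linarith)

end Chain

end Vale.Agent.P334
end

section

/-!
Optimal solutions of the Lagrangian relaxation of the k-median linear program.
-/

namespace Vale.Agent.P334

open Finset

variable {X : Type} [MetricSpace X]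

/-- Feasible solutions with unrestricted budget. -/
def Sol (J F : Finset X) (x : X → X → ℝ) (y : X → ℝ) : Prop := IsFrac J F (∑ i ∈ F, y i) x y

omit [MetricSpace X] in
lemma Sol.mk {J F : Finset X} {m : ℝ} {x : X → X → ℝ} {y : X → ℝ} (h : IsFrac J F m x y) :
    Sol J F x y := ⟨h.x_nonneg, h.x_le, h.y_nonneg, h.y_le_one, h.assign, le_rfl⟩

lemma continuous_fracCost (J F : Finset X) :
    Continuous (fun p : (X → X → ℝ) × (X → ℝ) => fracCost J F p.1) := by
  unfold fracCost
  (clear * -; fun_prop)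

open Classical in
/-- A solution of least mass among those of cost at most `C`. -/
lemma exists_min_mass (J F : Finset X) {C : ℝ}
    (hne : ∃ x y, Sol J F x y ∧ fracCost J F x ≤ C) :
    ∃ x y, Sol J F x y ∧ fracCost J F x ≤ C ∧
      ∀ x' y', Sol J F x' y' → fracCost J F x' ≤ C → ∑ i ∈ F, y i ≤ ∑ i ∈ F, y' i := by
  set box : Set ((X → X → ℝ) × (X → ℝ)) :=
    (Set.pi Set.univ (fun i => Set.pi Set.univ
      (fun j => if i ∈ F ∧ j ∈ J then Set.Icc (0 : ℝ) 1 else {0}))) ×ˢ
    (Set.pi Set.univ (fun i => if i ∈ F then Set.Icc (0 : ℝ) 1 else {0})) with hbox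
  have hboxc : IsCompact box := by
    refine IsCompact.prod (isCompact_univ_pi (fun i => isCompact_univ_pi (fun j => ?_)))
      (isCompact_univ_pi (fun i => ?_))
    · split_ifs
      · exact isCompact_Icc
      · exact isCompact_singleton
    · split_ifs
      · exact isCompact_Icc
      · exact isCompact_singleton
  set cl : Set ((X → X → ℝ) × (X → ℝ)) :=
    (⋂ i ∈ F, ⋂ j ∈ J, {p | p.1 i j ≤ p.2 i}) ∩ (⋂ j ∈ J, {p | ∑ i ∈ F, p.1 i j = 1}) ∩
      {p | fracCost J F p.1 ≤ C} with hcl
  have hclosed : IsClosed cl := by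
    refine IsClosed.inter (IsClosed.inter ?_ ?_) ?_
    · refine isClosed_biInter (fun i _ => isClosed_biInter (fun j _ => ?_))
      exact isClosed_le (by fun_prop) (by fun_prop)
    · refine isClosed_biInter (fun j _ => ?_)
      exact isClosed_eq (by fun_prop) (by fun_prop)
    · exact isClosed_le (continuous_fracCost J F) continuous_const
  have hcomp : IsCompact (box ∩ cl) := hboxc.inter_right hclosed
  -- every feasible solution has a truncation in the set
  have hcut : ∀ x y, Sol J F x y → fracCost J F x ≤ C →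
      (((fun i j => if i ∈ F ∧ j ∈ J then x i j else 0), (fun i => if i ∈ F then y i else 0)) :
        (X → X → ℝ) × (X → ℝ)) ∈ box ∩ cl := by
    intro x y h hC
    refine ⟨⟨?_, ?_⟩, ⟨?_, ?_⟩, ?_⟩
    · intro i _ j _
      show (if i ∈ F ∧ j ∈ J then x i j else 0) ∈ (if i ∈ F ∧ j ∈ J then Set.Icc (0 : ℝ) 1 else {0})
      split_ifs with hij
      · exact ⟨h.x_nonneg i hij.1 j hij.2, (h.x_le i hij.1 j hij.2).trans (h.y_le_one i hij.1)⟩
      · rfl
    · intro i _
      show (if i ∈ F then y i else 0) ∈ (if i ∈ F then Set.Icc (0 : ℝ) 1 else {0})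
      split_ifs with hi
      · exact ⟨h.y_nonneg i hi, h.y_le_one i hi⟩
      · rfl
    · simp only [Set.mem_iInter]
      intro i hi j hj
      show (if i ∈ F ∧ j ∈ J then x i j else 0) ≤ (if i ∈ F then y i else 0)
      rw [if_pos ⟨hi, hj⟩, if_pos hi]
      exact h.x_le i hi j hj
    · simp only [Set.mem_iInter]
      intro j hj
      show ∑ i ∈ F, (if i ∈ F ∧ j ∈ J then x i j else 0) = 1
      rw [← h.assign j hj]
      exact Finset.sum_congr rfl (fun i hi => by rw [if_pos ⟨hi, hj⟩])
    · show fracCost J F (fun i j => if i ∈ F ∧ j ∈ J then x i j else 0) ≤ C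
      refine le_trans (le_of_eq ?_) hC
      unfold fracCost
      exact Finset.sum_congr rfl (fun j hj => Finset.sum_congr rfl
        (fun i hi => by simp [hi, hj]))
  obtain ⟨x0, y0, h0, hC0⟩ := hne
  obtain ⟨p, hp, hmin⟩ := hcomp.exists_isMinOn ⟨_, hcut x0 y0 h0 hC0⟩
    (f := fun p : (X → X → ℝ) × (X → ℝ) => ∑ i ∈ F, p.2 i)
    (by (clear * -; fun_prop))
  obtain ⟨⟨hp1, hp2⟩, ⟨hp3, hp4⟩, hp5⟩ := hp
  simp only [Set.mem_iInter] at hp3 hp4
  have hy : ∀ i ∈ F, p.2 i ∈ Set.Icc (0 : ℝ) 1 := by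
    intro i hi
    have := hp2 i (Set.mem_univ i)
    simpa only [Set.mem_Icc, hi, ↓reduceIte] using this
  have hx : ∀ i ∈ F, ∀ j ∈ J, p.1 i j ∈ Set.Icc (0 : ℝ) 1 := by
    intro i hi j hj
    have := hp1 i (Set.mem_univ i) j (Set.mem_univ j)
    simpa only [Set.mem_Icc, hi, hj, and_self, ↓reduceIte] using this
  refine ⟨p.1, p.2, ⟨fun i hi j hj => (hx i hi j hj).1, fun i hi j hj => hp3 i hi j hj,
    fun i hi => (hy i hi).1, fun i hi => (hy i hi).2, fun j hj => hp4 j hj, le_rfl⟩, hp5, ?_⟩
  intro x' y' h' hC'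
  have := hmin (hcut x' y' h' hC')
  simp only [Set.mem_ofPred_eq] at this
  refine this.trans (le_of_eq ?_)
  exact Finset.sum_congr rfl (fun i hi => by simp [hi])

/-- Optimal solutions of the Lagrangian relaxation with price `g`. -/
structure LOpt (J F : Finset X) (g : ℝ) (x : X → X → ℝ) (y : X → ℝ) : Prop where
  g_pos : 0 < g
  feas : Sol J F x y
  mass : 1 < ∑ i ∈ F, y i
  opt : ∀ x' y', Sol J F x' y' →
    fracCost J F x + g * ∑ i ∈ F, y i ≤ fracCost J F x' + g * ∑ i ∈ F, y' i

/-- With mass one the relaxation is integral. -/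
lemma mass_one {J F : Finset X} (hJ : J.Nonempty) {x : X → X → ℝ} {y : X → ℝ}
    (h : Sol J F x y) (hm : ∑ i ∈ F, y i ≤ 1) : ∃ i ∈ F, cost J {i} ≤ fracCost J F x := by
  have hx : ∀ i ∈ F, ∀ j ∈ J, x i j = y i := by
    intro i hi j hj
    have h1 : ∑ i ∈ F, (y i - x i j) ≤ 0 := by
      rw [Finset.sum_sub_distrib, h.assign j hj]; linarith only [hm]
    have h2 : y i - x i j ≤ ∑ i ∈ F, (y i - x i j) :=
      Finset.single_le_sum (f := fun i => y i - x i j)
        (fun i' hi' => sub_nonneg.mpr (h.x_le i' hi' j hj)) hi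
    have h3 := h.x_le i hi j hj
    linarith only [h1, h2, h3]
  obtain ⟨j0, hj0⟩ := hJ
  have hsum : ∑ i ∈ F, y i = 1 := by
    rw [← h.assign j0 hj0]
    exact Finset.sum_congr rfl (fun i hi => (hx i hi j0 hj0).symm)
  have hcost : fracCost J F x = ∑ i ∈ F, y i * cost J {i} := by
    unfold fracCost cost
    rw [Finset.sum_comm]
    refine Finset.sum_congr rfl (fun i hi => ?_)
    rw [Finset.mul_sum]
    refine Finset.sum_congr rfl (fun j hj => ?_)
    rw [hx i hi j hj, Finset.coe_singleton, Metric.infDist_singleton, dist_comm]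
  by_contra hcon
  push Not at hcon
  have hpos : ∃ i ∈ F, 0 < y i := by
    by_contra hno
    push Not at hno
    have : ∑ i ∈ F, y i ≤ 0 := Finset.sum_nonpos hno
    linarith only [hsum, this]
  have h1 : ∑ i ∈ F, y i * fracCost J F x < ∑ i ∈ F, y i * cost J {i} := by
    apply Finset.sum_lt_sum
    · intro i hi
      exact mul_le_mul_of_nonneg_left (hcon i hi).le (h.y_nonneg i hi)
    · obtain ⟨i, hi, hi2⟩ := hpos
      exact ⟨i, hi, mul_lt_mul_of_pos_left (hcon i hi) hi2⟩
  rw [← Finset.sum_mul, hsum, one_mul, ← hcost] at h1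
  exact lt_irrefl _ h1

/-- Two solutions on different sides of the level `C` and the least mass at level `C`. -/
lemma slope_ineq {J F : Finset X} {C m : ℝ}
    (hmin : ∀ x' y', Sol J F x' y' → fracCost J F x' ≤ C → m ≤ ∑ i ∈ F, y' i)
    {x₁ x₂ : X → X → ℝ} {y₁ y₂ : X → ℝ} (h₁ : Sol J F x₁ y₁) (h₂ : Sol J F x₂ y₂)
    (hc₁ : C < fracCost J F x₁) (hc₂ : fracCost J F x₂ < C) :
    (C - fracCost J F x₂) * (m - ∑ i ∈ F, y₁ i)
      ≤ (fracCost J F x₁ - C) * (∑ i ∈ F, y₂ i - m) := by
  have hd : 0 < fracCost J F x₁ - fracCost J F x₂ := by linarith only [hc₁, hc₂]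
  set s := (fracCost J F x₁ - C) / (fracCost J F x₁ - fracCost J F x₂) with hs
  have hs0 : 0 ≤ s := div_nonneg (by linarith only [hc₁]) hd.le
  have hs1 : s ≤ 1 := by rw [hs, div_le_one hd]; linarith only [hc₂]
  have hsd : s * (fracCost J F x₁ - fracCost J F x₂) = fracCost J F x₁ - C := by
    rw [hs]; field_simp
  have h := hmin _ _ (Sol.mk (IsFrac.convex h₁ h₂ hs0 hs1)) (by
    rw [fracCost_convex]; linarith)
  rw [Finset.sum_add_distrib, ← Finset.mul_sum, ← Finset.mul_sum] at h
  have h3 := mul_le_mul_of_nonneg_right h hd.le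
  have h4 : (1 - s) * (fracCost J F x₁ - fracCost J F x₂) = C - fracCost J F x₂ := by
    linarith only [hsd]
  have h5 : ((1 - s) * ∑ i ∈ F, y₁ i + s * ∑ i ∈ F, y₂ i) *
      (fracCost J F x₁ - fracCost J F x₂)
      = ((1 - s) * (fracCost J F x₁ - fracCost J F x₂)) * ∑ i ∈ F, y₁ i
        + (s * (fracCost J F x₁ - fracCost J F x₂)) * ∑ i ∈ F, y₂ i := by ring
  rw [h5, h4, hsd] at h3
  linarith only [h3]

/-- Existence of a Lagrangian optimal solution of almost optimal cost and with spare budget. -/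
theorem exists_lopt (J F : Finset X) (hF : F.Nonempty) {k κ : ℝ} (hk : 1 ≤ k)
    (hL : 0 < lpVal J F k) (hκ : 0 < κ) :
    (∃ i ∈ F, cost J {i} ≤ (1 + κ) * lpVal J F k) ∨
    ∃ g x y, LOpt J F g x y ∧ fracCost J F x ≤ (1 + κ) * lpVal J F k ∧
      κ / 2 * lpVal J F k ≤ g * (k - ∑ i ∈ F, y i) := by
  set L := lpVal J F k with hLdef
  have hJ : J.Nonempty := by
    by_contra hcon
    rw [Finset.not_nonempty_iff_eq_empty] at hcon
    obtain ⟨x, y, h⟩ := exists_frac J F hF hk
    have := lpVal_le J F h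
    unfold fracCost at this
    rw [hcon, Finset.sum_empty] at this
    rw [hLdef, hcon] at hL
    linarith only [hL, this]
  obtain ⟨C, hC⟩ : ∃ C : ℝ, C = (1 + κ) * L := ⟨_, rfl⟩
  obtain ⟨xk, yk, hk1, hk2⟩ := exists_near_opt J F hF (m := k) (c := (1 + κ / 2) * L) hk
    (by rw [← hLdef]; nlinarith only [hκ, hL])
  have hkC : fracCost J F xk < C := by rw [hC]; nlinarith only [hk2, hκ, hL]
  obtain ⟨x, y, hxy, hcost, hmin⟩ := exists_min_mass J F (C := C) ⟨xk, yk, Sol.mk hk1, hkC.le⟩
  rw [← hC]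
  by_cases hm1 : ∑ i ∈ F, y i ≤ 1
  · left
    obtain ⟨i, hi, h⟩ := mass_one hJ hxy hm1
    exact ⟨i, hi, h.trans hcost⟩
  push Not at hm1
  right
  set m := ∑ i ∈ F, y i with hm
  obtain ⟨x₁, y₁, h₁⟩ := exists_frac J F hF (le_refl (1 : ℝ))
  have hC1 : C < fracCost J F x₁ := by
    by_contra hcon
    push Not at hcon
    have := hmin x₁ y₁ (Sol.mk h₁) hcon
    have := h₁.budget
    (clear hF k κ hk hκ L hL hLdef hJ hC xk yk hk1 hk2 hkC x hxy hcost hm; linarith)
  have hmass : ∀ x' y', Sol J F x' y' → fracCost J F x' < C → m < ∑ i ∈ F, y' i := by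
    intro x' y' h' hc'
    have h2 := slope_ineq hmin (Sol.mk h₁) h' hC1 hc'
    have h3 : 0 < (C - fracCost J F x') * (m - ∑ i ∈ F, y₁ i) :=
      mul_pos (by linarith only [hc']) (by linarith only [hm1, h₁.budget])
    have h4 : 0 < (fracCost J F x₁ - C) * (∑ i ∈ F, y' i - m) := by linarith only [h2, h3]
    have h5 := (mul_pos_iff_of_pos_left (by linarith only [hC1] : 0 < fracCost J F x₁ - C)).mp h4
    linarith only [h5]
  set S : Set ℝ := {s | ∃ x' y', Sol J F x' y' ∧ fracCost J F x' < C ∧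
    s = (C - fracCost J F x') / (∑ i ∈ F, y' i - m)} with hS
  have hleft : ∀ x'' y'', Sol J F x'' y'' → C < fracCost J F x'' → ∑ i ∈ F, y'' i < m →
      ∀ s ∈ S, s ≤ (fracCost J F x'' - C) / (m - ∑ i ∈ F, y'' i) := by
    rintro x'' y'' h'' hc'' hm'' s ⟨x', y', h', hc', rfl⟩
    have h1 := hmass x' y' h' hc'
    have h2 := slope_ineq hmin h'' h' hc'' hc'
    rw [div_le_div_iff₀ (by linarith only [h1]) (by linarith only [hm''])]
    exact h2
  have hbdd : BddAbove S :=
    ⟨_, hleft x₁ y₁ (Sol.mk h₁) hC1 (by linarith only [hm1, h₁.budget])⟩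
  have hkS : (C - fracCost J F xk) / (∑ i ∈ F, yk i - m) ∈ S := ⟨xk, yk, Sol.mk hk1, hkC, rfl⟩
  have hslope : ∀ x' y', Sol J F x' y' → fracCost J F x' < C →
      C - fracCost J F x' ≤ sSup S * (∑ i ∈ F, y' i - m) := by
    intro x' y' h' hc'
    have h1 := hmass x' y' h' hc'
    have h2 := le_csSup hbdd (show (C - fracCost J F x') / (∑ i ∈ F, y' i - m) ∈ S from
      ⟨x', y', h', hc', rfl⟩)
    rwa [div_le_iff₀ (by linarith only [h1])] at h2
  have hgpos : 0 < sSup S := by
    refine lt_of_lt_of_le ?_ (le_csSup hbdd hkS)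
    exact div_pos (by linarith only [hkC]) (by linarith only [hmass xk yk (Sol.mk hk1) hkC])
  refine ⟨sSup S, x, y, ⟨hgpos, hxy, hm1, ?_⟩, hcost, ?_⟩
  · intro x'' y'' h''
    suffices h : C + sSup S * m ≤ fracCost J F x'' + sSup S * ∑ i ∈ F, y'' i by linarith only [hcost, h]
    rcases lt_trichotomy (fracCost J F x'') C with hc | hc | hc
    · have := hslope x'' y'' h'' hc
      linarith only [this]
    · have h1 := hmin x'' y'' h'' hc.le
      have := mul_le_mul_of_nonneg_left h1 hgpos.le
      linarith only [hc, this]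
    · by_cases hm'' : ∑ i ∈ F, y'' i < m
      · have h1 := csSup_le ⟨_, hkS⟩ (hleft x'' y'' h'' hc hm'')
        rw [le_div_iff₀ (by linarith only [hm''])] at h1
        linarith only [h1]
      · push Not at hm''
        have := mul_le_mul_of_nonneg_left hm'' hgpos.le
        linarith only [hc, this]
  · have h1 := hslope xk yk (Sol.mk hk1) hkC
    have h2 : sSup S * (∑ i ∈ F, yk i - m) ≤ sSup S * (k - m) :=
      mul_le_mul_of_nonneg_left (by (clear * - hk1; linarith [hk1.budget])) hgpos.le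
    have h3 : κ / 2 * L ≤ C - fracCost J F xk := by rw [hC]; linarith only [hk2]
    linarith

end Vale.Agent.P334
end

section

/-!
Radii and local optimality of optimal solutions of the Lagrangian relaxation.
-/

namespace Vale.Agent.P334

open Finset

variable {X : Type} [MetricSpace X]

/-- Moving an amount `e j` of client `j` from facility `b j` to facility `a j`. -/
noncomputable def shift (x : X → X → ℝ) (a b : X → X) (e : X → ℝ) : X → X → ℝ :=
  open Classical in
  fun i j => x i j + (if i = a j then e j else 0) - (if i = b j then e j else 0)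

omit [MetricSpace X] in
lemma shift_sum {F : Finset X} {x : X → X → ℝ} {a b : X → X} {e : X → ℝ} {j : X}
    (ha : a j ∈ F) (hb : b j ∈ F) : ∑ i ∈ F, shift x a b e i j = ∑ i ∈ F, x i j := by
  classical
  unfold shift
  rw [Finset.sum_sub_distrib, Finset.sum_add_distrib, Finset.sum_ite_eq' F (a j),
    Finset.sum_ite_eq' F (b j), if_pos ha, if_pos hb]
  ring

lemma shift_cost {J F : Finset X} {x : X → X → ℝ} {a b : X → X} {e : X → ℝ}
    (ha : ∀ j ∈ J, a j ∈ F) (hb : ∀ j ∈ J, b j ∈ F) :
    fracCost J F (shift x a b e)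
      = fracCost J F x + ∑ j ∈ J, e j * (dist (a j) j - dist (b j) j) := by
  classical
  unfold fracCost shift
  rw [← Finset.sum_add_distrib]
  refine Finset.sum_congr rfl (fun j hj => ?_)
  have h : ∀ i, (x i j + (if i = a j then e j else 0) - (if i = b j then e j else 0)) * dist i j
      = x i j * dist i j + (if i = a j then e j * dist i j else 0)
        - (if i = b j then e j * dist i j else 0) := by
    intro i
    split_ifs <;> ring
  rw [Finset.sum_congr rfl (fun i _ => h i), Finset.sum_sub_distrib, Finset.sum_add_distrib,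
    Finset.sum_ite_eq' F (a j), Finset.sum_ite_eq' F (b j), if_pos (ha j hj), if_pos (hb j hj)]
  ring

omit [MetricSpace X] in
lemma exists_pos_le (J : Finset X) (δ : X → ℝ) (h : ∀ j ∈ J, 0 < δ j) :
    ∃ ε : ℝ, 0 < ε ∧ ∀ j ∈ J, ε ≤ δ j := by
  rcases J.eq_empty_or_nonempty with rfl | hJ
  · exact ⟨1, one_pos, fun j hj => absurd hj (Finset.notMem_empty j)⟩
  · obtain ⟨j, hj, hmin⟩ := J.exists_min_image δ hJ
    exact ⟨δ j, h j hj, hmin⟩

/-- Radii of balls of mass one. -/
lemma exists_radius (F : Finset X) (y : X → ℝ) (h : 1 < ∑ i ∈ F, y i) (p : X) :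
    ∃ r : ℝ, 1 < ∑ i ∈ F with dist i p ≤ r, y i ∧ ∑ i ∈ F with dist i p < r, y i ≤ 1 := by
  classical
  set G := F.filter (fun a => 1 < ∑ i ∈ F with dist i p ≤ dist a p, y i) with hG
  have hFne : F.Nonempty := by
    by_contra hcon
    rw [Finset.not_nonempty_iff_eq_empty] at hcon
    rw [hcon, Finset.sum_empty] at h
    linarith only [h]
  have hGne : G.Nonempty := by
    obtain ⟨a, ha, hmax⟩ := F.exists_max_image (fun i => dist i p) hFne
    refine ⟨a, Finset.mem_filter.mpr ⟨ha, ?_⟩⟩
    rwa [Finset.filter_true_of_mem (fun i hi => hmax i hi)]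
  obtain ⟨a, ha, hmin⟩ := G.exists_min_image (fun i => dist i p) hGne
  obtain ⟨haF, ha1⟩ := Finset.mem_filter.mp ha
  refine ⟨dist a p, ha1, ?_⟩
  by_contra hcon
  push Not at hcon
  have hne : (F.filter (fun i => dist i p < dist a p)).Nonempty := by
    by_contra hno
    rw [Finset.not_nonempty_iff_eq_empty] at hno
    rw [hno, Finset.sum_empty] at hcon
    linarith only [hcon]
  obtain ⟨b, hb, hbmax⟩ := (F.filter (fun i => dist i p < dist a p)).exists_max_image
    (fun i => dist i p) hne
  obtain ⟨hbF, hb1⟩ := Finset.mem_filter.mp hb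
  have heq : F.filter (fun i => dist i p < dist a p) = F.filter (fun i => dist i p ≤ dist b p) := by
    ext i
    simp only [Finset.mem_filter]
    constructor
    · rintro ⟨h1, h2⟩
      exact ⟨h1, hbmax i (Finset.mem_filter.mpr ⟨h1, h2⟩)⟩
    · rintro ⟨h1, h2⟩
      exact ⟨h1, lt_of_le_of_lt h2 hb1⟩
  have hbG : b ∈ G := Finset.mem_filter.mpr ⟨hbF, by rwa [← heq]⟩
  exact absurd (hmin b hbG) (not_le.mpr hb1)

/-- An optimal solution with its radii. -/
structure Rad (J F : Finset X) (g : ℝ) (x : X → X → ℝ) (y : X → ℝ) (r : X → ℝ) : Prop where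
  g_pos : 0 < g
  sol : Sol J F x y
  gt : ∀ p, 1 < ∑ i ∈ F with dist i p ≤ r p, y i
  le : ∀ p, ∑ i ∈ F with dist i p < r p, y i ≤ 1
  eq : ∀ j ∈ J, ∀ i ∈ F, dist i j < r j → x i j = y i
  zero : ∀ j ∈ J, ∀ i ∈ F, r j < dist i j → x i j = 0
  gain : ∀ i ∈ F, 0 < y i → g ≤ ∑ j ∈ J, max (r j - dist i j) 0
  loss : ∀ i ∈ F, ∀ q : X → ℝ,
    (∀ j ∈ J, ∑ b ∈ F with dist b j < q j, y b ≤ 1 - 1 / (8 * (F.card : ℝ))) →
    ∑ j ∈ J, max (q j - dist i j) 0 ≤ 51 / 50 * g

section

variable {J F : Finset X} {g : ℝ} {x : X → X → ℝ} {y : X → ℝ}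

/-- Moving mass of a single client towards a nearer facility is impossible. -/
lemma LOpt.no_move (h : LOpt J F g x y) {j : X} (hj : j ∈ J) {a b : X} (ha : a ∈ F) (hb : b ∈ F)
    (hxa : x a j < y a) (hxb : 0 < x b j) : dist b j ≤ dist a j := by
  classical
  by_contra hcon
  push Not at hcon
  have hab : a ≠ b := fun hab => by rw [hab] at hcon; exact lt_irrefl _ hcon
  obtain ⟨δ, hδ0, hδ1, hδ2⟩ : ∃ δ : ℝ, 0 < δ ∧ δ ≤ y a - x a j ∧ δ ≤ x b j :=
    ⟨min (y a - x a j) (x b j), lt_min (by linarith only [hxa]) hxb, min_le_left _ _, min_le_right _ _⟩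
  set e : X → ℝ := fun l => if l = j then δ else 0 with he
  have he0 : ∀ l, 0 ≤ e l := fun l => by
    simp only [he]; split_ifs; exacts [hδ0.le, le_rfl]
  have hsol : Sol J F (shift x (fun _ => a) (fun _ => b) e) y := by
    refine ⟨?_, ?_, h.feas.y_nonneg, h.feas.y_le_one, ?_, le_rfl⟩
    · intro i hi l hl
      show 0 ≤ x i l + (if i = a then e l else 0) - (if i = b then e l else 0)
      have h1 := h.feas.x_nonneg i hi l hl
      by_cases hib : i = b
      · rw [if_neg (by rw [hib]; exact hab.symm), if_pos hib]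
        by_cases hlj : l = j
        · rw [hib, hlj]; simp only [he, if_true]; linarith only [hδ2]
        · simp only [he, hlj, if_false]; linarith only [h1]
      · rw [if_neg hib]
        split_ifs
        · linarith only [h1, he0 l]
        · linarith only [h1]
    · intro i hi l hl
      show x i l + (if i = a then e l else 0) - (if i = b then e l else 0) ≤ y i
      have h1 := h.feas.x_le i hi l hl
      by_cases hia : i = a
      · rw [if_pos hia, if_neg (by rw [hia]; exact hab)]
        by_cases hlj : l = j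
        · rw [hia, hlj]; simp only [he, if_true]; linarith only [hδ1]
        · simp only [he, hlj, if_false]; linarith only [h1]
      · rw [if_neg hia]
        split_ifs
        · linarith only [h1, he0 l]
        · linarith only [h1]
    · intro l hl
      rw [shift_sum ha hb]
      exact h.feas.assign l hl
  have h1 := h.opt _ _ hsol
  rw [shift_cost (fun _ _ => ha) (fun _ _ => hb)] at h1
  have h2 : ∑ l ∈ J, e l * (dist a l - dist b l) = δ * (dist a j - dist b j) := by
    simp only [he, ite_mul, zero_mul]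
    rw [Finset.sum_ite_eq' J j, if_pos hj]
  rw [h2] at h1
  nlinarith only [h1, hcon, hδ0]

/-- Closing a small part of a facility. -/
lemma LOpt.gain (h : LOpt J F g x y) {r : X → ℝ}
    (hgt : ∀ j ∈ J, 1 < ∑ i ∈ F with dist i j ≤ r j, y i)
    (hzero : ∀ j ∈ J, ∀ i ∈ F, r j < dist i j → x i j = 0) {i : X} (hi : i ∈ F) (hy : 0 < y i) :
    g ≤ ∑ j ∈ J, max (r j - dist i j) 0 := by
  classical
  have hex : ∀ j ∈ J, ∃ (a : X) (δ : ℝ), 0 < δ ∧ a ∈ F ∧
      (x i j = y i → a ≠ i ∧ dist a j ≤ r j ∧ x a j + δ ≤ y a ∧ dist i j ≤ r j) ∧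
      (x i j ≠ y i → x i j + δ ≤ y i) := by
    intro j hj
    by_cases hxy : x i j = y i
    · have hir : dist i j ≤ r j := by
        by_contra hcon
        push Not at hcon
        have := hzero j hj i hi hcon
        rw [hxy] at this
        linarith only [hy, this]
      have hex2 : ∃ a ∈ F, a ≠ i ∧ dist a j ≤ r j ∧ x a j < y a := by
        by_contra hcon
        push Not at hcon
        have h1 : ∑ a ∈ F with dist a j ≤ r j, y a ≤ ∑ a ∈ F with dist a j ≤ r j, x a j := by
          refine Finset.sum_le_sum (fun a ha => ?_)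
          obtain ⟨haF, har⟩ := Finset.mem_filter.mp ha
          by_cases hai : a = i
          · rw [hai, hxy]
          · exact hcon a haF hai har
        have h2 : ∑ a ∈ F with dist a j ≤ r j, x a j ≤ ∑ a ∈ F, x a j :=
          Finset.sum_le_sum_of_subset_of_nonneg (Finset.filter_subset _ _)
            (fun a ha _ => h.feas.x_nonneg a ha j hj)
        rw [h.feas.assign j hj] at h2
        linarith only [h1, h2, hgt j hj]
      obtain ⟨a, haF, hai, har, hxa⟩ := hex2
      exact ⟨a, y a - x a j, by linarith only [hxa], haF, fun _ => ⟨hai, har, by linarith only [], hir⟩,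
        fun hne => absurd hxy hne⟩
    · have h1 := lt_of_le_of_ne (h.feas.x_le i hi j hj) hxy
      exact ⟨i, y i - x i j, by linarith, hi, fun he => absurd he hxy, fun _ => by linarith only []⟩
  choose! a δ' hδ'0 haF ha1 ha2 using hex
  obtain ⟨δ₀, hδ₀, hδ₀'⟩ := exists_pos_le J δ' hδ'0
  obtain ⟨δ, hδ0, hδ1, hδ2⟩ : ∃ δ : ℝ, 0 < δ ∧ δ ≤ y i ∧ ∀ j ∈ J, δ ≤ δ' j :=
    ⟨min (y i) δ₀, lt_min hy hδ₀, min_le_left _ _, fun j hj => (min_le_right _ _).trans (hδ₀' j hj)⟩
  set e : X → ℝ := fun l => if x i l = y i then δ else 0 with he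
  have he0 : ∀ l, 0 ≤ e l := fun l => by
    simp only [he]; split_ifs; exacts [hδ0.le, le_rfl]
  set y' : X → ℝ := fun l => if l = i then y i - δ else y l with hy'
  have hsol : Sol J F (shift x a (fun _ => i) e) y' := by
    refine ⟨?_, ?_, ?_, ?_, ?_, le_rfl⟩
    · intro l hl j hj
      show 0 ≤ x l j + (if l = a j then e j else 0) - (if l = i then e j else 0)
      have h1 := h.feas.x_nonneg l hl j hj
      by_cases hli : l = i
      · rw [if_pos hli]
        by_cases hxy : x i j = y i
        · have h2 : 0 ≤ (if l = a j then e j else 0) := by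
            split_ifs; exacts [he0 j, le_rfl]
          rw [hli] at h2 ⊢
          simp only [he, hxy, if_true] at h2 ⊢
          linarith only [hδ1, h2]
        · simp only [he, hxy, if_false, ite_self]
          linarith only [h1]
      · rw [if_neg hli]
        split_ifs
        · linarith only [h1, he0 j]
        · linarith only [h1]
    · intro l hl j hj
      show x l j + (if l = a j then e j else 0) - (if l = i then e j else 0) ≤ y' l
      have h1 := h.feas.x_le l hl j hj
      by_cases hxy : x i j = y i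
      · obtain ⟨h2, h3, h4, h5⟩ := ha1 j hj hxy
        have hej : e j = δ := by simp only [he, hxy, if_true]
        rw [hej]
        by_cases hli : l = i
        · rw [if_pos hli, if_neg (by rw [hli]; exact fun h => h2 h.symm)]
          simp only [hy', hli, if_true]
          linarith only [hxy]
        · rw [if_neg hli]
          simp only [hy', hli, if_false]
          by_cases hla : l = a j
          · rw [if_pos hla]
            have := hδ2 j hj
            rw [hla]
            linarith only [h4, this]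
          · rw [if_neg hla]; linarith only [h1]
      · have hej : e j = 0 := by simp only [he, hxy, if_false]
        rw [hej]
        simp only [ite_self, add_zero, sub_zero, hy']
        split_ifs with hli
        · rw [hli]
          have := ha2 j hj hxy
          linarith only [this, hδ2 j hj]
        · exact h1
    · intro l hl
      simp only [hy']
      split_ifs
      · linarith only [hδ1]
      · exact h.feas.y_nonneg l hl
    · intro l hl
      simp only [hy']
      split_ifs
      · linarith only [hδ0, h.feas.y_le_one i hi]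
      · exact h.feas.y_le_one l hl
    · intro l hl
      rw [shift_sum (haF l hl) hi]
      exact h.feas.assign l hl
  have h1 := h.opt _ _ hsol
  rw [shift_cost haF (fun _ _ => hi)] at h1
  have h2 : ∑ l ∈ F, y' l = ∑ l ∈ F, y l - δ := by
    have h3 : ∀ l ∈ F, y' l = y l - (if l = i then δ else 0) := by
      intro l _
      simp only [hy']
      split_ifs with hli
      · rw [hli]
      · rw [sub_zero]
    rw [Finset.sum_congr rfl h3, Finset.sum_sub_distrib, Finset.sum_ite_eq' F i, if_pos hi]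
  have h3 : ∑ j ∈ J, e j * (dist (a j) j - dist i j) ≤ δ * ∑ j ∈ J, max (r j - dist i j) 0 := by
    rw [Finset.mul_sum]
    refine Finset.sum_le_sum (fun j hj => ?_)
    by_cases hxy : x i j = y i
    · obtain ⟨_, h4, _, _⟩ := ha1 j hj hxy
      simp only [he, hxy, if_true]
      refine mul_le_mul_of_nonneg_left ?_ hδ0.le
      exact le_trans (by linarith only [h4]) (le_max_left _ _)
    · simp only [he, hxy, if_false, zero_mul]
      exact mul_nonneg hδ0.le (le_max_right _ _)
  rw [h2] at h1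
  have h4 : δ * g ≤ δ * ∑ j ∈ J, max (r j - dist i j) 0 := by
    have : g * (∑ l ∈ F, y l - δ) = g * ∑ l ∈ F, y l - δ * g := by ring
    linarith only [h1, h3]
  exact le_of_mul_le_mul_left h4 hδ0

/-- Opening a small part of a facility. -/
lemma LOpt.loss (h : LOpt J F g x y) {i : X} (hi : i ∈ F) {q : X → ℝ}
    (hq : ∀ j ∈ J, ∃ b ∈ F, 0 < x b j ∧ q j ≤ dist b j) :
    ∑ j ∈ J, max (q j - dist i j) 0 ≤ g := by
  classical
  choose! b hbF hb1 hb2 using hq
  rcases (h.feas.y_le_one i hi).eq_or_lt with hy1 | hy1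
  · refine le_trans (Finset.sum_nonpos (fun j hj => ?_)) h.g_pos.le
    refine max_le ?_ le_rfl
    by_contra hcon
    push Not at hcon
    have hlt : dist i j < dist (b j) j := by linarith only [hcon, hb2 j hj]
    have hne : b j ≠ i := fun hbi => by rw [hbi] at hlt; exact lt_irrefl _ hlt
    have h1 : x i j < y i := by
      rw [hy1]
      have h2 : x i j + x (b j) j ≤ ∑ l ∈ F, x l j := by
        have h3 : ∑ l ∈ {i, b j}, x l j ≤ ∑ l ∈ F, x l j := by
          apply Finset.sum_le_sum_of_subset_of_nonneg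
          · intro l hl
            rcases Finset.mem_insert.mp hl with h | h
            · rw [h]; exact hi
            · rw [Finset.mem_singleton.mp h]; exact hbF j hj
          · intro l hl _
            exact h.feas.x_nonneg l hl j hj
        rwa [Finset.sum_pair (fun h => hne h.symm)] at h3
      rw [h.feas.assign j hj] at h2
      linarith only [h2, hb1 j hj]
    have := h.no_move hj hi (hbF j hj) h1 (hb1 j hj)
    linarith only [hlt, this]
  · obtain ⟨δ₀, hδ₀, hδ₀'⟩ := exists_pos_le J (fun j => x (b j) j) hb1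
    obtain ⟨δ, hδ0, hδ1, hδ2⟩ : ∃ δ : ℝ, 0 < δ ∧ δ ≤ 1 - y i ∧ ∀ j ∈ J, δ ≤ x (b j) j :=
      ⟨min (1 - y i) δ₀, lt_min (by linarith) hδ₀, min_le_left _ _,
        fun j hj => (min_le_right _ _).trans (hδ₀' j hj)⟩
    set e : X → ℝ := fun l => if dist i l < q l then δ else 0 with he
    have he0 : ∀ l, 0 ≤ e l := fun l => by
      simp only [he]; split_ifs; exacts [hδ0.le, le_rfl]
    have he1 : ∀ l, e l ≤ δ := fun l => by
      simp only [he]; split_ifs; exacts [le_rfl, hδ0.le]
    set y' : X → ℝ := fun l => if l = i then y i + δ else y l with hy'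
    have hsol : Sol J F (shift x (fun _ => i) b e) y' := by
      refine ⟨?_, ?_, ?_, ?_, ?_, le_rfl⟩
      · intro l hl j hj
        show 0 ≤ x l j + (if l = i then e j else 0) - (if l = b j then e j else 0)
        have h1 := h.feas.x_nonneg l hl j hj
        have h2 : 0 ≤ (if l = i then e j else 0) := by
          split_ifs; exacts [he0 j, le_rfl]
        by_cases hlb : l = b j
        · rw [if_pos hlb]
          have h3 := hδ2 j hj
          have h4 := he1 j
          rw [← hlb] at h3
          linarith only [h2, h3, h4]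
        · rw [if_neg hlb]; linarith
      · intro l hl j hj
        show x l j + (if l = i then e j else 0) - (if l = b j then e j else 0) ≤ y' l
        have h1 := h.feas.x_le l hl j hj
        have h2 : 0 ≤ (if l = b j then e j else 0) := by
          split_ifs; exacts [he0 j, le_rfl]
        by_cases hli : l = i
        · rw [if_pos hli]
          simp only [hy', hli, if_true]
          have := he1 j
          rw [hli] at h1 h2
          linarith only [h1, h2, this]
        · rw [if_neg hli]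
          simp only [hy', hli, if_false]
          linarith only [h1, h2]
      · intro l hl
        simp only [hy']
        split_ifs
        · linarith only [hδ0, h.feas.y_nonneg i hi]
        · exact h.feas.y_nonneg l hl
      · intro l hl
        simp only [hy']
        split_ifs
        · linarith only [hδ1]
        · exact h.feas.y_le_one l hl
      · intro l hl
        rw [shift_sum hi (hbF l hl)]
        exact h.feas.assign l hl
    have h1 := h.opt _ _ hsol
    rw [shift_cost (fun _ _ => hi) hbF] at h1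
    have h2 : ∑ l ∈ F, y' l = ∑ l ∈ F, y l + δ := by
      have h3 : ∀ l ∈ F, y' l = y l + (if l = i then δ else 0) := by
        intro l _
        simp only [hy']
        split_ifs with hli
        · rw [hli]
        · rw [add_zero]
      rw [Finset.sum_congr rfl h3, Finset.sum_add_distrib, Finset.sum_ite_eq' F i, if_pos hi]
    have h3 : ∑ j ∈ J, e j * (dist i j - dist (b j) j)
        ≤ - (δ * ∑ j ∈ J, max (q j - dist i j) 0) := by
      rw [Finset.mul_sum, ← Finset.sum_neg_distrib]
      refine Finset.sum_le_sum (fun j hj => ?_)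
      simp only [he]
      split_ifs with hlt
      · rw [max_eq_left (by linarith only [hlt])]
        have := hb2 j hj
        nlinarith only [hδ0, this]
      · push Not at hlt
        rw [max_eq_right (by linarith)]
        simp
    rw [h2] at h1
    have h4 : δ * ∑ j ∈ J, max (q j - dist i j) 0 ≤ δ * g := by
      have : g * (∑ l ∈ F, y l + δ) = g * ∑ l ∈ F, y l + δ * g := by ring
      linarith only [h1, h3]
    exact le_of_mul_le_mul_left h4 hδ0

/-- An optimal solution has radii with all the local optimality properties. -/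
theorem LOpt.exists_rad (h : LOpt J F g x y) : ∃ r : X → ℝ, Rad J F g x y r := by
  classical
  choose r hr1 hr2 using exists_radius F y h.mass
  have hzero : ∀ j ∈ J, ∀ i ∈ F, r j < dist i j → x i j = 0 := by
    intro j hj i hi hlt
    by_contra hne
    have hpos : 0 < x i j := lt_of_le_of_ne (h.feas.x_nonneg i hi j hj) (Ne.symm hne)
    have hex : ∃ a ∈ F, dist a j ≤ r j ∧ x a j < y a := by
      by_contra hcon
      push Not at hcon
      have h1 : ∑ a ∈ F with dist a j ≤ r j, y a ≤ ∑ a ∈ F with dist a j ≤ r j, x a j := by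
        refine Finset.sum_le_sum (fun a ha => ?_)
        obtain ⟨haF, har⟩ := Finset.mem_filter.mp ha
        exact hcon a haF har
      have h2 : ∑ a ∈ F with dist a j ≤ r j, x a j ≤ ∑ a ∈ F, x a j :=
        Finset.sum_le_sum_of_subset_of_nonneg (Finset.filter_subset _ _)
          (fun a ha _ => h.feas.x_nonneg a ha j hj)
      rw [h.feas.assign j hj] at h2
      linarith only [h1, h2, hr1 j]
    obtain ⟨a, ha, ha1, ha2⟩ := hex
    have := h.no_move hj ha hi ha2 hpos
    linarith only [hlt, ha1, this]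
  refine ⟨r, h.g_pos, h.feas, hr1, hr2, ?_, hzero,
    fun i hi hy => h.gain (fun j _ => hr1 j) hzero hi hy, fun i hi q hq => ?_⟩
  rotate_left
  · have hc : (0 : ℝ) < F.card := by exact_mod_cast Finset.card_pos.mpr ⟨i, hi⟩
    have h1 := h.loss hi (q := q) (fun j hj => by
      by_contra hcon
      push Not at hcon
      have h2 : ∑ b ∈ F, x b j ≤ ∑ b ∈ F with dist b j < q j, y b := by
        have h3 : ∑ b ∈ F, x b j = ∑ b ∈ F with dist b j < q j, x b j := by
          rw [Finset.sum_filter]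
          refine Finset.sum_congr rfl (fun b hb => ?_)
          split_ifs with hlt
          · rfl
          · by_contra hne
            exact hlt (hcon b hb (lt_of_le_of_ne (h.feas.x_nonneg b hb j hj) (Ne.symm hne)))
        rw [h3]
        exact Finset.sum_le_sum (fun b hb => h.feas.x_le b (Finset.mem_filter.mp hb).1 j hj)
      rw [h.feas.assign j hj] at h2
      have h4 := hq j hj
      have h5 : 0 < 1 / (8 * (F.card : ℝ)) := by (clear * - hc; positivity)
      linarith only [h2, h4, h5])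
    linarith only [h1, h.g_pos]
  intro j hj i hi hlt
  by_contra hne
  have hxy : x i j < y i := lt_of_le_of_ne (h.feas.x_le i hi j hj) hne
  have hex : ∃ b ∈ F, r j ≤ dist b j ∧ 0 < x b j := by
    by_contra hcon
    push Not at hcon
    have h1 : ∑ a ∈ F, x a j = ∑ a ∈ F with dist a j < r j, x a j := by
      rw [Finset.sum_filter]
      refine Finset.sum_congr rfl (fun a ha => ?_)
      split_ifs with har
      · rfl
      · push Not at har
        exact le_antisymm (hcon a ha har) (h.feas.x_nonneg a ha j hj)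
    have h2 : ∑ a ∈ F with dist a j < r j, x a j < ∑ a ∈ F with dist a j < r j, y a := by
      apply Finset.sum_lt_sum
      · intro a ha
        exact h.feas.x_le a (Finset.mem_filter.mp ha).1 j hj
      · exact ⟨i, Finset.mem_filter.mpr ⟨hi, hlt⟩, hxy⟩
    rw [← h1, h.feas.assign j hj] at h2
    linarith only [h2, hr2 j]
  obtain ⟨b, hb, hb1, hb2⟩ := hex
  have := h.no_move hj hi hb hxy hb2
  linarith

end

section Basic

variable {J F : Finset X} {g : ℝ} {x : X → X → ℝ} {y : X → ℝ} {r : X → ℝ}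

/-- A set of facilities within less than the radius of `p` has mass at most one. -/
lemma Rad.ball_le (h : Rad J F g x y r) {p : X} {G : Finset X} (hG : G ⊆ F)
    (hGr : ∀ i ∈ G, dist i p < r p) : ∑ i ∈ G, y i ≤ 1 := by
  refine le_trans ?_ (h.le p)
  apply Finset.sum_le_sum_of_subset_of_nonneg
  · intro i hi
    exact Finset.mem_filter.mpr ⟨hG hi, hGr i hi⟩
  · intro i hi _
    exact h.sol.y_nonneg i (Finset.mem_filter.mp hi).1

/-- A set of facilities of mass larger than one contains a facility outside the open ball. -/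
lemma Rad.exists_far (h : Rad J F g x y r) {p : X} {G : Finset X} (hG : G ⊆ F)
    (hm : 1 < ∑ i ∈ G, y i) : ∃ i ∈ G, 0 < y i ∧ r p ≤ dist i p := by
  classical
  by_contra hcon
  push Not at hcon
  have h1 : ∑ i ∈ G, y i = ∑ i ∈ G with 0 < y i, y i := by
    rw [Finset.sum_filter]
    refine Finset.sum_congr rfl (fun i hi => ?_)
    split_ifs with hy
    · rfl
    · push Not at hy
      exact le_antisymm hy (h.sol.y_nonneg i (hG hi))
  have h2 := h.ball_le (p := p) (G := G.filter (fun i => 0 < y i))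
    ((Finset.filter_subset _ _).trans hG) (fun i hi => by
      obtain ⟨h3, h4⟩ := Finset.mem_filter.mp hi
      exact hcon i h3 h4)
  linarith

/-- The radii are 1-Lipschitz. -/
lemma Rad.lip (h : Rad J F g x y r) (p q : X) : r p ≤ r q + dist p q := by
  obtain ⟨i, hi, _, hi2⟩ := h.exists_far (p := p) (Finset.filter_subset _ _) (h.gt q)
  have h1 := (Finset.mem_filter.mp hi).2
  have h2 := dist_triangle i q p
  rw [dist_comm q p] at h2
  linarith

lemma Rad.pos (h : Rad J F g x y r) (p : X) : 0 < r p := by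
  by_contra hcon
  push Not at hcon
  have h1 := h.gt p
  have h2 : ∑ i ∈ F with dist i p ≤ r p, y i ≤ 1 := by
    by_cases hp : p ∈ F
    · refine le_trans ?_ (h.sol.y_le_one p hp)
      calc ∑ i ∈ F with dist i p ≤ r p, y i ≤ ∑ i ∈ ({p} : Finset X), y i := by
            apply Finset.sum_le_sum_of_subset_of_nonneg
            · intro i hi
              have h3 := (Finset.mem_filter.mp hi).2
              have h4 : dist i p = 0 := le_antisymm (by linarith only [hcon, h3]) dist_nonneg
              rw [Finset.mem_singleton]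
              exact dist_eq_zero.mp h4
            · intro i hi _
              rw [Finset.mem_singleton.mp hi]
              exact h.sol.y_nonneg p hp
        _ = y p := Finset.sum_singleton _ _
    · rw [Finset.filter_false_of_mem]
      · simp only [sum_empty, zero_le_one]
      · intro i hi hle
        have h4 : dist i p = 0 := le_antisymm (by linarith) dist_nonneg
        rw [dist_eq_zero.mp h4] at hi
        exact hp hi
  linarith only [h1, h2]

end Basic

end Vale.Agent.P334
end

section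

/-!
The cluster structure of optimal solutions of the Lagrangian relaxation.
-/

namespace Vale.Agent.P334

open Finset

variable {X : Type} [MetricSpace X]

/-- Cost of client `j` in the fractional assignment `x`. -/
noncomputable def cl (F : Finset X) (x : X → X → ℝ) (j : X) : ℝ := ∑ i ∈ F, x i j * dist i j

/-- Cost through facility `i`. -/
noncomputable def fcl (J : Finset X) (x : X → X → ℝ) (i : X) : ℝ := ∑ j ∈ J, x i j * dist i j

/-- Interior clients of the cluster with center `c`. -/
noncomputable def itr (J : Finset X) (r : X → ℝ) (c : X) : Finset X :=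
  open Classical in J.filter (fun j => dist j c ≤ r c / 8)

section

variable {J F : Finset X} {g : ℝ} {x : X → X → ℝ} {y : X → ℝ} {r : X → ℝ}

lemma Rad.cl_nonneg (h : Rad J F g x y r) {j : X} (hj : j ∈ J) : 0 ≤ cl F x j :=
  Finset.sum_nonneg (fun i hi => mul_nonneg (h.sol.x_nonneg i hi j hj) dist_nonneg)

lemma Rad.fcl_nonneg (h : Rad J F g x y r) {i : X} (hi : i ∈ F) : 0 ≤ fcl J x i :=
  Finset.sum_nonneg (fun j hj => mul_nonneg (h.sol.x_nonneg i hi j hj) dist_nonneg)

lemma sum_cl (J F : Finset X) (x : X → X → ℝ) : ∑ j ∈ J, cl F x j = fracCost J F x := rfl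

lemma sum_fcl (J F : Finset X) (x : X → X → ℝ) : ∑ i ∈ F, fcl J x i = fracCost J F x := by
  unfold fcl fracCost
  rw [Finset.sum_comm]

/-- A client with small cost has almost all its mass very near. -/
lemma Rad.good_mass (h : Rad J F g x y r) {j : X} (hj : j ∈ J) (hgood : 10 ^ 6 * cl F x j ≤ r j)
    {θ : ℝ} (hθ : 0 < θ) : 1 - 1 / (10 ^ 6 * θ) ≤ ∑ i ∈ F with dist i j ≤ θ * r j, y i := by
  classical
  have hr := h.pos j
  have h1 : (∑ i ∈ F with ¬ dist i j ≤ θ * r j, x i j) * (θ * r j) ≤ cl F x j := by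
    rw [Finset.sum_mul]
    calc ∑ i ∈ F with ¬ dist i j ≤ θ * r j, x i j * (θ * r j)
        ≤ ∑ i ∈ F with ¬ dist i j ≤ θ * r j, x i j * dist i j := by
          refine Finset.sum_le_sum (fun i hi => ?_)
          obtain ⟨hiF, hid⟩ := Finset.mem_filter.mp hi
          push Not at hid
          exact mul_le_mul_of_nonneg_left hid.le (h.sol.x_nonneg i hiF j hj)
      _ ≤ cl F x j := by
          apply Finset.sum_le_sum_of_subset_of_nonneg (Finset.filter_subset _ _)
          intro i hi _
          exact mul_nonneg (h.sol.x_nonneg i hi j hj) dist_nonneg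
  have h2 : ∑ i ∈ F with ¬ dist i j ≤ θ * r j, x i j ≤ 1 / (10 ^ 6 * θ) := by
    rw [le_div_iff₀ (by positivity)]
    have h3 : (∑ i ∈ F with ¬ dist i j ≤ θ * r j, x i j) * (10 ^ 6 * θ) * r j ≤ 1 * r j := by
      linarith only [hgood, h1]
    exact le_of_mul_le_mul_right h3 hr
  have h3 := Finset.sum_filter_add_sum_filter_not F (fun i => dist i j ≤ θ * r j) (fun i => x i j)
  rw [h.sol.assign j hj] at h3
  have h4 : ∑ i ∈ F with dist i j ≤ θ * r j, x i j ≤ ∑ i ∈ F with dist i j ≤ θ * r j, y i :=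
    Finset.sum_le_sum (fun i hi => h.sol.x_le i (Finset.mem_filter.mp hi).1 j hj)
  linarith

omit [MetricSpace X] in
/-- A maximal separated family of good clients. -/
lemma exists_family (G : Finset X) (R : X → X → Prop) (hR : ∀ c ∈ G, R c c)
    (hsymm : ∀ c c', R c c' → R c' c) :
    ∃ C0 ⊆ G, (∀ c ∈ C0, ∀ c' ∈ C0, c ≠ c' → ¬ R c c') ∧ ∀ j ∈ G, ∃ c ∈ C0, R j c := by
  classical
  obtain ⟨Pr, hPr⟩ : ∃ Pr : Finset X → Prop, ∀ C, Pr C ↔
      ∀ c ∈ C, ∀ c' ∈ C, c ≠ c' → ¬ R c c' := ⟨_, fun _ => Iff.rfl⟩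
  set P := G.powerset.filter Pr with hP
  have hPne : P.Nonempty := ⟨∅, by simp only [hP, hPr, ne_eq, mem_filter, mem_powerset, empty_subset, notMem_empty, IsEmpty.forall_iff, implies_true, and_self]⟩
  obtain ⟨C0, hC0, hmax⟩ := P.exists_max_image Finset.card hPne
  obtain ⟨h1, h2⟩ := Finset.mem_filter.mp hC0
  rw [hPr] at h2
  refine ⟨C0, Finset.mem_powerset.mp h1, h2, fun j hj => ?_⟩
  by_contra hcon
  push Not at hcon
  have hjC : j ∉ C0 := fun hjC => hcon j hjC (hR j hj)
  have hins : insert j C0 ∈ P := by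
    refine Finset.mem_filter.mpr ⟨Finset.mem_powerset.mpr
      (Finset.insert_subset hj (Finset.mem_powerset.mp h1)), ?_⟩
    rw [hPr]
    intro c hc c' hc' hne
    rcases Finset.mem_insert.mp hc with h | h <;> rcases Finset.mem_insert.mp hc' with h' | h'
    · exact absurd (h.trans h'.symm) hne
    · rw [h]; exact hcon c' h'
    · rw [h']; exact fun hr => hcon c h (hsymm _ _ hr)
    · exact h2 c h c' h' hne
  have := hmax _ hins
  rw [Finset.card_insert_of_notMem hjC] at this
  omega

end

/-- The relation that two small balls share a facility. -/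
def Meet (F : Finset X) (y r : X → ℝ) (c c' : X) : Prop :=
  ∃ i ∈ F, 0 < y i ∧ dist i c ≤ r c / 2000 ∧ dist i c' ≤ r c' / 2000

/-- Facilities with small cost. -/
def Light (J : Finset X) (g : ℝ) (x : X → X → ℝ) (y : X → ℝ) (i : X) : Prop :=
  fcl J x i ≤ g * y i / 10 ^ 4

/-- Good clients. -/
noncomputable def good (J F : Finset X) (x : X → X → ℝ) (r : X → ℝ) : Finset X :=
  open Classical in J.filter (fun j => 10 ^ 6 * cl F x j ≤ r j)

/-- Light facilities near `c`. -/
noncomputable def near (J F : Finset X) (g : ℝ) (x : X → X → ℝ) (y r : X → ℝ) (c : X) : Finset X :=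
  open Classical in F.filter (fun i => 0 < y i ∧ Light J g x y i ∧ dist i c ≤ r c / 100)

section

variable {J F : Finset X} {g : ℝ} {x : X → X → ℝ} {y : X → ℝ} {r : X → ℝ}

lemma Rad.sum_pos_filter (h : Rad J F g x y r) (G : Finset X) (hG : G ⊆ F) [DecidablePred fun i => 0 < y i] :
    ∑ i ∈ G, y i = ∑ i ∈ G with 0 < y i, y i := by
  rw [Finset.sum_filter]
  refine Finset.sum_congr rfl (fun i hi => ?_)
  split_ifs with hy
  · rfl
  · push Not at hy
    exact le_antisymm hy (h.sol.y_nonneg i (hG hi))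

lemma Rad.core (h : Rad J F g x y r) {c : X} (hc : c ∈ good J F x r) :
    499 / 500 ≤ ∑ i ∈ F with dist i c ≤ r c / 2000, y i := by
  classical
  obtain ⟨hcJ, hcg⟩ := Finset.mem_filter.mp hc
  have h1 := h.good_mass hcJ hcg (θ := 1 / 2000) (by norm_num)
  have h2 : (1 : ℝ) / 2000 * r c = r c / 2000 := by ring
  rw [h2] at h1
  (clear * - h1; linarith [show (1 : ℝ) - 1 / (10 ^ 6 * (1 / 2000)) = 499 / 500 by norm_num])

/-- Good clients meeting a center are very near to it. -/
lemma Rad.meet_near (h : Rad J F g x y r) {j c : X} (hm : Meet F y r j c) :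
    dist j c ≤ 3 / 2000 * r c := by
  obtain ⟨i, _, _, h1, h2⟩ := hm
  have h3 := h.lip j c
  have h4 := dist_triangle j i c
  rw [dist_comm j i] at h4
  have h5 := h.pos c
  linarith

/-- Separation of centers. -/
lemma Rad.sep (h : Rad J F g x y r) {c c' : X} (hc : c ∈ good J F x r) (hc' : c' ∈ good J F x r)
    (hm : ¬ Meet F y r c c') : r c - r c' / 2000 ≤ dist c c' := by
  classical
  have h1 := h.core hc
  have h2 := h.core hc'
  set B := F.filter (fun i => dist i c ≤ r c / 2000) with hB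
  set B' := F.filter (fun i => dist i c' ≤ r c' / 2000) with hB'
  have hBF : B ⊆ F := Finset.filter_subset _ _
  have hB'F : B' ⊆ F := Finset.filter_subset _ _
  rw [h.sum_pos_filter B hBF] at h1
  rw [h.sum_pos_filter B' hB'F] at h2
  have hdisj : Disjoint (B.filter (fun i => 0 < y i)) (B'.filter (fun i => 0 < y i)) := by
    rw [Finset.disjoint_left]
    intro i hi hi'
    apply hm
    obtain ⟨h3, h4⟩ := Finset.mem_filter.mp hi
    obtain ⟨h5, h6⟩ := Finset.mem_filter.mp h3
    obtain ⟨h7, _⟩ := Finset.mem_filter.mp hi'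
    exact ⟨i, h5, h4, h6, (Finset.mem_filter.mp h7).2⟩
  have h3 : 1 < ∑ i ∈ (B.filter (fun i => 0 < y i)) ∪ (B'.filter (fun i => 0 < y i)), y i := by
    rw [Finset.sum_union hdisj]; linarith only [h1, h2]
  obtain ⟨i, hi, _, hir⟩ := h.exists_far (p := c) (by
    apply Finset.union_subset
    · exact (Finset.filter_subset _ _).trans hBF
    · exact (Finset.filter_subset _ _).trans hB'F) h3
  rcases Finset.mem_union.mp hi with hi | hi
  · have h4 := (Finset.mem_filter.mp (Finset.mem_filter.mp hi).1).2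
    have h5 := h.pos c
    linarith only [hir, h4, h5]
  · have h4 := (Finset.mem_filter.mp (Finset.mem_filter.mp hi).1).2
    have h5 := dist_triangle i c' c
    rw [dist_comm c' c] at h5
    linarith only [hir, h4, h5]

/-- Interior clients see all of the near facilities in full. -/
lemma Rad.itr_radius (h : Rad J F g x y r) {c j : X} (hj : j ∈ itr J r c) :
    7 / 8 * r c ≤ r j := by
  have h1 := h.lip c j
  have h2 := (Finset.mem_filter.mp hj).2
  rw [dist_comm] at h1
  linarith only [h1, h2]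

lemma itr_sub {c : X} : itr J r c ⊆ J := Finset.filter_subset _ _

lemma Rad.itr_eq (h : Rad J F g x y r) {c j i : X} (hj : j ∈ itr J r c) (hi : i ∈ F)
    (hic : dist i c ≤ r c / 100) : x i j = y i := by
  apply h.eq j (itr_sub hj) i hi
  have h1 := h.itr_radius hj
  have h2 := (Finset.mem_filter.mp hj).2
  have h3 := dist_triangle i c j
  rw [dist_comm c j] at h3
  have h4 := h.pos c
  linarith

/-- The near part of the gain of a light facility. -/
lemma Rad.near_gain (h : Rad J F g x y r) {i : X} (hi : i ∈ F) (hy : 0 < y i)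
    (hl : Light J g x y i) {G : Finset X} (hG : G ⊆ J)
    (hgain : g / 2 ≤ ∑ j ∈ G, max (r j - dist i j) 0) :
    3 / 10 * g ≤ ∑ j ∈ G with dist i j ≤ r j / 2000, r j := by
  classical
  have h1 : ∑ j ∈ G, max (r j - dist i j) 0
      ≤ ∑ j ∈ G, ((if dist i j ≤ r j / 2000 then r j else 0) + 2000 / y i * (x i j * dist i j)) := by
    refine Finset.sum_le_sum (fun j hj => ?_)
    have hjJ := hG hj
    have h2 : 0 ≤ 2000 / y i * (x i j * dist i j) :=
      mul_nonneg (by positivity) (mul_nonneg (h.sol.x_nonneg i hi j hjJ) dist_nonneg)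
    have hr := h.pos j
    split_ifs with hd
    · refine max_le ?_ (by linarith only [h2, hr])
      linarith only [h2, dist_nonneg (x := i) (y := j)]
    · push Not at hd
      refine max_le ?_ (by linarith only [h2])
      by_cases hlt : dist i j < r j
      · rw [h.eq j hjJ i hi hlt]
        have : 2000 / y i * (y i * dist i j) = 2000 * dist i j := by (clear * - hy; field_simp)
        rw [this]
        linarith only [hd, hlt]
      · linarith only [h2, hlt]
  rw [Finset.sum_add_distrib, ← Finset.sum_filter, ← Finset.mul_sum] at h1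
  have h2 : ∑ j ∈ G, x i j * dist i j ≤ g * y i / 10 ^ 4 := by
    refine le_trans ?_ hl
    apply Finset.sum_le_sum_of_subset_of_nonneg hG
    intro j hj _
    exact mul_nonneg (h.sol.x_nonneg i hi j hj) dist_nonneg
  have h3 : 2000 / y i * ∑ j ∈ G, x i j * dist i j ≤ g / 5 := by
    have := mul_le_mul_of_nonneg_left h2 (by positivity : 0 ≤ 2000 / y i)
    have h4 : 2000 / y i * (g * y i / 10 ^ 4) = g / 5 := by field_simp; ring
    linarith only [this, h4]
  (clear * - hgain h1 h3; linarith)

/-- Typical facilities are near a center of a big cluster. -/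
lemma Rad.typical (h : Rad J F g x y r) {C0 : Finset X} (hC0 : C0 ⊆ good J F x r)
    (hsep : ∀ c ∈ C0, ∀ c' ∈ C0, c ≠ c' → ¬ Meet F y r c c')
    (hmax : ∀ j ∈ good J F x r, ∃ c ∈ C0, Meet F y r j c)
    {i : X} (hi : i ∈ F) (hy : 0 < y i) (hl : Light J g x y i)
    (hgain : g / 2 ≤ ∑ j ∈ good J F x r, max (r j - dist i j) 0) :
    ∃ c ∈ C0, dist i c ≤ r c / 100 ∧ g / 5 ≤ (itr J r c).card * r c := by
  classical
  have hG : good J F x r ⊆ J := Finset.filter_subset _ _
  have h1 := h.near_gain hi hy hl hG hgain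
  set N := (good J F x r).filter (fun j => dist i j ≤ r j / 2000) with hN
  have hNne : N.Nonempty := by
    by_contra hcon
    rw [Finset.not_nonempty_iff_eq_empty] at hcon
    rw [hcon, Finset.sum_empty] at h1
    linarith only [h1, h.g_pos]
  obtain ⟨j0, hj0⟩ := hNne
  obtain ⟨hj0g, hj0d⟩ := Finset.mem_filter.mp hj0
  obtain ⟨c0, hc0, hm0⟩ := hmax j0 hj0g
  have hd0 := h.meet_near hm0
  have hr0 := h.lip j0 c0
  have hp0 := h.pos c0
  have hall : ∀ j ∈ N, dist j c0 ≤ 3 / 2000 * r c0 := by
    intro j hj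
    obtain ⟨hjg, hjd⟩ := Finset.mem_filter.mp hj
    obtain ⟨c, hc, hm⟩ := hmax j hjg
    have hd := h.meet_near hm
    by_cases hcc : c = c0
    · rw [← hcc]; exact hd
    · exfalso
      have h2 := h.sep (hC0 hc) (hC0 hc0) (hsep c hc c0 hc0 hcc)
      have h3 := h.sep (hC0 hc0) (hC0 hc) (hsep c0 hc0 c hc (fun h => hcc h.symm))
      rw [dist_comm c0 c] at h3
      have h4 := h.lip j c
      have h5 := h.pos c
      have h6 : dist c c0 ≤ dist j c + dist i j + dist i j0 + dist j0 c0 := by
        have e1 := dist_triangle c j c0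
        have e2 := dist_triangle j i c0
        have e3 := dist_triangle i j0 c0
        rw [dist_comm c j] at e1
        rw [dist_comm j i] at e2
        linarith only [e1, e2, e3]
      linarith
  refine ⟨c0, hc0, ?_, ?_⟩
  · have := dist_triangle i j0 c0
    linarith only [hj0d, hd0, hr0, hp0, this]
  · have hsub : N ⊆ itr J r c0 := by
      intro j hj
      refine Finset.mem_filter.mpr ⟨hG (Finset.mem_filter.mp hj).1, ?_⟩
      have := hall j hj
      linarith only [hp0, this]
    have h2 : ∑ j ∈ N, r j ≤ N.card * (2003 / 2000 * r c0) := by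
      rw [← nsmul_eq_mul]
      refine Finset.sum_le_card_nsmul _ _ _ (fun j hj => ?_)
      have h3 := h.lip j c0
      have h4 := hall j hj
      linarith
    have h3 : (N.card : ℝ) ≤ (itr J r c0).card := by exact_mod_cast Finset.card_le_card hsub
    have h4 := mul_le_mul_of_nonneg_right h3 hp0.le
    have h5 := h.g_pos
    linarith only [h1, h2, h4, h5]

end

/-- The facilities outside the clusters. -/
noncomputable def restF (J F : Finset X) (g : ℝ) (x : X → X → ℝ) (y r : X → ℝ) (CC : Finset X) :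
    Finset X :=
  open Classical in F.filter (fun i => ∀ c ∈ CC, i ∉ near J F g x y r c)

omit [MetricSpace X] in
lemma sum_biUnion_le [DecidableEq X] {F : Finset X} {y : X → ℝ} (hy : ∀ i ∈ F, 0 ≤ y i)
    (D : Finset X) (t : X → Finset X) (ht : ∀ c ∈ D, t c ⊆ F) :
    ∑ i ∈ D.biUnion t, y i ≤ ∑ c ∈ D, ∑ i ∈ t c, y i := by
  induction D using Finset.induction_on with
  | empty => simp
  | insert a D ha ih =>
    rw [Finset.biUnion_insert, Finset.sum_insert ha]
    have h1 := ih (fun c hc => ht c (Finset.mem_insert_of_mem hc))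
    have h2 := Finset.sum_union_inter (s₁ := t a) (s₂ := D.biUnion t) (f := y)
    have h3 : 0 ≤ ∑ i ∈ t a ∩ D.biUnion t, y i :=
      Finset.sum_nonneg (fun i hi => hy i (ht a (Finset.mem_insert_self a D)
        (Finset.mem_inter.mp hi).1))
    linarith only [h1, h2, h3]

/-- A cluster system. -/
structure Clu (J F : Finset X) (g : ℝ) (x : X → X → ℝ) (y r : X → ℝ) (CC : Finset X)
    (ρ : X → X) : Prop where
  rad : Rad J F g x y r
  sub : CC ⊆ good J F x r
  sep : ∀ c ∈ CC, ∀ c' ∈ CC, c ≠ c' → r c - r c' / 2000 ≤ dist c c'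
  mass : ∀ c ∈ CC, 249 / 250 ≤ ∑ i ∈ near J F g x y r c, y i
  rep : ∀ c ∈ CC, ρ c ∈ near J F g x y r c
  rep_min : ∀ c ∈ CC, ∀ i ∈ near J F g x y r c,
    ∑ j ∈ itr J r c, dist (ρ c) j ≤ ∑ j ∈ itr J r c, dist i j
  big : ∀ c ∈ CC, g / 5 ≤ (itr J r c).card * r c
  rest : g * ∑ i ∈ restF J F g x y r CC, y i ≤ 8 * 10 ^ 6 * fracCost J F x

section

variable {J F : Finset X} {g : ℝ} {x : X → X → ℝ} {y : X → ℝ} {r : X → ℝ}

/-- Mass of the facilities that are not light. -/
lemma Rad.nonlight (h : Rad J F g x y r) [DecidablePred fun i => ¬ Light J g x y i] :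
    g * ∑ i ∈ F with ¬ Light J g x y i, y i ≤ 10 ^ 4 * fracCost J F x := by
  rw [Finset.mul_sum, ← sum_fcl, Finset.mul_sum]
  refine le_trans (Finset.sum_le_sum (fun i hi => ?_))
    (Finset.sum_le_sum_of_subset_of_nonneg (Finset.filter_subset (fun i => ¬ Light J g x y i) F)
      (fun i hi _ => mul_nonneg (by norm_num) (h.fcl_nonneg hi)))
  have h1 := (Finset.mem_filter.mp hi).2
  unfold Light at h1
  push Not at h1
  linarith

/-- Mass of the facilities with a large part of the gain from bad clients. -/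
lemma Rad.badgain (h : Rad J F g x y r) [DecidableEq X]
    [DecidablePred fun i => g / 2 ≤ ∑ j ∈ J \ good J F x r, max (r j - dist i j) 0] :
    g * ∑ i ∈ F with g / 2 ≤ ∑ j ∈ J \ good J F x r, max (r j - dist i j) 0, y i
      ≤ 2 * 10 ^ 6 * fracCost J F x := by
  classical
  have h1 : g / 2 * ∑ i ∈ F with g / 2 ≤ ∑ j ∈ J \ good J F x r, max (r j - dist i j) 0, y i
      ≤ ∑ i ∈ F, y i * ∑ j ∈ J \ good J F x r, max (r j - dist i j) 0 := by
    rw [Finset.mul_sum]
    refine le_trans (Finset.sum_le_sum (fun i hi => ?_))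
      (Finset.sum_le_sum_of_subset_of_nonneg (Finset.filter_subset
        (fun i => g / 2 ≤ ∑ j ∈ J \ good J F x r, max (r j - dist i j) 0) F)
        (fun i hi _ => mul_nonneg (h.sol.y_nonneg i hi)
          (Finset.sum_nonneg (fun j _ => le_max_right _ _))))
    obtain ⟨h2, h3⟩ := Finset.mem_filter.mp hi
    rw [mul_comm]
    exact mul_le_mul_of_nonneg_left h3 (h.sol.y_nonneg i h2)
  have h2 : ∑ i ∈ F, y i * ∑ j ∈ J \ good J F x r, max (r j - dist i j) 0
      = ∑ j ∈ J \ good J F x r, ∑ i ∈ F, y i * max (r j - dist i j) 0 := by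
    rw [Finset.sum_comm]
    exact Finset.sum_congr rfl (fun i _ => Finset.mul_sum _ _ _)
  have h3 : ∑ j ∈ J \ good J F x r, ∑ i ∈ F, y i * max (r j - dist i j) 0
      ≤ ∑ j ∈ J \ good J F x r, 10 ^ 6 * cl F x j := by
    refine Finset.sum_le_sum (fun j hj => ?_)
    obtain ⟨hjJ, hjg⟩ := Finset.mem_sdiff.mp hj
    have hbad : r j ≤ 10 ^ 6 * cl F x j := by
      by_contra hcon
      push Not at hcon
      exact hjg (Finset.mem_filter.mpr ⟨hjJ, hcon.le⟩)
    refine le_trans ?_ hbad
    have h4 : ∑ i ∈ F, y i * max (r j - dist i j) 0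
        ≤ ∑ i ∈ F, (if dist i j < r j then y i * r j else 0) := by
      refine Finset.sum_le_sum (fun i hi => ?_)
      split_ifs with hlt
      · apply mul_le_mul_of_nonneg_left _ (h.sol.y_nonneg i hi)
        exact max_le (by linarith only [dist_nonneg (x := i) (y := j)]) (h.pos j).le
      · push Not at hlt
        rw [max_eq_right (by linarith only [hlt]), mul_zero]
    rw [← Finset.sum_filter, ← Finset.sum_mul] at h4
    have h5 := mul_le_mul_of_nonneg_right (h.le j) (h.pos j).le
    linarith only [h4, h5]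
  have h4 : ∑ j ∈ J \ good J F x r, 10 ^ 6 * cl F x j ≤ ∑ j ∈ J, 10 ^ 6 * cl F x j :=
    Finset.sum_le_sum_of_subset_of_nonneg Finset.sdiff_subset
      (fun j hj _ => mul_nonneg (by norm_num) (h.cl_nonneg hj))
  rw [← Finset.mul_sum J, sum_cl] at h4
  rw [h2] at h1
  linarith

/-- A maximal family of good clients gives a cluster system. -/
theorem Rad.mk_clu (h : Rad J F g x y r) {C0 CC : Finset X} {ρ : X → X}
    (hC0 : C0 ⊆ good J F x r) (hsep : ∀ c ∈ C0, ∀ c' ∈ C0, c ≠ c' → ¬ Meet F y r c c')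
    (hmax : ∀ j ∈ good J F x r, ∃ c ∈ C0, Meet F y r j c)
    (hCCm : ∀ c, c ∈ CC ↔ c ∈ C0 ∧ g / 5 ≤ (itr J r c).card * r c ∧
      249 / 250 ≤ ∑ i ∈ near J F g x y r c, y i)
    (hρ1 : ∀ c ∈ CC, ρ c ∈ near J F g x y r c)
    (hρ2 : ∀ c ∈ CC, ∀ i ∈ near J F g x y r c,
      ∑ j ∈ itr J r c, dist (ρ c) j ≤ ∑ j ∈ itr J r c, dist i j) :
    Clu J F g x y r CC ρ := by
  classical
  have hCC : CC = C0.filter (fun c => g / 5 ≤ (itr J r c).card * r c ∧
    249 / 250 ≤ ∑ i ∈ near J F g x y r c, y i) := by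
    ext c
    rw [hCCm, Finset.mem_filter]
  have hCCsub : CC ⊆ C0 := fun c hc => ((hCCm c).mp hc).1
  refine ⟨h, hCCsub.trans hC0, ?_, fun c hc => ((hCCm c).mp hc).2.2, hρ1, hρ2,
    fun c hc => ((hCCm c).mp hc).2.1, ?_⟩
  · intro c hc c' hc' hne
    exact h.sep (hC0 (hCCsub hc)) (hC0 (hCCsub hc')) (hsep c (hCCsub hc) c' (hCCsub hc') hne)
  · -- mass of the remaining facilities
    set A1 := F.filter (fun i => ¬ Light J g x y i) with hA1
    set A2 := F.filter (fun i => g / 2 ≤ ∑ j ∈ J \ good J F x r, max (r j - dist i j) 0) with hA2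
    set D0 := C0.filter (fun c => ∑ i ∈ near J F g x y r c, y i < 249 / 250) with hD0
    set A3 := D0.biUnion (fun c => near J F g x y r c) with hA3
    have hnl := h.nonlight
    have hbg := h.badgain
    have hy0 : ∀ i ∈ F, 0 ≤ y i := h.sol.y_nonneg
    have hnearF : ∀ c, near J F g x y r c ⊆ F := fun c => Finset.filter_subset _ _
    have hA3F : A3 ⊆ F := by
      intro i hi
      obtain ⟨c, _, hc⟩ := Finset.mem_biUnion.mp hi
      exact hnearF c hc
    have hGsub : good J F x r ⊆ J := Finset.filter_subset _ _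
    have hcover : ∑ i ∈ restF J F g x y r CC, y i
        ≤ ∑ i ∈ A1, y i + ∑ i ∈ A2, y i + ∑ i ∈ A3, y i := by
      have h1 : ∑ i ∈ restF J F g x y r CC, y i
          ≤ ∑ i ∈ (A1 ∪ A2) ∪ A3, y i := by
        rw [h.sum_pos_filter (restF J F g x y r CC) (Finset.filter_subset _ _)]
        apply Finset.sum_le_sum_of_subset_of_nonneg
        · intro i hi
          obtain ⟨h1, hyi⟩ := Finset.mem_filter.mp hi
          obtain ⟨hiF, hU⟩ := Finset.mem_filter.mp h1
          by_cases hl : Light J g x y i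
          · by_cases hb : g / 2 ≤ ∑ j ∈ J \ good J F x r, max (r j - dist i j) 0
            · exact Finset.mem_union_left _ (Finset.mem_union_right _
                (Finset.mem_filter.mpr ⟨hiF, hb⟩))
            · apply Finset.mem_union_right
              push Not at hb
              have h2 := h.gain i hiF hyi
              have h3 := Finset.sum_sdiff hGsub (f := fun j => max (r j - dist i j) 0)
              obtain ⟨c, hc, hc1, hc2⟩ := h.typical hC0 hsep hmax hiF hyi hl (by linarith only [hb, h2, h3])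
              have hin : i ∈ near J F g x y r c :=
                Finset.mem_filter.mpr ⟨hiF, hyi, hl, hc1⟩
              refine Finset.mem_biUnion.mpr ⟨c, Finset.mem_filter.mpr ⟨hc, ?_⟩, hin⟩
              by_contra hcon
              push Not at hcon
              exact hU c ((hCCm c).mpr ⟨hc, hc2, hcon⟩) hin
          · exact Finset.mem_union_left _ (Finset.mem_union_left _
              (Finset.mem_filter.mpr ⟨hiF, hl⟩))
        · intro i hi _
          rcases Finset.mem_union.mp hi with hi | hi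
          · rcases Finset.mem_union.mp hi with hi | hi
            · exact hy0 i (Finset.mem_filter.mp hi).1
            · exact hy0 i (Finset.mem_filter.mp hi).1
          · exact hy0 i (hA3F hi)
      have h2 : ∀ A B : Finset X, A ⊆ F → B ⊆ F → ∑ i ∈ A ∪ B, y i ≤ ∑ i ∈ A, y i + ∑ i ∈ B, y i := by
        intro A B hA hB
        rw [← Finset.sum_union_inter]
        have : 0 ≤ ∑ i ∈ A ∩ B, y i :=
          Finset.sum_nonneg (fun i hi => hy0 i (hA (Finset.mem_inter.mp hi).1))
        linarith only [this]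
      have hA1F : A1 ⊆ F := Finset.filter_subset _ _
      have hA2F : A2 ⊆ F := Finset.filter_subset _ _
      have h3 := h2 (A1 ∪ A2) A3 (Finset.union_subset hA1F hA2F) hA3F
      have h4 := h2 A1 A2 hA1F hA2F
      linarith only [h1, h3, h4]
    have hA3y : ∑ i ∈ A3, y i ≤ 500 * ∑ i ∈ A1, y i := by
      have h1 : ∑ i ∈ A3, y i ≤ ∑ c ∈ D0, ∑ i ∈ near J F g x y r c, y i := by
        rw [hA3]
        exact sum_biUnion_le hy0 D0 _ (fun c _ => hnearF c)
      have h2 : ∑ c ∈ D0, ∑ i ∈ near J F g x y r c, y i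
          ≤ ∑ c ∈ D0, 500 * ∑ i ∈ A1 with 0 < y i ∧ dist i c ≤ r c / 2000, y i := by
        refine Finset.sum_le_sum (fun c hc => ?_)
        obtain ⟨hcC, hcm⟩ := Finset.mem_filter.mp hc
        have h3 := h.core (hC0 hcC)
        rw [h.sum_pos_filter _ (Finset.filter_subset _ _)] at h3
        have h4 : ∑ i ∈ (F.filter (fun i => dist i c ≤ r c / 2000)).filter (fun i => 0 < y i), y i
            ≤ ∑ i ∈ near J F g x y r c, y i
              + ∑ i ∈ A1 with 0 < y i ∧ dist i c ≤ r c / 2000, y i := by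
          have h5 : ∑ i ∈ (F.filter (fun i => dist i c ≤ r c / 2000)).filter (fun i => 0 < y i), y i
              ≤ ∑ i ∈ near J F g x y r c ∪
                A1.filter (fun i => 0 < y i ∧ dist i c ≤ r c / 2000), y i := by
            apply Finset.sum_le_sum_of_subset_of_nonneg
            · intro i hi
              obtain ⟨h6, h7⟩ := Finset.mem_filter.mp hi
              obtain ⟨h8, h9⟩ := Finset.mem_filter.mp h6
              by_cases hl : Light J g x y i
              · apply Finset.mem_union_left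
                exact Finset.mem_filter.mpr ⟨h8, h7, hl, by linarith only [h9, h.pos c]⟩
              · apply Finset.mem_union_right
                exact Finset.mem_filter.mpr ⟨Finset.mem_filter.mpr ⟨h8, hl⟩, h7, h9⟩
            · intro i hi _
              rcases Finset.mem_union.mp hi with hi | hi
              · exact hy0 i (hnearF c hi)
              · exact hy0 i (Finset.mem_filter.mp (Finset.mem_filter.mp hi).1).1
          refine h5.trans ?_
          rw [← Finset.sum_union_inter]
          have : 0 ≤ ∑ i ∈ near J F g x y r c ∩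
              A1.filter (fun i => 0 < y i ∧ dist i c ≤ r c / 2000), y i :=
            Finset.sum_nonneg (fun i hi => hy0 i (hnearF c (Finset.mem_inter.mp hi).1))
          linarith only [this]
        linarith only [hcm, h3, h4]
      have h3 : ∑ c ∈ D0, ∑ i ∈ A1 with 0 < y i ∧ dist i c ≤ r c / 2000, y i ≤ ∑ i ∈ A1, y i := by
        have h4 : ∀ c ∈ D0, ∑ i ∈ A1 with 0 < y i ∧ dist i c ≤ r c / 2000, y i
            = ∑ i ∈ A1, if 0 < y i ∧ dist i c ≤ r c / 2000 then y i else 0 :=
          fun c _ => Finset.sum_filter _ _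
        rw [Finset.sum_congr rfl h4, Finset.sum_comm]
        refine Finset.sum_le_sum (fun i hi => ?_)
        have hyi := hy0 i (Finset.mem_filter.mp hi).1
        rw [← Finset.sum_filter, Finset.sum_const, nsmul_eq_mul]
        have hcard : (D0.filter (fun c => 0 < y i ∧ dist i c ≤ r c / 2000)).card ≤ 1 := by
          rw [Finset.card_le_one]
          intro a ha b hb
          obtain ⟨ha1, ha2, ha3⟩ := Finset.mem_filter.mp ha
          obtain ⟨hb1, _, hb3⟩ := Finset.mem_filter.mp hb
          by_contra hab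
          exact hsep a (Finset.mem_filter.mp ha1).1 b (Finset.mem_filter.mp hb1).1 hab
            ⟨i, (Finset.mem_filter.mp hi).1, ha2, ha3, hb3⟩
        have hcard' : ((D0.filter (fun c => 0 < y i ∧ dist i c ≤ r c / 2000)).card : ℝ) ≤ 1 := by
          exact_mod_cast hcard
        have := mul_le_mul_of_nonneg_right hcard' hyi
        linarith only [this]
      rw [← Finset.mul_sum] at h2
      linarith only [h1, h2, h3]
    have hg := h.g_pos
    have h5 := mul_le_mul_of_nonneg_left hcover hg.le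
    have h6 := mul_le_mul_of_nonneg_left hA3y hg.le
    have h7 := fracCost_nonneg J F h.sol
    linarith

/-- Existence of a cluster system. -/
theorem Rad.exists_clu (h : Rad J F g x y r) : ∃ CC ρ, Clu J F g x y r CC ρ := by
  classical
  obtain ⟨C0, hC0, hsep, hmax⟩ := exists_family (good J F x r) (Meet F y r) (by
    intro c hc
    have h1 := h.core hc
    rw [h.sum_pos_filter _ (Finset.filter_subset _ _)] at h1
    by_contra hcon
    rw [Finset.sum_eq_zero] at h1
    · linarith only [h1]
    · intro i hi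
      exfalso
      obtain ⟨h2, h3⟩ := Finset.mem_filter.mp hi
      obtain ⟨h4, h5⟩ := Finset.mem_filter.mp h2
      exact hcon ⟨i, h4, h3, h5, h5⟩) (by
    rintro c c' ⟨i, h1, h2, h3, h4⟩
    exact ⟨i, h1, h2, h4, h3⟩)
  obtain ⟨CC, hCC⟩ : ∃ CC, CC = C0.filter (fun c => g / 5 ≤ (itr J r c).card * r c ∧
    249 / 250 ≤ ∑ i ∈ near J F g x y r c, y i) := ⟨_, rfl⟩
  have hrep : ∀ c ∈ CC, ∃ a ∈ near J F g x y r c, ∀ i ∈ near J F g x y r c,
      ∑ j ∈ itr J r c, dist a j ≤ ∑ j ∈ itr J r c, dist i j := by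
    intro c hc
    apply Finset.exists_min_image
    by_contra hcon
    rw [Finset.not_nonempty_iff_eq_empty] at hcon
    rw [hCC] at hc
    have := (Finset.mem_filter.mp hc).2.2
    rw [hcon, Finset.sum_empty] at this
    linarith only [this]
  choose! ρ hρ1 hρ2 using hrep
  exact ⟨CC, ρ, h.mk_clu hC0 hsep hmax (fun c => by rw [hCC, Finset.mem_filter]) hρ1 hρ2⟩

end

end Vale.Agent.P334
end

section

/-!
Analysis of the first algorithm of the stable case (good when the current solution is cheap):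
random coloring, dynamic program over the colors, replacement of one element per color.
-/

namespace Vale.Agent.P334.Alg.A1

section

variable {X : Type}

/-! ### Minima of lists -/

/-- Least value of `f` on the list `S`, truncated at `l`. -/
def fmin {Y : Type} (f : Y → ℕ) (l : ℕ) (S : List Y) : ℕ := S.foldr (fun s m => min (f s) m) l

theorem le_fmin_iff {Y : Type} (f : Y → ℕ) (l : ℕ) (S : List Y) (m : ℕ) :
    m ≤ fmin f l S ↔ m ≤ l ∧ ∀ s ∈ S, m ≤ f s := by
  induction S with
  | nil => simp only [fmin, List.foldr_nil, List.not_mem_nil, IsEmpty.forall_iff, implies_true, and_true]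
  | cons q S ih =>
    have h : fmin f l (q :: S) = min (f q) (fmin f l S) := rfl
    rw [h, le_min_iff, ih]
    constructor
    · rintro ⟨h1, h2, h3⟩
      refine ⟨h2, fun r hr => ?_⟩
      rcases List.mem_cons.1 hr with rfl | hr
      · exact h1
      · exact h3 r hr
    · rintro ⟨h1, h2⟩
      exact ⟨h2 q List.mem_cons_self, h1, fun r hr => h2 r (List.mem_cons_of_mem _ hr)⟩

theorem fmin_le_cap {Y : Type} (f : Y → ℕ) (l : ℕ) (S : List Y) : fmin f l S ≤ l :=
  ((le_fmin_iff f l S _).1 le_rfl).1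

theorem fmin_le {Y : Type} (f : Y → ℕ) (l : ℕ) {S : List Y} {s : Y} (hs : s ∈ S) :
    fmin f l S ≤ f s := ((le_fmin_iff f l S _).1 le_rfl).2 s hs

theorem fmin_eq {Y : Type} (f : Y → ℕ) (l : ℕ) (S : List Y) :
    fmin f l S = l ∨ ∃ s ∈ S, fmin f l S = f s := by
  induction S with
  | nil => exact Or.inl rfl
  | cons q S ih =>
    have h : fmin f l (q :: S) = min (f q) (fmin f l S) := rfl
    rcases le_total (f q) (fmin f l S) with h1 | h1
    · exact Or.inr ⟨q, List.mem_cons_self, by rw [h, min_eq_left h1]⟩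
    · rw [h, min_eq_right h1]
      rcases ih with ih | ⟨r, hr, ih⟩
      · exact Or.inl ih
      · exact Or.inr ⟨r, List.mem_cons_of_mem _ hr, ih⟩

theorem fmin_anti {Y : Type} (f : Y → ℕ) (l : ℕ) {S S' : List Y} (h : ∀ s ∈ S, s ∈ S') :
    fmin f l S' ≤ fmin f l S :=
  (le_fmin_iff f l S _).2 ⟨fmin_le_cap f l S', fun s hs => fmin_le f l (h s hs)⟩

theorem exists_fmin {Y : Type} (f : Y → ℕ) (l : ℕ) {S : List Y} (hS : S ≠ [])
    (hl : ∀ s ∈ S, f s ≤ l) : ∃ s ∈ S, fmin f l S = f s := by
  rcases fmin_eq f l S with h | h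
  · obtain ⟨s, hs⟩ := List.exists_mem_of_ne_nil S hS
    refine ⟨s, hs, ?_⟩
    have h1 := fmin_le f l hs
    have h2 := hl s hs
    omega
  · exact h

theorem mins_eq_fmin (d : X → X → ℕ) (l : ℕ) (v : X) (S : List X) :
    mins d l v S = fmin (d v) l S := rfl

theorem wd_eq_fmin (d : X → X → ℕ) (top : ℕ) (e : List (X × ℕ)) (q : X) :
    wd d top e q = fmin (fun c : X × ℕ => c.2 * d c.1 q) top e := rfl

theorem wdS_eq_fmin (d : X → X → ℕ) (top : ℕ) (e : List (X × ℕ)) (Q : List X) :
    wdS d top e Q = fmin (wd d top e) top Q := rfl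

theorem capmin_eq_fmin (B : ℕ → ℕ) (C : ℕ → X → ℕ) (Q : List X) (a : ℕ) :
    capmin B C Q a = fmin (C a) (B a) Q := rfl

/-! ### Minimizers -/

theorem argmin1_spec (f : X → ℕ) (a : X) (S : List X) :
    (argmin1 f a S = a ∨ argmin1 f a S ∈ S) ∧ f (argmin1 f a S) ≤ f a ∧
      ∀ s ∈ S, f (argmin1 f a S) ≤ f s := by
  induction S generalizing a with
  | nil => exact ⟨Or.inl rfl, le_rfl, by simp⟩
  | cons q S ih =>
    have h : argmin1 f a (q :: S) = argmin1 f (if f q < f a then q else a) S := rfl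
    rw [h]
    obtain ⟨h1, h2, h3⟩ := ih (if f q < f a then q else a)
    have h4 : f (if f q < f a then q else a) ≤ f a ∧ f (if f q < f a then q else a) ≤ f q := by
      split_ifs with h5
      · exact ⟨h5.le, le_rfl⟩
      · exact ⟨le_rfl, not_lt.1 h5⟩
    refine ⟨?_, h2.trans h4.1, ?_⟩
    · rcases h1 with h1 | h1
      · by_cases h5 : f q < f a
        · rw [if_pos h5] at h1 ⊢
          exact Or.inr (by rw [h1]; exact List.mem_cons_self)
        · rw [if_neg h5] at h1 ⊢
          exact Or.inl h1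
      · exact Or.inr (List.mem_cons_of_mem _ h1)
    · intro s hs
      rcases List.mem_cons.1 hs with rfl | hs
      · exact h2.trans h4.2
      · exact h3 s hs

theorem argmin_mem (f : X → ℕ) (a : X) {S : List X} (hS : S ≠ []) : argmin f a S ∈ S := by
  unfold argmin
  have h1 : S.headD a ∈ S := by
    cases S with
    | nil => exact absurd rfl hS
    | cons q S => exact List.mem_cons_self
  rcases (argmin1_spec f (S.headD a) S).1 with h | h
  · rw [h]; exact h1
  · exact h

theorem argmin_le (f : X → ℕ) (a : X) {S : List X} {s : X} (hs : s ∈ S) :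
    f (argmin f a S) ≤ f s := (argmin1_spec f (S.headD a) S).2.2 s hs

/-! ### Sums over lists -/

theorem sum_map_add {Y : Type} (J : List Y) (f g : Y → ℕ) :
    (J.map (fun j => f j + g j)).sum = (J.map f).sum + (J.map g).sum := by
  induction J with
  | nil => rfl
  | cons j J ih => simp only [List.map_cons, List.sum_cons, ih]; ring

theorem sum_map_mul {Y : Type} (J : List Y) (c : ℕ) (f : Y → ℕ) :
    (J.map (fun j => c * f j)).sum = c * (J.map f).sum := by
  induction J with
  | nil => simp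
  | cons j J ih => simp only [List.map_cons, List.sum_cons, ih]; ring

theorem sum_map_le {Y : Type} (J : List Y) {f g : Y → ℕ} (h : ∀ j ∈ J, f j ≤ g j) :
    (J.map f).sum ≤ (J.map g).sum := List.sum_le_sum h

theorem sum_sum_comm {Y : Type} (J : List Y) (z : ℕ) (f : ℕ → Y → ℕ) :
    (J.map (fun j => ∑ a ∈ Finset.range z, f a j)).sum =
      ∑ a ∈ Finset.range z, (J.map (f a)).sum := by
  induction J with
  | nil => simp
  | cons j J ih => simp only [List.map_cons, List.sum_cons, ih, Finset.sum_add_distrib]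

theorem sum_map_ite_const [DecidableEq X] (J : List X) (σ : X → X) (s : X) (c : ℕ) :
    (J.map (fun j => if σ j = s then c else 0)).sum =
      J.countP (fun j => decide (σ j = s)) * c := by
  induction J with
  | nil => simp
  | cons j J ih =>
    rw [List.map_cons, List.sum_cons, ih]
    by_cases h : σ j = s
    · rw [if_pos h, List.countP_cons_of_pos (by simpa using h)]; ring
    · rw [if_neg h, List.countP_cons_of_neg (by simpa using h), zero_add]

/-! ### The algorithm -/

variable [DecidableEq X]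

/-- The nearest element of `S`. -/
def near (d : X → X → ℕ) (x0 : X) (S : List X) (j : X) : X := argmin (d j) x0 S

/-- The number of clients served by `s`. -/
def wgt (d : X → X → ℕ) (x0 : X) (J S : List X) (s : X) : ℕ :=
  J.countP (fun j => decide (near d x0 S j = s))

/-- The elements of color `a`. -/
def cls (χ : X → ℕ) (S : List X) (a : ℕ) : List X := S.filter (fun s => decide (χ s = a))

/-- The elements without color. -/
def blue (χ : X → ℕ) (z : ℕ) (S : List X) : List X := S.filter (fun s => decide (z ≤ χ s))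

/-- The element (list of weighted points) of a color. -/
def colEl (w : X → ℕ) (χ : X → ℕ) (S : List X) (a : ℕ) : List (X × ℕ) :=
  (cls χ S a).map (fun s => (s, w s))

/-- The facilities to be added. -/
def add1 (d : X → X → ℕ) (top : ℕ) (w : X → ℕ) (F S : List X) (χ : X → ℕ) (z h : ℕ) : List X :=
  (dp F z (fun a => wdS d top (colEl w χ S a) (blue χ z S))
    (fun a q => wd d top (colEl w χ S a) q) h).2

/-- The elements to be removed. -/
def rem1 (d : X → X → ℕ) (l : ℕ) (x0 : X) (w : X → ℕ) (S : List X) (χ : X → ℕ) (z : ℕ)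
    (P : List X) : List X :=
  (List.range z).map (fun a => argmin (fun s => w s * mins d l s P) x0 (cls χ S a))

/-- The first algorithm. -/
def alg1 (d : X → X → ℕ) (l top : ℕ) (x0 : X) (J F S : List X) (χ : X → ℕ) (z h : ℕ) : List X :=
  let w := wgt d x0 J S
  let Q := add1 d top w F S χ z h
  let R := rem1 d l x0 w S χ z (blue χ z S ++ Q)
  S.filter (fun s => decide (s ∉ R)) ++ Q

omit [DecidableEq X] in
theorem near_mem (d : X → X → ℕ) (x0 : X) {S : List X} (hS : S ≠ []) (j : X) :
    near d x0 S j ∈ S := argmin_mem _ _ hS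

omit [DecidableEq X] in
theorem near_le (d : X → X → ℕ) (x0 : X) {S : List X} (j : X) {s : X} (hs : s ∈ S) :
    d j (near d x0 S j) ≤ d j s := argmin_le _ _ hs

omit [DecidableEq X] in
theorem d_near (d : X → X → ℕ) (l : ℕ) (x0 : X) {S : List X} (hS : S ≠ [])
    (hl : ∀ a b, d a b ≤ l) (j : X) : d j (near d x0 S j) = mins d l j S := by
  apply le_antisymm
  · rw [mins_eq_fmin, le_fmin_iff]
    exact ⟨hl _ _, fun s hs => near_le d x0 j hs⟩
  · exact fmin_le _ _ (near_mem d x0 hS j)

omit [DecidableEq X] in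
theorem mem_cls {χ : X → ℕ} {S : List X} {a : ℕ} {s : X} : s ∈ cls χ S a ↔ s ∈ S ∧ χ s = a := by
  simp [cls]

omit [DecidableEq X] in
theorem mem_blue {χ : X → ℕ} {S : List X} {z : ℕ} {s : X} : s ∈ blue χ z S ↔ s ∈ S ∧ z ≤ χ s := by
  simp only [blue, List.mem_filter, decide_eq_true_eq]

/-- Removing and adding: cost of the result. -/
theorem cst_alg1_le (d : X → X → ℕ) (hd : ∀ a b c, d a c ≤ d a b + d b c) (l : ℕ)
    (hl : ∀ a b, d a b ≤ l) (x0 : X) (J S : List X) (hS : S ≠ []) (w : X → ℕ)
    (hw : w = wgt d x0 J S) (P R : List X) (T : List X)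
    (z : ℕ) (r : ℕ → X) (hR : ∀ u ∈ R, ∃ a < z, u = r a)
    (hT : ∀ s ∈ S, s ∉ R → s ∈ T) (hPT : ∀ s ∈ P, s ∈ T) (hP : P ≠ []) :
    cst d l J T ≤ cst d l J S + ∑ a ∈ Finset.range z, w (r a) * mins d l (r a) P := by
  subst hw
  have key : ∀ j ∈ J, mins d l j T ≤ mins d l j S + ∑ a ∈ Finset.range z,
      (if near d x0 S j = r a then mins d l (r a) P else 0) := by
    intro j _
    rw [← d_near d l x0 hS hl j]
    by_cases h : near d x0 S j ∈ R
    · obtain ⟨a, ha, hu⟩ := hR _ h
      obtain ⟨p, hp, hpe⟩ := exists_fmin (d (r a)) l hP (fun s _ => hl _ _)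
      have h1 : mins d l j T ≤ d j p := fmin_le _ _ (hPT p hp)
      have h2 := hd j (r a) p
      have h3 : mins d l (r a) P = d (r a) p := hpe
      have h4 : (if near d x0 S j = r a then mins d l (r a) P else 0) ≤
          ∑ a ∈ Finset.range z, (if near d x0 S j = r a then mins d l (r a) P else 0) :=
        Finset.single_le_sum (f := fun a => if near d x0 S j = r a then mins d l (r a) P else 0)
          (fun _ _ => Nat.zero_le _) (Finset.mem_range.2 ha)
      rw [if_pos hu, h3] at h4
      rw [← hu] at h2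
      rw [← hu] at h4
      omega
    · exact (fmin_le _ _ (hT _ (near_mem d x0 hS j) h)).trans (Nat.le_add_right _ _)
  unfold cst
  refine (sum_map_le J key).trans ?_
  rw [sum_map_add, sum_sum_comm]
  refine Nat.add_le_add_left (Finset.sum_le_sum fun a _ => ?_) _
  rw [sum_map_ite_const]
  rfl

/-- The weights times the distances to a second solution. -/
theorem sum_wgt_le (d : X → X → ℕ) (hs : ∀ a b, d a b = d b a)
    (hd : ∀ a b c, d a c ≤ d a b + d b c) (l : ℕ)
    (hl : ∀ a b, d a b ≤ l) (x0 : X) (J S T0 : List X) (hS : S ≠ []) (hT0 : T0 ≠ [])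
    (z : ℕ) (r : ℕ → X) (hr : ∀ a < z, ∀ b < z, r a = r b → a = b) :
    ∑ a ∈ Finset.range z, wgt d x0 J S (r a) * mins d l (r a) T0 ≤ cst d l J S + cst d l J T0 := by
  have h1 : ∑ a ∈ Finset.range z, wgt d x0 J S (r a) * mins d l (r a) T0 =
      (J.map (fun j => ∑ a ∈ Finset.range z,
        (if near d x0 S j = r a then mins d l (r a) T0 else 0))).sum := by
    rw [sum_sum_comm]
    refine Finset.sum_congr rfl fun a _ => ?_
    rw [sum_map_ite_const]
    rfl
  rw [h1]
  unfold cst
  rw [← sum_map_add]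
  refine sum_map_le J fun j _ => ?_
  by_cases h : ∃ a < z, near d x0 S j = r a
  · obtain ⟨a, ha, hu⟩ := h
    rw [Finset.sum_eq_single a]
    · rw [if_pos hu]
      obtain ⟨p, hp, hpe⟩ := exists_fmin (d j) l hT0 (fun s _ => hl _ _)
      have h2 : mins d l (r a) T0 ≤ d (r a) p := fmin_le _ _ hp
      have h3 := hd (r a) j p
      have h4 : mins d l j T0 = d j p := hpe
      have h5 := d_near d l x0 hS hl j
      rw [hu, hs j (r a)] at h5
      omega
    · intro b hb hba
      rw [if_neg]
      intro h2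
      exact hba (hr b (Finset.mem_range.1 hb) a ha (h2.symm.trans hu))
    · intro h2
      exact absurd (Finset.mem_range.2 ha) h2
  · rw [Finset.sum_eq_zero]
    · exact Nat.zero_le _
    · intro a ha
      rw [if_neg]
      intro h2
      exact h ⟨a, Finset.mem_range.1 ha, h2⟩

omit [DecidableEq X] in
theorem cst_le_mul (d : X → X → ℕ) (l : ℕ) (J S : List X) : cst d l J S ≤ J.length * l := by
  unfold cst
  induction J with
  | nil => simp
  | cons j J ih =>
    rw [List.map_cons, List.sum_cons, List.length_cons, Nat.succ_mul]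
    have : mins d l j S ≤ l := fmin_le_cap _ _ _
    omega

theorem wgt_le (d : X → X → ℕ) (x0 : X) (J S : List X) (s : X) : wgt d x0 J S s ≤ J.length :=
  List.countP_le_length

/-- **Algorithm 1.** If every color in `[0, z)` occurs on `S \ T0` and the nearest element of `T0`
of every element of `S \ T0` is, if it is in `S`, without color, then the result
costs at most `2 cost(S) + cost(T0)`, and it has at most `|S| - z + h` elements. -/
theorem alg1_spec (d : X → X → ℕ) (hs : ∀ a b, d a b = d b a)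
    (hd : ∀ a b c, d a c ≤ d a b + d b c) (l top : ℕ)
    (hl : ∀ a b, d a b ≤ l) (x0 : X) (J F S T0 : List X) (hSn : S.Nodup) (hS : S ≠ [])
    (htop : 2 * (J.length * l) < top)
    (hSF : ∀ s ∈ S, s ∈ F) (hT0F : ∀ t ∈ T0, t ∈ F) (hT0 : T0 ≠ []) (χ : X → ℕ) (z h : ℕ)
    (hsurj : ∀ a < z, ∃ s ∈ S, s ∉ T0 ∧ χ s = a)
    (hcrit : ∀ s ∈ S, s ∉ T0 → ∃ t ∈ T0, d s t = mins d l s T0 ∧ (t ∈ S → z ≤ χ t))
    (hh : (T0.filter (fun t => decide (t ∉ S))).length ≤ h) :
    (∀ t ∈ alg1 d l top x0 J F S χ z h, t ∈ F) ∧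
      (alg1 d l top x0 J F S χ z h).length + z ≤ S.length + h ∧
      alg1 d l top x0 J F S χ z h ≠ [] ∧
      cst d l J (alg1 d l top x0 J F S χ z h) ≤ 2 * cst d l J S + cst d l J T0 := by
  obtain ⟨w, hw⟩ : ∃ w, w = wgt d x0 J S := ⟨_, rfl⟩
  obtain ⟨Q, hQ⟩ : ∃ Q, Q = add1 d top w F S χ z h := ⟨_, rfl⟩
  obtain ⟨P, hP⟩ : ∃ P, P = blue χ z S ++ Q := ⟨_, rfl⟩
  obtain ⟨R, hR⟩ : ∃ R, R = rem1 d l x0 w S χ z P := ⟨_, rfl⟩
  have hT : alg1 d l top x0 J F S χ z h = S.filter (fun s => decide (s ∉ R)) ++ Q := by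
    rw [hR, hP, hQ, hw]
    rfl
  obtain ⟨B, hB⟩ : ∃ B : ℕ → ℕ, B = fun a => wdS d top (colEl w χ S a) (blue χ z S) := ⟨_, rfl⟩
  obtain ⟨C, hC⟩ : ∃ C : ℕ → X → ℕ, C = fun a q => wd d top (colEl w χ S a) q := ⟨_, rfl⟩
  have hQdp : Q = (dp F z B C h).2 := by rw [hQ, hB, hC]; rfl
  obtain ⟨hQF, hQlen, -, -⟩ := dp_spec F z B C h
  rw [← hQdp] at hQF hQlen
  -- representatives
  have hex : ∀ a, ∃ s, a < z → s ∈ S ∧ s ∉ T0 ∧ χ s = a := by
    intro a
    by_cases ha : a < z
    · obtain ⟨s, h1, h2, h3⟩ := hsurj a ha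
      exact ⟨s, fun _ => ⟨h1, h2, h3⟩⟩
    · exact ⟨x0, fun h => absurd h ha⟩
  choose g hg using hex
  -- value of the hidden solution
  have hval : ∑ a ∈ Finset.range z, capmin B C Q a ≤ cst d l J S + cst d l J T0 := by
    have h1 := dp_opt F z B C h (Q := T0.filter (fun t => decide (t ∉ S)))
      (fun q hq => hT0F q (List.mem_filter.1 hq).1) hh
    rw [← hQdp, dpVal_range, dpVal_range] at h1
    refine h1.trans ?_
    refine le_trans (Finset.sum_le_sum fun a ha => ?_)
      (sum_wgt_le d hs hd l hl x0 J S T0 hS hT0 z g ?_)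
    · have ha' := Finset.mem_range.1 ha
      obtain ⟨h2, h3, h4⟩ := hg a ha'
      obtain ⟨t, ht, htd, htS⟩ := hcrit (g a) h2 h3
      rw [← htd, ← hw]
      have hel : (g a, w (g a)) ∈ colEl w χ S a :=
        List.mem_map.2 ⟨g a, mem_cls.2 ⟨h2, h4⟩, rfl⟩
      have hwd : wd d top (colEl w χ S a) t ≤ w (g a) * d (g a) t :=
        fmin_le (fun c : X × ℕ => c.2 * d c.1 t) top hel
      refine le_trans ?_ hwd
      by_cases htS' : t ∈ S
      · refine (capmin_le_cap B C _ a).trans ?_
        rw [hB]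
        exact fmin_le (wd d top (colEl w χ S a)) top (mem_blue.2 ⟨htS', htS htS'⟩)
      · refine (capmin_le_of_mem B C a (q := t) ?_).trans (le_of_eq (by rw [hC]))
        rw [List.mem_filter, decide_eq_true_eq]
        exact ⟨ht, htS'⟩
    · intro a ha b hb hab
      rw [← (hg a ha).2.2, ← (hg b hb).2.2, hab]
  have hvaltop : ∀ a < z, capmin B C Q a < top := by
    intro a ha
    have h1 := Finset.single_le_sum (f := fun a => capmin B C Q a) (fun _ _ => Nat.zero_le _)
      (Finset.mem_range.2 ha)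
    have h2 := cst_le_mul d l J S
    have h3 := cst_le_mul d l J T0
    omega
  -- the minimum of a color is attained
  have hatt : ∀ a < z, ∃ s ∈ cls χ S a, ∃ p ∈ P, w s * d s p = capmin B C Q a := by
    intro a ha
    have hlt := hvaltop a ha
    have hwd : ∀ q, wd d top (colEl w χ S a) q < top → ∃ s ∈ cls χ S a,
        wd d top (colEl w χ S a) q = w s * d s q := by
      intro q hq
      rcases fmin_eq (fun c : X × ℕ => c.2 * d c.1 q) top (colEl w χ S a) with h1 | ⟨c, hc, h1⟩
      · rw [wd_eq_fmin, h1] at hq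
        exact absurd hq (lt_irrefl _)
      · obtain ⟨s, hs', rfl⟩ := List.mem_map.1 hc
        exact ⟨s, hs', h1⟩
    rcases fmin_eq (C a) (B a) Q with h1 | ⟨q, hq, h1⟩
    · rw [← capmin_eq_fmin] at h1
      rw [h1] at hlt ⊢
      rw [hB] at hlt ⊢
      simp only at hlt ⊢
      rcases fmin_eq (wd d top (colEl w χ S a)) top (blue χ z S) with h2 | ⟨b, hb, h2⟩
      · rw [wdS_eq_fmin, h2] at hlt
        exact absurd hlt (lt_irrefl _)
      · rw [wdS_eq_fmin, h2] at hlt ⊢
        obtain ⟨s, hs', h3⟩ := hwd b hlt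
        exact ⟨s, hs', b, by rw [hP]; exact List.mem_append_left _ hb, h3.symm⟩
    · rw [← capmin_eq_fmin] at h1
      rw [h1] at hlt ⊢
      rw [hC] at hlt ⊢
      simp only at hlt ⊢
      obtain ⟨s, hs', h3⟩ := hwd q hlt
      exact ⟨s, hs', q, by rw [hP]; exact List.mem_append_right _ hq, h3.symm⟩
  -- the removed elements
  obtain ⟨r, hr⟩ : ∃ r : ℕ → X, r = fun a => argmin (fun s => w s * mins d l s P) x0 (cls χ S a) :=
    ⟨_, rfl⟩
  have hRr : R = (List.range z).map r := by rw [hR, hr]; rfl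
  have hclsne : ∀ a < z, cls χ S a ≠ [] := by
    intro a ha hnil
    obtain ⟨s, hs', -⟩ := hatt a ha
    rw [hnil] at hs'
    simp at hs'
  have hrcls : ∀ a < z, r a ∈ cls χ S a := by
    intro a ha
    rw [hr]
    exact argmin_mem _ _ (hclsne a ha)
  have hrinj : ∀ a < z, ∀ b < z, r a = r b → a = b := by
    intro a ha b hb hab
    rw [← (mem_cls.1 (hrcls a ha)).2, ← (mem_cls.1 (hrcls b hb)).2, hab]
  have hblueR : ∀ s ∈ blue χ z S, s ∉ R := by
    intro s hs' hsR
    rw [hRr] at hsR
    obtain ⟨a, ha, rfl⟩ := List.mem_map.1 hsR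
    have ha' := List.mem_range.1 ha
    have h1 := (mem_cls.1 (hrcls a ha')).2
    have h2 := (mem_blue.1 hs').2
    omega
  have hPne : P ≠ [] := by
    by_cases hz : z = 0
    · obtain ⟨s, hs'⟩ := List.exists_mem_of_ne_nil S hS
      rw [hP]
      have : s ∈ blue χ z S := mem_blue.2 ⟨hs', by omega⟩
      intro hnil
      rw [(List.append_eq_nil_iff.1 hnil).1] at this
      simp at this
    · obtain ⟨s, -, p, hp, -⟩ := hatt 0 (by (clear * - hz; omega))
      exact List.ne_nil_of_mem hp
  have hPT : ∀ s ∈ P, s ∈ alg1 d l top x0 J F S χ z h := by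
    intro s hs'
    rw [hT]
    rw [hP] at hs'
    rcases List.mem_append.1 hs' with h1 | h1
    · refine List.mem_append_left _ (List.mem_filter.2 ⟨(mem_blue.1 h1).1, ?_⟩)
      simpa using hblueR s h1
    · exact List.mem_append_right _ h1
  refine ⟨?_, ?_, ?_, ?_⟩
  · intro t ht
    rw [hT] at ht
    rcases List.mem_append.1 ht with h1 | h1
    · exact hSF t (List.mem_filter.1 h1).1
    · exact hQF t h1
  · rw [hT, List.length_append]
    have h1 : (S.filter (fun s => decide (s ∈ R))).length = z := by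
      have h2 : (S.filter (fun s => decide (s ∈ R))).Perm R := by
        rw [List.perm_ext_iff_of_nodup (hSn.filter _)]
        · intro s
          rw [List.mem_filter, decide_eq_true_eq]
          refine ⟨fun h => h.2, fun h => ⟨?_, h⟩⟩
          rw [hRr] at h
          obtain ⟨a, ha, rfl⟩ := List.mem_map.1 h
          exact (mem_cls.1 (hrcls a (List.mem_range.1 ha))).1
        · rw [hRr]
          refine List.Nodup.map_on ?_ List.nodup_range
          intro a ha b hb hab
          exact hrinj a (List.mem_range.1 ha) b (List.mem_range.1 hb) hab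
      rw [h2.length_eq, hRr, List.length_map, List.length_range]
    have h3 : (S.filter (fun s => decide (s ∈ R))).length +
        (S.filter (fun s => decide (s ∉ R))).length = S.length := by
      have := List.length_eq_length_filter_add (l := S) (fun s => decide (s ∈ R))
      rw [this]
      congr 2
      apply List.filter_congr
      intro a _
      simp
    omega
  · obtain ⟨p, hp⟩ := List.exists_mem_of_ne_nil P hPne
    exact List.ne_nil_of_mem (hPT p hp)
  · have h1 := cst_alg1_le d hd l hl x0 J S hS w hw P R (alg1 d l top x0 J F S χ z h) z r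
      (by
        intro u hu
        rw [hRr] at hu
        obtain ⟨a, ha, rfl⟩ := List.mem_map.1 hu
        exact ⟨a, List.mem_range.1 ha, rfl⟩)
      (by
        intro s hs' hsR
        rw [hT]
        exact List.mem_append_left _ (List.mem_filter.2 ⟨hs', by simpa using hsR⟩))
      hPT hPne
    refine h1.trans ?_
    have h2 : ∑ a ∈ Finset.range z, w (r a) * mins d l (r a) P ≤
        ∑ a ∈ Finset.range z, capmin B C Q a := by
      refine Finset.sum_le_sum fun a ha => ?_
      obtain ⟨s, hs', p, hp, h3⟩ := hatt a (Finset.mem_range.1 ha)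
      rw [← h3]
      have h4 : w (r a) * mins d l (r a) P ≤ w s * mins d l s P := by
        rw [hr]
        exact argmin_le (fun s => w s * mins d l s P) x0 hs'
      exact h4.trans (Nat.mul_le_mul_left _ (fmin_le _ _ hp))
    omega

end

end Vale.Agent.P334.Alg.A1
end

section
attribute [-instance] ProperSMul.toContinuousSMul IsTopologicalTorsor.toContinuousSMul IdemSemiring.toCanonicallyOrderedAdd IdemSemiring.toMulLeftMono IdemSemiring.toMulRightMono AddQuantale.instAddLeftMono AddQuantale.instAddRightMono Quantale.instMulLeftMono Quantale.instMulRightMono FiniteDimensional.rclike_to_real IsScalarTower.complexToReal FiniteDimensional.complexToReal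

/-!
The cluster system computed by the algorithm is the cluster system of the real theory.
-/

namespace Vale.Agent.P334.Alg

/-! ### Sums over lists and multiplicities -/

theorem cast_sum_map {ι : Type} (L : List ι) (f : ι → ℕ) :
    (((L.map f).sum : ℕ) : ℝ) = (L.map (fun i => (f i : ℝ))).sum := by
  induction L with
  | nil => simp only [List.map_nil, List.sum_nil, CharP.cast_eq_zero]
  | cons a L ih => simp only [List.map_cons, List.sum_cons, Nat.cast_add, ih]

theorem sum_map_div {ι : Type} (L : List ι) (f : ι → ℝ) (c : ℝ) :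
    (L.map (fun i => f i / c)).sum = (L.map f).sum / c := by
  induction L with
  | nil => simp
  | cons a L ih => simp only [List.map_cons, List.sum_cons, ih, add_div]

/-- A sum over a list with repetitions as a sum over a finite set. -/
theorem sum_count_mul {X : Type} [DecidableEq X] (S : Finset X) (f : X → ℝ) :
    ∀ L : List X, (∀ u ∈ L, u ∈ S) → ∑ i ∈ S, (L.count i : ℝ) * f i = (L.map f).sum := by
  intro L
  induction L with
  | nil => intro _; simp only [List.nodup_nil, List.count_nil, CharP.cast_eq_zero, zero_mul, Finset.sum_const_zero, List.map_nil, List.sum_nil]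
  | cons a L ih =>
    intro h
    have h1 : a ∈ S := h a List.mem_cons_self
    have h2 := ih (fun u hu => h u (List.mem_cons_of_mem a hu))
    rw [List.map_cons, List.sum_cons, ← h2]
    have h3 : ∀ i ∈ S, (((a :: L).count i : ℕ) : ℝ) * f i
        = (if i = a then f i else 0) + (L.count i : ℝ) * f i := by
      intro i _
      rw [List.count_cons]
      by_cases hia : i = a
      · subst hia; simp only [BEq.rfl, ↓reduceIte, Nat.cast_add, Nat.cast_one]; ring
      · have : (a == i) = false := by simpa using fun h => hia h.symm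
        simp only [this, Bool.false_eq_true, ↓reduceIte, add_zero, hia, zero_add]
    rw [Finset.sum_congr rfl h3, Finset.sum_add_distrib, Finset.sum_ite_eq' S a, if_pos h1]

section Clust

variable {X : Type} [MetricSpace X] [DecidableEq X] {d : X → X → ℕ}
  {J F U : List X} {D1 N m gg : ℕ} {g : ℝ} {x : X → X → ℝ} {y r : X → ℝ}

omit [MetricSpace X] [DecidableEq X] in
theorem mem_nearU {u j : X} (hu : u ∈ nearU d D1 N U j) : u ∈ U := by
  unfold nearU at hu
  rcases List.mem_append.1 hu with h | h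
  · exact (List.mem_filter.1 h).1
  · exact (List.mem_filter.1 (List.mem_of_mem_take h)).1

/-- Cost of a client. -/
theorem cl_eq (hd : ∀ a b, dist a b = (d a b : ℝ)) (hU : ∀ u ∈ U, u ∈ F)
    (hx : ∀ i j, x i j = ((nearU d D1 N U j).count i : ℝ) / N) (j : X) :
    cl F.toFinset x j = (clN d D1 N U j : ℝ) / N := by
  unfold cl clN
  have h1 : ∀ i ∈ F.toFinset, x i j * dist i j
      = ((nearU d D1 N U j).count i : ℝ) * ((d i j : ℝ) / N) := by
    intro i _
    rw [hx, hd]; ring
  rw [Finset.sum_congr rfl h1, sum_count_mul F.toFinset _ (nearU d D1 N U j)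
    (fun u hu => List.mem_toFinset.2 (hU u (mem_nearU hu))), sum_map_div, cast_sum_map]

/-- Cost through a facility. -/
theorem fcl_eq (hd : ∀ a b, dist a b = (d a b : ℝ)) (hJ : J.Nodup)
    (hx : ∀ i j, x i j = ((nearU d D1 N U j).count i : ℝ) / N) (i : X) :
    fcl J.toFinset x i = (fclN d D1 N J U i : ℝ) / N := by
  unfold fcl fclN
  rw [List.sum_toFinset _ hJ, cast_sum_map, ← sum_map_div]
  congr 1
  refine List.map_congr_left (fun j _ => ?_)
  rw [hx, hd]
  push_cast
  ring

/-- Good clients. -/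
theorem good_eq (hd : ∀ a b, dist a b = (d a b : ℝ)) (hU : ∀ u ∈ U, u ∈ F) (hN : 0 < N)
    (hx : ∀ i j, x i j = ((nearU d D1 N U j).count i : ℝ) / N)
    (hr : ∀ p, r p = (radN d D1 N U p : ℝ)) :
    (goodL d D1 N J U).toFinset = good J.toFinset F.toFinset x r := by
  classical
  have hN' : (0 : ℝ) < N := by exact_mod_cast hN
  ext j
  unfold goodL good
  rw [List.mem_toFinset, List.mem_filter, Finset.mem_filter, List.mem_toFinset,
    decide_eq_true_eq, cl_eq hd hU hx, hr]
  refine and_congr_right (fun _ => ?_)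
  rw [← mul_div_assoc, div_le_iff₀ hN', mul_comm (radN d D1 N U j : ℝ)]
  norm_cast

/-- Near light facilities. -/
theorem near_eq (hd : ∀ a b, dist a b = (d a b : ℝ)) (hJ : J.Nodup) (hN : 0 < N) (hm : 0 < m)
    (hg : g = (gg : ℝ) / m)
    (hx : ∀ i j, x i j = ((nearU d D1 N U j).count i : ℝ) / N)
    (hy : ∀ i, y i = (U.count i : ℝ) / N)
    (hr : ∀ p, r p = (radN d D1 N U p : ℝ)) (c : X) :
    (nearL d D1 N m gg J F U c).toFinset = near J.toFinset F.toFinset g x y r c := by
  classical
  have hN' : (0 : ℝ) < N := by exact_mod_cast hN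
  have hm' : (0 : ℝ) < m := by exact_mod_cast hm
  ext i
  unfold nearL near
  rw [List.mem_toFinset, List.mem_filter, Finset.mem_filter, List.mem_toFinset,
    decide_eq_true_eq]
  refine and_congr_right (fun _ => ?_)
  refine and_congr ?_ (and_congr ?_ ?_)
  · rw [hy, div_pos_iff_of_pos_right hN']
    norm_cast
  · unfold Light
    rw [fcl_eq hd hJ hx, hy, hg]
    have e : (gg : ℝ) / m * ((U.count i : ℝ) / N) / 10 ^ 4
        = (gg : ℝ) * U.count i / (10 ^ 4 * m) / N := by
      (clear * - hN hm; field_simp)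
    rw [e, div_le_div_iff_of_pos_right hN', le_div_iff₀ (by positivity)]
    have e2 : (fclN d D1 N J U i : ℝ) * (10 ^ 4 * m) = ((10 ^ 4 * m * fclN d D1 N J U i : ℕ) : ℝ) := by
      push_cast; ring
    have e3 : (gg : ℝ) * U.count i = ((gg * U.count i : ℕ) : ℝ) := by push_cast; ring
    rw [e2, e3, Nat.cast_le]
  · rw [hd, hr, le_div_iff₀ (by norm_num : (0 : ℝ) < 100)]
    have e2 : (d i c : ℝ) * 100 = ((100 * d i c : ℕ) : ℝ) := by push_cast; ring
    rw [e2, Nat.cast_le]

/-- Interior clients. -/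
theorem itr_eq (hd : ∀ a b, dist a b = (d a b : ℝ))
    (hr : ∀ p, r p = (radN d D1 N U p : ℝ)) (c : X) :
    (itrL d D1 N J U c).toFinset = itr J.toFinset r c := by
  classical
  ext i
  unfold itrL itr
  rw [List.mem_toFinset, List.mem_filter, Finset.mem_filter, List.mem_toFinset,
    decide_eq_true_eq]
  refine and_congr_right (fun _ => ?_)
  rw [hd, hr, le_div_iff₀ (by norm_num : (0 : ℝ) < 8)]
  have e2 : (d i c : ℝ) * 8 = ((8 * d i c : ℕ) : ℝ) := by push_cast; ring
  rw [e2, Nat.cast_le]

omit [MetricSpace X] [DecidableEq X] in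
theorem itrL_nodup (hJ : J.Nodup) (c : X) : (itrL d D1 N J U c).Nodup := hJ.filter _

omit [MetricSpace X] in
theorem nearL_nodup (hF : F.Nodup) (c : X) : (nearL d D1 N m gg J F U c).Nodup := hF.filter _

/-- The relation that two small balls share a facility. -/
theorem meet_iff (hd : ∀ a b, dist a b = (d a b : ℝ)) (hN : 0 < N)
    (hy : ∀ i, y i = (U.count i : ℝ) / N)
    (hr : ∀ p, r p = (radN d D1 N U p : ℝ)) (c c' : X) :
    meetL d D1 N F U c c' = true ↔ Meet F.toFinset y r c c' := by
  have hN' : (0 : ℝ) < N := by exact_mod_cast hN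
  unfold meetL Meet
  rw [List.any_eq_true]
  refine exists_congr (fun i => ?_)
  rw [List.mem_toFinset, decide_eq_true_eq]
  refine and_congr_right (fun _ => ?_)
  refine and_congr ?_ (and_congr ?_ ?_)
  · rw [hy, div_pos_iff_of_pos_right hN']
    norm_cast
  · rw [hd, hr, le_div_iff₀ (by norm_num : (0 : ℝ) < 2000)]
    have e2 : (d i c : ℝ) * 2000 = ((2000 * d i c : ℕ) : ℝ) := by push_cast; ring
    rw [e2, Nat.cast_le]
  · rw [hd, hr, le_div_iff₀ (by norm_num : (0 : ℝ) < 2000)]
    have e2 : (d i c' : ℝ) * 2000 = ((2000 * d i c' : ℕ) : ℝ) := by push_cast; ring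
    rw [e2, Nat.cast_le]

end Clust

section Fam

variable {X : Type}

/-- The greedy family for a relation that is reflexive on the list. -/
theorem greedy_family (R : X → X → Bool) :
    ∀ (L C0 : List X), (∀ c ∈ L, R c c = true) → C0.Nodup →
      (∀ c ∈ C0, ∀ c' ∈ C0, c ≠ c' → R c c' = false ∨ R c' c = false) →
      let C := L.foldl (fun C j => if C.any (fun c => R j c) then C else j :: C) C0
      C.Nodup ∧ (∀ c ∈ C, c ∈ L ∨ c ∈ C0) ∧ (∀ c ∈ C0, c ∈ C) ∧
        (∀ c ∈ C, ∀ c' ∈ C, c ≠ c' → R c c' = false ∨ R c' c = false) ∧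
        ∀ j ∈ L, ∃ c ∈ C, R j c = true := by
  intro L
  induction L with
  | nil =>
    intro C0 _ h1 h2
    exact ⟨h1, fun c hc => Or.inr hc, fun c hc => hc, h2, by simp only [List.not_mem_nil, List.any_eq_true, List.foldl_nil, IsEmpty.forall_iff, implies_true]⟩
  | cons j L ih =>
    intro C0 hR h1 h2
    simp only [List.foldl_cons]
    have hR' : ∀ c ∈ L, R c c = true := fun c hc => hR c (List.mem_cons_of_mem j hc)
    by_cases h : C0.any (fun c => R j c) = true
    · rw [if_pos h]
      obtain ⟨k1, k2, k3, k4, k5⟩ := ih C0 hR' h1 h2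
      refine ⟨k1, fun c hc => ?_, k3, k4, fun i hi => ?_⟩
      · rcases k2 c hc with h | h
        · exact Or.inl (List.mem_cons_of_mem j h)
        · exact Or.inr h
      · rcases List.mem_cons.1 hi with rfl | hi
        · obtain ⟨c, hc, hc2⟩ := List.any_eq_true.1 h
          exact ⟨c, k3 c hc, hc2⟩
        · exact k5 i hi
    · rw [if_neg h]
      have h' : ∀ c ∈ C0, R j c = false := by
        intro c hc
        by_contra hcon
        exact h (List.any_eq_true.2 ⟨c, hc, by simpa using hcon⟩)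
      have hj : R j j = true := hR j List.mem_cons_self
      have hjC : j ∉ C0 := fun hjC => by
        have := h' j hjC
        rw [hj] at this
        exact absurd this (by decide)
      obtain ⟨k1, k2, k3, k4, k5⟩ := ih (j :: C0) hR' (List.nodup_cons.2 ⟨hjC, h1⟩) (by
        intro c hc c' hc' hne
        rcases List.mem_cons.1 hc with e | e <;> rcases List.mem_cons.1 hc' with e' | e'
        · exact absurd (e.trans e'.symm) hne
        · rw [e]; exact Or.inl (h' c' e')
        · rw [e']; exact Or.inr (h' c e)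
        · exact h2 c e c' e' hne)
      refine ⟨k1, fun c hc => ?_, fun c hc => k3 c (List.mem_cons_of_mem j hc), k4,
        fun i hi => ?_⟩
      · rcases k2 c hc with h | h
        · exact Or.inl (List.mem_cons_of_mem j h)
        · rcases List.mem_cons.1 h with rfl | h
          · exact Or.inl List.mem_cons_self
          · exact Or.inr h
      · rcases List.mem_cons.1 hi with rfl | hi
        · exact ⟨i, k3 i List.mem_cons_self, hj⟩
        · exact k5 i hi

end Fam

section Clu

variable {X : Type} [MetricSpace X] [DecidableEq X] {d : X → X → ℕ}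
  {J F U : List X} {D1 N m gg : ℕ} {g : ℝ} {x : X → X → ℝ} {y r : X → ℝ}

/-- The greedy maximal family. -/
theorem famL_spec (hd : ∀ a b, dist a b = (d a b : ℝ)) (hU : ∀ u ∈ U, u ∈ F) (hN : 0 < N)
    (hx : ∀ i j, x i j = ((nearU d D1 N U j).count i : ℝ) / N)
    (hy : ∀ i, y i = (U.count i : ℝ) / N)
    (hr : ∀ p, r p = (radN d D1 N U p : ℝ)) (h : Rad J.toFinset F.toFinset g x y r) :
    (famL d D1 N J F U).Nodup ∧ (∀ c ∈ famL d D1 N J F U, c ∈ goodL d D1 N J U) ∧
      (∀ c ∈ famL d D1 N J F U, ∀ c' ∈ famL d D1 N J F U, c ≠ c' →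
        ¬ Meet F.toFinset y r c c') ∧
      ∀ j ∈ goodL d D1 N J U, ∃ c ∈ famL d D1 N J F U, Meet F.toFinset y r j c := by
  classical
  have hrefl : ∀ c ∈ goodL d D1 N J U, meetL d D1 N F U c c = true := by
    intro c hc
    rw [meet_iff hd hN hy hr]
    have hc' : c ∈ good J.toFinset F.toFinset x r := by
      rw [← good_eq hd hU hN hx hr, List.mem_toFinset]; exact hc
    have h1 := h.core hc'
    rw [h.sum_pos_filter _ (Finset.filter_subset _ _)] at h1
    by_contra hcon
    rw [Finset.sum_eq_zero] at h1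
    · linarith only [h1]
    · intro i hi
      exfalso
      obtain ⟨h2, h3⟩ := Finset.mem_filter.mp hi
      obtain ⟨h4, h5⟩ := Finset.mem_filter.mp h2
      exact hcon ⟨i, h4, h3, h5, h5⟩
  obtain ⟨k1, k2, _, k4, k5⟩ := greedy_family (meetL d D1 N F U) (goodL d D1 N J U) [] hrefl
    List.nodup_nil (by simp only [List.not_mem_nil, ne_eq, IsEmpty.forall_iff, implies_true])
  refine ⟨k1, fun c hc => ?_, fun c hc c' hc' hne hmeet => ?_, fun j hj => ?_⟩
  · rcases k2 c hc with h | h
    · exact h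
    · simp at h
  · have hsymm : Meet F.toFinset y r c' c := by
      obtain ⟨i, h1, h2, h3, h4⟩ := hmeet
      exact ⟨i, h1, h2, h4, h3⟩
    rw [← meet_iff hd hN hy hr] at hmeet hsymm
    rcases k4 c hc c' hc' hne with h | h
    · rw [hmeet] at h; exact absurd h (by decide)
    · rw [hsymm] at h; exact absurd h (by decide)
  · obtain ⟨c, hc, hc2⟩ := k5 j hj
    exact ⟨c, hc, (meet_iff hd hN hy hr j c).1 hc2⟩

theorem ccL_nodup (hd : ∀ a b, dist a b = (d a b : ℝ)) (hU : ∀ u ∈ U, u ∈ F) (hN : 0 < N)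
    (hx : ∀ i j, x i j = ((nearU d D1 N U j).count i : ℝ) / N)
    (hy : ∀ i, y i = (U.count i : ℝ) / N)
    (hr : ∀ p, r p = (radN d D1 N U p : ℝ)) (h : Rad J.toFinset F.toFinset g x y r) :
    (ccL d D1 N m gg J F U).Nodup :=
  (famL_spec hd hU hN hx hy hr h).1.filter _

/-- Sum of the opening variables of the near facilities. -/
theorem near_mass (hd : ∀ a b, dist a b = (d a b : ℝ)) (hJ : J.Nodup) (hF : F.Nodup) (hN : 0 < N)
    (hm : 0 < m) (hg : g = (gg : ℝ) / m)
    (hx : ∀ i j, x i j = ((nearU d D1 N U j).count i : ℝ) / N)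
    (hy : ∀ i, y i = (U.count i : ℝ) / N)
    (hr : ∀ p, r p = (radN d D1 N U p : ℝ)) (c : X) :
    ∑ i ∈ near J.toFinset F.toFinset g x y r c, y i
      = (((nearL d D1 N m gg J F U c).map (fun i => U.count i)).sum : ℕ) / (N : ℝ) := by
  rw [← near_eq hd hJ hN hm hg hx hy hr, List.sum_toFinset _ (nearL_nodup hF c), cast_sum_map,
    ← sum_map_div]
  congr 1
  exact List.map_congr_left (fun i _ => hy i)

/-- The centers of the clusters. -/
theorem mem_ccL (hd : ∀ a b, dist a b = (d a b : ℝ)) (hJ : J.Nodup) (hF : F.Nodup) (hN : 0 < N)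
    (hm : 0 < m) (hg : g = (gg : ℝ) / m)
    (hx : ∀ i j, x i j = ((nearU d D1 N U j).count i : ℝ) / N)
    (hy : ∀ i, y i = (U.count i : ℝ) / N)
    (hr : ∀ p, r p = (radN d D1 N U p : ℝ)) (c : X) :
    c ∈ ccL d D1 N m gg J F U ↔ c ∈ famL d D1 N J F U ∧
      g / 5 ≤ (itr J.toFinset r c).card * r c ∧
      249 / 250 ≤ ∑ i ∈ near J.toFinset F.toFinset g x y r c, y i := by
  have hN' : (0 : ℝ) < N := by exact_mod_cast hN
  have hm' : (0 : ℝ) < m := by exact_mod_cast hm
  unfold ccL
  rw [List.mem_filter, decide_eq_true_eq]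
  refine and_congr_right (fun _ => and_congr ?_ ?_)
  · rw [← itr_eq hd hr, List.toFinset_card_of_nodup (itrL_nodup hJ c), hg, hr]
    have e : (gg : ℝ) / m / 5 = gg / (5 * m) := by field_simp
    rw [e, div_le_iff₀ (by positivity)]
    have e2 : ((itrL d D1 N J U c).length : ℝ) * (radN d D1 N U c : ℝ) * (5 * m)
        = ((5 * m * ((itrL d D1 N J U c).length * radN d D1 N U c) : ℕ) : ℝ) := by
      push_cast; ring
    rw [e2, Nat.cast_le]
  · rw [near_mass hd hJ hF hN hm hg hx hy hr, le_div_iff₀ hN']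
    constructor
    · intro h
      have h1 : ((249 * N : ℕ) : ℝ) ≤ ((250 * ((nearL d D1 N m gg J F U c).map
        (fun i => U.count i)).sum : ℕ) : ℝ) := Nat.cast_le.2 h
      push_cast at h1 ⊢
      linarith only [h1]
    · intro h
      have h1 : ((249 * N : ℕ) : ℝ) ≤ ((250 * ((nearL d D1 N m gg J F U c).map
        (fun i => U.count i)).sum : ℕ) : ℝ) := by
        push_cast at h ⊢
        linarith
      exact Nat.cast_le.1 h1

/-- The representative is a near facility with least total distance to the interior clients. -/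
theorem rhoL_spec (hd : ∀ a b, dist a b = (d a b : ℝ)) (hJ : J.Nodup) (hF : F.Nodup) (hN : 0 < N)
    (hm : 0 < m) (hg : g = (gg : ℝ) / m)
    (hx : ∀ i j, x i j = ((nearU d D1 N U j).count i : ℝ) / N)
    (hy : ∀ i, y i = (U.count i : ℝ) / N)
    (hr : ∀ p, r p = (radN d D1 N U p : ℝ)) {c : X} (hc : c ∈ ccL d D1 N m gg J F U) :
    rhoL d D1 N m gg J F U c ∈ near J.toFinset F.toFinset g x y r c ∧
      ∀ i ∈ near J.toFinset F.toFinset g x y r c,
        ∑ j ∈ itr J.toFinset r c, dist (rhoL d D1 N m gg J F U c) j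
          ≤ ∑ j ∈ itr J.toFinset r c, dist i j := by
  have hmass := ((mem_ccL hd hJ hF hN hm hg hx hy hr c).1 hc).2.2
  have hne : nearL d D1 N m gg J F U c ≠ [] := by
    intro hnil
    rw [near_mass hd hJ hF hN hm hg hx hy hr, hnil] at hmass
    norm_num at hmass
  have h1 : rhoL d D1 N m gg J F U c ∈ nearL d D1 N m gg J F U c := by
    unfold rhoL
    exact A1.argmin_mem _ _ hne
  refine ⟨by rw [← near_eq hd hJ hN hm hg hx hy hr, List.mem_toFinset]; exact h1, ?_⟩
  intro i hi
  rw [← near_eq hd hJ hN hm hg hx hy hr, List.mem_toFinset] at hi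
  have h2 : ((itrL d D1 N J U c).map (fun j => d (rhoL d D1 N m gg J F U c) j)).sum
      ≤ ((itrL d D1 N J U c).map (fun j => d i j)).sum := by
    have := A1.argmin_le (fun i => ((itrL d D1 N J U c).map (fun j => d i j)).sum) c hi
    exact this
  have h3 : ∀ a : X, ∑ j ∈ itr J.toFinset r c, dist a j
      = (((itrL d D1 N J U c).map (fun j => d a j)).sum : ℕ) := by
    intro a
    rw [← itr_eq hd hr, List.sum_toFinset _ (itrL_nodup hJ c), cast_sum_map]
    congr 1
    exact List.map_congr_left (fun j _ => hd a j)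
  rw [h3, h3, Nat.cast_le]
  exact h2

/-- The cluster system. -/
theorem clu_spec (hd : ∀ a b, dist a b = (d a b : ℝ)) (hJ : J.Nodup) (hF : F.Nodup)
    (hU : ∀ u ∈ U, u ∈ F) (hN : 0 < N) (hm : 0 < m) (hg : g = (gg : ℝ) / m)
    (hx : ∀ i j, x i j = ((nearU d D1 N U j).count i : ℝ) / N)
    (hy : ∀ i, y i = (U.count i : ℝ) / N)
    (hr : ∀ p, r p = (radN d D1 N U p : ℝ)) (h : Rad J.toFinset F.toFinset g x y r) :
    Clu J.toFinset F.toFinset g x y r (ccL d D1 N m gg J F U).toFinset
      (rhoL d D1 N m gg J F U) := by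
  obtain ⟨k1, k2, k3, k4⟩ := famL_spec hd hU hN hx hy hr h
  have hgood := good_eq (J := J) hd hU hN hx hr
  refine h.mk_clu (C0 := (famL d D1 N J F U).toFinset) ?_ ?_ ?_ ?_ ?_ ?_
  · intro c hc
    rw [← hgood, List.mem_toFinset]
    exact k2 c (List.mem_toFinset.1 hc)
  · intro c hc c' hc' hne
    exact k3 c (List.mem_toFinset.1 hc) c' (List.mem_toFinset.1 hc') hne
  · intro j hj
    rw [← hgood, List.mem_toFinset] at hj
    obtain ⟨c, hc, hm⟩ := k4 j hj
    exact ⟨c, List.mem_toFinset.2 hc, hm⟩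
  · intro c
    rw [List.mem_toFinset, List.mem_toFinset]
    exact mem_ccL hd hJ hF hN hm hg hx hy hr c
  · intro c hc
    exact (rhoL_spec hd hJ hF hN hm hg hx hy hr (List.mem_toFinset.1 hc)).1
  · intro c hc
    exact (rhoL_spec hd hJ hF hN hm hg hx hy hr (List.mem_toFinset.1 hc)).2

end Clu

end Vale.Agent.P334.Alg
end

section

/-!
Geometry of cluster systems.
-/

namespace Vale.Agent.P334

open Finset

section Snap

variable {X : Type}

/-- Move the points of `A c` to `ρ c`, for `c ∈ CC`. -/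
noncomputable def snap (CC : Finset X) (A : X → Finset X) (ρ : X → X) (i : X) : X :=
  open Classical in if h : ∃ c ∈ CC, i ∈ A c then ρ h.choose else i

lemma snap_mem {CC : Finset X} {A : X → Finset X} {ρ : X → X}
    (hdisj : ∀ c ∈ CC, ∀ c' ∈ CC, ∀ i, i ∈ A c → i ∈ A c' → c = c') {c i : X} (hc : c ∈ CC)
    (hi : i ∈ A c) : snap CC A ρ i = ρ c := by
  unfold snap
  have h : ∃ c ∈ CC, i ∈ A c := ⟨c, hc, hi⟩
  rw [dif_pos h]
  congr 1
  exact hdisj _ h.choose_spec.1 c hc i h.choose_spec.2 hi

lemma snap_notMem {CC : Finset X} {A : X → Finset X} {ρ : X → X} {i : X}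
    (h : ∀ c ∈ CC, i ∉ A c) : snap CC A ρ i = i := by
  unfold snap
  rw [dif_neg]
  rintro ⟨c, hc, hi⟩
  exact h c hc hi

end Snap

section Geom

variable {X : Type} [MetricSpace X]
variable {J F : Finset X} {g : ℝ} {x : X → X → ℝ} {y r : X → ℝ} {CC : Finset X} {ρ : X → X}

/-- Inner cost of a cluster. -/
noncomputable def ain (J F : Finset X) (g : ℝ) (x : X → X → ℝ) (y r : X → ℝ) (c : X) : ℝ :=
  ∑ i ∈ near J F g x y r c, ∑ j ∈ itr J r c, x i j * dist i j

lemma near_sub {c : X} : near J F g x y r c ⊆ F := by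
  classical exact Finset.filter_subset _ _

lemma near_dist {c i : X} (hi : i ∈ near J F g x y r c) : dist i c ≤ r c / 100 := by
  classical exact (Finset.mem_filter.mp hi).2.2.2

lemma near_pos {c i : X} (hi : i ∈ near J F g x y r c) : 0 < y i := by
  classical exact (Finset.mem_filter.mp hi).2.1

lemma near_light {c i : X} (hi : i ∈ near J F g x y r c) : Light J g x y i := by
  classical exact (Finset.mem_filter.mp hi).2.2.1

lemma itr_dist {c j : X} (hj : j ∈ itr J r c) : dist j c ≤ r c / 8 := (Finset.mem_filter.mp hj).2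

lemma not_itr {c j : X} (hjJ : j ∈ J) (hj : j ∉ itr J r c) : r c / 8 < dist j c := by
  by_contra hcon
  push Not at hcon
  exact hj (Finset.mem_filter.mpr ⟨hjJ, hcon⟩)

namespace Clu

set_option linter.unusedSectionVars false

variable (h : Clu J F g x y r CC ρ)
include h

lemma rpos (c : X) : 0 < r c := h.rad.pos c

lemma sep' {c c' : X} (hc : c ∈ CC) (hc' : c' ∈ CC) (hne : c ≠ c') :
    1999 / 2000 * r c ≤ dist c c' := by
  have h1 := h.sep c hc c' hc' hne
  have h2 := h.sep c' hc' c hc (fun h => hne h.symm)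
  rw [dist_comm c' c] at h2
  linarith only [h1, h2]

lemma cJ {c : X} (hc : c ∈ CC) : c ∈ J := (Finset.mem_filter.mp (h.sub hc)).1

lemma eq_of_near {c c' p : X} (hc : c ∈ CC) (hc' : c' ∈ CC) (h1 : dist p c ≤ r c / 8)
    (h2 : dist p c' ≤ r c' / 8) : c = c' := by
  by_contra hne
  have h3 := h.sep' hc hc' hne
  have h4 := h.sep' hc' hc (fun h => hne h.symm)
  rw [dist_comm c' c] at h4
  have h5 := dist_triangle c p c'
  rw [dist_comm c p] at h5
  have h6 := h.rpos c
  have h7 := h.rpos c'
  linarith only [h1, h2, h3, h4, h5, h6]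

lemma near_near {c i : X} (hi : i ∈ near J F g x y r c) : dist i c ≤ r c / 8 := by
  have h1 := near_dist hi
  have h2 := h.rpos c
  linarith

lemma near_disj : ∀ c ∈ CC, ∀ c' ∈ CC, ∀ i, i ∈ near J F g x y r c → i ∈ near J F g x y r c' →
    c = c' := fun _ hc _ hc' _ h1 h2 => h.eq_of_near hc hc' (h.near_near h1) (h.near_near h2)

lemma itr_disj : ∀ c ∈ CC, ∀ c' ∈ CC, ∀ i, i ∈ itr J r c → i ∈ itr J r c' →
    c = c' := fun _ hc _ hc' _ h1 h2 => h.eq_of_near hc hc' (itr_dist h1) (itr_dist h2)

lemma rep_dist {c : X} (hc : c ∈ CC) : dist (ρ c) c ≤ r c / 100 := near_dist (h.rep c hc)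

lemma rep_inj {c c' : X} (hc : c ∈ CC) (hc' : c' ∈ CC) (he : ρ c = ρ c') : c = c' :=
  h.near_disj c hc c' hc' (ρ c) (h.rep c hc) (by rw [he]; exact h.rep c' hc')

lemma far {c i j : X} (hi : dist i c ≤ r c / 100) (hjJ : j ∈ J) (hj : j ∉ itr J r c) :
    23 / 200 * r c ≤ dist i j := by
  have h1 := not_itr hjJ hj
  have h2 := dist_triangle j i c
  rw [dist_comm j i] at h2
  linarith only [hi, h1, h2]

/-- Distance of representatives. -/
lemma rep_sep {c c' : X} (hc : c ∈ CC) (hc' : c' ∈ CC) (hne : c ≠ c') :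
    19 / 20 * r c ≤ dist (ρ c) (ρ c') := by
  have h1 := h.sep' hc hc' hne
  have h2 := h.sep' hc' hc (fun h => hne h.symm)
  rw [dist_comm c' c] at h2
  have h3 := h.rep_dist hc
  have h4 := h.rep_dist hc'
  have h5 := dist_triangle c (ρ c) c'
  have h6 := dist_triangle (ρ c) (ρ c') c'
  rw [dist_comm c (ρ c)] at h5
  have h7 := h.rpos c
  have h8 := h.rpos c'
  linarith

lemma xeq {c i j : X} (hi : i ∈ near J F g x y r c) (hj : j ∈ itr J r c) : x i j = y i :=
  h.rad.itr_eq hj (near_sub hi) (near_dist hi)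

lemma nearmass_le {c : X} : ∑ i ∈ near J F g x y r c, y i ≤ 1 :=
  h.rad.ball_le near_sub (fun i hi => by
    have h1 := near_dist hi
    have h2 := h.rpos c
    linarith only [h1, h2])

lemma ain_eq {c : X} : ain J F g x y r c
    = ∑ i ∈ near J F g x y r c, y i * ∑ j ∈ itr J r c, dist i j := by
  unfold ain
  refine Finset.sum_congr rfl (fun i hi => ?_)
  rw [Finset.mul_sum]
  exact Finset.sum_congr rfl (fun j hj => by rw [h.xeq hi hj])

/-- The representative is good on average. -/
lemma in_le_ain {c : X} (hc : c ∈ CC) :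
    (∑ i ∈ near J F g x y r c, y i) * ∑ j ∈ itr J r c, dist (ρ c) j ≤ ain J F g x y r c := by
  rw [h.ain_eq, Finset.sum_mul]
  exact Finset.sum_le_sum (fun i hi => mul_le_mul_of_nonneg_left (h.rep_min c hc i hi)
    (near_pos hi).le)

lemma in_nonneg {c : X} : 0 ≤ ∑ j ∈ itr J r c, dist (ρ c) j :=
  Finset.sum_nonneg (fun _ _ => dist_nonneg)

lemma ain_nonneg {c : X} : 0 ≤ ain J F g x y r c := by
  rw [h.ain_eq]
  exact Finset.sum_nonneg (fun i hi => mul_nonneg (near_pos hi).le
    (Finset.sum_nonneg (fun _ _ => dist_nonneg)))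

lemma in_le {c : X} (hc : c ∈ CC) :
    ∑ j ∈ itr J r c, dist (ρ c) j ≤ 250 / 249 * ain J F g x y r c := by
  have h1 := h.in_le_ain hc
  have h2 := mul_le_mul_of_nonneg_right (h.mass c hc) (h.in_nonneg (c := c))
  linarith only [h1, h2]

lemma card_pos {c : X} (hc : c ∈ CC) : 0 < ((itr J r c).card : ℝ) := by
  have h1 := h.big c hc
  have h2 := h.rpos c
  have h3 := h.rad.g_pos
  by_contra hcon
  push Not at hcon
  have : ((itr J r c).card : ℝ) * r c ≤ 0 := mul_nonpos_of_nonpos_of_nonneg hcon h2.le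
  linarith only [h1, h3, this]

/-- Distances between near facilities, on average over the interior clients. -/
lemma spread {c i : X} (_hi : i ∈ near J F g x y r c) :
    (itr J r c).card * dist i (ρ c)
      ≤ ∑ j ∈ itr J r c, dist i j + ∑ j ∈ itr J r c, dist (ρ c) j := by
  rw [← Finset.sum_add_distrib, ← nsmul_eq_mul]
  refine Finset.card_nsmul_le_sum _ _ _ (fun j _ => ?_)
  have := dist_triangle i j (ρ c)
  rwa [dist_comm j (ρ c)] at this

/-- The weight of the outer clients at a near facility. -/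
lemma outer_weight {c i : X} (hi : i ∈ near J F g x y r c) [DecidableEq X] :
    (∑ j ∈ J \ itr J r c, x i j) * (23 / 200 * r c) ≤ g * y i / 10 ^ 4 := by
  refine le_trans ?_ (near_light hi)
  rw [Finset.sum_mul]
  calc ∑ j ∈ J \ itr J r c, x i j * (23 / 200 * r c)
      ≤ ∑ j ∈ J \ itr J r c, x i j * dist i j := by
        refine Finset.sum_le_sum (fun j hj => ?_)
        obtain ⟨hj1, hj2⟩ := Finset.mem_sdiff.mp hj
        exact mul_le_mul_of_nonneg_left (h.far (near_dist hi) hj1 hj2)
          (h.rad.sol.x_nonneg i (near_sub hi) j hj1)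
    _ ≤ fcl J x i := by
        apply Finset.sum_le_sum_of_subset_of_nonneg Finset.sdiff_subset
        intro j hj _
        exact mul_nonneg (h.rad.sol.x_nonneg i (near_sub hi) j hj) dist_nonneg

/-- Cost of moving the near facilities to the representative. -/
lemma move_fac {c : X} (hc : c ∈ CC) [DecidableEq X] :
    ∑ i ∈ near J F g x y r c, (∑ j ∈ J \ itr J r c, x i j) * dist i (ρ c)
      ≤ 1 / 100 * ain J F g x y r c := by
  have hn := h.card_pos hc
  have hr := h.rpos c
  have hbig := h.big c hc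
  have hkey : ∀ i ∈ near J F g x y r c, (∑ j ∈ J \ itr J r c, x i j) * dist i (ρ c)
      ≤ 1 / 230 * (y i * ∑ j ∈ itr J r c, dist i j + y i * ∑ j ∈ itr J r c, dist (ρ c) j) := by
    intro i hi
    have h1 := h.outer_weight hi
    have h2 := h.spread hi
    have hy := near_pos hi
    set W := ∑ j ∈ J \ itr J r c, x i j with hW
    have hW0 : 0 ≤ W := Finset.sum_nonneg (fun j hj =>
      h.rad.sol.x_nonneg i (near_sub hi) j (Finset.mem_sdiff.mp hj).1)
    set n : ℝ := ((itr J r c).card : ℝ) with hndef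
    set A := ∑ j ∈ itr J r c, dist i j + ∑ j ∈ itr J r c, dist (ρ c) j with hA
    have hA0 : 0 ≤ A := add_nonneg (Finset.sum_nonneg (fun _ _ => dist_nonneg)) h.in_nonneg
    -- W * (23/200 r) * n * dist ≤ (g y/10^4) * A ≤ (5 n r y / 10^4) A
    have h3 : W * dist i (ρ c) * (23 / 200 * (n * r c)) ≤ 5 / 10 ^ 4 * y i * A * (n * r c) := by
      have e1 : W * dist i (ρ c) * (23 / 200 * (n * r c))
          = (W * (23 / 200 * r c)) * (n * dist i (ρ c)) := by ring
      have e2 : (W * (23 / 200 * r c)) * (n * dist i (ρ c)) ≤ (g * y i / 10 ^ 4) * A :=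
        mul_le_mul h1 h2 (by (clear * - hn; positivity)) (by have := h.rad.g_pos; positivity)
      have e3 : (g * y i / 10 ^ 4) * A ≤ (5 * (n * r c) * y i / 10 ^ 4) * A := by
        apply mul_le_mul_of_nonneg_right _ hA0
        have : g ≤ 5 * (n * r c) := by linarith only [hbig]
        have := mul_le_mul_of_nonneg_right this hy.le
        linarith only [this]
      calc _ = _ := e1
        _ ≤ _ := e2
        _ ≤ _ := e3
        _ = _ := by ring
    have hnr : 0 < n * r c := mul_pos hn hr
    have h4 : W * dist i (ρ c) * (23 / 200) ≤ 5 / 10 ^ 4 * y i * A := by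
      have e4 : W * dist i (ρ c) * (23 / 200) * (n * r c) ≤ 5 / 10 ^ 4 * y i * A * (n * r c) := by
        linarith only [h3]
      exact le_of_mul_le_mul_right e4 hnr
    have h5 : y i * ∑ j ∈ itr J r c, dist i j + y i * ∑ j ∈ itr J r c, dist (ρ c) j = y i * A := by
      rw [hA]; ring
    rw [h5]
    linarith only [h4]
  refine (Finset.sum_le_sum hkey).trans ?_
  rw [← Finset.mul_sum, Finset.sum_add_distrib, ← h.ain_eq, ← Finset.sum_mul]
  have h1 := h.in_le_ain hc
  have h2 := h.ain_nonneg (c := c)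
  linarith

end Clu

end Geom

end Vale.Agent.P334
end

section

set_option linter.all false

/-!
Local search for fractional solutions: feasibility and local optimality ([LP-2]).
-/

namespace Vale.Agent.P334.Alg

section

variable {X : Type} [DecidableEq X]

/-! ### generic facts -/

lemma uiterate_fixed {α : Type*} (f : α → α) (μ : α → ℕ) (h : ∀ x, f x = x ∨ μ (f x) < μ x) :
    ∀ (n : ℕ) (x : α), μ x ≤ n → f (f^[n] x) = f^[n] x := by
  intro n
  induction n with
  | zero =>
    intro x hx
    rcases h x with h1 | h1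
    · simpa using h1
    · omega
  | succ n ih =>
    intro x hx
    rw [Function.iterate_succ_apply]
    rcases h x with h1 | h1
    · rw [h1]
      have h2 : ∀ k, f^[k] x = x := by
        intro k
        induction k with
        | zero => rfl
        | succ k ihk => rw [Function.iterate_succ_apply, h1, ihk]
      rw [h2, h1]
    · exact ih (f x) (by omega)

lemma sh_zero (m : ℕ) : sh m 0 = 0 := rfl

lemma sh_succ (m u : ℕ) : sh m (u + 1) = sh m u + min (u + 1) m := by
  unfold sh
  rw [List.range_succ, List.map_append, List.sum_append]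
  simp only [List.map_cons, List.map_nil, List.sum_cons, List.sum_nil, add_zero, Nat.add_left_cancel_iff]

lemma sh_sub (m N b : ℕ) : sh m (N - b) = sh m (N - (b + 1)) + min (N - b) m := by
  rcases Nat.lt_or_ge b N with h | h
  · obtain ⟨c, hc⟩ : ∃ c, N - b = c + 1 := ⟨N - b - 1, by omega⟩
    have h2 : N - (b + 1) = c := by omega
    rw [h2, hc, sh_succ]
  · have h1 : N - b = 0 := by omega
    have h2 : N - (b + 1) = 0 := by omega
    rw [h1, h2]
    simp only [zero_le, inf_of_le_left, add_zero]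

lemma ballN_cons (d : X → X → ℕ) (i : X) (U : List X) (j : X) (r : ℕ) :
    ballN d (i :: U) j r = ballN d U j r + (if d i j ≤ r then 1 else 0) := by
  unfold ballN
  rw [List.countP_cons]
  simp only [decide_eq_true_eq, Nat.add_left_cancel_iff]

lemma ballN_perm (d : X → X → ℕ) {U V : List X} (h : U.Perm V) (j : X) (r : ℕ) :
    ballN d U j r = ballN d V j r := h.countP_eq _

lemma ballN_le (d : X → X → ℕ) (U : List X) (j : X) (r : ℕ) : ballN d U j r ≤ U.length :=
  List.countP_le_length

lemma usum_map_add {α : Type*} (L : List α) (f g : α → ℕ) :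
    (L.map (fun x => f x + g x)).sum = (L.map f).sum + (L.map g).sum := by
  induction L with
  | nil => simp
  | cons a L ih => simp only [List.map_cons, List.sum_cons, ih]; ring

/-- The smoothed cost. -/
def lmC (d : X → X → ℕ) (D1 N m : ℕ) (J U : List X) : ℕ :=
  (J.map (fun j => ((List.range D1).map (fun r => sh m (N - ballN d U j r))).sum)).sum

/-- The marginal gain of one more unit at `i`. -/
def lmP (d : X → X → ℕ) (D1 N m : ℕ) (J U : List X) (i : X) : ℕ :=
  (J.map (fun j => ((List.range D1).map (fun r =>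
    if d i j ≤ r then min (N - ballN d U j r) m else 0)).sum)).sum

/-- The marginal loss of one unit at `i`. -/
def lmM (d : X → X → ℕ) (D1 N m : ℕ) (J U : List X) (i : X) : ℕ :=
  (J.map (fun j => ((List.range D1).map (fun r =>
    if d i j ≤ r then min (N + 1 - ballN d U j r) m else 0)).sum)).sum

lemma lmH_eq (d : X → X → ℕ) (D1 N k w G m : ℕ) (J U : List X) :
    lmH d D1 N k w G m J U =
      lmC d D1 N m J U + ((List.range U.length).map (gfm k w N G m)).sum := rfl

lemma lmC_cons (d : X → X → ℕ) (D1 N m : ℕ) (J U : List X) (i : X) :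
    lmC d D1 N m J U = lmC d D1 N m J (i :: U) + lmP d D1 N m J U i := by
  unfold lmC lmP
  rw [← usum_map_add]
  congr 1
  refine List.map_congr_left fun j _ => ?_
  rw [← usum_map_add]
  congr 1
  refine List.map_congr_left fun r _ => ?_
  rw [ballN_cons]
  split_ifs with h
  · exact sh_sub m N _
  · rfl

lemma lmC_perm (d : X → X → ℕ) (D1 N m : ℕ) (J : List X) {U V : List X} (h : U.Perm V) :
    lmC d D1 N m J U = lmC d D1 N m J V := by
  unfold lmC
  simp_rw [ballN_perm d h]

lemma lmP_erase (d : X → X → ℕ) (D1 N m : ℕ) (J U : List X) {i : X} (hi : i ∈ U) :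
    lmP d D1 N m J (U.erase i) i = lmM d D1 N m J U i := by
  unfold lmP lmM
  congr 1
  refine List.map_congr_left fun j _ => ?_
  congr 1
  refine List.map_congr_left fun r _ => ?_
  split_ifs with h
  · have h1 := ballN_perm d (List.perm_cons_erase hi) j r
    rw [ballN_cons, if_pos h] at h1
    have h2 : N - ballN d (U.erase i) j r = N + 1 - ballN d U j r := by (clear * - h1; omega)
    rw [h2]
  · rfl

lemma lmC_erase (d : X → X → ℕ) (D1 N m : ℕ) (J U : List X) {i : X} (hi : i ∈ U) :
    lmC d D1 N m J (U.erase i) = lmC d D1 N m J U + lmM d D1 N m J U i := by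
  rw [lmC_cons d D1 N m J (U.erase i) i, lmP_erase d D1 N m J U hi,
    lmC_perm d D1 N m J (List.perm_cons_erase hi)]

/-- Local optimality. -/
def LocOpt (d : X → X → ℕ) (D1 N k w G m : ℕ) (J F U : List X) : Prop :=
  ∀ U' ∈ lmMoves N F U, lmH d D1 N k w G m J U ≤ lmH d D1 N k w G m J U'

/-- [LP-2] (a): one more unit does not pay. -/
theorem lm_add {d : X → X → ℕ} {D1 N k w G m : ℕ} {J F U : List X}
    (h : LocOpt d D1 N k w G m J F U) {i : X} (hi : i ∈ F) (hc : U.count i < N) :
    lmP d D1 N m J U i ≤ gfm k w N G m U.length := by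
  have h1 : i :: U ∈ lmMoves N F U := by
    unfold lmMoves
    rw [List.mem_append]
    left
    rw [List.mem_map]
    exact ⟨i, by rw [List.mem_filter]; exact ⟨hi, by simpa using hc⟩, rfl⟩
  have h2 := h _ h1
  rw [lmH_eq, lmH_eq, lmC_cons d D1 N m J U i, List.length_cons, List.range_succ,
    List.map_append, List.sum_append] at h2
  simp only [List.map_cons, List.map_nil, List.sum_cons, List.sum_nil] at h2
  omega

/-- [LP-2] (b): every unit pays its price. -/
theorem lm_del {d : X → X → ℕ} {D1 N k w G m : ℕ} {J F U : List X}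
    (h : LocOpt d D1 N k w G m J F U) {i : X} (hi : i ∈ F) (hU : i ∈ U) :
    gfm k w N G m (U.length - 1) ≤ lmM d D1 N m J U i := by
  have h1 : U.erase i ∈ lmMoves N F U := by
    unfold lmMoves
    rw [List.mem_append]
    right
    rw [List.mem_map]
    exact ⟨i, by rw [List.mem_filter]; exact ⟨hi, by simpa using hU⟩, rfl⟩
  have h2 := h _ h1
  have h3 : U.length = (U.erase i).length + 1 := by
    have := List.length_erase_of_mem hU
    have := List.length_pos_of_mem hU
    omega
  rw [lmH_eq, lmH_eq, lmC_erase d D1 N m J U hU, h3, List.range_succ,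
    List.map_append, List.sum_append] at h2
  simp only [List.map_cons, List.map_nil, List.sum_cons, List.sum_nil] at h2
  rw [h3, Nat.add_sub_cancel]
  omega

lemma lmStep_or (d : X → X → ℕ) (D1 N k w G m : ℕ) (J F U : List X) :
    lmStep d D1 N k w G m J F U = U ∨
      (lmStep d D1 N k w G m J F U ∈ lmMoves N F U ∧
        lmH d D1 N k w G m J (lmStep d D1 N k w G m J F U) < lmH d D1 N k w G m J U) := by
  unfold lmStep
  cases hf : (lmMoves N F U).find?
    (fun U' => decide (lmH d D1 N k w G m J U' < lmH d D1 N k w G m J U)) with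
  | none => left; rfl
  | some V =>
    right
    have h1 := List.mem_of_find?_eq_some hf
    have h2 := List.find?_some hf
    simp only [decide_eq_true_eq] at h2
    exact ⟨h1, h2⟩

lemma lmStep_fixed {d : X → X → ℕ} {D1 N k w G m : ℕ} {J F U : List X}
    (h : lmStep d D1 N k w G m J F U = U) : LocOpt d D1 N k w G m J F U := by
  intro U' hU'
  by_contra hcon
  push Not at hcon
  unfold lmStep at h
  cases hf : (lmMoves N F U).find?
    (fun U' => decide (lmH d D1 N k w G m J U' < lmH d D1 N k w G m J U)) with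
  | none =>
    rw [List.find?_eq_none] at hf
    have := hf U' hU'
    simp only [decide_eq_true_eq] at this
    exact this hcon
  | some V =>
    rw [hf] at h
    have h2 := List.find?_some hf
    simp only [decide_eq_true_eq] at h2
    simp only [Option.getD_some] at h
    rw [h] at h2
    exact lt_irrefl _ h2

/-- Feasible lists of units. -/
def UFeas (N : ℕ) (F U : List X) : Prop := (∀ u ∈ U, u ∈ F) ∧ ∀ i, U.count i ≤ N

lemma UFeas.move {N : ℕ} {F U U' : List X} (h : UFeas N F U) (h' : U' ∈ lmMoves N F U) :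
    UFeas N F U' := by
  unfold lmMoves at h'
  rw [List.mem_append, List.mem_map, List.mem_map] at h'
  rcases h' with ⟨i, hi, rfl⟩ | ⟨i, hi, rfl⟩
  · rw [List.mem_filter] at hi
    have h1 : U.count i < N := by simpa using hi.2
    refine ⟨fun u hu => ?_, fun b => ?_⟩
    · rcases List.mem_cons.1 hu with rfl | hu
      · exact hi.1
      · exact h.1 u hu
    · rw [List.count_cons]
      have h2 := h.2 b
      split_ifs with hb
      · have : i = b := by simpa using hb
        subst this
        omega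
      · omega
  · refine ⟨fun u hu => h.1 u (List.mem_of_mem_erase hu), fun b => ?_⟩
    exact ((List.erase_sublist).count_le b).trans (h.2 b)

/-- [LP-2]: the result of the local search is feasible and locally optimal. -/
theorem lmSearch_spec (d : X → X → ℕ) (D1 N k w G m : ℕ) (J F : List X) :
    UFeas N F (lmSearch d D1 N k w G m J F) ∧
      LocOpt d D1 N k w G m J F (lmSearch d D1 N k w G m J F) := by
  constructor
  · unfold lmSearch
    generalize lmH d D1 N k w G m J [] = n
    have h0 : UFeas N F ([] : List X) := ⟨fun u hu => absurd hu (List.not_mem_nil), fun i => by simp only [List.nodup_nil, List.count_nil, zero_le]⟩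
    have h1 : ∀ n (V : List X), UFeas N F V → UFeas N F ((lmStep d D1 N k w G m J F)^[n] V) := by
      intro n
      induction n with
      | zero => intro V hV; exact hV
      | succ n ih =>
        intro V hV
        rw [Function.iterate_succ_apply]
        refine ih _ ?_
        rcases lmStep_or d D1 N k w G m J F V with h2 | h2
        · rw [h2]; exact hV
        · exact hV.move h2.1
    exact h1 n [] h0
  · refine lmStep_fixed ?_
    unfold lmSearch
    refine uiterate_fixed _ (lmH d D1 N k w G m J) (fun V => ?_) _ _ le_rfl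
    rcases lmStep_or d D1 N k w G m J F V with h2 | h2
    · left; exact h2
    · right; exact h2.2

end

end Vale.Agent.P334.Alg
end

section

/-!
The degenerate case of the linear program: at most `N` units.
-/

namespace Vale.Agent.P334.Alg

namespace LpS

theorem sum_range_map (n : ℕ) (f : ℕ → ℕ) :
    ((List.range n).map f).sum = ∑ r ∈ Finset.range n, f r := rfl

theorem sum_ind {n a : ℕ} (h : a ≤ n) :
    ∑ r ∈ Finset.range n, (if r < a then 1 else 0) = a := by
  rw [← Finset.sum_filter, Finset.sum_const, smul_eq_mul, mul_one]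
  have : (Finset.range n).filter (fun r => r < a) = Finset.range a := by
    ext r
    simp only [Finset.mem_filter, Finset.mem_range]
    omega
  rw [this, Finset.card_range]

/-- Cost of a client when there are at most `N` units. -/
theorem sum_ballN {X : Type} (d : X → X → ℕ) (D1 : ℕ) (j : X) (hD : ∀ a, d a j ≤ D1) :
    ∀ (U : List X) (N : ℕ), U.length ≤ N →
      ((List.range D1).map (fun r => N - ballN d U j r)).sum =
        (N - U.length) * D1 + (U.map (fun u => d u j)).sum := by
  intro U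
  induction U with
  | nil =>
    intro N _
    rw [sum_range_map]
    simp only [ballN, List.countP_nil, Nat.sub_zero, Finset.sum_const, Finset.card_range,
      smul_eq_mul, List.length_nil, List.map_nil, List.sum_nil, add_zero]
    exact mul_comm _ _
  | cons u U ih =>
    intro N hN
    obtain ⟨N, rfl⟩ : ∃ M, N = M + 1 := ⟨N - 1, by rw [List.length_cons] at hN; omega⟩
    have hN' : U.length ≤ N := by rw [List.length_cons] at hN; omega
    have h1 : ∀ r, N + 1 - ballN d (u :: U) j r =
        (N - ballN d U j r) + (if r < d u j then 1 else 0) := by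
      intro r
      have hb : ballN d U j r ≤ N := (List.countP_le_length).trans hN'
      have hc : ballN d (u :: U) j r = ballN d U j r + (if d u j ≤ r then 1 else 0) := by
        unfold ballN
        rw [List.countP_cons]
        simp only [decide_eq_true_eq]
      rw [hc]
      by_cases h : d u j ≤ r
      · rw [if_pos h, if_neg (not_lt.mpr h)]
        omega
      · rw [if_neg h, if_pos (not_le.mp h)]
        omega
    have h2 : ((List.range D1).map (fun r => N + 1 - ballN d (u :: U) j r)).sum =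
        ((List.range D1).map (fun r => N - ballN d U j r)).sum + d u j := by
      rw [sum_range_map, sum_range_map, Finset.sum_congr rfl (fun r _ => h1 r),
        Finset.sum_add_distrib, sum_ind (hD u)]
    rw [h2, ih N hN', List.length_cons, List.map_cons, List.sum_cons, Nat.add_sub_add_right]
    ring

theorem exists_min {X : Type} (f : X → ℕ) : ∀ F : List X, F ≠ [] → ∃ i ∈ F, ∀ u ∈ F, f i ≤ f u := by
  intro F
  induction F with
  | nil => intro h; exact absurd rfl h
  | cons a F ih =>
    intro _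
    by_cases hF : F = []
    · subst hF
      exact ⟨a, List.mem_cons_self, fun u hu => by
        rcases List.mem_cons.mp hu with rfl | hu
        · exact le_rfl
        · exact absurd hu List.not_mem_nil⟩
    · obtain ⟨i, hi, h⟩ := ih hF
      rcases le_total (f a) (f i) with h1 | h1
      · exact ⟨a, List.mem_cons_self, fun u hu => by
          rcases List.mem_cons.mp hu with rfl | hu
          · exact le_rfl
          · exact h1.trans (h u hu)⟩
      · exact ⟨i, List.mem_cons_of_mem _ hi, fun u hu => by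
          rcases List.mem_cons.mp hu with rfl | hu
          · exact h1
          · exact h u hu⟩

theorem sum_map_add {Y : Type} (J : List Y) (f g : Y → ℕ) :
    (J.map (fun j => f j + g j)).sum = (J.map f).sum + (J.map g).sum := by
  induction J with
  | nil => rfl
  | cons j J ih => simp only [List.map_cons, List.sum_cons, ih]; omega

theorem sum_map_const {Y : Type} (J : List Y) (c : ℕ) :
    (J.map (fun _ => c)).sum = J.length * c := by
  induction J with
  | nil => simp
  | cons j J ih => rw [List.map_cons, List.sum_cons, ih, List.length_cons]; ring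

theorem sum_map_comm {Y Z : Type} (J : List Y) (U : List Z) (f : Y → Z → ℕ) :
    (J.map (fun j => (U.map (fun u => f j u)).sum)).sum =
      (U.map (fun u => (J.map (fun j => f j u)).sum)).sum := by
  induction J with
  | nil => simp
  | cons j J ih =>
    simp only [List.map_cons, List.sum_cons]
    rw [ih, ← sum_map_add]

theorem le_sum_map {Y : Type} (U : List Y) (f : Y → ℕ) {c : ℕ} (h : ∀ u ∈ U, c ≤ f u) :
    U.length * c ≤ (U.map f).sum := by
  induction U with
  | nil => simp
  | cons u U ih =>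
    rw [List.map_cons, List.sum_cons, List.length_cons, add_mul, one_mul, add_comm]
    exact add_le_add (h u List.mem_cons_self) (ih fun v hv => h v (List.mem_cons_of_mem _ hv))

end LpS

open LpS

/-- If there are at most `N` units, a single facility is as good as the fractional solution. -/
theorem lp_single {X : Type} [MetricSpace X] [DecidableEq X] {d : X → X → ℕ}
    (hd : ∀ a b, dist a b = (d a b : ℝ)) {D D1 N : ℕ} (hD : ∀ a b, d a b ≤ D) (hD1 : D ≤ D1)
    {J F U : List X} (hJ : J.Nodup) (hU : U ⊆ F) (hF : F ≠ []) (hN : 0 < N)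
    (hUN : U.length ≤ N) {C : ℝ}
    (h : (((J.map (fun j => ((List.range D1).map (fun r => N - ballN d U j r)).sum)).sum : ℕ)
      : ℝ) / N ≤ C) : ∃ i ∈ F.toFinset, cost J.toFinset {i} ≤ C := by
  obtain ⟨i, hi, hmin⟩ := exists_min (fun u => (J.map (fun j => d u j)).sum) F hF
  refine ⟨i, List.mem_toFinset.mpr hi, le_trans ?_ h⟩
  have hN' : (0 : ℝ) < N := by exact_mod_cast hN
  rw [le_div_iff₀ hN']
  have hcost : cost J.toFinset {i} = (((J.map (fun j => d i j)).sum : ℕ) : ℝ) := by
    unfold cost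
    rw [List.sum_toFinset _ hJ, Nat.cast_list_sum, List.map_map]
    congr 1
    refine List.map_congr_left (fun j _ => ?_)
    simp only [Finset.coe_singleton, Metric.infDist_singleton, Function.comp]
    rw [dist_comm, hd]
  have hle : (J.map (fun j => d i j)).sum ≤ J.length * D1 := by
    have h1 : ∀ J : List X, (J.map (fun j => d i j)).sum ≤ J.length * D1 := by
      intro J
      induction J with
      | nil => simp
      | cons j J ih =>
        rw [List.map_cons, List.sum_cons, List.length_cons, add_mul, one_mul, add_comm]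
        exact add_le_add ih ((hD i j).trans hD1)
    exact h1 J
  have key : (J.map (fun j => d i j)).sum * N ≤
      (J.map (fun j => ((List.range D1).map (fun r => N - ballN d U j r)).sum)).sum := by
    have e1 : (J.map (fun j => ((List.range D1).map (fun r => N - ballN d U j r)).sum)) =
        J.map (fun j => (N - U.length) * D1 + (U.map (fun u => d u j)).sum) :=
      List.map_congr_left (fun j _ => sum_ballN d D1 j (fun a => (hD a j).trans hD1) U N hUN)
    rw [e1, sum_map_add, sum_map_const, sum_map_comm]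
    have e2 : U.length * (J.map (fun j => d i j)).sum ≤
        (U.map (fun u => (J.map (fun j => d u j)).sum)).sum :=
      le_sum_map U _ (fun u hu => hmin u (hU hu))
    have e3 : (N - U.length) * (J.map (fun j => d i j)).sum ≤
        J.length * ((N - U.length) * D1) := by
      calc (N - U.length) * (J.map (fun j => d i j)).sum
          ≤ (N - U.length) * (J.length * D1) := Nat.mul_le_mul_left _ hle
        _ = _ := by ring
    have e4 : (J.map (fun j => d i j)).sum * N =
        (N - U.length) * (J.map (fun j => d i j)).sum +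
          U.length * (J.map (fun j => d i j)).sum := by
      rw [← add_mul, Nat.sub_add_cancel hUN, mul_comm]
    rw [e4]
    exact add_le_add e3 e2
  rw [hcost]
  exact_mod_cast key

end Vale.Agent.P334.Alg
end

section

/-!
Selecting a cheap conflict-free set: three colours of a functional graph and the fractional
cardinality knapsack.
-/

namespace Vale.Agent.P334

open Finset

variable {X : Type} [DecidableEq X]

/-- The `z` cheapest elements cost at most any fractional selection of total weight at least `z`. -/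
lemma cheapest (E : Finset X) (L t : X → ℝ) (hL : ∀ c ∈ E, 0 ≤ L c) (ht0 : ∀ c ∈ E, 0 ≤ t c)
    (ht1 : ∀ c ∈ E, t c ≤ 1) (z : ℕ) (hz : (z : ℝ) ≤ ∑ c ∈ E, t c) :
    ∃ Z ⊆ E, Z.card = z ∧ ∑ c ∈ Z, L c ≤ ∑ c ∈ E, t c * L c := by
  have hzE : z ≤ E.card := by
    have h1 : ∑ c ∈ E, t c ≤ E.card := by
      calc ∑ c ∈ E, t c ≤ ∑ c ∈ E, (1 : ℝ) := Finset.sum_le_sum ht1
        _ = E.card := by simp only [sum_const, nsmul_eq_mul, mul_one]
    exact_mod_cast hz.trans h1
  obtain ⟨Z, hZ, hmin⟩ := (Finset.powersetCard z E).exists_min_image (fun Z => ∑ c ∈ Z, L c)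
    (Finset.powersetCard_nonempty.mpr hzE)
  obtain ⟨hZE, hZc⟩ := Finset.mem_powersetCard.mp hZ
  refine ⟨Z, hZE, hZc, ?_⟩
  have hexch : ∀ a ∈ Z, ∀ b ∈ E \ Z, L a ≤ L b := by
    intro a ha b hb
    obtain ⟨hbE, hbZ⟩ := Finset.mem_sdiff.mp hb
    have hbe : b ∉ Z.erase a := fun h => hbZ (Finset.mem_of_mem_erase h)
    have h1 := hmin (insert b (Z.erase a)) (Finset.mem_powersetCard.mpr ⟨by
      intro c hc
      rcases Finset.mem_insert.mp hc with h | h
      · rw [h]; exact hbE
      · exact hZE (Finset.mem_of_mem_erase h), by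
      rw [Finset.card_insert_of_notMem hbe, Finset.card_erase_of_mem ha, hZc]
      have : 0 < Z.card := Finset.card_pos.mpr ⟨a, ha⟩
      omega⟩)
    simp only [Finset.sum_insert hbe] at h1
    have h2 := Finset.add_sum_erase Z L ha
    linarith only [h1, h2]
  rcases Z.eq_empty_or_nonempty with hZ0 | hZ0
  · rw [hZ0, Finset.sum_empty]
    exact Finset.sum_nonneg (fun c hc => mul_nonneg (ht0 c hc) (hL c hc))
  · obtain ⟨a, ha, hmax⟩ := Z.exists_max_image L hZ0
    have hθ : 0 ≤ L a := hL a (hZE ha)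
    have h1 : L a * (∑ c ∈ E \ Z, t c) ≤ ∑ c ∈ E \ Z, t c * L c := by
      rw [Finset.mul_sum]
      refine Finset.sum_le_sum (fun b hb => ?_)
      rw [mul_comm]
      exact mul_le_mul_of_nonneg_left (hexch a ha b hb) (ht0 b (Finset.mem_sdiff.mp hb).1)
    have h2 : ∑ c ∈ Z, (1 - t c) * L c ≤ L a * ∑ c ∈ Z, (1 - t c) := by
      rw [Finset.mul_sum]
      refine Finset.sum_le_sum (fun b hb => ?_)
      rw [mul_comm (L a)]
      exact mul_le_mul_of_nonneg_left (hmax b hb) (by linarith only [ht1 b (hZE hb)])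
    have h3 : ∑ c ∈ Z, (1 - t c) = z - ∑ c ∈ Z, t c := by
      rw [Finset.sum_sub_distrib]
      simp only [sum_const, hZc, nsmul_eq_mul, mul_one]
    have h4 : ∑ c ∈ Z, (1 - t c) * L c = ∑ c ∈ Z, L c - ∑ c ∈ Z, t c * L c := by
      rw [← Finset.sum_sub_distrib]
      exact Finset.sum_congr rfl (fun c _ => by ring)
    have h5 := Finset.sum_sdiff hZE (f := t)
    have h6 := Finset.sum_sdiff hZE (f := fun c => t c * L c)
    rw [h3] at h2
    rw [h4] at h2
    have h7 : 0 ≤ L a * (∑ c ∈ E, t c - z) := mul_nonneg hθ (by linarith only [hz])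
    rw [← h5] at h7
    have h8 : L a * (∑ c ∈ E \ Z, t c + ∑ c ∈ Z, t c - z)
        = L a * (∑ c ∈ E \ Z, t c) - L a * (z - ∑ c ∈ Z, t c) := by ring
    rw [h8] at h7
    linarith only [h1, h2, h6, h7]

/-- A functional graph has a proper colouring with three colours. -/
lemma three_col (π : X → X) : ∀ (n : ℕ) (V : Finset X), V.card = n →
    ∃ χ : X → ℕ, (∀ c, χ c < 3) ∧ ∀ c ∈ V, π c ∈ V → π c ≠ c → χ c ≠ χ (π c) := by
  intro n
  induction n with
  | zero =>
    intro V hV
    rw [Finset.card_eq_zero] at hV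
    exact ⟨fun _ => 0, fun _ => by norm_num, fun c hc => by rw [hV] at hc; exact absurd hc (Finset.notMem_empty c)⟩
  | succ n ih =>
    intro V hV
    -- a vertex with at most one preimage
    have hex : ∃ v ∈ V, (V.filter (fun c => π c = v)).card ≤ 1 := by
      by_contra hcon
      push Not at hcon
      have h1 : ∑ v ∈ V, (V.filter (fun c => π c = v)).card ≤ V.card := by
        have h2 : ∑ v ∈ V, (V.filter (fun c => π c = v)).card
            = (V.filter (fun c => π c ∈ V)).card := by
          rw [Finset.card_eq_sum_card_fiberwise (f := π) (t := V)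
            (s := V.filter (fun c => π c ∈ V)) (fun c hc => (Finset.mem_filter.mp hc).2)]
          refine Finset.sum_congr rfl (fun v hv => ?_)
          congr 1
          ext c
          simp only [Finset.mem_filter]
          constructor
          · rintro ⟨h1, h2⟩; exact ⟨⟨h1, by rw [h2]; exact hv⟩, h2⟩
          · rintro ⟨⟨h1, _⟩, h2⟩; exact ⟨h1, h2⟩
        rw [h2]
        exact Finset.card_filter_le _ _
      have h3 : ∑ v ∈ V, 2 ≤ ∑ v ∈ V, (V.filter (fun c => π c = v)).card :=
        Finset.sum_le_sum (fun v hv => hcon v hv)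
      rw [Finset.sum_const, smul_eq_mul] at h3
      omega
    obtain ⟨v, hv, hv1⟩ := hex
    obtain ⟨χ, hχ1, hχ2⟩ := ih (V.erase v) (by rw [Finset.card_erase_of_mem hv, hV]; rfl)
    -- the colour of the only preimage
    obtain ⟨p, hp⟩ : ∃ p : ℕ, ∀ c ∈ V, c ≠ v → π c = v → χ c = p := by
      rcases (V.filter (fun c => π c = v)).eq_empty_or_nonempty with h0 | ⟨c0, hc0⟩
      · refine ⟨0, fun c hc _ hcv => ?_⟩
        have : c ∈ V.filter (fun c => π c = v) := Finset.mem_filter.mpr ⟨hc, hcv⟩
        rw [h0] at this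
        exact absurd this (Finset.notMem_empty c)
      · refine ⟨χ c0, fun c hc _ hcv => ?_⟩
        have : c = c0 := (Finset.card_le_one.mp hv1) c (Finset.mem_filter.mpr ⟨hc, hcv⟩) c0 hc0
        rw [this]
    obtain ⟨a, ha3, hap, haq⟩ : ∃ a : ℕ, a < 3 ∧ a ≠ p ∧ a ≠ χ (π v) := by
      by_cases h0 : 0 ≠ p ∧ 0 ≠ χ (π v)
      · exact ⟨0, by norm_num, h0.1, h0.2⟩
      · by_cases h1 : 1 ≠ p ∧ 1 ≠ χ (π v)
        · exact ⟨1, by norm_num, h1.1, h1.2⟩
        · refine ⟨2, by norm_num, ?_, ?_⟩
          · intro h; apply h0; constructor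
            · omega
            · intro h'; apply h1; constructor <;> omega
          · intro h; apply h0; constructor
            · intro h'; apply h1; constructor <;> omega
            · omega
    refine ⟨fun c => if c = v then a else χ c, fun c => ?_, ?_⟩
    · show (if c = v then a else χ c) < 3
      split_ifs
      · exact ha3
      · exact hχ1 c
    · intro c hc hπ hne
      show (if c = v then a else χ c) ≠ (if π c = v then a else χ (π c))
      by_cases hcv : c = v
      · rw [if_pos hcv]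
        have h1 : π c ≠ v := by rw [hcv] at hne ⊢; exact hne
        rw [if_neg h1, hcv]
        exact haq
      · rw [if_neg hcv]
        by_cases hπv : π c = v
        · rw [if_pos hπv, hp c hc hcv hπv]
          exact fun h => hap h.symm
        · rw [if_neg hπv]
          exact hχ2 c (Finset.mem_erase.mpr ⟨hcv, hc⟩) (Finset.mem_erase.mpr ⟨hπv, hπ⟩) hne

/-- A cheap conflict-free selection. -/
theorem cheap_selection (CC E : Finset X) (hE : E ⊆ CC) (π : X → X) (hπ : ∀ c ∈ E, π c ∈ CC)
    (s L : X → ℝ) {σ : ℝ} (hσ : 0 < σ) (hσ1 : σ ≤ 1 / 10) (hs0 : ∀ c ∈ E, 0 ≤ s c)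
    (hs1 : ∀ c ∈ E, s c ≤ σ) (hL : ∀ c ∈ E, 0 ≤ L c) :
    ∃ Z ⊆ E, (∀ c ∈ Z, π c ≠ c → π c ∉ Z) ∧ ∑ c ∈ E, s c - 1 ≤ Z.card ∧
      (1 - 2 * σ) * ∑ c ∈ Z, L c ≤ ∑ c ∈ E, s c * L c := by
  set T := ∑ c ∈ E, s c with hT
  have hP0 : 0 ≤ ∑ c ∈ E, s c * L c :=
    Finset.sum_nonneg (fun c hc => mul_nonneg (hs0 c hc) (hL c hc))
  rcases le_or_gt T 1 with hT1 | hT1
  · refine ⟨∅, Finset.empty_subset _, fun c hc => absurd hc (Finset.notMem_empty c), ?_, ?_⟩
    · rw [Finset.card_empty, Nat.cast_zero]; linarith only [hT1]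
    · rw [Finset.sum_empty, mul_zero]; exact hP0
  obtain ⟨χ, hχ1, hχ2⟩ := three_col π CC.card CC rfl
  set cls : ℕ → Finset X := fun a => E.filter (fun c => χ c = a) with hcls
  have hsplit : ∀ u : X → ℝ, ∑ c ∈ E, u c = ∑ a ∈ Finset.range 3, ∑ c ∈ cls a, u c := by
    intro u
    rw [← Finset.sum_fiberwise_of_maps_to (t := Finset.range 3) (g := χ)
      (fun c _ => Finset.mem_range.mpr (hχ1 c)) u]
  -- a good class
  have hgood : ∃ a ∈ Finset.range 3, σ * T ≤ ∑ c ∈ cls a, s c ∧
      (1 - 2 * σ) * (T * ∑ c ∈ cls a, s c * L c)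
        ≤ (∑ c ∈ cls a, s c) * ∑ c ∈ E, s c * L c := by
    by_contra hcon
    push Not at hcon
    have h1 := hsplit s
    have h2 := hsplit (fun c => s c * L c)
    rw [← hT] at h1
    simp only [sum_range_succ, sum_range_zero, zero_add] at h1 h2
    have hS0 : ∀ a, 0 ≤ ∑ c ∈ cls a, s c := fun a =>
      Finset.sum_nonneg (fun c hc => hs0 c (Finset.mem_filter.mp hc).1)
    have hQ0 : ∀ a, 0 ≤ ∑ c ∈ cls a, s c * L c := fun a =>
      Finset.sum_nonneg (fun c hc => mul_nonneg (hs0 c (Finset.mem_filter.mp hc).1)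
        (hL c (Finset.mem_filter.mp hc).1))
    have hc0 := hcon 0 (by simp only [mem_range, Nat.ofNat_pos])
    have hc1 := hcon 1 (by simp only [mem_range, Nat.one_lt_ofNat])
    have hc2 := hcon 2 (by simp)
    have g0 := hS0 0
    have g1 := hS0 1
    have g2 := hS0 2
    have q0 := hQ0 0
    have q1 := hQ0 1
    have q2 := hQ0 2
    set S0 := ∑ c ∈ cls 0, s c
    set S1 := ∑ c ∈ cls 1, s c
    set S2 := ∑ c ∈ cls 2, s c
    set P := ∑ c ∈ E, s c * L c
    set Q0 := ∑ c ∈ cls 0, s c * L c
    set Q1 := ∑ c ∈ cls 1, s c * L c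
    set Q2 := ∑ c ∈ cls 2, s c * L c
    have hσT : 0 < σ * T := by (clear * - hσ hT1; positivity)
    have hlow : ∀ S Q : ℝ, 0 ≤ Q → (σ * T ≤ S → S * P < (1 - 2 * σ) * (T * Q)) →
        (S - σ * T) * P ≤ (1 - 2 * σ) * (T * Q) := by
      intro S Q hQ hi
      rcases le_or_gt (σ * T) S with h | h
      · have := hi h
        have h3 : 0 ≤ σ * T * P := by (clear * - hσ hT1 hP0; positivity)
        linarith only [this, h3]
      · have h3 : (S - σ * T) * P ≤ 0 := mul_nonpos_of_nonpos_of_nonneg (by linarith only [h]) hP0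
        have h4 : 0 ≤ (1 - 2 * σ) * (T * Q) := by
          apply mul_nonneg (by linarith only [hσ1]); (clear * - hT1 hQ; positivity)
        linarith only [h3, h4]
    -- the largest class is good
    have hmax : (σ * T ≤ S0 ∧ T ≤ 3 * S0) ∨ (σ * T ≤ S1 ∧ T ≤ 3 * S1) ∨ (σ * T ≤ S2 ∧ T ≤ 3 * S2) := by
      have h3 : σ * T ≤ 1 / 10 * T := mul_le_mul_of_nonneg_right hσ1 (by linarith only [hT1])
      by_cases e0 : T ≤ 3 * S0
      · left; exact ⟨by linarith only [hT1, h3, e0], e0⟩
      · by_cases e1 : T ≤ 3 * S1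
        · right; left; exact ⟨by linarith only [hT1, h3, e1], e1⟩
        · right; right
          push Not at e0 e1
          exact ⟨by linarith, by linarith only [h1, e0, e1]⟩
    have k0 := hlow S0 Q0 q0 hc0
    have k1 := hlow S1 Q1 q1 hc1
    have k2 := hlow S2 Q2 q2 hc2
    have hfin : T * P * (1 - 2 * σ) = (1 - 2 * σ) * (T * Q0) + (1 - 2 * σ) * (T * Q1)
        + (1 - 2 * σ) * (T * Q2) := by rw [h2]; ring
    rcases hmax with ⟨h3, _⟩ | ⟨h3, _⟩ | ⟨h3, _⟩
    · have := hc0 h3
      nlinarith only [k1, k2, hfin, this, h1, hP0]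
    · have := hc1 h3
      nlinarith only [k0, k2, hfin, this, h1, hP0]
    · have := hc2 h3
      nlinarith only [k0, k1, hfin, this, h1, hP0]
  obtain ⟨a, _, ha1, ha2⟩ := hgood
  set Sa := ∑ c ∈ cls a, s c with hSa
  have hSapos : 0 < Sa := lt_of_lt_of_le (by (clear * - hσ hT1; positivity)) ha1
  have hclsE : cls a ⊆ E := Finset.filter_subset _ _
  obtain ⟨Z, hZ1, hZ2, hZ3⟩ := cheapest (cls a) L (fun c => T / Sa * s c)
    (fun c hc => hL c (hclsE hc))
    (fun c hc => mul_nonneg (by (clear * - hT1 hSapos; positivity)) (hs0 c (hclsE hc)))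
    (fun c hc => by
      have h1 := hs1 c (hclsE hc)
      have h2 : T / Sa * s c ≤ T / Sa * σ := mul_le_mul_of_nonneg_left h1 (by (clear * - hT1 hSapos; positivity))
      have h3 : T / Sa * σ = σ * T / Sa := by ring
      rw [h3] at h2
      refine h2.trans ?_
      rw [div_le_one hSapos]
      exact ha1)
    (⌊T⌋₊) (by
      rw [← Finset.mul_sum, ← hSa]
      have : T / Sa * Sa = T := by (clear * - hSapos hT1; field_simp)
      rw [this]
      exact Nat.floor_le (by linarith only [hT1]))
  refine ⟨Z, hZ1.trans hclsE, ?_, ?_, ?_⟩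
  · intro c hc hne hcon
    have h1 := (Finset.mem_filter.mp (hZ1 hc))
    have h2 := (Finset.mem_filter.mp (hZ1 hcon))
    exact hχ2 c (hE h1.1) (hπ c h1.1) hne (by rw [h1.2, h2.2])
  · rw [hZ2]
    linarith only [Nat.lt_floor_add_one T]
  · have h1 : ∑ c ∈ cls a, T / Sa * s c * L c = T / Sa * ∑ c ∈ cls a, s c * L c := by
      rw [Finset.mul_sum]
      exact Finset.sum_congr rfl (fun c _ => by ring)
    rw [h1] at hZ3
    have h2 : (1 - 2 * σ) * (T / Sa * ∑ c ∈ cls a, s c * L c)
        = (1 - 2 * σ) * (T * ∑ c ∈ cls a, s c * L c) / Sa := by ring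
    have h3 := mul_le_mul_of_nonneg_left hZ3 (by linarith only [hσ1] : 0 ≤ 1 - 2 * σ)
    refine h3.trans ?_
    rw [h2, div_le_iff₀ hSapos]
    linarith only [ha2]

end Vale.Agent.P334
end

section

/-!
The dual fitting bound for a given chain with interpolated levels and two prices.
-/

namespace Vale.Agent.P334

open Finset

section

variable {X : Type} [MetricSpace X]

/-- The accounting along a chain. -/
lemma pos_chain_total' [DecidableEq X] (J : Finset X) (pos : X → X) (α : ℕ → X → ℝ) (lo E : ℝ)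
    (S : ℕ → Finset X) (m : ℕ) (h : ∀ q, q < m → (posPot J pos (α (q + 1))).tot lo (S (q + 1))
      ≤ (posPot J pos (α (q + 1))).tot lo (S q) + E) :
    ∀ q, q ≤ m → (posPot J pos (α q)).tot lo (S q) ≤ (posPot J pos (α 0)).tot lo (S 0)
      + ∑ j ∈ J, ∑ p ∈ Finset.range q,
        (tr (α (p + 1) (pos j)) (pos j) (S p) - tr (α p (pos j)) (pos j) (S p))
      + E * q := by
  intro q
  induction q with
  | zero => intro _; simp only [range_zero, sum_sub_distrib, sum_empty, sub_self, sum_const_zero, add_zero, CharP.cast_eq_zero, mul_zero, Std.le_refl]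
  | succ q ih =>
    intro hq
    have h1 := ih (by omega)
    have h2 := h q (by omega)
    have h3 : (posPot J pos (α (q + 1))).tot lo (S q) = (posPot J pos (α q)).tot lo (S q)
        + ∑ j ∈ J, (tr (α (q + 1) (pos j)) (pos j) (S q) - tr (α q (pos j)) (pos j) (S q)) := by
      show (∑ j ∈ J, tr (α (q + 1) (pos j)) (pos j) (S q)) + lo * (S q).card
        = (∑ j ∈ J, tr (α q (pos j)) (pos j) (S q)) + lo * (S q).card
          + ∑ j ∈ J, (tr (α (q + 1) (pos j)) (pos j) (S q) - tr (α q (pos j)) (pos j) (S q))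
      rw [Finset.sum_sub_distrib]
      ring
    have h4 : ∑ j ∈ J, ∑ p ∈ Finset.range (q + 1),
        (tr (α (p + 1) (pos j)) (pos j) (S p) - tr (α p (pos j)) (pos j) (S p))
        = ∑ j ∈ J, ∑ p ∈ Finset.range q,
          (tr (α (p + 1) (pos j)) (pos j) (S p) - tr (α p (pos j)) (pos j) (S p))
          + ∑ j ∈ J, (tr (α (q + 1) (pos j)) (pos j) (S q) - tr (α q (pos j)) (pos j) (S q)) := by
      rw [← Finset.sum_add_distrib]
      exact Finset.sum_congr rfl (fun j _ => Finset.sum_range_succ _ _)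
    rw [h4]
    push_cast
    linarith only [h1, h2, h3]

variable [DecidableEq X]

/-- The star bound at an element of `R` along a chain with interpolated levels. -/
lemma rep_star_given {J F R : Finset X} (hR : R ⊆ F) {pos : X → X} {x : X → X → ℝ} {y : X → ℝ}
    {τ : ℕ → ℝ} {S : ℕ → Finset X} {M m : ℕ} {f ε t c η : ℝ} {cap : X → ℕ → ℝ} (hf : 0 ≤ f)
    (hε : 0 ≤ ε) (ht : 0 ≤ t) (htc : t ≤ c)
    (hτ0 : τ 0 = 0) (hτ : ∀ p, τ p ≤ τ (p + 1)) (hτs : ∀ p, τ (p + 1) ≤ (1 + ε) * τ p + t)
    (hx0 : ∀ i ∈ F, ∀ j ∈ J, 0 ≤ x i j) (hxy : ∀ i ∈ F, ∀ j ∈ J, x i j ≤ y i)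
    (hcap : ∀ v ∈ R, ∀ s, cap v s ≤ cap v (s + 1))
    (hS : ∀ q, q < (M + 3) * m → S q ⊆ S (q + 1))
    (hmax : ∀ q, q < (M + 3) * m → (posPot J pos (wl R τ M cap (q + 1))).IsMax F f (S (q + 1)))
    {ρ : X} (hρ : ρ ∈ R) (hn : 0 < nR J pos ρ) (hy : 0 < y ρ)
    (hRx : ∀ j ∈ J, pos j = ρ → x ρ j = y ρ) (hη : 0 ≤ η)
    (hηn : nR J pos ρ * η ≤ ε * (f / nR J pos ρ) * ∑ l ∈ J with pos l ≠ ρ, x ρ l / y ρ
      + c * nR J pos ρ)
    (hcs : ∀ s, s ≤ M → cap ρ (s + 1) ≤ cap ρ s + η) (hct : f / nR J pos ρ < cap ρ (M + 1))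
    (hc0 : cap ρ 0 ≤ max 0 (f / nR J pos ρ
      - (f / nR J pos ρ) * (∑ l ∈ J with pos l ≠ ρ, x ρ l / y ρ) / nR J pos ρ)) :
    ∑ j ∈ J, x ρ j * gr (wl R τ M cap) S ((M + 3) * m) (pos j)
      ≤ f * y ρ + 2 * ∑ j ∈ J, x ρ j * dist ρ (pos j)
        + 2 * ε * (f / nR J pos ρ) * ∑ l ∈ J with pos l ≠ ρ, x ρ l + c * ∑ j ∈ J, x ρ j := by
  classical
  set w : X → X → ℝ := fun i j => x i j / y i with hw
  have hwnn : ∀ l ∈ J, 0 ≤ w ρ l := fun l hl => div_nonneg (hx0 ρ (hR hρ) l hl) hy.le
  have hα0 : ∀ v, wl R τ M cap 0 v = 0 := fun v => by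
    have := wl_zero (R := R) (τ := τ) (M := M) (cap := cap) 0 v
    rwa [mul_zero, hτ0] at this
  have hα : ∀ q v, wl R τ M cap q v ≤ wl R τ M cap (q + 1) v := fun q v => wl_mono hτ hcap q v
  have hτmono : Monotone τ := monotone_nat_of_le_succ hτ
  have hlev : ∀ q, ∃ θ, 0 ≤ θ ∧ (∀ v, θ ≤ wl R τ M cap q v) ∧
      ∀ v, wl R τ M cap (q + 1) v ≤ (1 + ε) * θ + t := by
    intro q
    refine ⟨τ (q / (M + 3)), ?_, fun v => (wl_bounds' hτ q v).1, fun v => ?_⟩
    · rw [← hτ0]; exact hτmono (Nat.zero_le _)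
    · exact (wl_bounds' hτ q v).2.trans (hτs _)
  have hVle := VR_le (J := J) (pos := pos) (w := w) (f := f) (ρ := ρ) hn hf hwnn
  have hstep : ∀ q, wl R τ M cap (q + 1) ρ ≤ f / nR J pos ρ - VR J pos w f ρ / nR J pos ρ ∨
      wl R τ M cap (q + 1) ρ ≤ wl R τ M cap q ρ + η ∨
      f / nR J pos ρ < wl R τ M cap q ρ := by
    intro q
    rcases wl_step (R := R) (τ := τ) (M := M) (cap := cap) hρ hη hcs (A := f / nR J pos ρ)
      hct q with h1 | h1 | h1
    · rcases le_total (f / nR J pos ρ
        - (f / nR J pos ρ) * (∑ l ∈ J with pos l ≠ ρ, x ρ l / y ρ) / nR J pos ρ) 0 with h2 | h2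
      · right; left
        rw [max_eq_left h2] at hc0
        have h3 : 0 ≤ wl R τ M cap q ρ := by
          rw [← hα0 ρ]
          exact monotone_nat_of_le_succ (fun q => hα q ρ) (Nat.zero_le q)
        linarith only [hη, hc0, h1, h3]
      · left
        rw [max_eq_right h2] at hc0
        have h3 : VR J pos w f ρ / nR J pos ρ
            ≤ (f / nR J pos ρ) * (∑ l ∈ J with pos l ≠ ρ, x ρ l / y ρ) / nR J pos ρ :=
          div_le_div_of_nonneg_right hVle hn.le
        linarith
    · exact Or.inr (Or.inl h1)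
    · exact Or.inr (Or.inr h1)
  have hA : nR J pos ρ * (f / nR J pos ρ) = f := by (clear * - hn; field_simp)
  have hmain := rep_star (J := J) (F := F) (pos := pos) (ρ := ρ) (w := fun l => w ρ l)
    (n := nR J pos ρ) hf hα0 hα hS hmax (hR hρ) hwnn
    (fun j hj => by
      show x ρ j / y ρ ≤ 1
      rw [div_le_one hy]; exact hxy ρ (hR hρ) j hj)
    (by unfold nR; norm_cast; congr 1; ext; simp) hn hε ht hη hlev hA (V := VR J pos w f ρ)
    (by unfold VR; exact Finset.sum_congr (by ext; simp) (fun _ _ => rfl)) hstep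
  -- multiply by `y ρ`
  have h1 := mul_le_mul_of_nonneg_left hmain hy.le
  have e1 : ∀ b : X → ℝ, y ρ * ∑ l ∈ J with pos l ≠ ρ, w ρ l * b l
      = ∑ l ∈ J with pos l ≠ ρ, x ρ l * b l := by
    intro b
    rw [Finset.mul_sum]
    refine Finset.sum_congr rfl (fun l _ => ?_)
    simp only [hw]; (clear * - hy; field_simp)
  have e2 : y ρ * ∑ l ∈ J with pos l ≠ ρ, w ρ l = ∑ l ∈ J with pos l ≠ ρ, x ρ l := by
    rw [Finset.mul_sum]
    refine Finset.sum_congr rfl (fun l _ => ?_)
    simp only [hw]; (clear * - hy; field_simp)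
  have e3 : ∑ j ∈ J, x ρ j * gr (wl R τ M cap) S ((M + 3) * m) (pos j)
      = nR J pos ρ * (y ρ * gr (wl R τ M cap) S ((M + 3) * m) ρ)
        + ∑ l ∈ J with pos l ≠ ρ, x ρ l * gr (wl R τ M cap) S ((M + 3) * m) (pos l) :=
    sum_split_pos J pos ρ _ _ (fun j hj hp => by rw [hp, hRx j hj hp])
  have e4 : ∑ j ∈ J, x ρ j * dist ρ (pos j)
      = nR J pos ρ * 0 + ∑ l ∈ J with pos l ≠ ρ, x ρ l * dist ρ (pos l) :=
    sum_split_pos J pos ρ _ _ (fun j hj hp => by rw [hp, dist_self, mul_zero])
  have e5 : ∑ j ∈ J, x ρ j = nR J pos ρ * y ρ + ∑ l ∈ J with pos l ≠ ρ, x ρ l :=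
    sum_split_pos J pos ρ _ _ (fun j hj hp => hRx j hj hp)
  have h3 := mul_le_mul_of_nonneg_left hηn hy.le
  have e6 : y ρ * (ε * (f / nR J pos ρ) * ∑ l ∈ J with pos l ≠ ρ, w ρ l + c * nR J pos ρ)
      = ε * (f / nR J pos ρ) * (y ρ * ∑ l ∈ J with pos l ≠ ρ, w ρ l)
        + c * (nR J pos ρ * y ρ) := by ring
  have e6' : ∑ l ∈ J with pos l ≠ ρ, x ρ l / y ρ = ∑ l ∈ J with pos l ≠ ρ, w ρ l := rfl
  rw [e6', e6, e2] at h3
  have e7 : y ρ * (f + 2 * ∑ l ∈ J with pos l ≠ ρ, w ρ l * dist ρ (pos l)
        + nR J pos ρ * η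
        + (ε * (f / nR J pos ρ) + t) * ∑ l ∈ J with pos l ≠ ρ, w ρ l)
      = f * y ρ + 2 * (y ρ * ∑ l ∈ J with pos l ≠ ρ, w ρ l * dist ρ (pos l))
        + y ρ * (nR J pos ρ * η)
        + (ε * (f / nR J pos ρ) + t) * (y ρ * ∑ l ∈ J with pos l ≠ ρ, w ρ l) := by ring
  rw [e7, e2, e1, mul_add, e1] at h1
  have h4 : t * ∑ l ∈ J with pos l ≠ ρ, x ρ l ≤ c * ∑ l ∈ J with pos l ≠ ρ, x ρ l :=
    mul_le_mul_of_nonneg_right htc (Finset.sum_nonneg (fun l hl =>
      hx0 ρ (hR hρ) l (Finset.mem_filter.mp hl).1))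
  rw [e3, e4, e5]
  linarith only [h1, h3, h4]

/-- The dual fitting guarantee without loss in the price for the facilities of `R`, for a given
chain. -/
theorem chain_windows (J F R : Finset X) (hR : R ⊆ F) (pos : X → X) (x : X → X → ℝ) (y : X → ℝ)
    {ε t c lo hi E : ℝ} {τ : ℕ → ℝ} {cap : X → ℕ → ℝ} {S : ℕ → Finset X} (hε : 0 ≤ ε) (ht : 0 ≤ t)
    (htc : t ≤ c) {M m : ℕ} (hhi : 0 ≤ hi)
    (hτ0 : τ 0 = 0) (hτ : ∀ p, τ p ≤ τ (p + 1)) (hτs : ∀ p, τ (p + 1) ≤ (1 + ε) * τ p + t)
    (hx0 : ∀ i ∈ F, ∀ j ∈ J, 0 ≤ x i j) (hxy : ∀ i ∈ F, ∀ j ∈ J, x i j ≤ y i)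
    (hy0 : ∀ i ∈ F, 0 ≤ y i) (hasg : ∀ j ∈ J, ∑ i ∈ F, x i j = 1)
    (hRn : ∀ ρ ∈ R, 0 < nR J pos ρ) (hRy : ∀ ρ ∈ R, 0 < y ρ)
    (hRx : ∀ ρ ∈ R, ∀ j ∈ J, pos j = ρ → x ρ j = y ρ)
    (hcap : ∀ v ∈ R, ∀ s, cap v s ≤ cap v (s + 1))
    (hcapR : ∀ ρ ∈ R, ∃ η, 0 ≤ η ∧
      nR J pos ρ * η ≤ ε * (hi / nR J pos ρ) * ∑ l ∈ J with pos l ≠ ρ, x ρ l / y ρ
        + c * nR J pos ρ ∧ (∀ s, s ≤ M → cap ρ (s + 1) ≤ cap ρ s + η))
    (hct : ∀ ρ ∈ R, hi / nR J pos ρ < cap ρ (M + 1))
    (hc0 : ∀ ρ ∈ R, cap ρ 0 ≤ max 0 (hi / nR J pos ρ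
      - (hi / nR J pos ρ) * (∑ l ∈ J with pos l ≠ ρ, x ρ l / y ρ) / nR J pos ρ))
    (hS0 : S 0 = ∅)
    (hS : ∀ q, q < (M + 3) * m → S q ⊆ S (q + 1))
    (hmax : ∀ q, q < (M + 3) * m → (posPot J pos (wl R τ M cap (q + 1))).IsMax F hi (S (q + 1)))
    (htot : ∀ q, q < (M + 3) * m → (posPot J pos (wl R τ M cap (q + 1))).tot lo (S (q + 1))
      ≤ (posPot J pos (wl R τ M cap (q + 1))).tot lo (S q) + E) {T : ℝ} (hT : 0 < T) :
    (posPot J pos (wl R τ M cap ((M + 3) * m))).φ (S ((M + 3) * m))
      + lo * (S ((M + 3) * m)).card ≤ E * ((M + 3) * m) + c * J.card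
        + ∑ ρ ∈ R, (hi * y ρ + 2 * ∑ j ∈ J, x ρ j * dist ρ (pos j)
          + 2 * ε * (hi / nR J pos ρ) * ∑ l ∈ J with pos l ≠ ρ, x ρ l)
        + (1 + ε) * ∑ i ∈ F \ R, ((1 + 1 / (2048 * (T + 2)) / T) * hi * y i
          + (2 - 1 / (2048 * (T + 2))) * ∑ j ∈ J, x i j * dist i (pos j)) := by
  classical
  set α := wl R τ M cap with hα
  have hα0 : ∀ v, α 0 v = 0 := fun v => by
    have := wl_zero (R := R) (τ := τ) (M := M) (cap := cap) 0 v
    rwa [mul_zero, hτ0] at this
  have hαmono : ∀ q v, α q v ≤ α (q + 1) v := fun q v => wl_mono hτ hcap q v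
  have h1 := pos_chain_total' J pos α lo E S ((M + 3) * m) htot _ le_rfl
  have h2 : (posPot J pos (α 0)).tot lo (S 0) ≤ 0 := by
    unfold Pot.tot
    rw [hS0, Finset.card_empty, Nat.cast_zero, mul_zero, add_zero]
    refine Finset.sum_nonpos (fun j _ => ?_)
    show tr (α 0 (pos j)) (pos j) ∅ ≤ 0
    rw [← hα0 (pos j)]
    exact tr_le
  have h3 : ∑ j ∈ J, ∑ p ∈ Finset.range ((M + 3) * m),
      (tr (α (p + 1) (pos j)) (pos j) (S p) - tr (α p (pos j)) (pos j) (S p))
      ≤ ∑ j ∈ J, gr α S ((M + 3) * m) (pos j) :=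
    Finset.sum_le_sum (fun j _ => growth_le hα0 hαmono hS (pos j) _ le_rfl)
  have h4 : ∑ j ∈ J, gr α S ((M + 3) * m) (pos j)
      = ∑ i ∈ F, ∑ j ∈ J, x i j * gr α S ((M + 3) * m) (pos j) := by
    rw [Finset.sum_comm]
    refine Finset.sum_congr rfl (fun j hj => ?_)
    rw [← Finset.sum_mul, hasg j hj, one_mul]
  have h5 : ∑ i ∈ F, ∑ j ∈ J, x i j * gr α S ((M + 3) * m) (pos j)
      = ∑ i ∈ F \ R, ∑ j ∈ J, x i j * gr α S ((M + 3) * m) (pos j)
        + ∑ ρ ∈ R, ∑ j ∈ J, x ρ j * gr α S ((M + 3) * m) (pos j) :=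
    (Finset.sum_sdiff hR).symm
  have h6 : ∑ ρ ∈ R, ∑ j ∈ J, x ρ j * gr α S ((M + 3) * m) (pos j)
      ≤ ∑ ρ ∈ R, (hi * y ρ + 2 * ∑ j ∈ J, x ρ j * dist ρ (pos j)
        + 2 * ε * (hi / nR J pos ρ) * ∑ l ∈ J with pos l ≠ ρ, x ρ l + c * ∑ j ∈ J, x ρ j) := by
    refine Finset.sum_le_sum (fun ρ hρ => ?_)
    obtain ⟨η, hη, hηn, hcs⟩ := hcapR ρ hρ
    exact rep_star_given hR hhi hε ht htc hτ0 hτ hτs hx0 hxy hcap hS hmax hρ (hRn ρ hρ)
      (hRy ρ hρ) (hRx ρ hρ) hη hηn hcs (hct ρ hρ) (hc0 ρ hρ)
  have h7 : ∑ i ∈ F \ R, ∑ j ∈ J, x i j * gr α S ((M + 3) * m) (pos j)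
      ≤ ∑ i ∈ F \ R, ((1 + ε) * ((1 + 1 / (2048 * (T + 2)) / T) * hi * y i
        + (2 - 1 / (2048 * (T + 2))) * ∑ j ∈ J, x i j * dist i (pos j))
        + c * ∑ j ∈ J, x i j) := by
    refine Finset.sum_le_sum (fun i hi' => ?_)
    have hiF : i ∈ F := (Finset.mem_sdiff.mp hi').1
    have e1 := unif_star hhi hT hε hτ0 hτ hτs hcap hS hmax hiF (hx0 i hiF) (hxy i hiF) (hy0 i hiF)
    have e2 : t * ∑ j ∈ J, x i j ≤ c * ∑ j ∈ J, x i j :=
      mul_le_mul_of_nonneg_right htc (Finset.sum_nonneg (fun j hj => hx0 i hiF j hj))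
    linarith only [e1, e2]
  have h8 : ∑ i ∈ F \ R, ∑ j ∈ J, x i j + ∑ ρ ∈ R, ∑ j ∈ J, x ρ j = J.card := by
    rw [Finset.sum_sdiff hR, Finset.sum_comm]
    rw [Finset.sum_congr rfl hasg]
    simp only [sum_const, nsmul_eq_mul, mul_one]
  rw [Finset.sum_add_distrib (s := R), ← Finset.mul_sum (s := R)] at h6
  rw [Finset.sum_add_distrib (s := F \ R), ← Finset.mul_sum (s := F \ R),
    ← Finset.mul_sum (s := F \ R)] at h7
  have h9 : (posPot J pos (α ((M + 3) * m))).tot lo (S ((M + 3) * m))
      = (posPot J pos (α ((M + 3) * m))).φ (S ((M + 3) * m))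
        + lo * (S ((M + 3) * m)).card := rfl
  rw [h9] at h1
  have h10 : c * (∑ i ∈ F \ R, ∑ j ∈ J, x i j + ∑ ρ ∈ R, ∑ j ∈ J, x ρ j) = c * J.card := by
    rw [h8]
  push_cast at h1
  linarith

/-- The cost when the final level exceeds all distances. -/
lemma pos_cost_le' {J S : Finset X} {pos : X → X} {lev : X → ℝ} {τ : ℝ} (hlev : ∀ v, lev v = τ)
    (hS : S.Nonempty) (h : ∀ j ∈ J, ∀ i ∈ S, dist i (pos j) < τ) :
    ∑ j ∈ J, Metric.infDist (pos j) (S : Set X) ≤ (posPot J pos lev).φ S := by
  refine Finset.sum_le_sum (fun j hj => ?_)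
  obtain ⟨i, hi⟩ := hS
  apply infDist_le_tr
  rw [hlev]
  refine lt_of_le_of_lt (tr_le_dist hi) (h j hj i hi)

lemma pos_phi_empty {J : Finset X} {pos : X → X} {lev : X → ℝ} {τ : ℝ} (hlev : ∀ v, lev v = τ) :
    (posPot J pos lev).φ ∅ = J.card * τ := by
  show ∑ j ∈ J, tr (lev (pos j)) (pos j) ∅ = _
  have : ∀ j ∈ J, tr (lev (pos j)) (pos j) ∅ = τ := fun j _ => by
    rw [hlev]; rfl
  rw [Finset.sum_congr rfl this, Finset.sum_const, nsmul_eq_mul]

end

end Vale.Agent.P334
end

section

set_option linter.all false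

/-!
Constructive selection of a cheap conflict-free set (constructive version of `Knapsack.lean`).
-/

namespace Vale.Agent.P334.Alg

open Finset

section

variable {X : Type} [DecidableEq X]

/-! ### Peeling -/

/-- In the order `L`, each vertex has at most one preimage among the vertices up to itself. -/
def GoodOrd (π : X → X) (s L : List X) : Prop :=
  ∀ P v R, L = P ++ v :: R → (s ++ (P ++ [v])).countP (fun c => decide (π c = v)) ≤ 1

theorem exists_peel (π : X → X) (s : List X) (hs : s.Nodup) (h0 : s ≠ []) :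
    ∃ v ∈ s, s.countP (fun c => decide (π c = v)) ≤ 1 := by
  by_contra hcon
  push Not at hcon
  have h1 : ∑ v ∈ s.toFinset, s.countP (fun c => decide (π c = v)) ≤ s.length := by
    have h2 : ∀ v, s.countP (fun c => decide (π c = v))
        = (s.toFinset.filter (fun c => π c = v)).card := by
      intro v
      have e : s.toFinset.filter (fun c => π c = v)
          = (s.filter (fun c => decide (π c = v))).toFinset := by
        ext c; simp
      rw [e, List.toFinset_card_of_nodup (hs.filter _), List.countP_eq_length_filter]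
    calc ∑ v ∈ s.toFinset, s.countP (fun c => decide (π c = v))
        = ∑ v ∈ s.toFinset, (s.toFinset.filter (fun c => π c = v)).card :=
          Finset.sum_congr rfl (fun v _ => h2 v)
      _ = (s.toFinset.filter (fun c => π c ∈ s.toFinset)).card := by
          rw [Finset.card_eq_sum_card_fiberwise (f := π) (t := s.toFinset)
            (s := s.toFinset.filter (fun c => π c ∈ s.toFinset))
            (fun c hc => (Finset.mem_filter.mp hc).2)]
          refine Finset.sum_congr rfl (fun v hv => ?_)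
          congr 1
          ext c
          simp only [Finset.mem_filter]
          constructor
          · rintro ⟨h1, h2⟩; exact ⟨⟨h1, by rw [h2]; exact hv⟩, h2⟩
          · rintro ⟨⟨h1, _⟩, h2⟩; exact ⟨h1, h2⟩
      _ ≤ s.toFinset.card := Finset.card_filter_le _ _
      _ ≤ s.length := List.toFinset_card_le s
  have h3 : ∑ v ∈ s.toFinset, 2 ≤ ∑ v ∈ s.toFinset, s.countP (fun c => decide (π c = v)) :=
    Finset.sum_le_sum (fun v hv => hcon v (List.mem_toFinset.1 hv))
  rw [Finset.sum_const, smul_eq_mul, List.toFinset_card_of_nodup hs] at h3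
  have : 0 < s.length := List.length_pos_of_ne_nil h0
  omega

theorem goodOrd_peel (π : X → X) (s L : List X) (v : X) (hv : v ∈ s)
    (hc : s.countP (fun c => decide (π c = v)) ≤ 1) (hL : GoodOrd π s L) :
    GoodOrd π (s.erase v) (v :: L) := by
  intro P u R h
  cases P with
  | nil =>
    simp only [List.nil_append, List.cons.injEq] at h
    obtain ⟨rfl, rfl⟩ := h
    have hp : (s.erase v ++ ([] ++ [v])).Perm s := by
      rw [List.nil_append]
      exact (List.perm_append_singleton v (s.erase v)).trans (List.perm_cons_erase hv).symm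
    rw [hp.countP_eq]
    exact hc
  | cons p P =>
    simp only [List.cons_append, List.cons.injEq] at h
    obtain ⟨rfl, h⟩ := h
    have h1 := hL P u R h
    have hp : (s.erase v ++ (v :: P ++ [u])).Perm (s ++ (P ++ [u])) := by
      have h2 : (s.erase v ++ (v :: P ++ [u])).Perm ((v :: s.erase v) ++ (P ++ [u])) := by
        rw [List.cons_append, List.cons_append]
        exact List.perm_middle
      exact h2.trans ((List.perm_cons_erase hv).symm.append_right _)
    rw [hp.countP_eq]
    exact h1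

theorem peel_spec (π : X → X) : ∀ (n : ℕ) (s L : List X), (s ++ L).Nodup → s.length = n →
    GoodOrd π s L → ∃ L', (peelStep π)^[n] (s, L) = ([], L') ∧ L'.Perm (s ++ L) ∧
      GoodOrd π [] L' := by
  intro n
  induction n with
  | zero =>
    intro s L hnd hs hL
    rw [List.length_eq_zero_iff] at hs
    subst hs
    exact ⟨L, rfl, List.Perm.refl _, hL⟩
  | succ n ih =>
    intro s L hnd hs hL
    have hs0 : s ≠ [] := by rintro rfl; simp at hs
    have hsn : s.Nodup := (List.nodup_append.1 hnd).1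
    rw [Function.iterate_succ_apply]
    have hstep : ∃ v ∈ s, s.countP (fun c => decide (π c = v)) ≤ 1 ∧
        peelStep π (s, L) = (s.erase v, v :: L) := by
      unfold peelStep
      cases hf : s.find? (fun v => decide (s.countP (fun c => decide (π c = v)) ≤ 1)) with
      | none =>
        exfalso
        obtain ⟨v, hv, hv1⟩ := exists_peel π s hsn hs0
        rw [List.find?_eq_none] at hf
        have := hf v hv
        simp only [decide_eq_true_eq] at this
        exact this hv1
      | some v =>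
        refine ⟨v, List.mem_of_find?_eq_some hf, ?_, rfl⟩
        have := List.find?_some hf
        simpa only [ge_iff_le, decide_eq_true_eq] using this
    obtain ⟨v, hv, hv1, hst⟩ := hstep
    rw [hst]
    have hperm : (s.erase v ++ v :: L).Perm (s ++ L) :=
      List.perm_middle.trans ((List.perm_cons_erase hv).symm.append_right L)
    obtain ⟨L', h1, h2, h3⟩ := ih (s.erase v) (v :: L) (hperm.nodup_iff.2 hnd)
      (by rw [List.length_erase_of_mem hv, hs]; rfl) (goodOrd_peel π s L v hv hv1 hL)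
    exact ⟨L', h1, h2.trans hperm, h3⟩

/-! ### Colouring -/

/-- No conflicts inside a class. -/
def NoConf (π : X → X) (A : List X) : Prop := ∀ c ∈ A, π c ≠ c → π c ∉ A

theorem noConf_cons (π : X → X) (A : List X) (v : X) (hA : NoConf π A)
    (h : ∀ c ∈ A, π c ≠ v ∧ π v ≠ c) : NoConf π (v :: A) := by
  intro c hc hne hcon
  rcases List.mem_cons.1 hc with rfl | hc
  · rcases List.mem_cons.1 hcon with h1 | h1
    · exact hne h1
    · exact (h _ h1).2 rfl
  · rcases List.mem_cons.1 hcon with h1 | h1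
    · exact (h c hc).1 h1
    · exact hA c hc hne h1

theorem colStep_spec (π : X → X) (s : List X × List X × List X) (P : List X) (v : X)
    (hnd : (P ++ [v]).Nodup)
    (hp : (s.1 ++ (s.2.1 ++ s.2.2)).Perm P)
    (h1 : NoConf π s.1) (h2 : NoConf π s.2.1) (h3 : NoConf π s.2.2)
    (hv : (P ++ [v]).countP (fun c => decide (π c = v)) ≤ 1) :
    ((colStep π s v).1 ++ ((colStep π s v).2.1 ++ (colStep π s v).2.2)).Perm (P ++ [v]) ∧
      NoConf π (colStep π s v).1 ∧ NoConf π (colStep π s v).2.1 ∧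
      NoConf π (colStep π s v).2.2 := by
  have hPv : (v :: P).Perm (P ++ [v]) := (List.perm_append_singleton v P).symm
  unfold colStep
  by_cases c1 : s.1.all (fun c => decide (π c ≠ v ∧ π v ≠ c)) = true
  · rw [if_pos c1]
    rw [List.all_eq_true] at c1
    refine ⟨?_, noConf_cons π s.1 v h1 (fun c hc => by simpa only [ne_eq, Bool.decide_and, decide_not, Bool.and_eq_true, Bool.not_eq_eq_eq_not, Bool.not_true,     decide_eq_false_iff_not] using c1 c hc), h2, h3⟩
    exact ((hp.cons v)).trans hPv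
  · rw [if_neg c1]
    by_cases c2 : s.2.1.all (fun c => decide (π c ≠ v ∧ π v ≠ c)) = true
    · rw [if_pos c2]
      rw [List.all_eq_true] at c2
      refine ⟨?_, h1, noConf_cons π s.2.1 v h2 (fun c hc => by simpa using c2 c hc), h3⟩
      exact (List.perm_middle.trans (hp.cons v)).trans hPv
    · rw [if_neg c2]
      refine ⟨?_, h1, h2, ?_⟩
      · have e1 : (s.1 ++ (s.2.1 ++ v :: s.2.2)).Perm (v :: (s.1 ++ (s.2.1 ++ s.2.2))) := by
          rw [← List.append_assoc, ← List.append_assoc]
          exact List.perm_middle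
        exact (e1.trans (hp.cons v)).trans hPv
      · -- three different conflicts are impossible
        rw [Bool.not_eq_true, List.all_eq_false] at c1 c2
        obtain ⟨a, ha, ha'⟩ := c1
        obtain ⟨b, hb, hb'⟩ := c2
        have hndP : (s.1 ++ (s.2.1 ++ s.2.2)).Nodup := hp.nodup_iff.2 (List.nodup_append.1 hnd).1
        have hdis := List.nodup_append.1 hndP
        have hdis2 := List.nodup_append.1 hdis.2.1
        apply noConf_cons π s.2.2 v h3
        intro c hc
        have hab : a ≠ b := hdis.2.2 a ha b (List.mem_append_left _ hb)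
        have hac : a ≠ c := hdis.2.2 a ha c (List.mem_append_right _ hc)
        have hbc : b ≠ c := hdis2.2.2 b hb c hc
        have haP : a ∈ P ++ [v] := List.mem_append_left _ (hp.mem_iff.1 (List.mem_append_left _ ha))
        have hbP : b ∈ P ++ [v] := List.mem_append_left _
          (hp.mem_iff.1 (List.mem_append_right _ (List.mem_append_left _ hb)))
        have hcP : c ∈ P ++ [v] := List.mem_append_left _
          (hp.mem_iff.1 (List.mem_append_right _ (List.mem_append_right _ hc)))
        have honly : ∀ x ∈ P ++ [v], ∀ y ∈ P ++ [v], π x = v → π y = v → x = y := by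
          intro x hx y hy hxv hyv
          by_contra hne
          have h5 : [x, y].Subperm ((P ++ [v]).filter (fun c => decide (π c = v))) := by
            apply List.subperm_of_subset
            · simp [hne]
            · intro z hz
              simp only [List.mem_cons, List.not_mem_nil, or_false] at hz
              rcases hz with rfl | rfl
              · exact List.mem_filter.2 ⟨hx, by simpa using hxv⟩
              · exact List.mem_filter.2 ⟨hy, by simpa using hyv⟩
          have h6 := h5.length_le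
          rw [← List.countP_eq_length_filter] at h6
          simp only [List.length_cons, List.length_nil] at h6
          omega
        have ha2 : π a = v ∨ π v = a := by
          by_contra hcon
          push Not at hcon
          simp [hcon.1, hcon.2] at ha'
        have hb2 : π b = v ∨ π v = b := by
          by_contra hcon
          push Not at hcon
          simp [hcon.1, hcon.2] at hb'
        constructor
        · intro hcv
          rcases ha2 with e | e
          · exact hac (honly a haP c hcP e hcv)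
          · rcases hb2 with e' | e'
            · exact hbc (honly b hbP c hcP e' hcv)
            · exact hab (e.symm.trans e')
        · intro hcv
          rcases ha2 with e | e
          · rcases hb2 with e' | e'
            · exact hab (honly a haP b hbP e e')
            · exact hbc (e'.symm.trans hcv)
          · exact hac (e.symm.trans hcv)

theorem fold_colStep (π : X → X) : ∀ (R P : List X) (s : List X × List X × List X),
    (P ++ R).Nodup → GoodOrd π [] (P ++ R) → (s.1 ++ (s.2.1 ++ s.2.2)).Perm P →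
    NoConf π s.1 → NoConf π s.2.1 → NoConf π s.2.2 →
    ((R.foldl (colStep π) s).1 ++ ((R.foldl (colStep π) s).2.1 ++
      (R.foldl (colStep π) s).2.2)).Perm (P ++ R) ∧
      NoConf π (R.foldl (colStep π) s).1 ∧ NoConf π (R.foldl (colStep π) s).2.1 ∧
      NoConf π (R.foldl (colStep π) s).2.2 := by
  intro R
  induction R with
  | nil =>
    intro P s hnd hg hp h1 h2 h3
    rw [List.append_nil]
    exact ⟨hp, h1, h2, h3⟩
  | cons v R ih =>
    intro P s hnd hg hp h1 h2 h3
    have e : P ++ v :: R = (P ++ [v]) ++ R := by simp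
    have hv := hg P v R rfl
    rw [List.nil_append] at hv
    have hnd' : (P ++ [v]).Nodup := by
      rw [e] at hnd
      exact (List.nodup_append.1 hnd).1
    obtain ⟨k1, k2, k3, k4⟩ := colStep_spec π s P v hnd' hp h1 h2 h3 hv
    rw [List.foldl_cons]
    have := ih (P ++ [v]) (colStep π s v) (by rwa [← e]) (by rwa [← e]) k1 k2 k3 k4
    rw [← e] at this
    exact this

/-- The three colour classes partition `V` and have no conflicts inside. -/
theorem threeCol_spec (π : X → X) (V : List X) (hV : V.Nodup) :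
    ((threeCol π V).1 ++ ((threeCol π V).2.1 ++ (threeCol π V).2.2)).Perm V ∧
      NoConf π (threeCol π V).1 ∧ NoConf π (threeCol π V).2.1 ∧ NoConf π (threeCol π V).2.2 := by
  obtain ⟨L', h1, h2, h3⟩ := peel_spec π V.length V [] (by simpa using hV) rfl
    (by intro P v R h; simp at h)
  rw [List.append_nil] at h2
  unfold threeCol
  rw [h1]
  have := fold_colStep π L' [] ([], [], []) (by simpa using h2.nodup_iff.2 hV) (by simpa using h3)
    (by simp) (by intro c hc; simp at hc) (by intro c hc; simp at hc) (by intro c hc; simp at hc)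
  rw [List.nil_append] at this
  exact ⟨this.1.trans h2, this.2⟩

/-! ### The cheapest elements -/

/-- The `z` cheapest elements cost at most any fractional selection of total weight at least `z`
(version with an exchange property). -/
lemma cheapest_of_exch (E Z : Finset X) (hZE : Z ⊆ E) (L t : X → ℝ) (hL : ∀ c ∈ E, 0 ≤ L c)
    (ht0 : ∀ c ∈ E, 0 ≤ t c) (ht1 : ∀ c ∈ E, t c ≤ 1)
    (hexch : ∀ a ∈ Z, ∀ b ∈ E \ Z, L a ≤ L b) (hz : (Z.card : ℝ) ≤ ∑ c ∈ E, t c) :
    ∑ c ∈ Z, L c ≤ ∑ c ∈ E, t c * L c := by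
  rcases Z.eq_empty_or_nonempty with hZ0 | hZ0
  · rw [hZ0, Finset.sum_empty]
    exact Finset.sum_nonneg (fun c hc => mul_nonneg (ht0 c hc) (hL c hc))
  · obtain ⟨a, ha, hmax⟩ := Z.exists_max_image L hZ0
    have hθ : 0 ≤ L a := hL a (hZE ha)
    have h1 : L a * (∑ c ∈ E \ Z, t c) ≤ ∑ c ∈ E \ Z, t c * L c := by
      rw [Finset.mul_sum]
      refine Finset.sum_le_sum (fun b hb => ?_)
      rw [mul_comm]
      exact mul_le_mul_of_nonneg_left (hexch a ha b hb) (ht0 b (Finset.mem_sdiff.mp hb).1)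
    have h2 : ∑ c ∈ Z, (1 - t c) * L c ≤ L a * ∑ c ∈ Z, (1 - t c) := by
      rw [Finset.mul_sum]
      refine Finset.sum_le_sum (fun b hb => ?_)
      rw [mul_comm (L a)]
      exact mul_le_mul_of_nonneg_left (hmax b hb) (by linarith [ht1 b (hZE hb)])
    have h3 : ∑ c ∈ Z, (1 - t c) = Z.card - ∑ c ∈ Z, t c := by
      rw [Finset.sum_sub_distrib]
      simp only [sum_const, nsmul_eq_mul, mul_one]
    have h4 : ∑ c ∈ Z, (1 - t c) * L c = ∑ c ∈ Z, L c - ∑ c ∈ Z, t c * L c := by
      rw [← Finset.sum_sub_distrib]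
      exact Finset.sum_congr rfl (fun c _ => by ring)
    have h5 := Finset.sum_sdiff hZE (f := t)
    have h6 := Finset.sum_sdiff hZE (f := fun c => t c * L c)
    rw [h3] at h2
    rw [h4] at h2
    have h7 : 0 ≤ L a * (∑ c ∈ E, t c - Z.card) := mul_nonneg hθ (by linarith only [hz])
    rw [← h5] at h7
    have h8 : L a * (∑ c ∈ E \ Z, t c + ∑ c ∈ Z, t c - Z.card)
        = L a * (∑ c ∈ E \ Z, t c) - L a * (Z.card - ∑ c ∈ Z, t c) := by ring
    rw [h8] at h7
    linarith only [h1, h2, h6, h7]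

/-- The first elements of a sorted list. -/
theorem take_sorted (lam : X → ℕ) (C : List X) (hC : C.Nodup) (z : ℕ) (hz : z ≤ C.length) :
    ((C.insertionSort (fun a b => lam a ≤ lam b)).take z).Nodup ∧
      ((C.insertionSort (fun a b => lam a ≤ lam b)).take z).length = z ∧
      ((C.insertionSort (fun a b => lam a ≤ lam b)).take z) ⊆ C ∧
      ∀ a ∈ (C.insertionSort (fun a b => lam a ≤ lam b)).take z, ∀ b ∈ C,
        b ∉ (C.insertionSort (fun a b => lam a ≤ lam b)).take z → lam a ≤ lam b := by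
  haveI : Std.Total (fun a b : X => lam a ≤ lam b) := ⟨fun a b => Nat.le_total _ _⟩
  haveI : IsTrans X (fun a b : X => lam a ≤ lam b) := ⟨fun a b c h1 h2 => Nat.le_trans h1 h2⟩
  set D := C.insertionSort (fun a b => lam a ≤ lam b) with hD
  have hperm : D.Perm C := List.perm_insertionSort _ C
  have hsort : D.Pairwise (fun a b => lam a ≤ lam b) := List.pairwise_insertionSort _ C
  have hnd : D.Nodup := hperm.nodup_iff.2 hC
  refine ⟨hnd.sublist (List.take_sublist z D), ?_, ?_, ?_⟩
  · rw [List.length_take, hperm.length_eq]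
    exact min_eq_left hz
  · intro x hx
    exact hperm.mem_iff.1 (List.mem_of_mem_take hx)
  · intro a ha b hb hbz
    have hbD : b ∈ D := hperm.mem_iff.2 hb
    rw [← List.take_append_drop z D] at hbD hsort
    rcases List.mem_append.1 hbD with h | h
    · exact absurd h hbz
    · exact (List.pairwise_append.1 hsort).2.2 a ha b h

/-- Constructive version of `cheap_selection`. -/
theorem closeCands_spec (π : X → X) (lam : X → ℕ) (V E : List X) (hV : V.Nodup) (hE : E ⊆ V)
    (hEn : E.Nodup) (hπ : ∀ c ∈ E, π c ∈ V) (s : X → ℝ) {σ : ℝ} (hσ : 0 < σ)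
    (hσ1 : σ ≤ 1 / 10) (hs0 : ∀ c ∈ E, 0 ≤ s c) (hs1 : ∀ c ∈ E, s c ≤ σ) :
    ∃ Z ∈ closeCands π lam V E, Z ⊆ E ∧ Z.Nodup ∧ (∀ c ∈ Z, π c ≠ c → π c ∉ Z) ∧
      (∑ c ∈ E.toFinset, s c) - 1 ≤ Z.length ∧
      (1 - 2 * σ) * ∑ c ∈ Z.toFinset, (lam c : ℝ) ≤ ∑ c ∈ E.toFinset, s c * lam c := by
  obtain ⟨hperm, hc1, hc2, hc3⟩ := threeCol_spec π V hV
  set A1 := (threeCol π V).1 with hA1
  set A2 := (threeCol π V).2.1 with hA2
  set A3 := (threeCol π V).2.2 with hA3
  have hnd : (A1 ++ (A2 ++ A3)).Nodup := hperm.nodup_iff.2 hV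
  have hn1 := (List.nodup_append.1 hnd)
  have hn2 := (List.nodup_append.1 hn1.2.1)
  set T := ∑ c ∈ E.toFinset, s c with hT
  have hs0' : ∀ c ∈ E.toFinset, 0 ≤ s c := fun c hc => hs0 c (List.mem_toFinset.1 hc)
  have hP0 : 0 ≤ ∑ c ∈ E.toFinset, s c * lam c :=
    Finset.sum_nonneg (fun c hc => mul_nonneg (hs0' c hc) (Nat.cast_nonneg _))
  have hmem : ∀ C : List X, (C = A1 ∨ C = A2 ∨ C = A3) → ∀ z ≤ V.length,
      ((C.filter (fun c => decide (c ∈ E))).insertionSort (fun a b => lam a ≤ lam b)).take z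
        ∈ closeCands π lam V E := by
    intro C hC z hz
    unfold closeCands
    rw [List.mem_flatMap]
    refine ⟨C, ?_, ?_⟩
    · rw [← hA1, ← hA2, ← hA3]
      simp only [List.mem_cons, List.not_mem_nil, or_false]
      exact hC
    · rw [List.mem_map]
      exact ⟨z, List.mem_range.2 (by omega), rfl⟩
  rcases le_or_gt T 1 with hT1 | hT1
  · refine ⟨[], ?_, by simp, by simp, by simp, ?_, ?_⟩
    · have := hmem A1 (Or.inl rfl) 0 (Nat.zero_le _)
      rwa [List.take_zero] at this
    · simp only [List.length_nil, Nat.cast_zero]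
      linarith only [hT1]
    · simp only [List.toFinset_nil, Finset.sum_empty, mul_zero]
      exact hP0
  have hEsplit : E.toFinset = (A1.toFinset ∩ E.toFinset) ∪
      ((A2.toFinset ∩ E.toFinset) ∪ (A3.toFinset ∩ E.toFinset)) := by
    ext x
    simp only [Finset.mem_union, Finset.mem_inter, List.mem_toFinset]
    constructor
    · intro hx
      have := hperm.mem_iff.2 (hE hx)
      rw [List.mem_append, List.mem_append] at this
      (clear * - hn1 hn2 this hx; tauto)
    · (clear * - hn1 hn2; tauto)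
  have hd1 : Disjoint (A1.toFinset ∩ E.toFinset)
      ((A2.toFinset ∩ E.toFinset) ∪ (A3.toFinset ∩ E.toFinset)) := by
    rw [Finset.disjoint_left]
    intro x h1 h2
    simp only [Finset.mem_union, Finset.mem_inter, List.mem_toFinset] at h1 h2
    have h3 : x ∈ A2 ++ A3 := by
      rw [List.mem_append]; (clear * - hn1 hn2 h1 h2; tauto)
    exact hn1.2.2 x h1.1 x h3 rfl
  have hd2 : Disjoint (A2.toFinset ∩ E.toFinset) (A3.toFinset ∩ E.toFinset) := by
    rw [Finset.disjoint_left]
    intro x h1 h2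
    simp only [Finset.mem_inter, List.mem_toFinset] at h1 h2
    exact hn2.2.2 x h1.1 x h2.1 rfl
  have hsplit : ∀ u : X → ℝ, ∑ c ∈ E.toFinset, u c
      = ∑ c ∈ A1.toFinset ∩ E.toFinset, u c + (∑ c ∈ A2.toFinset ∩ E.toFinset, u c
        + ∑ c ∈ A3.toFinset ∩ E.toFinset, u c) := by
    intro u
    conv_lhs => rw [hEsplit]
    rw [Finset.sum_union hd1, Finset.sum_union hd2]
  -- a good class
  have hgood : ∃ C : List X, (C = A1 ∨ C = A2 ∨ C = A3) ∧
      σ * T ≤ ∑ c ∈ C.toFinset ∩ E.toFinset, s c ∧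
      (1 - 2 * σ) * (T * ∑ c ∈ C.toFinset ∩ E.toFinset, s c * lam c)
        ≤ (∑ c ∈ C.toFinset ∩ E.toFinset, s c) * ∑ c ∈ E.toFinset, s c * lam c := by
    by_contra hcon
    push Not at hcon
    have h1 := hsplit s
    have h2 := hsplit (fun c => s c * lam c)
    rw [← hT] at h1
    have hS0 : ∀ C : List X, 0 ≤ ∑ c ∈ C.toFinset ∩ E.toFinset, s c := fun C =>
      Finset.sum_nonneg (fun c hc => hs0' c (Finset.mem_inter.1 hc).2)
    have hQ0 : ∀ C : List X, 0 ≤ ∑ c ∈ C.toFinset ∩ E.toFinset, s c * lam c := fun C =>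
      Finset.sum_nonneg (fun c hc => mul_nonneg (hs0' c (Finset.mem_inter.1 hc).2)
        (Nat.cast_nonneg _))
    have hc0 := hcon A1 (Or.inl rfl)
    have hc1 := hcon A2 (Or.inr (Or.inl rfl))
    have hc2 := hcon A3 (Or.inr (Or.inr rfl))
    have g0 := hS0 A1
    have g1 := hS0 A2
    have g2 := hS0 A3
    have q0 := hQ0 A1
    have q1 := hQ0 A2
    have q2 := hQ0 A3
    set S0 := ∑ c ∈ A1.toFinset ∩ E.toFinset, s c
    set S1 := ∑ c ∈ A2.toFinset ∩ E.toFinset, s c
    set S2 := ∑ c ∈ A3.toFinset ∩ E.toFinset, s c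
    set P := ∑ c ∈ E.toFinset, s c * lam c
    set Q0 := ∑ c ∈ A1.toFinset ∩ E.toFinset, s c * lam c
    set Q1 := ∑ c ∈ A2.toFinset ∩ E.toFinset, s c * lam c
    set Q2 := ∑ c ∈ A3.toFinset ∩ E.toFinset, s c * lam c
    have hσT : 0 < σ * T := by (clear * - hσ hT1; positivity)
    have hlow : ∀ S Q : ℝ, 0 ≤ Q → (σ * T ≤ S → S * P < (1 - 2 * σ) * (T * Q)) →
        (S - σ * T) * P ≤ (1 - 2 * σ) * (T * Q) := by
      intro S Q hQ hi
      rcases le_or_gt (σ * T) S with h | h
      · have := hi h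
        have h3 : 0 ≤ σ * T * P := by (clear * - hσ hT1 hP0; positivity)
        linarith only [this, h3]
      · have h3 : (S - σ * T) * P ≤ 0 := mul_nonpos_of_nonpos_of_nonneg (by linarith only [h]) hP0
        have h4 : 0 ≤ (1 - 2 * σ) * (T * Q) := by
          apply mul_nonneg (by linarith only [hσ1]); (clear * - hT1 hQ; positivity)
        linarith only [h3, h4]
    have hmax : (σ * T ≤ S0 ∧ T ≤ 3 * S0) ∨ (σ * T ≤ S1 ∧ T ≤ 3 * S1) ∨ (σ * T ≤ S2 ∧ T ≤ 3 * S2) := by
      have h3 : σ * T ≤ 1 / 10 * T := mul_le_mul_of_nonneg_right hσ1 (by linarith only [hT1])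
      by_cases e0 : T ≤ 3 * S0
      · left; exact ⟨by linarith only [hT1, h3, e0], e0⟩
      · by_cases e1 : T ≤ 3 * S1
        · right; left; exact ⟨by linarith only [hT1, h3, e1], e1⟩
        · right; right
          push Not at e0 e1
          exact ⟨by linarith only [hT1, h1, h3, e0, e1], by linarith only [h1, e0, e1]⟩
    have k0 := hlow S0 Q0 q0 hc0
    have k1 := hlow S1 Q1 q1 hc1
    have k2 := hlow S2 Q2 q2 hc2
    have hfin : T * P * (1 - 2 * σ) = (1 - 2 * σ) * (T * Q0) + (1 - 2 * σ) * (T * Q1)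
        + (1 - 2 * σ) * (T * Q2) := by rw [h2]; ring
    rcases hmax with ⟨h3, _⟩ | ⟨h3, _⟩ | ⟨h3, _⟩
    · have := hc0 h3
      nlinarith only [k1, k2, hfin, this, h1, hP0]
    · have := hc1 h3
      nlinarith only [k0, k2, hfin, this, h1, hP0]
    · have := hc2 h3
      nlinarith only [k0, k1, hfin, this, h1, hP0]
  obtain ⟨C, hC, ha1, ha2⟩ := hgood
  have hCn : C.Nodup := by
    rcases hC with rfl | rfl | rfl
    · exact hn1.1
    · exact hn2.1
    · exact hn2.2.1
  have hCc : NoConf π C := by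
    rcases hC with rfl | rfl | rfl
    · exact hc1
    · exact hc2
    · exact hc3
  set K := C.filter (fun c => decide (c ∈ E)) with hK
  have hKn : K.Nodup := hCn.filter _
  have hKf : K.toFinset = C.toFinset ∩ E.toFinset := by
    ext x
    simp [hK]
  have hKE : K ⊆ E := by
    intro x hx
    have := (List.mem_filter.1 hx).2
    simpa using this
  rw [← hKf] at ha1 ha2
  set Sa := ∑ c ∈ K.toFinset, s c with hSa
  have hSapos : 0 < Sa := lt_of_lt_of_le (by (clear * - hσ hT1; positivity)) ha1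
  have hT0 : 0 ≤ T := by linarith only [hT1]
  have hsumt : ∑ c ∈ K.toFinset, T / Sa * s c = T := by
    rw [← Finset.mul_sum, ← hSa]
    (clear * - hSapos hT1; field_simp)
  have ht1 : ∀ c ∈ K.toFinset, T / Sa * s c ≤ 1 := by
    intro c hc
    have h1 := hs1 c (hKE (List.mem_toFinset.1 hc))
    have h2 : T / Sa * s c ≤ T / Sa * σ := mul_le_mul_of_nonneg_left h1 (by (clear * - hT1 hSapos; positivity))
    have h3 : T / Sa * σ = σ * T / Sa := by ring
    rw [h3] at h2
    refine h2.trans ?_
    rw [div_le_one hSapos]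
    exact ha1
  have hzK : ⌊T⌋₊ ≤ K.length := by
    have h1 : T ≤ K.toFinset.card := by
      calc T = ∑ c ∈ K.toFinset, T / Sa * s c := hsumt.symm
        _ ≤ ∑ c ∈ K.toFinset, (1 : ℝ) := Finset.sum_le_sum ht1
        _ = K.toFinset.card := by simp
    rw [List.toFinset_card_of_nodup hKn] at h1
    have h2 : (⌊T⌋₊ : ℝ) ≤ K.length := (Nat.floor_le hT0).trans h1
    exact_mod_cast h2
  have hKV : K.length ≤ V.length := by
    have h1 : K.Subperm V := List.subperm_of_subset hKn (fun x hx => hE (hKE hx))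
    exact h1.length_le
  obtain ⟨z1, z2, z3, z4⟩ := take_sorted lam K hKn ⌊T⌋₊ hzK
  set Z := (K.insertionSort (fun a b => lam a ≤ lam b)).take ⌊T⌋₊ with hZ
  refine ⟨Z, hmem C hC _ (hzK.trans hKV), fun x hx => hKE (z3 hx), z1, ?_, ?_, ?_⟩
  · intro c hc hne hcon
    exact hCc c (List.mem_filter.1 (z3 hc)).1 hne (List.mem_filter.1 (z3 hcon)).1
  · rw [z2]
    linarith only [Nat.lt_floor_add_one T]
  · have hZ3 := cheapest_of_exch K.toFinset Z.toFinset
      (fun x hx => List.mem_toFinset.2 (z3 (List.mem_toFinset.1 hx))) (fun c => (lam c : ℝ))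
      (fun c => T / Sa * s c) (fun c _ => Nat.cast_nonneg _)
      (fun c hc => mul_nonneg (by (clear * - hT1 hSapos; positivity)) (hs0 c (hKE (List.mem_toFinset.1 hc)))) ht1
      (fun a ha b hb => by
        rw [Finset.mem_sdiff, List.mem_toFinset, List.mem_toFinset] at hb
        exact_mod_cast z4 a (List.mem_toFinset.1 ha) b hb.1 hb.2)
      (by
        rw [hsumt, List.toFinset_card_of_nodup z1, z2]
        exact Nat.floor_le hT0)
    have h1 : ∑ c ∈ K.toFinset, T / Sa * s c * (lam c : ℝ)
        = T / Sa * ∑ c ∈ K.toFinset, s c * lam c := by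
      rw [Finset.mul_sum]
      exact Finset.sum_congr rfl (fun c _ => by ring)
    rw [h1] at hZ3
    have h2 : (1 - 2 * σ) * (T / Sa * ∑ c ∈ K.toFinset, s c * lam c)
        = (1 - 2 * σ) * (T * ∑ c ∈ K.toFinset, s c * lam c) / Sa := by ring
    have h3 := mul_le_mul_of_nonneg_left hZ3 (by linarith only [hσ1] : 0 ≤ 1 - 2 * σ)
    refine h3.trans ?_
    rw [h2, div_le_iff₀ hSapos]
    linarith only [ha2]

end

end Vale.Agent.P334.Alg
end

section

/-!
The preparation step (note 5300, 2.2): swap local search followed by saturation.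
-/

namespace Vale.Agent.P334.Alg

/-- Swap local search followed by at most `t` additions. -/
def prep {X : Type} [DecidableEq X] (d : X → X → ℕ) (l b t : ℕ) (J F S : List X) : List X :=
  saturate d l b J F t (swapSearch d l J F S)

section

variable {X : Type} [MetricSpace X]

theorem infDist_insert_min {S : Finset X} [DecidableEq X] (hS : S.Nonempty) (q v : X) :
    Metric.infDist v ((insert q S : Finset X) : Set X) =
      min (dist v q) (Metric.infDist v (S : Set X)) := by
  apply le_antisymm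
  · apply le_min
    · exact infDist_le (Finset.mem_insert_self q S) v
    · obtain ⟨s, hs, h⟩ := exists_nearest hS v
      rw [h]
      exact infDist_le (Finset.mem_insert_of_mem hs) v
  · obtain ⟨s, hs, h⟩ := exists_nearest (Finset.insert_nonempty q S) v
    rw [h]
    rcases Finset.mem_insert.1 hs with rfl | hs
    · exact min_le_left _ _
    · exact (min_le_right _ _).trans (infDist_le hs v)

/-- The gain of one more facility. -/
theorem cost_sub_insert [DecidableEq X] (J : Finset X) {S : Finset X} (hS : S.Nonempty) (q : X) :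
    cost J S - cost J (insert q S) =
      ∑ j ∈ J, max (Metric.infDist j (S : Set X) - dist j q) 0 := by
  unfold cost
  rw [← Finset.sum_sub_distrib]
  refine Finset.sum_congr rfl fun j _ => ?_
  rw [infDist_insert_min hS]
  rcases le_total (dist j q) (Metric.infDist j (S : Set X)) with h | h
  · rw [min_eq_left h, max_eq_left (by linarith only [h])]
  · rw [min_eq_right h, max_eq_right (by linarith)]; ring

theorem cost_nonneg (J S : Finset X) : 0 ≤ cost J S :=
  Finset.sum_nonneg fun _ _ => Metric.infDist_nonneg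

/-- The consequence (Sat) of saturation: no facility gains more than `cost / (b + 1)`, even on a
subset of the clients. -/
theorem sat_ineq [DecidableEq X] {J S : Finset X} (hS : S.Nonempty) {b : ℕ} {q : X}
    (h : (b : ℝ) * cost J S ≤ ((b : ℝ) + 1) * cost J (insert q S)) {Y : Finset X} (hY : Y ⊆ J) :
    ∑ j ∈ Y, max (Metric.infDist j (S : Set X) - dist j q) 0 ≤ cost J S / ((b : ℝ) + 1) := by
  have hb : (0 : ℝ) < (b : ℝ) + 1 := by positivity
  have h1 : ∑ j ∈ Y, max (Metric.infDist j (S : Set X) - dist j q) 0 ≤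
      ∑ j ∈ J, max (Metric.infDist j (S : Set X) - dist j q) 0 :=
    Finset.sum_le_sum_of_subset_of_nonneg hY fun _ _ _ => le_max_right _ _
  rw [← cost_sub_insert J hS q] at h1
  refine h1.trans ?_
  rw [le_div_iff₀ hb]
  linarith

variable [DecidableEq X]

/-- Specification of the preparation step. -/
theorem prep_spec {d : X → X → ℕ} (hd : ∀ a b, dist a b = (d a b : ℝ)) {l : ℕ}
    (hl : ∀ a b, d a b ≤ l) {J F S₀ : List X} (hJ : J.Nodup) (hS₀ : S₀.Nodup) (hS₀F : S₀ ⊆ F)
    (hne : S₀ ≠ []) {k m b t : ℕ} {β B η : ℝ} (hk : 2 ≤ k) (hβ : 0 < β) (hη : 0 < η)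
    (hη8 : η ≤ 1 / 8) (hopt : 0 < opt J.toFinset F.toFinset k)
    (hstab : (1 + β) * opt J.toFinset F.toFinset k ≤ opt J.toFinset F.toFinset (k - 1))
    (hcost : cost J.toFinset S₀.toFinset ≤ B * opt J.toFinset F.toFinset k)
    (hcard : S₀.length ≤ k + m) :
    (prep d l b t J F S₀).Nodup ∧ prep d l b t J F S₀ ⊆ F ∧ prep d l b t J F S₀ ≠ [] ∧
    (prep d l b t J F S₀).length ≤ k + m + t ∧
    cost J.toFinset (prep d l b t J F S₀).toFinset ≤ B * opt J.toFinset F.toFinset k ∧
    (∃ T : Finset X, T ⊆ F.toFinset ∧ T.Nonempty ∧ T.card ≤ k ∧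
      cost J.toFinset T ≤ (1 + 16 * η + 4 * η * B) * opt J.toFinset F.toFinset k ∧
      ((T \ (prep d l b t J F S₀).toFinset).card : ℝ) ≤ m + 2 * ((1 + B) / (η * β)) ∧
      (((prep d l b t J F S₀).toFinset \ T).card : ℝ) ≤ 2 * m + 2 * ((1 + B) / (η * β)) + t) ∧
    ((∀ q ∈ F, (b : ℝ) * cost J.toFinset (prep d l b t J F S₀).toFinset ≤
        ((b : ℝ) + 1) * cost J.toFinset (insert q (prep d l b t J F S₀).toFinset)) ∨
      cost J.toFinset (prep d l b t J F S₀).toFinset ≤
        Real.exp (-(t / ((b : ℝ) + 1))) * (B * opt J.toFinset F.toFinset k)) := by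
  obtain ⟨h1, h2, h3, h4, h5⟩ := swapSearch_spec d l J F S₀ hS₀ hS₀F
  set S₁ := swapSearch d l J F S₀ with hS₁
  have hne₁ : S₁ ≠ [] := by
    intro h
    rw [h] at h3
    exact hne (List.length_eq_zero_iff.1 (by simpa using h3.symm))
  obtain ⟨g1, g2, g3, g4, g5, g6⟩ := saturate_spec d l b J F S₁ h1 h2 t
  have hprep : prep d l b t J F S₀ = saturate d l b J F t S₁ := rfl
  rw [hprep]
  set S₂ := saturate d l b J F t S₁ with hS₂
  have hne₂ : S₂ ≠ [] := by
    obtain ⟨x, hx⟩ := List.exists_mem_of_ne_nil _ hne₁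
    exact List.ne_nil_of_mem (g3 hx)
  have hreal : ∀ {S : List X}, S ≠ [] → (cst d l J S : ℝ) = cost J.toFinset S.toFinset :=
    fun {S} hS => cst_real hd hJ hS fun j _ s _ => hl j s
  have hcons : ∀ (q : X) (S : List X), (cst d l J (q :: S) : ℝ) =
      cost J.toFinset (insert q S.toFinset) := by
    intro q S
    rw [hreal (List.cons_ne_nil q S), List.toFinset_cons]
  have hc₁ : cost J.toFinset S₁.toFinset ≤ B * opt J.toFinset F.toFinset k := by
    refine le_trans ?_ hcost
    rw [← hreal hne₁, ← hreal hne]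
    exact_mod_cast h4
  have hc₂ : cost J.toFinset S₂.toFinset ≤ B * opt J.toFinset F.toFinset k := by
    refine le_trans ?_ hc₁
    rw [← hreal hne₁, ← hreal hne₂]
    exact_mod_cast g5
  refine ⟨g1, g2, hne₂, ?_, hc₂, ?_, ?_⟩
  · rw [h3] at g4; omega
  · have hFne : F.toFinset.Nonempty := by
      obtain ⟨x, hx⟩ := List.exists_mem_of_ne_nil _ hne
      exact ⟨x, List.mem_toFinset.2 (hS₀F hx)⟩
    have hcard₁ : S₁.toFinset.card ≤ k + m := by
      rw [List.toFinset_card_of_nodup h1, h3]; exact hcard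
    have hloc : ∀ s ∈ S₁.toFinset, ∀ i ∈ F.toFinset, cost J.toFinset S₁.toFinset ≤
        cost J.toFinset (insert i (S₁.toFinset.erase s)) := by
      intro s hs i hi
      have h6 := h5 s (List.mem_toFinset.1 hs) i (List.mem_toFinset.1 hi)
      have h7 : (cst d l J S₁ : ℝ) ≤ (cst d l J (i :: S₁.erase s) : ℝ) := by exact_mod_cast h6
      rw [hreal hne₁, hcons] at h7
      have h8 : (S₁.erase s).toFinset = S₁.toFinset.erase s := by
        ext x
        rw [List.mem_toFinset, Finset.mem_erase, List.mem_toFinset, h1.mem_erase_iff]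
      rwa [h8] at h7
    obtain ⟨T, t1, t2, t3, t4, t5, t6⟩ := structure_stable hk hβ hη hη8 hFne hopt hstab
      (fun x hx => List.mem_toFinset.2 (h2 (List.mem_toFinset.1 hx)))
      (by
        obtain ⟨x, hx⟩ := List.exists_mem_of_ne_nil _ hne₁
        exact ⟨x, List.mem_toFinset.2 hx⟩) hc₁ hcard₁ hloc
    refine ⟨T, t1, t2, t3, t4, ?_, ?_⟩
    · refine le_trans ?_ t5
      have : (T \ S₂.toFinset).card ≤ (T \ S₁.toFinset).card := by
        apply Finset.card_le_card
        apply Finset.sdiff_subset_sdiff (Finset.Subset.refl _)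
        exact fun x hx => List.mem_toFinset.2 (g3 (List.mem_toFinset.1 hx))
      exact_mod_cast this
    · have hsplit : (S₂.toFinset \ T).card ≤ (S₁.toFinset \ T).card + t := by
        have e1 : S₂.toFinset \ T ⊆ (S₁.toFinset \ T) ∪ (S₂.toFinset \ S₁.toFinset) := by
          intro x hx
          rw [Finset.mem_sdiff] at hx
          rw [Finset.mem_union, Finset.mem_sdiff, Finset.mem_sdiff]
          by_cases hx1 : x ∈ S₁.toFinset
          · left; exact ⟨hx1, hx.2⟩
          · right; exact ⟨hx.1, hx1⟩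
        have e2 : (S₂.toFinset \ S₁.toFinset).card ≤ t := by
          rw [Finset.card_sdiff_of_subset (fun x hx =>
            List.mem_toFinset.2 (g3 (List.mem_toFinset.1 hx))),
            List.toFinset_card_of_nodup g1, List.toFinset_card_of_nodup h1]
          omega
        calc (S₂.toFinset \ T).card
            ≤ ((S₁.toFinset \ T) ∪ (S₂.toFinset \ S₁.toFinset)).card := Finset.card_le_card e1
          _ ≤ (S₁.toFinset \ T).card + (S₂.toFinset \ S₁.toFinset).card :=
            Finset.card_union_le _ _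
          _ ≤ (S₁.toFinset \ T).card + t := by omega
      have : ((S₂.toFinset \ T).card : ℝ) ≤ (S₁.toFinset \ T).card + t := by exact_mod_cast hsplit
      linarith only [t6, this]
  · rcases g6 with g6 | g6
    · left
      intro q hq
      rw [← hreal hne₂, ← hcons]
      rcases Nat.eq_zero_or_pos (cst d l J S₂) with h0 | h0
      · rw [h0]; simp only [Nat.cast_zero, mul_zero]; (clear * -; positivity)
      · exact_mod_cast (g6 h0 q hq).le
    · right
      have hb : (0 : ℝ) < (b : ℝ) + 1 := by (clear * -; positivity)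
      have g7 : ((b : ℝ) + 1) ^ t * (cst d l J S₂ : ℝ) ≤ (b : ℝ) ^ t * (cst d l J S₁ : ℝ) := by
        exact_mod_cast g6
      rw [hreal hne₂, hreal hne₁] at g7
      have g8 : ((b : ℝ) + 1) ^ t * cost J.toFinset S₂.toFinset ≤
          (b : ℝ) ^ t * (B * opt J.toFinset F.toFinset k) :=
        g7.trans (mul_le_mul_of_nonneg_left hc₁ (by (clear * -; positivity)))
      have hBo : 0 ≤ B * opt J.toFinset F.toFinset k := (cost_nonneg _ _).trans hc₁
      have g9 : cost J.toFinset S₂.toFinset ≤
          ((b : ℝ) / ((b : ℝ) + 1)) ^ t * (B * opt J.toFinset F.toFinset k) := by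
        rw [div_pow, div_mul_eq_mul_div, le_div_iff₀ (pow_pos hb t), mul_comm]
        exact g8
      refine g9.trans (mul_le_mul_of_nonneg_right ?_ hBo)
      have g10 : (b : ℝ) / ((b : ℝ) + 1) ≤ Real.exp (-(1 / ((b : ℝ) + 1))) := by
        have := Real.add_one_le_exp (-(1 / ((b : ℝ) + 1)))
        have e : (b : ℝ) / ((b : ℝ) + 1) = -(1 / ((b : ℝ) + 1)) + 1 := by field_simp; ring
        rw [e]; exact this
      calc ((b : ℝ) / ((b : ℝ) + 1)) ^ t ≤ (Real.exp (-(1 / ((b : ℝ) + 1)))) ^ t :=
            pow_le_pow_left₀ (by (clear * -; positivity)) g10 t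
        _ = Real.exp (-(t / ((b : ℝ) + 1))) := by
            rw [← Real.exp_nat_mul]; congr 1; ring

/-- The constant used for the exponential decay. -/
theorem exp_neg_three_le : Real.exp (-3) ≤ 1 / 10 := by
  have h1 : (2.7 : ℝ) < Real.exp 1 := by linarith only [Real.exp_one_gt_d9]
  have h2 : Real.exp (-3) = (Real.exp 1 ^ 3)⁻¹ := by
    rw [← Real.exp_nat_mul, ← Real.exp_neg]; norm_num
  rw [h2, one_div]
  apply inv_anti₀ (by norm_num)
  calc (10 : ℝ) ≤ 2.7 ^ 3 := by norm_num
    _ ≤ Real.exp 1 ^ 3 := pow_le_pow_left₀ (by norm_num) h1.le 3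

theorem exp_neg_div_le {t b : ℕ} (h : 3 * (b + 1) ≤ t) :
    Real.exp (-((t : ℝ) / ((b : ℝ) + 1))) ≤ 1 / 10 := by
  refine le_trans (Real.exp_le_exp.2 ?_) exp_neg_three_le
  have hb : (0 : ℝ) < (b : ℝ) + 1 := by positivity
  have : (3 : ℝ) ≤ (t : ℝ) / ((b : ℝ) + 1) := by
    rw [le_div_iff₀ hb]
    exact_mod_cast h
  linarith only [this]

end

end Vale.Agent.P334.Alg
end

section

/-!
The second algorithm of the stable case (note 5300, 2.3): definition and analysis under the good
event.
-/

namespace Vale.Agent.P334.Alg.A2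

open A1

section

variable {X : Type} [DecidableEq X]

/-- The elements of `S` outside `big`. -/
def small (big S : List X) : List X := S.filter (fun s => decide (s ∉ big))

/-- The elements of `S` that certainly stay. -/
def blue2 (χ : X → ℕ) (z : ℕ) (big Zb S : List X) : List X :=
  S.filter (fun s => decide (s ∉ Zb ∧ (s ∈ big ∨ z ≤ χ s)))

/-- The pseudo-clients: the clients served by `Zb`, and the colors. -/
def elts (d : X → X → ℕ) (x0 : X) (J S big Zb : List X) (χ : X → ℕ) (z : ℕ) :
    List (List (X × ℕ)) :=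
  (J.filter (fun j => decide (A1.near d x0 S j ∈ Zb))).map (fun j => [(j, 1)]) ++
    (List.range z).map (colEl (wgt d x0 J S) χ (small big S))

/-- The cap of a pseudo-client: distance to the blue elements and to the virtual centers. -/
def cap (d : X → X → ℕ) (top : ℕ) (B : List X) (anch : List (X × ℕ)) (e : List (X × ℕ)) : ℕ :=
  fmin (wv d top e) (wdS d top e B) anch

/-- The facilities close to an anchor. -/
def part (d : X → X → ℕ) (F : List X) (a : X × ℕ) : List X :=
  F.filter (fun q => decide (d a.1 q ≤ a.2))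

/-- The facilities to be added. -/
def add2 (d : X → X → ℕ) (top : ℕ) (x0 : X) (J F S big Zb : List X) (χ : X → ℕ) (z : ℕ)
    (anch : List (X × ℕ)) : List X :=
  lsearch (wd d top) (cap d top (blue2 χ z big Zb S) anch) (elts d x0 J S big Zb χ z)
    (anch.map (part d F)) (anch.map (fun a => (part d F a).headD x0))

/-- The second algorithm. -/
def alg2 (d : X → X → ℕ) (l top : ℕ) (x0 : X) (J F S big Zb : List X) (χ : X → ℕ) (z : ℕ)
    (anch : List (X × ℕ)) : List X :=
  let Q := add2 d top x0 J F S big Zb χ z anch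
  let R := rem1 d l x0 (wgt d x0 J S) (small big S) χ z (blue2 χ z big Zb S ++ Q)
  S.filter (fun s => decide (s ∉ Zb ∧ s ∉ R)) ++ Q

theorem mem_small {big S : List X} {s : X} : s ∈ small big S ↔ s ∈ S ∧ s ∉ big := by
  simp only [small, decide_not, List.mem_filter, Bool.not_eq_eq_eq_not, Bool.not_true, decide_eq_false_iff_not]

theorem mem_blue2 {χ : X → ℕ} {z : ℕ} {big Zb S : List X} {s : X} :
    s ∈ blue2 χ z big Zb S ↔ s ∈ S ∧ s ∉ Zb ∧ (s ∈ big ∨ z ≤ χ s) := by
  simp only [blue2, Bool.decide_and, decide_not, Bool.decide_or, List.mem_filter, Bool.and_eq_true, Bool.not_eq_eq_eq_not, Bool.not_true, decide_eq_false_iff_not, Bool.or_eq_true, decide_eq_true_eq]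

omit [DecidableEq X] in
theorem mem_part {d : X → X → ℕ} {F : List X} {a : X × ℕ} {q : X} :
    q ∈ part d F a ↔ q ∈ F ∧ d a.1 q ≤ a.2 := by
  simp only [part, List.mem_filter, decide_eq_true_eq]

omit [DecidableEq X] in
theorem mE_eq_fmin (D : X → ℕ) (b : ℕ) (Q : List X) : mE D b Q = fmin D b Q := rfl

omit [DecidableEq X] in
theorem wv_eq_fmin (d : X → X → ℕ) (top : ℕ) (e : List (X × ℕ)) (a : X × ℕ) :
    wv d top e a = fmin (fun c : X × ℕ => c.2 * (d c.1 a.1 + a.2)) top e := rfl

omit [DecidableEq X] in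
/-- The value of a pseudo-client is attained by a weighted point and a center. -/
theorem exists_val (d : X → X → ℕ) (hd : ∀ a b c, d a c ≤ d a b + d b c) (top : ℕ)
    (B : List X) (anch : List (X × ℕ)) (F Q : List X)
    (hQ : Trans (anch.map (part d F)) Q) (e : List (X × ℕ))
    (hlt : fmin (wd d top e) (cap d top B anch e) Q < top) :
    ∃ c ∈ e, ∃ p ∈ B ++ Q, c.2 * d c.1 p ≤ fmin (wd d top e) (cap d top B anch e) Q := by
  have hwd : ∀ q, wd d top e q < top → ∃ c ∈ e, c.2 * d c.1 q = wd d top e q := by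
    intro q hq
    rcases fmin_eq (fun c : X × ℕ => c.2 * d c.1 q) top e with h1 | ⟨c, hc, h1⟩
    · rw [wd_eq_fmin, h1] at hq
      exact absurd hq (lt_irrefl _)
    · exact ⟨c, hc, h1.symm⟩
  rcases fmin_eq (wd d top e) (cap d top B anch e) Q with h1 | ⟨q, hq, h1⟩
  · rw [h1] at hlt ⊢
    rcases fmin_eq (wv d top e) (wdS d top e B) anch with h2 | ⟨a, ha, h2⟩
    · have h3 : cap d top B anch e = wdS d top e B := h2
      rw [h3] at hlt ⊢
      rcases fmin_eq (wd d top e) top B with h4 | ⟨b, hb, h4⟩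
      · rw [wdS_eq_fmin, h4] at hlt
        exact absurd hlt (lt_irrefl _)
      · rw [wdS_eq_fmin, h4] at hlt ⊢
        obtain ⟨c, hc, h5⟩ := hwd b hlt
        exact ⟨c, hc, b, List.mem_append_left _ hb, h5.le⟩
    · have h3 : cap d top B anch e = wv d top e a := h2
      rw [h3] at hlt ⊢
      rcases fmin_eq (fun c : X × ℕ => c.2 * (d c.1 a.1 + a.2)) top e with h4 | ⟨c, hc, h4⟩
      · rw [wv_eq_fmin, h4] at hlt
        exact absurd hlt (lt_irrefl _)
      · rw [wv_eq_fmin, h4]
        have h5 : ∃ q ∈ Q, d a.1 q ≤ a.2 := by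
          have hQ' : ∀ (anch : List (X × ℕ)) (Q : List X), Trans (anch.map (part d F)) Q →
              ∀ a ∈ anch, ∃ q ∈ Q, d a.1 q ≤ a.2 := by
            intro anch
            induction anch with
            | nil => intro Q _ a ha; simp at ha
            | cons a0 anch ih =>
              intro Q hQ a ha
              rw [List.map_cons] at hQ
              cases hQ with
              | @cons q _ Q _ hq hQ =>
                rcases List.mem_cons.1 ha with rfl | ha
                · exact ⟨q, List.mem_cons_self, (mem_part.1 hq).2⟩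
                · obtain ⟨q', hq', h⟩ := ih Q hQ a ha
                  exact ⟨q', List.mem_cons_of_mem _ hq', h⟩
          exact hQ' anch Q hQ a ha
        obtain ⟨q, hq, h6⟩ := h5
        refine ⟨c, hc, q, List.mem_append_right _ hq, Nat.mul_le_mul_left _ ?_⟩
        exact (hd _ a.1 _).trans (Nat.add_le_add_left h6 _)
  · rw [h1] at hlt ⊢
    obtain ⟨c, hc, h5⟩ := hwd q hlt
    exact ⟨c, hc, q, List.mem_append_right _ hq, h5.le⟩

/-- Level A: cardinality and cost of the result. -/
theorem alg2_levelA (d : X → X → ℕ) (hs : ∀ a b, d a b = d b a)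
    (hd : ∀ a b c, d a c ≤ d a b + d b c) (l top : ℕ)
    (hl : ∀ a b, d a b ≤ l) (x0 : X) (J F S big Zb : List X) (hSn : S.Nodup) (hS : S ≠ [])
    (hSF : ∀ s ∈ S, s ∈ F) (χ : X → ℕ) (z : ℕ) (os : List X) (p : X → X) (R : X → ℕ)
    (hosF : ∀ o ∈ os, o ∈ F) (hpo : ∀ o ∈ os, d (p o) o ≤ R o)
    (hZb : ∀ s ∈ Zb, s ∈ big)
    (hB : blue2 χ z big Zb S ++ os ≠ [])
    (htop : 2 * ((elts d x0 J S big Zb χ z).map
        (cap d top (blue2 χ z big Zb S) (os.map fun o => (p o, R o)))).sum +
        3 * ((elts d x0 J S big Zb χ z).map (fun e => fmin (wd d top e)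
          (cap d top (blue2 χ z big Zb S) (os.map fun o => (p o, R o)) e) os)).sum < 5 * top) :
    let T := alg2 d l top x0 J F S big Zb χ z (os.map fun o => (p o, R o))
    (∀ t ∈ T, t ∈ F) ∧ T.length + (S.filter (fun s => decide (s ∈ Zb))).length + z ≤
      S.length + os.length ∧ T ≠ [] ∧
    5 * cst d l J T ≤ 5 * ((J.filter (fun j => decide (A1.near d x0 S j ∉ Zb))).map
      (fun j => mins d l j S)).sum + (2 * ((elts d x0 J S big Zb χ z).map
        (cap d top (blue2 χ z big Zb S) (os.map fun o => (p o, R o)))).sum +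
        3 * ((elts d x0 J S big Zb χ z).map (fun e => fmin (wd d top e)
          (cap d top (blue2 χ z big Zb S) (os.map fun o => (p o, R o)) e) os)).sum) := by
  intro T
  set anch := os.map fun o => (p o, R o) with hanch
  set B := blue2 χ z big Zb S with hBdef
  set E := elts d x0 J S big Zb χ z with hE
  set w := wgt d x0 J S with hw
  set Q := add2 d top x0 J F S big Zb χ z anch with hQ
  set P := B ++ Q with hP
  set R' := rem1 d l x0 w (small big S) χ z P with hR'
  have hT : T = S.filter (fun s => decide (s ∉ Zb ∧ s ∉ R')) ++ Q := rfl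
  -- transversals
  have hos : Trans (anch.map (part d F)) os := by
    rw [hanch, List.map_map]
    have : ∀ L : List X, (∀ o ∈ L, o ∈ os) →
        Trans (L.map (part d F ∘ fun o => (p o, R o))) L := by
      intro L
      induction L with
      | nil => intro _; exact List.Forall₂.nil
      | cons o L ih =>
        intro h
        refine List.Forall₂.cons ?_ (ih fun o' ho' => h o' (List.mem_cons_of_mem _ ho'))
        exact mem_part.2 ⟨hosF o (h o List.mem_cons_self), hpo o (h o List.mem_cons_self)⟩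
    exact this os fun o ho => ho
  have hstart : Trans (anch.map (part d F)) (anch.map (fun a => (part d F a).headD x0)) := by
    rw [hanch, List.map_map, List.map_map]
    have : ∀ L : List X, (∀ o ∈ L, o ∈ os) →
        Trans (L.map (part d F ∘ fun o => (p o, R o)))
          (L.map ((fun a => (part d F a).headD x0) ∘ fun o => (p o, R o))) := by
      intro L
      induction L with
      | nil => intro _; exact List.Forall₂.nil
      | cons o L ih =>
        intro h
        refine List.Forall₂.cons ?_ (ih fun o' ho' => h o' (List.mem_cons_of_mem _ ho'))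
        have h1 : o ∈ part d F (p o, R o) :=
          mem_part.2 ⟨hosF o (h o List.mem_cons_self), hpo o (h o List.mem_cons_self)⟩
        show (part d F (p o, R o)).headD x0 ∈ part d F (p o, R o)
        cases hc : part d F (p o, R o) with
        | nil => rw [hc] at h1; simp at h1
        | cons a L' => simp
    exact this os fun o ho => ho
  have hQt : Trans (anch.map (part d F)) Q := lsearch_trans _ _ _ _ _ hstart
  have hQlen : Q.length = os.length := by
    have := lsearch_length (wd d top) (cap d top B anch) E _ _ hstart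
    rw [List.length_map, hanch, List.length_map] at this
    exact this
  have hQF : ∀ q ∈ Q, q ∈ F := by
    refine hQt.subset ?_
    intro P' hP' x hx
    obtain ⟨a, _, rfl⟩ := List.mem_map.1 hP'
    exact (mem_part.1 hx).1
  have hLS := lsearch_ineq (wd d top) (cap d top B anch) E _ _ os hstart hos
  set M := (E.map (fun e => fmin (wd d top e) (cap d top B anch e) Q)).sum with hM
  have hLS' : 5 * M ≤ 2 * (E.map (cap d top B anch)).sum +
      3 * (E.map (fun e => fmin (wd d top e) (cap d top B anch e) os)).sum := hLS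
  have hMtop : M < top := by omega
  have hval : ∀ e ∈ E, fmin (wd d top e) (cap d top B anch e) Q < top := by
    intro e he
    refine lt_of_le_of_lt ?_ hMtop
    exact List.single_le_sum (fun _ _ => Nat.zero_le _) _
      (List.mem_map_of_mem (f := fun e => fmin (wd d top e) (cap d top B anch e) Q) he)
  have hattE : ∀ e ∈ E, ∃ c ∈ e, ∃ q ∈ P,
      c.2 * d c.1 q ≤ fmin (wd d top e) (cap d top B anch e) Q := fun e he =>
    exists_val d hd top B anch F Q hQt e (hval e he)
  have hcolE : ∀ a < z, colEl w χ (small big S) a ∈ E := fun a ha =>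
    List.mem_append_right _ (List.mem_map_of_mem (List.mem_range.2 ha))
  have hcliE : ∀ j ∈ J, A1.near d x0 S j ∈ Zb → [(j, 1)] ∈ E := fun j hj hjZ =>
    List.mem_append_left _ (List.mem_map_of_mem (f := fun j => [(j, 1)])
      (List.mem_filter.2 ⟨hj, by simpa using hjZ⟩))
  -- the removed elements
  obtain ⟨r, hr⟩ : ∃ r : ℕ → X, r = fun a => argmin (fun s => w s * mins d l s P) x0
      (cls χ (small big S) a) := ⟨_, rfl⟩
  have hRr : R' = (List.range z).map r := by rw [hR', hr]; rfl
  have hcol : ∀ a < z, ∃ s ∈ cls χ (small big S) a, ∃ q ∈ P,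
      w s * d s q ≤ fmin (wd d top (colEl w χ (small big S) a))
        (cap d top B anch (colEl w χ (small big S) a)) Q := by
    intro a ha
    obtain ⟨c, hc, q, hq, h⟩ := hattE _ (hcolE a ha)
    obtain ⟨s, hs', rfl⟩ := List.mem_map.1 hc
    exact ⟨s, hs', q, hq, h⟩
  have hclsne : ∀ a < z, cls χ (small big S) a ≠ [] := by
    intro a ha hnil
    obtain ⟨s, hs', -⟩ := hcol a ha
    rw [hnil] at hs'
    simp at hs'
  have hrcls : ∀ a < z, r a ∈ cls χ (small big S) a := by
    intro a ha
    rw [hr]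
    exact A1.argmin_mem _ _ (hclsne a ha)
  have hrS : ∀ a < z, r a ∈ S ∧ r a ∉ big ∧ χ (r a) = a := by
    intro a ha
    have h1 := mem_cls.1 (hrcls a ha)
    have h2 := mem_small.1 h1.1
    exact ⟨h2.1, h2.2, h1.2⟩
  have hrinj : ∀ a < z, ∀ b < z, r a = r b → a = b := by
    intro a ha b hb hab
    rw [← (hrS a ha).2.2, ← (hrS b hb).2.2, hab]
  have hBR : ∀ s ∈ B, s ∉ R' := by
    intro s hs' hsR
    rw [hRr] at hsR
    obtain ⟨a, ha, rfl⟩ := List.mem_map.1 hsR
    have ha' := List.mem_range.1 ha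
    have h1 := hrS a ha'
    have h2 := (mem_blue2.1 hs').2.2
    rcases h2 with h2 | h2
    · exact h1.2.1 h2
    · omega
  have hPne : P ≠ [] := by
    rcases List.eq_nil_or_concat Q with h | ⟨Q', q, h⟩
    · have h1 : os = [] := by
        rw [← List.length_eq_zero_iff, ← hQlen, h]; rfl
      rw [h1, List.append_nil] at hB
      rw [hP, h, List.append_nil]
      exact hB
    · rw [hP, h]; simp
  have hPT : ∀ s ∈ P, s ∈ T := by
    intro s hs'
    rw [hT]
    rw [hP] at hs'
    rcases List.mem_append.1 hs' with h1 | h1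
    · refine List.mem_append_left _ (List.mem_filter.2 ⟨(mem_blue2.1 h1).1, ?_⟩)
      simpa using ⟨(mem_blue2.1 h1).2.1, hBR s h1⟩
    · exact List.mem_append_right _ h1
  refine ⟨?_, ?_, ?_, ?_⟩
  · intro t ht
    rw [hT] at ht
    rcases List.mem_append.1 ht with h1 | h1
    · exact hSF t (List.mem_filter.1 h1).1
    · exact hQF t h1
  · -- cardinality
    rw [hT, List.length_append, hQlen]
    have h1 : (S.filter (fun s => decide (s ∈ R'))).length = z := by
      have h2 : (S.filter (fun s => decide (s ∈ R'))).Perm R' := by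
        rw [List.perm_ext_iff_of_nodup (hSn.filter _)]
        · intro s
          rw [List.mem_filter, decide_eq_true_eq]
          refine ⟨fun h => h.2, fun h => ⟨?_, h⟩⟩
          rw [hRr] at h
          obtain ⟨a, ha, rfl⟩ := List.mem_map.1 h
          exact (hrS a (List.mem_range.1 ha)).1
        · rw [hRr]
          refine List.Nodup.map_on ?_ List.nodup_range
          intro a ha b hb hab
          exact hrinj a (List.mem_range.1 ha) b (List.mem_range.1 hb) hab
      rw [h2.length_eq, hRr, List.length_map, List.length_range]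
    have h3 : (S.filter (fun s => decide (s ∈ Zb))).length +
        (S.filter (fun s => decide (s ∈ R'))).length +
        (S.filter (fun s => decide (s ∉ Zb ∧ s ∉ R'))).length ≤ S.length := by
      have hex : ∀ s, ¬ (s ∈ Zb ∧ s ∈ R') := by
        rintro s ⟨h4, h5⟩
        rw [hRr] at h5
        obtain ⟨a, ha, rfl⟩ := List.mem_map.1 h5
        exact (hrS a (List.mem_range.1 ha)).2.1 (hZb _ h4)
      have : ∀ L : List X, (L.filter (fun s => decide (s ∈ Zb))).length +
        (L.filter (fun s => decide (s ∈ R'))).length +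
        (L.filter (fun s => decide (s ∉ Zb ∧ s ∉ R'))).length ≤ L.length := by
        intro L
        induction L with
        | nil => simp only [List.filter_nil, List.length_nil, add_zero, Bool.decide_and, decide_not, Std.le_refl]
        | cons s L ih =>
          have h4 := hex s
          by_cases h5 : s ∈ Zb <;> by_cases h6 : s ∈ R' <;>
            simp [List.filter_cons, h5, h6] at h4 ih ⊢ <;> omega
      exact this S
    omega
  · obtain ⟨q, hq⟩ := List.exists_mem_of_ne_nil P hPne
    exact List.ne_nil_of_mem (hPT q hq)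
  · -- cost
    have key : ∀ j ∈ J, mins d l j T ≤
        (if A1.near d x0 S j ∈ Zb then
          fmin (wd d top [(j, 1)]) (cap d top B anch [(j, 1)]) Q else mins d l j S) +
        ∑ a ∈ Finset.range z, (if A1.near d x0 S j = r a then mins d l (r a) P else 0) := by
      intro j hj
      by_cases hjZ : A1.near d x0 S j ∈ Zb
      · rw [if_pos hjZ]
        obtain ⟨c, hc, q, hq, h⟩ := hattE _ (hcliE j hj hjZ)
        rw [List.mem_singleton] at hc
        subst hc
        rw [one_mul] at h
        have h1 : mins d l j T ≤ d j q := fmin_le _ _ (hPT q hq)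
        exact (h1.trans h).trans (Nat.le_add_right _ _)
      · rw [if_neg hjZ, ← d_near d l x0 hS hl j]
        by_cases h : A1.near d x0 S j ∈ R'
        · rw [hRr] at h
          obtain ⟨a, ha, hu⟩ := List.mem_map.1 h
          obtain ⟨q, hq, hpe⟩ := exists_fmin (d (r a)) l hPne (fun s _ => hl _ _)
          have h1 : mins d l j T ≤ d j q := fmin_le _ _ (hPT q hq)
          have h2 := hd j (r a) q
          have h3 : mins d l (r a) P = d (r a) q := hpe
          have h4 : (if A1.near d x0 S j = r a then mins d l (r a) P else 0) ≤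
              ∑ a ∈ Finset.range z, (if A1.near d x0 S j = r a then mins d l (r a) P else 0) :=
            Finset.single_le_sum
              (f := fun a => if A1.near d x0 S j = r a then mins d l (r a) P else 0)
              (fun _ _ => Nat.zero_le _) (Finset.mem_range.2 (List.mem_range.1 ha))
          rw [if_pos hu.symm, h3] at h4
          rw [← hu]
          rw [← hu] at h4
          omega
        · refine (fmin_le _ _ ?_).trans (Nat.le_add_right _ _)
          rw [hT]
          refine List.mem_append_left _ (List.mem_filter.2 ⟨near_mem d x0 hS j, ?_⟩)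
          simpa using ⟨hjZ, h⟩
    have h1 : cst d l J T ≤ (J.map (fun j => (if A1.near d x0 S j ∈ Zb then
          fmin (wd d top [(j, 1)]) (cap d top B anch [(j, 1)]) Q else mins d l j S))).sum +
        ∑ a ∈ Finset.range z, w (r a) * mins d l (r a) P := by
      unfold cst
      refine (sum_map_le J key).trans ?_
      rw [sum_map_add, sum_sum_comm]
      refine Nat.add_le_add_left (Finset.sum_le_sum fun a _ => ?_) _
      rw [sum_map_ite_const]
      rfl
    have h2 : ∀ L : List X, (L.map (fun j => (if A1.near d x0 S j ∈ Zb then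
          fmin (wd d top [(j, 1)]) (cap d top B anch [(j, 1)]) Q else mins d l j S))).sum =
        ((L.filter (fun j => decide (A1.near d x0 S j ∈ Zb))).map (fun j =>
          fmin (wd d top [(j, 1)]) (cap d top B anch [(j, 1)]) Q)).sum +
        ((L.filter (fun j => decide (A1.near d x0 S j ∉ Zb))).map
          (fun j => mins d l j S)).sum := by
      intro L
      induction L with
      | nil => simp
      | cons j L ih =>
        rw [List.map_cons, List.sum_cons, ih]
        by_cases h : A1.near d x0 S j ∈ Zb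
        · simp only [h, ↓reduceIte, decide_not, decide_true, List.filter_cons_of_pos, List.map_cons, List.sum_cons, Bool.not_true, Bool.false_eq_true, not_false_eq_true, List.filter_cons_of_neg]; omega
        · simp only [h, ↓reduceIte, decide_not, decide_false, Bool.false_eq_true, not_false_eq_true, List.filter_cons_of_neg, Bool.not_false, List.filter_cons_of_pos, List.map_cons, List.sum_cons]; omega
    have h3 : ∑ a ∈ Finset.range z, w (r a) * mins d l (r a) P ≤
        ((List.range z).map (fun a => fmin (wd d top (colEl w χ (small big S) a))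
          (cap d top B anch (colEl w χ (small big S) a)) Q)).sum := by
      rw [← List.sum_toFinset _ List.nodup_range, List.toFinset_range]
      refine Finset.sum_le_sum fun a ha => ?_
      obtain ⟨s, hs', q, hq, h4⟩ := hcol a (Finset.mem_range.1 ha)
      refine le_trans ?_ h4
      have h5 : w (r a) * mins d l (r a) P ≤ w s * mins d l s P := by
        rw [hr]
        exact argmin_le (fun s => w s * mins d l s P) x0 hs'
      exact h5.trans (Nat.mul_le_mul_left _ (fmin_le _ _ hq))
    have h4 : M = ((J.filter (fun j => decide (A1.near d x0 S j ∈ Zb))).map (fun j =>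
          fmin (wd d top [(j, 1)]) (cap d top B anch [(j, 1)]) Q)).sum +
        ((List.range z).map (fun a => fmin (wd d top (colEl w χ (small big S) a))
          (cap d top B anch (colEl w χ (small big S) a)) Q)).sum := by
      rw [hM, hE]
      unfold elts
      rw [List.map_append, List.sum_append, List.map_map, List.map_map]
      rfl
    rw [h2 J] at h1
    omega

end

end Vale.Agent.P334.Alg.A2
end

section

/-!
Polynomial time for the first algorithm of the stable case.
-/

namespace Vale.Agent.P334.Alg.A1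

open Vale.Agent.Lib.PolyTime Function

variable {A : Set Word} {α X : Type} [Enc α] [Enc X]

theorem PT_near {dd : α → X → X → ℕ} {x0 v : α → X} {S : α → List X}
    (hd : PT A (fun p : α × X × X => dd p.1 p.2.1 p.2.2)) (hx0 : PT A x0) (hS : PT A S)
    (hv : PT A v) : PT A (fun a => near (dd a) (x0 a) (S a) (v a)) :=
  PT_argmin (f := fun a => dd a (v a)) (hd.comp (PT.fst'.pair ((hv.comp PT.fst').pair PT.snd')))
    hx0 hS

variable [DecidableEq X]

theorem PT_wgt (heq : PT A (fun p : X × X => decide (p.1 = p.2))) {dd : α → X → X → ℕ}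
    {x0 s : α → X} {J S : α → List X}
    (hd : PT A (fun p : α × X × X => dd p.1 p.2.1 p.2.2)) (hx0 : PT A x0) (hJ : PT A J)
    (hS : PT A S) (hs : PT A s) : PT A (fun a => wgt (dd a) (x0 a) (J a) (S a) (s a)) :=
  PT_countP (f := fun a j => decide (near (dd a) (x0 a) (S a) j = s a)) hJ
    (heq.comp ((PT_near (dd := fun p : α × X => dd p.1) (hd.comp (PT.fst'.fst.pair PT.snd'))
      (hx0.comp PT.fst') (hS.comp PT.fst') PT.snd').pair (hs.comp PT.fst')))

omit [DecidableEq X] in
theorem PT_cls {χ : α → X → ℕ} {S : α → List X} {c : α → ℕ}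
    (hχ : PT A (fun p : α × X => χ p.1 p.2)) (hS : PT A S) (hc : PT A c) :
    PT A (fun a => cls (χ a) (S a) (c a)) :=
  PT.filter (f := fun a s => decide (χ a s = c a)) hS (PT.eqNat hχ (hc.comp PT.fst'))

omit [DecidableEq X] in
theorem PT_blue {χ : α → X → ℕ} {S : α → List X} {z : α → ℕ}
    (hχ : PT A (fun p : α × X => χ p.1 p.2)) (hz : PT A z) (hS : PT A S) :
    PT A (fun a => blue (χ a) (z a) (S a)) :=
  PT.filter (f := fun a s => decide (z a ≤ χ a s)) hS (PT.le (hz.comp PT.fst') hχ)

omit [DecidableEq X] in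
theorem PT_colEl {w : α → X → ℕ} {χ : α → X → ℕ} {S : α → List X} {c : α → ℕ}
    (hw : PT A (fun p : α × X => w p.1 p.2))
    (hχ : PT A (fun p : α × X => χ p.1 p.2)) (hS : PT A S) (hc : PT A c) :
    PT A (fun a => colEl (w a) (χ a) (S a) (c a)) :=
  PT.map (f := fun a s => (s, w a s)) (PT_cls hχ hS hc) (PT.snd'.pair hw)

omit [DecidableEq X] in
theorem PT_add1 {dd : α → X → X → ℕ} {top : α → ℕ} {w : α → X → ℕ} {F S : α → List X}
    {χ : α → X → ℕ} {z h : α → ℕ} (hd : PT A (fun p : α × X × X => dd p.1 p.2.1 p.2.2))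
    (ht : PT A top) (hw : PT A (fun p : α × X => w p.1 p.2)) (hF : PT A F) (hS : PT A S)
    (hχ : PT A (fun p : α × X => χ p.1 p.2)) (hz : PT A z) (hzb : PBd (fun a => 2 ^ z a))
    (hh : PT A h) (hhb : PBd h) :
    PT A (fun a => add1 (dd a) (top a) (w a) (F a) (S a) (χ a) (z a) (h a)) := by
  refine PT.snd (PT_dp (B := fun a c => wdS (dd a) (top a) (colEl (w a) (χ a) (S a) c)
      (blue (χ a) (z a) (S a)))
    (C := fun a c q => wd (dd a) (top a) (colEl (w a) (χ a) (S a) c) q) hF hz hzb ?_ ?_ hh hhb)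
  · exact PT_wdS (dd := fun p : α × ℕ => dd p.1) (hd.comp (PT.fst'.fst.pair PT.snd'))
      (ht.comp PT.fst')
      (PT_colEl (w := fun p : α × ℕ => w p.1) (χ := fun p : α × ℕ => χ p.1)
        (hw.comp (PT.fst'.fst.pair PT.snd')) (hχ.comp (PT.fst'.fst.pair PT.snd'))
        (hS.comp PT.fst') PT.snd')
      (PT_blue (χ := fun p : α × ℕ => χ p.1) (hχ.comp (PT.fst'.fst.pair PT.snd'))
        (hz.comp PT.fst') (hS.comp PT.fst'))
  · exact PT_wd (dd := fun p : α × ℕ × X => dd p.1) (hd.comp (PT.fst'.fst.pair PT.snd'))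
      (ht.comp PT.fst')
      (PT_colEl (w := fun p : α × ℕ × X => w p.1) (χ := fun p : α × ℕ × X => χ p.1)
        (hw.comp (PT.fst'.fst.pair PT.snd')) (hχ.comp (PT.fst'.fst.pair PT.snd'))
        (hS.comp PT.fst') PT.snd'.fst)
      PT.snd'.snd

omit [DecidableEq X] in
theorem PT_rem1 {dd : α → X → X → ℕ} {l : α → ℕ} {x0 : α → X} {w : α → X → ℕ} {S P : α → List X}
    {χ : α → X → ℕ} {z : α → ℕ} (hd : PT A (fun p : α × X × X => dd p.1 p.2.1 p.2.2))
    (hl : PT A l) (hx0 : PT A x0) (hw : PT A (fun p : α × X => w p.1 p.2)) (hS : PT A S)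
    (hχ : PT A (fun p : α × X => χ p.1 p.2)) (hz : PT A z) (hzb : PBd z) (hP : PT A P) :
    PT A (fun a => rem1 (dd a) (l a) (x0 a) (w a) (S a) (χ a) (z a) (P a)) := by
  refine PT.map (f := fun a c => argmin (fun s => w a s * mins (dd a) (l a) s (P a)) (x0 a)
    (cls (χ a) (S a) c)) (PT.range hz hzb) ?_
  refine PT_argmin (f := fun (p : α × ℕ) s => w p.1 s * mins (dd p.1) (l p.1) s (P p.1)) ?_
    (hx0.comp PT.fst') (PT_cls (χ := fun p : α × ℕ => χ p.1)
      (hχ.comp (PT.fst'.fst.pair PT.snd')) (hS.comp PT.fst') PT.snd')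
  exact PT.mul (hw.comp (PT.fst'.fst.pair PT.snd'))
    (PT_mins (dd := fun p : (α × ℕ) × X => dd p.1.1) (hd.comp (PT.fst'.fst.fst.pair PT.snd'))
      (hl.comp PT.fst'.fst) PT.snd' (hP.comp PT.fst'.fst))

theorem PT_alg1 (heq : PT A (fun p : X × X => decide (p.1 = p.2))) {dd : α → X → X → ℕ}
    {l top : α → ℕ} {x0 : α → X} {J F S : α → List X} {χ : α → X → ℕ} {z h : α → ℕ}
    (hd : PT A (fun p : α × X × X => dd p.1 p.2.1 p.2.2))
    (hl : PT A l) (ht : PT A top) (hx0 : PT A x0) (hJ : PT A J) (hF : PT A F) (hS : PT A S)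
    (hχ : PT A (fun p : α × X => χ p.1 p.2)) (hz : PT A z) (hzb : PBd (fun a => 2 ^ z a))
    (hh : PT A h) (hhb : PBd h) :
    PT A (fun a => alg1 (dd a) (l a) (top a) (x0 a) (J a) (F a) (S a) (χ a) (z a) (h a)) := by
  have hw : PT A (fun p : α × X => wgt (dd p.1) (x0 p.1) (J p.1) (S p.1) p.2) :=
    PT_wgt heq (dd := fun p : α × X => dd p.1) (hd.comp (PT.fst'.fst.pair PT.snd'))
      (hx0.comp PT.fst') (hJ.comp PT.fst') (hS.comp PT.fst') PT.snd'
  have hQ := PT_add1 (w := fun a => wgt (dd a) (x0 a) (J a) (S a)) hd ht hw hF hS hχ hz hzb hh hhb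
  have hzb' : PBd z := hzb.mono fun a => Nat.lt_two_pow_self.le
  have hR := PT_rem1 (w := fun a => wgt (dd a) (x0 a) (J a) (S a)) hd hl hx0 hw hS hχ hz hzb'
    ((PT_blue hχ hz hS).append hQ)
  refine PT.append (PT.filter (f := fun a s => decide (s ∉
    rem1 (dd a) (l a) (x0 a) (wgt (dd a) (x0 a) (J a) (S a)) (S a) (χ a) (z a)
      (blue (χ a) (z a) (S a) ++
        add1 (dd a) (top a) (wgt (dd a) (x0 a) (J a) (S a)) (F a) (S a) (χ a) (z a) (h a)))) hS
    (PT.decide_not (PT.mem' heq (hR.comp PT.fst') PT.snd'))) hQ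

end Vale.Agent.P334.Alg.A1
end

section

/-!
Polynomial time for the second algorithm of the stable case.
-/

namespace Vale.Agent.P334.Alg.A2

open Vale.Agent.Lib.PolyTime Function A1

variable {A : Set Word} {α X : Type} [Enc α] [Enc X]

theorem PT_fmin {γ : Type} [Enc γ] {f : α → γ → ℕ} {l : α → ℕ} {S : α → List γ}
    (hf : PT A (fun p : α × γ => f p.1 p.2)) (hl : PT A l) (hS : PT A S) :
    PT A (fun a => fmin (f a) (l a) (S a)) :=
  PT.foldr (f := fun a s m => min (f a s) m) hS hl
    (PT.min (hf.comp (PT.fst'.pair PT.snd'.fst)) PT.snd'.snd) hl.pbd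
    fun _ _ => esize_nat_mono (fmin_le_cap _ _ _)

theorem PT_cap {dd : α → X → X → ℕ} {top : α → ℕ} {B : α → List X} {anch : α → List (X × ℕ)}
    {e : α → List (X × ℕ)} (hd : PT A (fun p : α × X × X => dd p.1 p.2.1 p.2.2))
    (ht : PT A top) (hB : PT A B) (ha : PT A anch) (he : PT A e) :
    PT A (fun a => cap (dd a) (top a) (B a) (anch a) (e a)) :=
  PT_fmin (f := fun a x => wv (dd a) (top a) (e a) x)
    (PT_wv (dd := fun p : α × X × ℕ => dd p.1) (hd.comp (PT.fst'.fst.pair PT.snd'))
      (ht.comp PT.fst') (he.comp PT.fst') PT.snd')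
    (PT_wdS hd ht he hB) ha

omit [Enc X] in
theorem cap_le_top (d : X → X → ℕ) (top : ℕ) (B : List X) (anch : List (X × ℕ))
    (e : List (X × ℕ)) : cap d top B anch e ≤ top :=
  (fmin_le_cap _ _ _).trans (wdS_le _ _ _ _)

theorem PT_part {dd : α → X → X → ℕ} {F : α → List X} {x : α → X × ℕ}
    (hd : PT A (fun p : α × X × X => dd p.1 p.2.1 p.2.2)) (hF : PT A F) (hx : PT A x) :
    PT A (fun a => part (dd a) (F a) (x a)) :=
  PT.filter (f := fun a q => decide (dd a (x a).1 q ≤ (x a).2)) hF
    (PT.le (hd.comp (PT.fst'.pair ((hx.comp PT.fst').fst.pair PT.snd'))) (hx.comp PT.fst').snd)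

variable [DecidableEq X]

theorem PT_small (heq : PT A (fun p : X × X => decide (p.1 = p.2))) {big S : α → List X}
    (hb : PT A big) (hS : PT A S) : PT A (fun a => small (big a) (S a)) :=
  PT.filter (f := fun a s => decide (s ∉ big a)) hS
    (PT.decide_not (PT.mem' heq (hb.comp PT.fst') PT.snd'))

theorem PT_blue2 (heq : PT A (fun p : X × X => decide (p.1 = p.2))) {χ : α → X → ℕ} {z : α → ℕ}
    {big Zb S : α → List X} (hχ : PT A (fun p : α × X => χ p.1 p.2)) (hz : PT A z)
    (hb : PT A big) (hZ : PT A Zb) (hS : PT A S) :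
    PT A (fun a => blue2 (χ a) (z a) (big a) (Zb a) (S a)) :=
  PT.filter (f := fun a s => decide (s ∉ Zb a ∧ (s ∈ big a ∨ z a ≤ χ a s))) hS
    (PT.decide_and (PT.decide_not (PT.mem' heq (hZ.comp PT.fst') PT.snd'))
      (PT.decide_or (PT.mem' heq (hb.comp PT.fst') PT.snd') (PT.le (hz.comp PT.fst') hχ)))

theorem PT_elts (heq : PT A (fun p : X × X => decide (p.1 = p.2))) {dd : α → X → X → ℕ}
    {x0 : α → X} {J S big Zb : α → List X} {χ : α → X → ℕ} {z : α → ℕ}
    (hd : PT A (fun p : α × X × X => dd p.1 p.2.1 p.2.2)) (hx0 : PT A x0)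
    (hJ : PT A J) (hS : PT A S) (hb : PT A big) (hZ : PT A Zb)
    (hχ : PT A (fun p : α × X => χ p.1 p.2)) (hz : PT A z) (hzb : PBd z) :
    PT A (fun a => elts (dd a) (x0 a) (J a) (S a) (big a) (Zb a) (χ a) (z a)) := by
  refine PT.append (PT.map (f := fun _ j => [(j, 1)])
    (PT.filter (f := fun a j => decide (A1.near (dd a) (x0 a) (S a) j ∈ Zb a)) hJ
      (PT.mem' heq (hZ.comp PT.fst') (PT_near (dd := fun p : α × X => dd p.1)
        (hd.comp (PT.fst'.fst.pair PT.snd')) (hx0.comp PT.fst') (hS.comp PT.fst') PT.snd')))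
    (PT.cons (PT.snd'.pair (PT.const 1)) PT.nil)) ?_
  refine PT.map (f := fun a c => colEl (wgt (dd a) (x0 a) (J a) (S a)) (χ a)
    (small (big a) (S a)) c) (PT.range hz hzb) ?_
  exact PT_colEl (w := fun p : α × ℕ => wgt (dd p.1) (x0 p.1) (J p.1) (S p.1))
    (χ := fun p : α × ℕ => χ p.1)
    (PT_wgt heq (dd := fun p : (α × ℕ) × X => dd p.1.1) (hd.comp (PT.fst'.fst.fst.pair PT.snd'))
      (hx0.comp PT.fst'.fst) (hJ.comp PT.fst'.fst) (hS.comp PT.fst'.fst) PT.snd')
    (hχ.comp (PT.fst'.fst.pair PT.snd')) (PT_small heq (hb.comp PT.fst') (hS.comp PT.fst'))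
    PT.snd'

theorem PT_add2 (heq : PT A (fun p : X × X => decide (p.1 = p.2))) {dd : α → X → X → ℕ}
    {top : α → ℕ} {x0 : α → X} {J F S big Zb : α → List X} {χ : α → X → ℕ} {z : α → ℕ}
    {anch : α → List (X × ℕ)}
    (hd : PT A (fun p : α × X × X => dd p.1 p.2.1 p.2.2)) (ht : PT A top) (htb : PBd top)
    (hx0 : PT A x0) (hJ : PT A J) (hF : PT A F) (hS : PT A S) (hb : PT A big) (hZ : PT A Zb)
    (hχ : PT A (fun p : α × X => χ p.1 p.2)) (hz : PT A z) (hzb : PBd z) (ha : PT A anch) :
    PT A (fun a => add2 (dd a) (top a) (x0 a) (J a) (F a) (S a) (big a) (Zb a) (χ a) (z a)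
      (anch a)) := by
  have htb' : PBd (fun p : α × List (X × ℕ) => top p.1) := by
    have h : PT A (fun p : α × List (X × ℕ) => p.1) := PT.fst'
    exact htb.comp h
  have hB := PT_blue2 heq hχ hz hb hZ hS
  refine PT_lsearch (ι := List (X × ℕ)) (D := fun a => wd (dd a) (top a))
    (b := fun a => cap (dd a) (top a) (blue2 (χ a) (z a) (big a) (Zb a) (S a)) (anch a))
    ?_ ?_ ?_ (PT_elts heq hd hx0 hJ hS hb hZ hχ hz hzb) ?_ ?_
  · exact PT_wd (dd := fun p : α × List (X × ℕ) × X => dd p.1)
      (hd.comp (PT.fst'.fst.pair PT.snd')) (ht.comp PT.fst') PT.snd'.fst PT.snd'.snd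
  · exact PT_cap (dd := fun p : α × List (X × ℕ) => dd p.1) (hd.comp (PT.fst'.fst.pair PT.snd'))
      (ht.comp PT.fst') (hB.comp PT.fst') (ha.comp PT.fst') PT.snd'
  · exact htb'.mono fun p => cap_le_top _ _ _ _ _
  · exact PT.map (f := fun a x => part (dd a) (F a) x) ha
      (PT_part (dd := fun p : α × X × ℕ => dd p.1) (hd.comp (PT.fst'.fst.pair PT.snd'))
        (hF.comp PT.fst') PT.snd')
  · exact PT.map (f := fun a x => (part (dd a) (F a) x).headD (x0 a)) ha
      (PT.headD (PT_part (dd := fun p : α × X × ℕ => dd p.1) (hd.comp (PT.fst'.fst.pair PT.snd'))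
        (hF.comp PT.fst') PT.snd') (hx0.comp PT.fst'))

theorem PT_alg2 (heq : PT A (fun p : X × X => decide (p.1 = p.2))) {dd : α → X → X → ℕ}
    {l top : α → ℕ} {x0 : α → X} {J F S big Zb : α → List X} {χ : α → X → ℕ} {z : α → ℕ}
    {anch : α → List (X × ℕ)}
    (hd : PT A (fun p : α × X × X => dd p.1 p.2.1 p.2.2)) (hl : PT A l) (ht : PT A top)
    (htb : PBd top) (hx0 : PT A x0) (hJ : PT A J) (hF : PT A F) (hS : PT A S) (hb : PT A big)
    (hZ : PT A Zb) (hχ : PT A (fun p : α × X => χ p.1 p.2)) (hz : PT A z) (hzb : PBd z)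
    (ha : PT A anch) :
    PT A (fun a => alg2 (dd a) (l a) (top a) (x0 a) (J a) (F a) (S a) (big a) (Zb a) (χ a) (z a)
      (anch a)) := by
  have hQ := PT_add2 heq hd ht htb hx0 hJ hF hS hb hZ hχ hz hzb ha
  have hw : PT A (fun p : α × X => wgt (dd p.1) (x0 p.1) (J p.1) (S p.1) p.2) :=
    PT_wgt heq (dd := fun p : α × X => dd p.1) (hd.comp (PT.fst'.fst.pair PT.snd'))
      (hx0.comp PT.fst') (hJ.comp PT.fst') (hS.comp PT.fst') PT.snd'
  have hR := PT_rem1 (w := fun a => wgt (dd a) (x0 a) (J a) (S a)) hd hl hx0 hw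
    (PT_small heq hb hS) hχ hz hzb ((PT_blue2 heq hχ hz hb hZ hS).append hQ)
  exact PT.append (PT.filter (f := fun a s => decide (s ∉ Zb a ∧ s ∉
    rem1 (dd a) (l a) (x0 a) (wgt (dd a) (x0 a) (J a) (S a)) (small (big a) (S a)) (χ a) (z a)
      (blue2 (χ a) (z a) (big a) (Zb a) (S a) ++ add2 (dd a) (top a) (x0 a) (J a) (F a) (S a)
        (big a) (Zb a) (χ a) (z a) (anch a)))) hS
    (PT.decide_and (PT.decide_not (PT.mem' heq (hZ.comp PT.fst') PT.snd'))
      (PT.decide_not (PT.mem' heq (hR.comp PT.fst') PT.snd')))) hQ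

end Vale.Agent.P334.Alg.A2
end

section

/-!
Part 1: the dichotomy between consecutive optima.
-/

namespace Vale.Agent.P334.Alg.One

theorem dichotomy {o : ℕ → ℝ} {β : ℝ} (hβ : 0 < β) {k m : ℕ} (hk : 1 ≤ k) (hm : 1 ≤ m)
    (ho : ∀ i, 1 ≤ i → i ≤ k → 0 < o i) (_hanti : ∀ i, 1 ≤ i → i + 1 ≤ k → o (i + 1) ≤ o i) :
    (m < k ∧ o (k - m) ≤ (1 + β) ^ m * o k) ∨
    ∃ i, 1 ≤ i ∧ i ≤ k ∧ o i ≤ (1 + β) ^ m * o k ∧ (i = 1 ∨ (1 + β) * o i ≤ o (i - 1)) := by
  by_contra hcon
  push Not at hcon
  obtain ⟨h1, h2⟩ := hcon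
  have hok : 0 < o k := ho k hk le_rfl
  have key : ∀ t, t ≤ m → t < k → o (k - t) ≤ (1 + β) ^ t * o k := by
    intro t
    induction t with
    | zero => intro _ _; simp only [tsub_zero, pow_zero, one_mul, Std.le_refl]
    | succ t ih =>
      intro ht htk
      have h3 := ih (by omega) (by omega)
      have h4 : (1 + β) ^ t * o k ≤ (1 + β) ^ m * o k :=
        mul_le_mul_of_nonneg_right (pow_le_pow_right₀ (by linarith only [hβ]) (by omega)) hok.le
      obtain ⟨-, h5⟩ := h2 (k - t) (by omega) (by omega) (h3.trans h4)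
      have h6 : k - t - 1 = k - (t + 1) := by omega
      rw [h6] at h5
      calc o (k - (t + 1)) ≤ (1 + β) * o (k - t) := h5.le
        _ ≤ (1 + β) * ((1 + β) ^ t * o k) := mul_le_mul_of_nonneg_left h3 (by linarith only [hβ])
        _ = (1 + β) ^ (t + 1) * o k := by ring
  by_cases hmk : m < k
  · exact absurd (key m le_rfl hmk) (not_le.2 (h1 hmk))
  · have h3 := key (k - 1) (by omega) (by omega)
    have h4 : (1 + β) ^ (k - 1) * o k ≤ (1 + β) ^ m * o k :=
      mul_le_mul_of_nonneg_right (pow_le_pow_right₀ (by linarith only [hβ]) (by omega)) hok.le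
    have h5 : k - (k - 1) = 1 := by omega
    rw [h5] at h3
    exact (h2 1 le_rfl hk (h3.trans h4)).1 rfl

theorem pow_bound {m E : ℕ} (hm : 1 ≤ m) (hE : 1 ≤ E) :
    (1 + 1 / (2 * (E : ℝ) * m)) ^ m ≤ 1 + 1 / (E : ℝ) := by
  have hm' : (0 : ℝ) < m := by exact_mod_cast hm
  have hE' : (1 : ℝ) ≤ E := by exact_mod_cast hE
  have hE0 : (0 : ℝ) < E := by linarith only [hE']
  set x : ℝ := 1 / (2 * (E : ℝ) * m) with hx
  set y : ℝ := 1 / (2 * (E : ℝ)) with hy
  have hy0 : 0 < y := by positivity
  have hy1 : y ≤ 1 / 2 := by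
    rw [hy, div_le_div_iff₀ (by positivity) (by norm_num)]
    linarith only [hE']
  have h1 : (1 + x) ^ m ≤ Real.exp y := by
    have h2 : 1 + x ≤ Real.exp x := by linarith only [Real.add_one_le_exp x]
    calc (1 + x) ^ m ≤ (Real.exp x) ^ m := pow_le_pow_left₀ (by positivity) h2 m
      _ = Real.exp (m * x) := by rw [← Real.exp_nat_mul]
      _ = Real.exp y := by
        congr 1
        rw [hx, hy]
        field_simp
  have h2 : Real.exp y ≤ 1 + 2 * y := by
    have h3 : 1 - y ≤ Real.exp (-y) := by linarith only [Real.add_one_le_exp (-y)]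
    have h4 : Real.exp y * Real.exp (-y) = 1 := by rw [← Real.exp_add]; simp
    have h5 : Real.exp y * (1 - y) ≤ 1 :=
      (mul_le_mul_of_nonneg_left h3 (Real.exp_pos y).le).trans h4.le
    nlinarith only [h5, hy0, hy1]
  have h3 : 2 * y = 1 / (E : ℝ) := by
    rw [hy]
    field_simp
  (clear * - h1 h2 h3; linarith)

end Vale.Agent.P334.Alg.One
end

section

/-!
Part 1: selection of the best candidate.
-/

namespace Vale.Agent.P334.Alg.One

theorem adm_iff {F : List ℕ} {k : ℕ} {S : List ℕ} : adm F k S = true ↔ Feas F k S := by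
  simp only [adm, Feas, Bool.and_eq_true, Bool.not_eq_true', decide_eq_true_eq, List.all_eq_true,
    List.isEmpty_eq_false_iff, ne_eq]
  (clear * -; tauto)

theorem foldl_best_aux (f : List ℕ → ℕ) (C : List (List ℕ)) (b : List ℕ) :
    (C.foldl (fun b S => if f S < f b then S else b) b = b ∨
      C.foldl (fun b S => if f S < f b then S else b) b ∈ C) ∧
    f (C.foldl (fun b S => if f S < f b then S else b) b) ≤ f b ∧
    ∀ S ∈ C, f (C.foldl (fun b S => if f S < f b then S else b) b) ≤ f S := by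
  induction C generalizing b with
  | nil => simp
  | cons S C ih =>
    simp only [List.foldl_cons]
    by_cases h : f S < f b
    · rw [if_pos h]
      obtain ⟨h1, h2, h3⟩ := ih S
      refine ⟨Or.inr ?_, h2.trans h.le, ?_⟩
      · rcases h1 with h1 | h1
        · rw [h1]
          exact List.mem_cons_self
        · exact List.mem_cons_of_mem _ h1
      · intro S' hS'
        rcases List.mem_cons.1 hS' with rfl | hS'
        · exact h2
        · exact h3 S' hS'
    · rw [if_neg h]
      obtain ⟨h1, h2, h3⟩ := ih b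
      refine ⟨?_, h2, ?_⟩
      · rcases h1 with h1 | h1
        · exact Or.inl h1
        · exact Or.inr (List.mem_cons_of_mem _ h1)
      · intro S' hS'
        rcases List.mem_cons.1 hS' with rfl | hS'
        · exact h2.trans (not_lt.1 h)
        · exact h3 S' hS'

theorem bestOf_feas {D : ℕ → ℕ → ℕ} {l : ℕ} {J F : List ℕ} {k : ℕ} (hF : F ≠ []) (hk : 1 ≤ k)
    (C : List (List ℕ)) : Feas F k (bestOf D l J F k C) := by
  have h := (foldl_best_aux (cst D l J) (C.filter (adm F k)) [F.headD 0]).1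
  unfold bestOf
  rcases h with h | h
  · rw [h]
    refine ⟨by simp, ?_, by simpa only [List.headD_eq_head?_getD, List.length_cons, List.length_nil, zero_add] using hk⟩
    intro x hx
    rcases F with _ | ⟨a, F⟩
    · exact absurd rfl hF
    · simp only [List.headD_cons, List.mem_singleton] at hx
      simp [hx]
  · exact adm_iff.1 (List.mem_filter.1 h).2

theorem bestOf_le {D : ℕ → ℕ → ℕ} {l : ℕ} {J F : List ℕ} {k : ℕ} {C : List (List ℕ)}
    {S : List ℕ} (hS : S ∈ C) (hf : Feas F k S) :
    cst D l J (bestOf D l J F k C) ≤ cst D l J S :=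
  (foldl_best_aux (cst D l J) (C.filter (adm F k)) [F.headD 0]).2.2 S
    (List.mem_filter.2 ⟨hS, adm_iff.2 hf⟩)

end Vale.Agent.P334.Alg.One
end

section

/-!
T3: the fallback solution (greedy 3-approximation of k-center).
-/

set_option linter.all false

namespace Vale.Agent.P334.Alg.One

theorem fb_mins_le {D : ℕ → ℕ → ℕ} {l v : ℕ} {S : List ℕ} {s : ℕ} (hs : s ∈ S) :
    mins D l v S ≤ D v s := by
  induction S with
  | nil => simp at hs
  | cons a S ih =>
    have h1 : mins D l v (a :: S) = min (D v a) (mins D l v S) := rfl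
    rw [h1]
    rcases List.mem_cons.1 hs with rfl | hs
    · exact min_le_left _ _
    · exact (min_le_right _ _).trans (ih hs)

theorem fb_exists {D : ℕ → ℕ → ℕ} {l v R : ℕ} {S : List ℕ} (hS : S ≠ [])
    (hl : ∀ s ∈ S, D v s ≤ l) (h : mins D l v S ≤ R) : ∃ s ∈ S, D v s ≤ R := by
  have key : ∀ S : List ℕ, mins D l v S ≤ R → (∃ s ∈ S, D v s ≤ R) ∨ l ≤ R := by
    intro S
    induction S with
    | nil => intro h; exact Or.inr h
    | cons a S ih =>
      intro h
      have h1 : mins D l v (a :: S) = min (D v a) (mins D l v S) := rfl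
      rw [h1, min_le_iff] at h
      rcases h with h | h
      · exact Or.inl ⟨a, List.mem_cons_self, h⟩
      · rcases ih h with ⟨s, hs, h2⟩ | h2
        · exact Or.inl ⟨s, List.mem_cons_of_mem _ hs, h2⟩
        · exact Or.inr h2
  rcases key S h with h | h
  · exact h
  · obtain ⟨s, hs⟩ := List.exists_mem_of_ne_nil S hS
    exact ⟨s, hs, (hl s hs).trans h⟩

/-- Invariant of the fallback. -/
structure FbInv (D : ℕ → ℕ → ℕ) (J F : List ℕ) (R : ℕ) (s : List ℕ × List ℕ) : Prop where
  sub : ∀ j ∈ s.1, j ∈ J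
  fac : ∀ i ∈ s.2, i ∈ F
  cov : ∀ j ∈ J, j ∈ s.1 ∨ ∃ i ∈ s.2, D j i ≤ 3 * R
  picks : ∃ P : List ℕ, P.length = s.2.length ∧ (∀ p ∈ P, p ∈ J) ∧
    P.Pairwise (fun p q => 2 * R < D q p) ∧ ∀ p ∈ P, ∀ j ∈ s.1, 2 * R < D p j

theorem fbInv_step {D : ℕ → ℕ → ℕ} {l N R : ℕ} {J F T : List ℕ} (h : MetOn D l N)
    (hJ : ∀ j ∈ J, j < N) (hF : ∀ i ∈ F, i < N) (hT : T ≠ []) (hTF : ∀ t ∈ T, t ∈ F)
    (hTR : ∀ j ∈ J, mins D l j T ≤ R) {s : List ℕ × List ℕ} (hs : FbInv D J F R s) :
    FbInv D J F R (fbStep D F R s) ∧ (fbStep D F R s).1.length ≤ s.1.length - 1 := by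
  rcases s with ⟨rem, ch⟩
  rcases rem with _ | ⟨j0, rem⟩
  · exact ⟨hs, by simp [fbStep]⟩
  have hj0 : j0 ∈ J := hs.sub j0 List.mem_cons_self
  have hj0N := hJ j0 hj0
  obtain ⟨t, ht, htR⟩ := fb_exists hT (fun s hs => h.le _ hj0N _ (hF _ (hTF s hs))) (hTR j0 hj0)
  obtain ⟨i, hi⟩ : ∃ i, F.find? (fun i => decide (D j0 i ≤ R)) = some i := by
    rcases h1 : F.find? (fun i => decide (D j0 i ≤ R)) with _ | i
    · have := List.find?_eq_none.1 h1 t (hTF t ht)
      simp [htR] at this
    · exact ⟨i, rfl⟩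
  have hiF : i ∈ F := List.mem_of_find?_eq_some hi
  have hiR : D j0 i ≤ R := by simpa only [decide_eq_true_eq] using List.find?_some hi
  have hstep : fbStep D F R (j0 :: rem, ch) =
      ((j0 :: rem).filter (fun j => decide (2 * R < D j0 j)), i :: ch) := by
    simp only [fbStep, List.isEmpty_cons, Bool.false_eq_true, ↓reduceIte, List.headD_eq_head?_getD, List.head?_cons, Option.getD_some, hi]
  have h00 : D j0 j0 = 0 := (h.zero j0 hj0N j0 hj0N).2 rfl
  rw [hstep]
  refine ⟨⟨?_, ?_, ?_, ?_⟩, ?_⟩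
  · intro j hj
    exact hs.sub j (List.mem_filter.1 hj).1
  · intro i' hi'
    rcases List.mem_cons.1 hi' with rfl | hi'
    · exact hiF
    · exact hs.fac i' hi'
  · intro j hj
    rcases hs.cov j hj with h1 | ⟨i', hi', h1⟩
    · by_cases h2 : 2 * R < D j0 j
      · left
        exact List.mem_filter.2 ⟨h1, by simpa only [decide_eq_true_eq] using h2⟩
      · right
        refine ⟨i, List.mem_cons_self, ?_⟩
        have h3 := h.tri j (hJ j hj) j0 hj0N i (hF i hiF)
        rw [h.symm j (hJ j hj) j0 hj0N] at h3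
        omega
    · exact Or.inr ⟨i', List.mem_cons_of_mem _ hi', h1⟩
  · obtain ⟨P, hP1, hP2, hP3, hP4⟩ := hs.picks
    refine ⟨j0 :: P, by simpa using hP1, ?_, ?_, ?_⟩
    · intro p hp
      rcases List.mem_cons.1 hp with rfl | hp
      · exact hj0
      · exact hP2 p hp
    · rw [List.pairwise_cons]
      exact ⟨fun q hq => hP4 q hq j0 List.mem_cons_self, hP3⟩
    · intro p hp j hj
      obtain ⟨hj1, hj2⟩ := List.mem_filter.1 hj
      rcases List.mem_cons.1 hp with rfl | hp
      · simpa using hj2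
      · exact hP4 p hp j hj1
  · have : ((j0 :: rem).filter (fun j => decide (2 * R < D j0 j))) =
        rem.filter (fun j => decide (2 * R < D j0 j)) := by
      rw [List.filter_cons_of_neg]
      simp [h00]
    rw [this]
    simpa only [List.length_cons, add_tsub_cancel_right, ge_iff_le] using     List.length_filter_le (fun j => decide (2 * R < D j0 j)) rem

theorem fallback_spec {D : ℕ → ℕ → ℕ} {l N R k : ℕ} {J F T : List ℕ} (h : MetOn D l N)
    (hJ0 : J ≠ []) (hJ : ∀ j ∈ J, j < N) (hF : ∀ i ∈ F, i < N) (hT : Feas F k T)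
    (hTR : ∀ j ∈ J, mins D l j T ≤ R) :
    Feas F k (fallback D J F R) ∧ cst D l J (fallback D J F R) ≤ 3 * R * J.length := by
  obtain ⟨hT0, hTF, hTk⟩ := hT
  have key : ∀ m, FbInv D J F R ((fbStep D F R)^[m] (J, [])) ∧
      ((fbStep D F R)^[m] (J, [])).1.length ≤ J.length - m := by
    intro m
    induction m with
    | zero =>
      refine ⟨⟨fun j hj => hj, by simp, fun j hj => Or.inl hj, ⟨[], by simp, by simp, by simp,
        by simp only [List.not_mem_nil, Function.iterate_zero, id_eq, IsEmpty.forall_iff, implies_true]⟩⟩, by simp⟩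
    | succ m ih =>
      rw [Function.iterate_succ_apply']
      obtain ⟨h1, h2⟩ := fbInv_step h hJ hF hT0 hTF hTR ih.1
      exact ⟨h1, by (clear * - ih h2; omega)⟩
  obtain ⟨hI, hlen⟩ := key J.length
  rw [Nat.sub_self] at hlen
  have hnil : ((fbStep D F R)^[J.length] (J, [])).1 = [] := List.length_eq_zero_iff.1 (by omega)
  have hcov : ∀ j ∈ J, ∃ i ∈ fallback D J F R, D j i ≤ 3 * R := by
    intro j hj
    rcases hI.cov j hj with h1 | h1
    · rw [hnil] at h1
      simp at h1
    · exact h1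
  refine ⟨⟨?_, hI.fac, ?_⟩, ?_⟩
  · obtain ⟨j, hj⟩ := List.exists_mem_of_ne_nil J hJ0
    obtain ⟨i, hi, -⟩ := hcov j hj
    exact List.ne_nil_of_mem hi
  · obtain ⟨P, hP1, hP2, hP3, -⟩ := hI.picks
    have hex : ∀ p ∈ P, ∃ t ∈ T, D p t ≤ R := fun p hp =>
      fb_exists hT0 (fun s hs => h.le _ (hJ p (hP2 p hp)) _ (hF _ (hTF s hs))) (hTR p (hP2 p hp))
    choose! f hf1 hf2 using hex
    have hnd : (P.map f).Nodup := by
      rw [List.Nodup, List.pairwise_map]
      refine List.Pairwise.imp_of_mem ?_ hP3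
      intro p q hp hq hpq he
      have hpN := hJ p (hP2 p hp)
      have hqN := hJ q (hP2 q hq)
      have htN := hF _ (hTF _ (hf1 p hp))
      have h1 := hf2 p hp
      have h2 := hf2 q hq
      rw [← he] at h2
      have h3 := h.tri q hqN (f p) htN p hpN
      rw [h.symm (f p) htN p hpN] at h3
      (clear * - hpq h1 h2 h3; omega)
    have hle : (P.map f).length ≤ T.length := by
      refine (List.subperm_of_subset hnd ?_).length_le
      intro t ht
      obtain ⟨p, hp, rfl⟩ := List.mem_map.1 ht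
      exact hf1 p hp
    rw [List.length_map, hP1] at hle
    exact hle.trans hTk
  · unfold cst
    have : ∀ J' : List ℕ, (∀ j ∈ J', j ∈ J) →
        (J'.map (fun j => mins D l j (fallback D J F R))).sum ≤ 3 * R * J'.length := by
      intro J'
      induction J' with
      | nil => intro _; simp
      | cons j J' ih =>
        intro hsub
        rw [List.map_cons, List.sum_cons, List.length_cons, mul_add, mul_one]
        obtain ⟨i, hi, h1⟩ := hcov j (hsub j List.mem_cons_self)
        have h2 := fb_mins_le (D := D) (l := l) (v := j) hi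
        have h3 := ih fun j' hj' => hsub j' (List.mem_cons_of_mem _ hj')
        omega
    exact this J fun j hj => hj

end Vale.Agent.P334.Alg.One
end

section

/-!
Rational instances: distances over the common denominator.
-/

namespace Vale.Agent.P334.Alg.One

theorem rat_entry (M : List (List (ℕ × ℕ))) (a b : ℕ) :
    ((M.getD a []).getD b (0, 1)) = (0, 1) ∨
      ∃ row ∈ M, ((M.getD a []).getD b (0, 1)) ∈ row := by
  by_cases ha : a < M.length
  · by_cases hb : b < (M.getD a []).length
    · right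
      refine ⟨M.getD a [], ?_, ?_⟩
      · rw [List.getD_eq_getElem _ _ ha]
        exact List.getElem_mem ha
      · rw [List.getD_eq_getElem _ _ hb]
        exact List.getElem_mem hb
    · left
      exact List.getD_eq_default _ _ (not_lt.1 hb)
  · left
    rw [List.getD_eq_default M _ (not_lt.1 ha)]
    rfl

theorem den_pos (M : List (List (ℕ × ℕ))) : 0 < den M := by
  refine Nat.pos_of_ne_zero (fun h => ?_)
  rw [den, List.prod_eq_zero_iff] at h
  rw [List.mem_flatMap] at h
  obtain ⟨row, -, h⟩ := h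
  rw [List.mem_map] at h
  obtain ⟨e, -, h⟩ := h
  omega

theorem dvd_den {M : List (List (ℕ × ℕ))} {row : List (ℕ × ℕ)} {e : ℕ × ℕ} (hrow : row ∈ M)
    (he : e ∈ row) (h0 : e.2 ≠ 0) : e.2 ∣ den M := by
  have h1 : max e.2 1 = e.2 := by omega
  have h2 : max e.2 1 ∣ den M := List.dvd_prod
    (List.mem_flatMap.2 ⟨row, hrow, List.mem_map.2 ⟨e, he, rfl⟩⟩)
  rwa [h1] at h2

theorem Dint_eq (I : Final.Inst) (a b : ℕ) :
    (Dint I.M a b : ℚ) = den I.M * I.dist a b := by
  unfold Dint Final.Inst.dist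
  rcases rat_entry I.M a b with h | ⟨row, hrow, he⟩
  · rw [h]
    simp only [one_ne_zero, ↓reduceIte, Nat.div_one, zero_mul, CharP.cast_eq_zero, Nat.cast_one, div_one, mul_zero]
  · generalize (I.M.getD a []).getD b (0, 1) = e at he ⊢
    by_cases h0 : e.2 = 0
    · simp [h0]
    · rw [if_neg h0]
      obtain ⟨c, hc⟩ := dvd_den hrow he h0
      rw [hc, Nat.mul_div_cancel_left c (Nat.pos_of_ne_zero h0)]
      have h1 : (e.2 : ℚ) ≠ 0 := by exact_mod_cast h0
      push_cast
      (clear * - h1; field_simp)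

theorem Dint_le (M : List (List (ℕ × ℕ))) (a b : ℕ) : Dint M a b ≤ lint M := by
  unfold Dint lint
  rcases rat_entry M a b with h | ⟨row, hrow, he⟩
  · rw [h]
    simp only [one_ne_zero, ↓reduceIte, Nat.div_one, zero_mul, zero_le]
  · generalize (M.getD a []).getD b (0, 1) = e at he ⊢
    have h1 : e.1 ≤ (M.flatMap (fun row => row.map (fun e => e.1))).sum :=
      List.le_sum_of_mem (List.mem_flatMap.2 ⟨row, hrow, List.mem_map.2 ⟨e, he, rfl⟩⟩)
    have h2 : (if e.2 = 0 then 0 else den M / e.2) ≤ den M := by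
      split_ifs
      · exact Nat.zero_le _
      · exact Nat.div_le_self _ _
    rw [mul_comm (den M)]
    exact Nat.mul_le_mul h1 h2

theorem metOn_of_valid {I : Final.Inst} (h : I.Valid) :
    MetOn (Dint I.M) (lint I.M) I.M.length := by
  have hd : (0 : ℚ) < den I.M := by exact_mod_cast den_pos I.M
  refine ⟨fun a ha b hb => ?_, fun a ha b hb => ?_, fun a ha b hb c hc => ?_,
    fun a _ b _ => Dint_le _ a b⟩
  · rw [← h.dist_eq_zero a ha b hb, ← Nat.cast_eq_zero (R := ℚ), Dint_eq,
      mul_eq_zero_iff_left hd.ne']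
  · have : (Dint I.M a b : ℚ) = Dint I.M b a := by
      rw [Dint_eq, Dint_eq, h.dist_comm a ha b hb]
    exact_mod_cast this
  · have : (Dint I.M a c : ℚ) ≤ Dint I.M a b + Dint I.M b c := by
      rw [Dint_eq, Dint_eq, Dint_eq, ← mul_add]
      exact mul_le_mul_of_nonneg_left (h.dist_triangle a ha b hb c hc) hd.le
    exact_mod_cast this

theorem mins_eq_inf {I : Final.Inst} (j : ℕ) {S : List ℕ} (hS : S.toFinset.Nonempty) :
    (mins (Dint I.M) (lint I.M) j S : ℚ) = den I.M * S.toFinset.inf' hS (I.dist j) := by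
  have hd : (0 : ℚ) < den I.M := by exact_mod_cast den_pos I.M
  have key : ∀ T : List ℕ, T ≠ [] →
      (∃ s ∈ T, mins (Dint I.M) (lint I.M) j T = Dint I.M j s) ∧
        ∀ s ∈ T, mins (Dint I.M) (lint I.M) j T ≤ Dint I.M j s := by
    intro T
    induction T with
    | nil => intro h; exact absurd rfl h
    | cons t T ih =>
      intro _
      have he : mins (Dint I.M) (lint I.M) j (t :: T) =
          min (Dint I.M j t) (mins (Dint I.M) (lint I.M) j T) := rfl
      rw [he]
      by_cases hT : T = []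
      · subst hT
        have h1 : mins (Dint I.M) (lint I.M) j [] = lint I.M := rfl
        rw [h1, min_eq_left (Dint_le _ _ _)]
        exact ⟨⟨t, List.mem_cons_self, rfl⟩, fun s hs => by
          rw [List.mem_singleton] at hs
          rw [hs]⟩
      · obtain ⟨⟨s, hs, hse⟩, hle⟩ := ih hT
        refine ⟨?_, ?_⟩
        · rcases min_choice (Dint I.M j t) (mins (Dint I.M) (lint I.M) j T) with h1 | h1
          · exact ⟨t, List.mem_cons_self, h1⟩
          · exact ⟨s, List.mem_cons_of_mem _ hs, h1.trans hse⟩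
        · intro u hu
          rcases List.mem_cons.1 hu with rfl | hu
          · exact min_le_left _ _
          · exact (min_le_right _ _).trans (hle u hu)
  have hS' : S ≠ [] := by
    rintro rfl
    simp at hS
  obtain ⟨⟨s, hs, hse⟩, hle⟩ := key S hS'
  apply le_antisymm
  · obtain ⟨t, ht, hte⟩ := Finset.exists_mem_eq_inf' hS (I.dist j)
    rw [hte, ← Dint_eq]
    exact_mod_cast hle t (List.mem_toFinset.1 ht)
  · rw [hse, Dint_eq]
    exact mul_le_mul_of_nonneg_left (Finset.inf'_le _ (List.mem_toFinset.2 hs)) hd.le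

theorem cost_eq {I : Final.Inst} (h : I.J.Nodup) {S : List ℕ} (hS : S ≠ []) :
    (cst (Dint I.M) (lint I.M) I.J S : ℚ) = den I.M * I.cost S.toFinset := by
  have hne : S.toFinset.Nonempty := by
    obtain ⟨x, hx⟩ := List.exists_mem_of_ne_nil S hS
    exact ⟨x, List.mem_toFinset.2 hx⟩
  have h1 : I.cost S.toFinset =
      (I.J.map (fun j => S.toFinset.inf' hne (I.dist j))).sum := by
    unfold Final.Inst.cost
    rw [← List.sum_toFinset _ h]
    exact Finset.sum_congr rfl (fun j _ => dif_pos hne)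
  rw [h1]
  have h2 : ∀ L : List ℕ, (cst (Dint I.M) (lint I.M) L S : ℚ) =
      den I.M * (L.map (fun j => S.toFinset.inf' hne (I.dist j))).sum := by
    intro L
    induction L with
    | nil => simp [cst]
    | cons a L ih =>
      have h3 : cst (Dint I.M) (lint I.M) (a :: L) S =
          mins (Dint I.M) (lint I.M) a S + cst (Dint I.M) (lint I.M) L S := by
        simp [cst]
      rw [h3, Nat.cast_add, ih, mins_eq_inf a hne, List.map_cons, List.sum_cons, mul_add]
  exact h2 I.J

end Vale.Agent.P334.Alg.One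
end

section

/-!
Polynomial time for the integral distances of a rational instance.
-/

namespace Vale.Agent.P334.Alg.One

open Vale.Agent.Lib.PolyTime

section

variable {α : Type} [Enc α] {M : α → List (List (ℕ × ℕ))}

theorem PT.den (hM : PT ∅ M) : PT ∅ (fun x => den (M x)) := by
  have h1 : PT ∅ (fun p : α × List (ℕ × ℕ) => p.2.map (fun e : ℕ × ℕ => Max.max e.2 1)) :=
    PT.map (l := fun p : α × List (ℕ × ℕ) => p.2)
      (f := fun (_ : α × List (ℕ × ℕ)) (e : ℕ × ℕ) => Max.max e.2 1) PT.snd'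
      (Lib.PolyTime.PT.max PT.snd'.snd (PT.const 1))
  exact PT.prod (PT.flatMap (f := fun _ row => row.map (fun e : ℕ × ℕ => Max.max e.2 1)) hM h1)

theorem PT.lint (hM : PT ∅ M) : PT ∅ (fun x => lint (M x)) := by
  have h1 : PT ∅ (fun p : α × List (ℕ × ℕ) => p.2.map (fun e : ℕ × ℕ => e.1)) :=
    PT.map (l := fun p : α × List (ℕ × ℕ) => p.2)
      (f := fun (_ : α × List (ℕ × ℕ)) (e : ℕ × ℕ) => e.1) PT.snd' PT.snd'.fst
  exact PT.mul (PT.den hM) (PT.sum
    (PT.flatMap (f := fun _ row => row.map (fun e : ℕ × ℕ => e.1)) hM h1))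

theorem PT.Dint {a b : α → ℕ} (hM : PT ∅ M)
    (ha : PT ∅ a) (hb : PT ∅ b) : PT ∅ (fun x => Dint (M x) (a x) (b x)) := by
  have he : PT ∅ (fun x => ((M x).getD (a x) []).getD (b x) (0, 1)) :=
    PT.getD (PT.getD hM ha (PT.const [])) hb (PT.const (0, 1))
  exact PT.mul he.fst (PT.ite (PT.eqNat he.snd (PT.const 0)) (PT.const 0)
    (PT.div (PT.den hM) he.snd))

end

end Vale.Agent.P334.Alg.One
end

section

/-!
T9 (polynomial time), T10 (machine): the algorithm on rational instances is computed by a Turing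
machine in polynomial time.
-/

set_option linter.all false

namespace Vale.Agent.P334.Alg.One

open Vale.Agent.Lib.PolyTime

/-! ### Codes -/

theorem pair_eq (x y : List Bool) : Final.pair x y = pr x y := by
  induction x with
  | nil => rfl
  | cons b x ih => show true :: b :: Final.pair x y = true :: b :: pr x y; rw [ih]

theorem codeList_eq {α : Type} [Enc α] {c : α → List Bool} (hc : ∀ a, c a = enc a) (l : List α) :
    Final.codeList c l = enc l := by
  induction l with
  | nil => rfl
  | cons a l ih => rw [enc_cons, Final.codeList, pair_eq, ih, hc]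

instance : Enc Final.Inst := ⟨Final.Inst.code⟩
instance : Enc Final.Input := ⟨Final.Input.code⟩

theorem inst_code (I : Final.Inst) :
    I.code = enc ((I.J, I.F, I.k, I.M) : List ℕ × List ℕ × ℕ × List (List (ℕ × ℕ))) := by
  rw [Final.Inst.code, pair_eq, pair_eq, pair_eq, enc_pair, enc_pair, enc_pair,
    codeList_eq (c := Nat.bits) (fun a => rfl), codeList_eq (c := Nat.bits) (fun a => rfl),
    codeList_eq (c := Final.codeList fun e : ℕ × ℕ => Final.pair e.1.bits e.2.bits)
      (fun l => codeList_eq (fun e => by rw [pair_eq]; rfl) l)]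
  rfl

theorem PT.inst : PT ∅ (fun I : Final.Inst =>
    ((I.J, I.F, I.k, I.M) : List ℕ × List ℕ × ℕ × List (List (ℕ × ℕ)))) :=
  ⟨_, FP.id, fun I => inst_code I⟩

theorem PT.input : PT ∅ (fun x : Final.Input =>
    (((x.inst.J, x.inst.F, x.inst.k, x.inst.M), Raw.mk x.coins) :
      (List ℕ × List ℕ × ℕ × List (List (ℕ × ℕ))) × Raw)) :=
  ⟨_, FP.id, fun x => by
    show Final.Input.code x = _
    rw [Final.Input.code, pair_eq, inst_code]
    rfl⟩

/-- first bit of a raw word -/
theorem PT.rawHd {A : Set Word} {α : Type} [Enc α] {f : α → Raw} (hf : PT A f) :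
    PT A (fun a => hd (f a).w) := by
  obtain ⟨F, hF, hF'⟩ := hf
  refine ⟨_, hF.case3 (FP.const [false]) (FP.const [false]) (FP.const [true]), fun a => ?_⟩
  rw [hF', enc_raw]
  show case3 (f a).w [false] [false] [true] = [hd (f a).w]
  generalize (f a).w = w
  rcases w with _ | ⟨_ | _, w⟩ <;> rfl

/-- a raw word as a list of Booleans -/
theorem PT.listOfRaw {A : Set Word} {α : Type} [Enc α] {f : α → Raw} (hf : PT A f) :
    PT A (fun a => (f a).w) := by
  have hb : PBd (fun a => (f a).w.length) := hf.pbd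
  have h1 : PT A (fun p : α × ℕ => hd ((f p.1).w.drop p.2)) :=
    PT.rawHd (f := fun p : α × ℕ => Raw.mk ((f p.1).w.drop p.2))
      (PT.rawDrop (hf.comp PT.fst') PT.snd')
  refine (PT.map (l := fun a => List.range (f a).w.length)
    (f := fun a i => hd ((f a).w.drop i)) (PT.range (PT.rawLength hf) hb) h1).congr fun a => ?_
  refine List.ext_getElem (by simp) fun i h2 h3 => ?_
  rw [List.getElem_map, List.getElem_range]
  show (List.drop i (f a).w).headD false = _
  rw [List.headD_eq_head?_getD, List.head?_drop, List.getElem?_eq_getElem h3]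
  rfl

/-! ### The machine -/

theorem PT.alg {P : Data} (h1 : PTPseudo P.pseudo) (h2 : PTTrial P.trial) (h3 : PTU P.Us)
    (h4 : PTL P.Lr) : PT ∅ (fun x : Final.Input => alg P x) := by
  have hi := PT.input
  have hM : PT ∅ (fun x : Final.Input => x.inst.M) := hi.fst.snd.snd.snd
  have hJ : PT ∅ (fun x : Final.Input => x.inst.J) := hi.fst.fst
  have hF : PT ∅ (fun x : Final.Input => x.inst.F) := hi.fst.snd.fst
  have hk : PT ∅ (fun x : Final.Input => x.inst.k) := hi.fst.snd.snd.fst
  have hr : PT ∅ (fun x : Final.Input => x.coins) := PT.listOfRaw hi.snd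
  have hD : PT ∅ (fun p : Final.Input × ℕ × ℕ => One.Dint p.1.inst.M p.2.1 p.2.2) :=
    PT.Dint (hM.comp PT.fst') PT.snd'.fst PT.snd'.snd
  have hl : PT ∅ (fun x : Final.Input => One.lint x.inst.M) := PT.lint hM
  have hN : PT ∅ (fun x : Final.Input => x.inst.M.length) := hM.length
  have hk' : PT ∅ (fun x : Final.Input => min x.inst.k x.inst.F.length) := PT.min hk hF.length
  exact PT.kmed (P := P) h1 h2 h3 h4 (D := fun x : Final.Input => One.Dint x.inst.M)
    (l := fun x => One.lint x.inst.M) (N := fun x => x.inst.M.length) (J := fun x => x.inst.J)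
    (F := fun x => x.inst.F) (k := fun x => min x.inst.k x.inst.F.length)
    (r := fun x => x.coins) hD hl hN hJ hF hk' (fun x => min_le_right _ _) hr

theorem exists_machine {P : Data} (h1 : PTPseudo P.pseudo) (h2 : PTTrial P.trial) (h3 : PTU P.Us)
    (h4 : PTL P.Lr) :
    ∃ M : Turing.TM2ComputableInPolyTime Final.Input.code (Final.codeList Nat.bits) (alg P),
      ∀ k, Finite (M.tm.Γ k) := by
  have e : (Final.codeList Nat.bits) = (enc : List ℕ → List Bool) :=
    funext fun l => codeList_eq (fun a => rfl) l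
  rw [e]
  exact PT.exists_tm2 (PT.alg h1 h2 h3 h4)

/-- A polynomial in the length of the code bounds the number of random bits. -/
theorem exists_poly {P : Data} (h3 : PTU P.Us) (h4 : PTL P.Lr) :
    ∃ T : Polynomial ℕ, ∀ I : Final.Inst,
      P.reps I.J.length I.F.length * P.len I.J.length I.F.length ≤ T.eval I.code.length := by
  have hi := PT.inst
  have hJ : PT ∅ (fun x : Final.Inst => x.J) := hi.fst
  have hF : PT ∅ (fun x : Final.Inst => x.F) := hi.snd.fst
  obtain ⟨c, hc⟩ := pbd_bits (P := P) h3 h4 hJ.length (PBd.length hJ) hF.length (PBd.length hF)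
  refine ⟨(Polynomial.X + Polynomial.C 2) ^ c, fun I => (hc I).trans (le_of_eq ?_)⟩
  rw [Polynomial.eval_pow, Polynomial.eval_add, Polynomial.eval_X, Polynomial.eval_C]
  rfl

end Vale.Agent.P334.Alg.One
end
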