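import Vale.Agent.P334.MathlibUsed
import Vale.Agent.P334.Bdl.B2
import Vale.Agent.P334.Bdl.B4
import Vale.Agent.P334.Bdl.B1

set_option linter.all false

section
attribute [-instance] ProperSMul.toContinuousSMul IsTopologicalTorsor.toContinuousSMul IdemSemiring.toCanonicallyOrderedAdd IdemSemiring.toMulLeftMono IdemSemiring.toMulRightMono AddQuantale.instAddLeftMono AddQuantale.instAddRightMono Quantale.instMulLeftMono Quantale.instMulRightMono FiniteDimensional.rclike_to_real IsScalarTower.complexToReal FiniteDimensional.complexToReal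

/-!
Arithmetic of the prices of the units.
-/

namespace Vale.Agent.P334.Alg

section

variable {n φ D1 G m N w k v : ℕ}

/-- Basic facts on a price below the cap. -/
theorem gfm_basic (hn : 1 ≤ n) (hφ : 1 ≤ φ) (hD : 1 ≤ D1) (hG : G = n * D1 + 1)
    (hm : m = 200 * φ * n * D1) (hN : N = 400 * φ * G * G * m) (hw : 1000 ≤ w) (hk : k ≤ φ)
    (hv : gfm k w N G m v < m * G) :
    ∃ x : ℕ, v + x = k * N ∧ 400000 ≤ x ∧ 200000 ≤ gfm k w N G m v ∧
      gfm k w N G m v * x ≤ m * w * N ∧ m * w * N < (gfm k w N G m v + 1) * x ∧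
      gfm k w N G m (v + 1) * (x - 1) ≤ m * w * N := by
  have hm0 : 1 ≤ m := by
    rw [hm]
    exact Nat.mul_pos (Nat.mul_pos (Nat.mul_pos (by norm_num) hφ) hn) hD
  have hG1 : 1 ≤ G := by omega
  have hlt : v < k * N := by
    by_contra h
    unfold gfm at hv
    rw [if_neg h] at hv
    exact lt_irrefl _ hv
  obtain ⟨x, hx⟩ : ∃ x, v + x = k * N := ⟨k * N - v, by omega⟩
  have hx0 : 0 < x := by omega
  have hxe : k * N - v = x := by omega
  have hg : gfm k w N G m v = m * w * N / x := by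
    have h1 : gfm k w N G m v = min (m * G) (m * w * N / x) := by
      unfold gfm
      rw [if_pos hlt, hxe]
    rw [h1] at hv ⊢
    exact min_eq_right (by
      rcases le_total (m * G) (m * w * N / x) with h | h
      · rw [min_eq_left h] at hv; exact absurd hv (lt_irrefl _)
      · exact h)
  have h1 : gfm k w N G m v * x ≤ m * w * N := by
    rw [hg]; exact Nat.div_mul_le_self _ _
  have h2 : m * w * N < (gfm k w N G m v + 1) * x := by
    rw [hg]
    exact (Nat.div_lt_iff_lt_mul hx0).mp (Nat.lt_succ_self _)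
  -- the distance to `k N`
  have h3 : 400000 * (φ * G * m) < x := by
    have h4 : m * w * N < m * G * x := lt_of_lt_of_le h2 (Nat.mul_le_mul_right _ hv)
    have h5 : w * N < G * x := by
      have : m * (w * N) < m * (G * x) := by
        calc m * (w * N) = m * w * N := by ring
          _ < m * G * x := h4
          _ = m * (G * x) := by ring
      exact lt_of_mul_lt_mul_left this (Nat.zero_le _)
    have h6 : G * (400000 * (φ * G * m)) < G * x := by
      calc G * (400000 * (φ * G * m)) = 1000 * N := by rw [hN]; ring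
        _ ≤ w * N := Nat.mul_le_mul_right _ hw
        _ < G * x := h5
    exact lt_of_mul_lt_mul_left h6 (Nat.zero_le _)
  have h7 : 400000 ≤ x := by
    have : 1 ≤ φ * G * m := Nat.mul_pos (Nat.mul_pos hφ hG1) hm0
    (clear * - hlt hx hxe h3 this; omega)
  -- the price is large
  have h8 : 200000 ≤ gfm k w N G m v := by
    have hN0 : 0 < N := by
      rw [hN]
      exact Nat.mul_pos (Nat.mul_pos (Nat.mul_pos (Nat.mul_pos (by norm_num) hφ) hG1) hG1) hm0
    have e1 : m * w * N < (gfm k w N G m v + 1) * (k * N) :=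
      lt_of_lt_of_le h2 (Nat.mul_le_mul_left _ (by omega))
    have e2 : m * w < (gfm k w N G m v + 1) * k := by
      have : m * w * N < (gfm k w N G m v + 1) * k * N := by
        calc m * w * N < (gfm k w N G m v + 1) * (k * N) := e1
          _ = _ := by ring
      exact lt_of_mul_lt_mul_right this (Nat.zero_le _)
    have e3 : 200000 * φ < (gfm k w N G m v + 1) * φ := by
      calc 200000 * φ ≤ 200000 * φ * (n * D1) :=
            Nat.le_mul_of_pos_right _ (Nat.mul_pos hn hD)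
        _ = m * 1000 := by rw [hm]; ring
        _ ≤ m * w := Nat.mul_le_mul_left _ hw
        _ < (gfm k w N G m v + 1) * k := e2
        _ ≤ (gfm k w N G m v + 1) * φ := Nat.mul_le_mul_left _ hk
    have e4 : 200000 < gfm k w N G m v + 1 := lt_of_mul_lt_mul_right e3 (Nat.zero_le _)
    (clear * - hg e4; omega)
  refine ⟨x, hx, h7, h8, h1, h2, ?_⟩
  have hlt' : v + 1 < k * N := by omega
  have h9 : gfm k w N G m (v + 1) ≤ m * w * N / (x - 1) := by
    unfold gfm
    rw [if_pos hlt', show k * N - (v + 1) = x - 1 by (clear * - hx hxe h7; omega)]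
    exact min_le_right _ _
  exact (Nat.mul_le_mul_right _ h9).trans (Nat.div_mul_le_self _ _)

/-- Prices below the cap: there is room, the next price is at most `51 / 50` times larger, the
product of the price and the room is at least `49 / 50 w`, and the price is positive. -/
theorem gfm_spec (hn : 1 ≤ n) (hφ : 1 ≤ φ) (hD : 1 ≤ D1) (hG : G = n * D1 + 1)
    (hm : m = 200 * φ * n * D1) (hN : N = 400 * φ * G * G * m) (hw : 1000 ≤ w) (hk : k ≤ φ)
    (hv : gfm k w N G m v < m * G) :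
    v + 1 < k * N ∧ (gfm k w N G m (v + 1) : ℝ) ≤ 51 / 50 * gfm k w N G m v ∧
      49 / 50 * (w : ℝ) ≤ (gfm k w N G m v : ℝ) / m * (k - ((v : ℝ) + 1) / N) ∧
      0 < gfm k w N G m v := by
  obtain ⟨x, hx, hx1, hg, h1, h2, h3⟩ := gfm_basic hn hφ hD hG hm hN hw hk hv
  have hm0 : 1 ≤ m := by
    rw [hm]
    exact Nat.mul_pos (Nat.mul_pos (Nat.mul_pos (by norm_num) hφ) hn) hD
  have hG1 : 1 ≤ G := by omega
  have hN0 : 0 < N := by
    rw [hN]
    exact Nat.mul_pos (Nat.mul_pos (Nat.mul_pos (Nat.mul_pos (by norm_num) hφ) hG1) hG1) hm0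
  obtain ⟨y, hy⟩ : ∃ y, x = y + 1 := ⟨x - 1, by omega⟩
  subst hy
  rw [Nat.add_sub_cancel] at h3
  generalize gfm k w N G m v = g at hg h1 h2 hv ⊢
  generalize gfm k w N G m (v + 1) = g' at h3 ⊢
  have hmR : (0 : ℝ) < m := by exact_mod_cast hm0
  have hNR : (0 : ℝ) < N := by exact_mod_cast hN0
  have hgR : (200000 : ℝ) ≤ g := by exact_mod_cast hg
  have hyR : (399999 : ℝ) ≤ y := by
    have : 399999 ≤ y := by omega
    exact_mod_cast this
  have h2R : (m : ℝ) * w * N < (g + 1) * (y + 1) := by exact_mod_cast h2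
  have h3R : (g' : ℝ) * y ≤ m * w * N := by exact_mod_cast h3
  have e1 : (200000 : ℝ) * y ≤ g * y := mul_le_mul_of_nonneg_right hgR (by linarith only [])
  have e2 : (g : ℝ) * 399999 ≤ g * y := mul_le_mul_of_nonneg_left hyR (by linarith only [])
  have hgy : 100 * (g : ℝ) + 100 * y ≤ g * y := by linarith only [e1, e2]
  have e3 : ((g : ℝ) + 1) * (y + 1) = g * y + g + y + 1 := by ring
  rw [e3] at h2R
  have hxR : (v : ℝ) + (y + 1) = k * N := by exact_mod_cast hx
  refine ⟨by omega, ?_, ?_, by omega⟩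
  · by_contra hcon
    push Not at hcon
    have h4 : 51 / 50 * (g : ℝ) * y ≤ g' * y :=
      mul_le_mul_of_nonneg_right hcon.le (by linarith only [])
    have h6 : 51 / 50 * (g : ℝ) * y = g * y + 1 / 50 * (g * y) := by ring
    linarith only [hyR, h2R, h3R, e1, e2, h4]
  · have h5 : (k : ℝ) - ((v : ℝ) + 1) / N = y / N := by
      field_simp
      (clear * - hxR; linarith)
    rw [h5, div_mul_div_comm, le_div_iff₀ (mul_pos hmR hNR)]
    have h6 : 49 / 50 * (w : ℝ) * (m * N) = 49 / 50 * (m * w * N) := by ring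
    linarith only [hyR, h2R, e1, e2]

/-- Prices are monotone. -/
theorem gfm_mono {k w N G m v v' : ℕ} (h : v ≤ v') : gfm k w N G m v ≤ gfm k w N G m v' := by
  unfold gfm
  by_cases h1 : v' < k * N
  · rw [if_pos h1, if_pos (lt_of_le_of_lt h h1)]
    exact min_le_min le_rfl (Nat.div_le_div_left (by omega) (by omega))
  · rw [if_neg h1]
    split_ifs
    · exact min_le_left _ _
    · exact le_rfl

end

end Vale.Agent.P334.Alg
end

section

/-!
The contracted instance and the chain inequality for it.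
-/

namespace Vale.Agent.P334

open Finset

lemma sum_blocks {X : Type} [DecidableEq X] {G CC : Finset X} {A : X → Finset X}
    (hA : ∀ c ∈ CC, A c ⊆ G)
    (hdisj : ∀ c ∈ CC, ∀ c' ∈ CC, ∀ i, i ∈ A c → i ∈ A c' → c = c') (f : X → ℝ)
    [DecidablePred fun i => ∀ c ∈ CC, i ∉ A c] :
    ∑ i ∈ G, f i = ∑ i ∈ G with ∀ c ∈ CC, i ∉ A c, f i + ∑ c ∈ CC, ∑ i ∈ A c, f i := by
  classical
  rw [← Finset.sum_biUnion, ← Finset.sum_filter_add_sum_filter_not G
    (fun i => ∀ c ∈ CC, i ∉ A c)]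
  · congr 1
    apply Finset.sum_congr _ (fun _ _ => rfl)
    ext i
    simp only [Finset.mem_filter, Finset.mem_biUnion]
    constructor
    · rintro ⟨_, h2⟩
      push Not at h2
      exact h2
    · rintro ⟨c, hc, hi⟩
      exact ⟨hA c hc hi, fun h => h c hc hi⟩
  · intro c hc c' hc' hne
    rw [Function.onFun, Finset.disjoint_left]
    intro i hi hi'
    exact hne (hdisj c hc c' hc' i hi hi')

section

variable {X : Type} [MetricSpace X]
variable {J F : Finset X} {g : ℝ} {x : X → X → ℝ} {y r : X → ℝ} {CC : Finset X} {ρ : X → X}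

lemma mem_restF {i : X} : i ∈ restF J F g x y r CC ↔
    i ∈ F ∧ ∀ c ∈ CC, i ∉ near J F g x y r c := by
  classical
  unfold restF
  rw [Finset.mem_filter]

/-- The facility map of the contracted instance. -/
noncomputable def prj (J F : Finset X) (g : ℝ) (x : X → X → ℝ) (y r : X → ℝ) (CC : Finset X)
    (ρ : X → X) : X → X := snap CC (near J F g x y r) ρ

/-- The client map of the contracted instance. -/
noncomputable def ps (J : Finset X) (r : X → ℝ) (CC : Finset X) (ρ : X → X) : X → X :=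
  snap CC (itr J r) ρ

namespace Clu

set_option linter.unusedSectionVars false

variable (h : Clu J F g x y r CC ρ)
include h

lemma prj_near {c i : X} (hc : c ∈ CC) (hi : i ∈ near J F g x y r c) :
    prj J F g x y r CC ρ i = ρ c := snap_mem h.near_disj hc hi

omit h in
lemma prj_rest {i : X} (hi : i ∈ restF J F g x y r CC) : prj J F g x y r CC ρ i = i := by
  classical
  exact snap_notMem (mem_restF.mp hi).2

lemma ps_itr {c j : X} (hc : c ∈ CC) (hj : j ∈ itr J r c) : ps J r CC ρ j = ρ c :=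
  snap_mem h.itr_disj hc hj

omit h in
lemma ps_rest {j : X} (hj : ∀ c ∈ CC, j ∉ itr J r c) : ps J r CC ρ j = j := snap_notMem hj

lemma ps_eq_iff {c j : X} (hc : c ∈ CC) (hjJ : j ∈ J) :
    ps J r CC ρ j = ρ c ↔ j ∈ itr J r c := by
  constructor
  · intro he
    by_cases hj : ∃ c' ∈ CC, j ∈ itr J r c'
    · obtain ⟨c', hc', hj⟩ := hj
      rw [h.ps_itr hc' hj] at he
      rwa [← h.rep_inj hc' hc he]
    · push Not at hj
      rw [ps_rest hj] at he
      exfalso
      have h1 := not_itr hjJ (hj c hc)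
      have h2 := h.rep_dist hc
      have h3 := h.rpos c
      rw [he] at h1
      linarith
  · intro hj; exact h.ps_itr hc hj

lemma fiber_rep [DecidableEq X] {c : X} (hc : c ∈ CC) :
    F.filter (fun i => prj J F g x y r CC ρ i = ρ c) = near J F g x y r c := by
  classical
  ext i
  simp only [Finset.mem_filter]
  constructor
  · rintro ⟨hi, he⟩
    by_cases hi2 : ∃ c' ∈ CC, i ∈ near J F g x y r c'
    · obtain ⟨c', hc', hi3⟩ := hi2
      rw [h.prj_near hc' hi3] at he
      rwa [← h.rep_inj hc' hc he]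
    · push Not at hi2
      rw [prj_rest (mem_restF.mpr ⟨hi, hi2⟩)] at he
      rw [he]; exact h.rep c hc
  · intro hi
    exact ⟨near_sub hi, h.prj_near hc hi⟩

lemma fiber_rest [DecidableEq X] {i : X} (hi : i ∈ restF J F g x y r CC) :
    F.filter (fun i' => prj J F g x y r CC ρ i' = i) = {i} := by
  classical
  obtain ⟨hiF, hi2⟩ := mem_restF.mp hi
  ext i'
  simp only [Finset.mem_filter, Finset.mem_singleton]
  constructor
  · rintro ⟨hi', he⟩
    by_cases hi3 : ∃ c' ∈ CC, i' ∈ near J F g x y r c'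
    · obtain ⟨c', hc', hi4⟩ := hi3
      rw [h.prj_near hc' hi4] at he
      exfalso
      exact hi2 c' hc' (by rw [← he]; exact h.rep c' hc')
    · push Not at hi3
      rw [prj_rest (mem_restF.mpr ⟨hi', hi3⟩)] at he
      exact he
  · rintro rfl
    exact ⟨hiF, prj_rest hi⟩

lemma reps_sub [DecidableEq X] : CC.image ρ ⊆ F.image (prj J F g x y r CC ρ) := by
  intro i hi
  obtain ⟨c, hc, rfl⟩ := Finset.mem_image.mp hi
  exact Finset.mem_image.mpr ⟨ρ c, near_sub (h.rep c hc), h.prj_near hc (h.rep c hc)⟩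

lemma sdiff_reps [DecidableEq X] :
    F.image (prj J F g x y r CC ρ) \ CC.image ρ = restF J F g x y r CC := by
  classical
  ext i
  simp only [Finset.mem_sdiff, Finset.mem_image]
  constructor
  · rintro ⟨⟨i', hi', he⟩, hno⟩
    by_cases hi3 : ∃ c' ∈ CC, i' ∈ near J F g x y r c'
    · obtain ⟨c', hc', hi4⟩ := hi3
      rw [h.prj_near hc' hi4] at he
      exact absurd ⟨c', hc', he⟩ hno
    · push Not at hi3
      have hm : i' ∈ restF J F g x y r CC := mem_restF.mpr ⟨hi', hi3⟩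
      rw [prj_rest hm] at he
      rwa [← he]
  · intro hi
    obtain ⟨hiF, hi2⟩ := mem_restF.mp hi
    refine ⟨⟨i, hiF, prj_rest hi⟩, ?_⟩
    rintro ⟨c, hc, he⟩
    exact hi2 c hc (by rw [← he]; exact h.rep c hc)

lemma image_sub [DecidableEq X] : F.image (prj J F g x y r CC ρ) ⊆ F := by
  classical
  intro i hi
  obtain ⟨i', hi', rfl⟩ := Finset.mem_image.mp hi
  by_cases hi3 : ∃ c' ∈ CC, i' ∈ near J F g x y r c'
  · obtain ⟨c', hc', hi4⟩ := hi3
    rw [h.prj_near hc' hi4]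
    exact near_sub (h.rep c' hc')
  · push Not at hi3
    rw [prj_rest (mem_restF.mpr ⟨hi', hi3⟩)]
    exact hi'

lemma nR_eq {c : X} (hc : c ∈ CC) : nR J (ps J r CC ρ) (ρ c) = (itr J r c).card := by
  classical
  unfold nR
  norm_cast
  congr 1
  ext j
  simp only [Finset.mem_filter]
  constructor
  · rintro ⟨h1, h2⟩; exact (h.ps_eq_iff hc h1).mp h2
  · intro hj; exact ⟨itr_sub hj, h.ps_itr hc hj⟩

/-- Sums over facilities. -/
lemma sum_fac (f : X → ℝ) : ∑ i ∈ F, f i = ∑ i ∈ restF J F g x y r CC, f i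
    + ∑ c ∈ CC, ∑ i ∈ near J F g x y r c, f i := by
  classical
  exact sum_blocks (fun c _ => near_sub) h.near_disj f

/-- Total displacement of the clients. -/
lemma sum_disp (w : X → ℝ) : ∑ j ∈ J, w j * dist j (ps J r CC ρ j)
    = ∑ c ∈ CC, ∑ j ∈ itr J r c, w j * dist (ρ c) j := by
  classical
  rw [sum_blocks (CC := CC) (A := itr J r) (fun c _ => itr_sub) h.itr_disj
    (fun j => w j * dist j (ps J r CC ρ j))]
  rw [Finset.sum_eq_zero, zero_add]
  · refine Finset.sum_congr rfl (fun c hc => Finset.sum_congr rfl (fun j hj => ?_))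
    rw [h.ps_itr hc hj, dist_comm]
  · intro j hj
    rw [ps_rest (Finset.mem_filter.mp hj).2, dist_self, mul_zero]

/-- The displacement weighted by the assignment to other facilities. -/
lemma disp_bound : ∑ i ∈ F, ∑ j ∈ J, x i j * dist j (ps J r CC ρ j)
      - ∑ c ∈ CC, ∑ i ∈ near J F g x y r c, ∑ j ∈ itr J r c, x i j * dist j (ps J r CC ρ j)
    ≤ 1 / 249 * ∑ c ∈ CC, ain J F g x y r c := by
  have h1 : ∑ i ∈ F, ∑ j ∈ J, x i j * dist j (ps J r CC ρ j)
      = ∑ c ∈ CC, ∑ j ∈ itr J r c, dist (ρ c) j := by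
    rw [Finset.sum_comm]
    have e : ∀ j ∈ J, ∑ i ∈ F, x i j * dist j (ps J r CC ρ j)
        = 1 * dist j (ps J r CC ρ j) := by
      intro j hj
      rw [← Finset.sum_mul, h.rad.sol.assign j hj]
    rw [Finset.sum_congr rfl e, h.sum_disp (fun _ => 1)]
    simp only [one_mul]
  have h2 : ∀ c ∈ CC, ∑ i ∈ near J F g x y r c, ∑ j ∈ itr J r c, x i j * dist j (ps J r CC ρ j)
      = (∑ i ∈ near J F g x y r c, y i) * ∑ j ∈ itr J r c, dist (ρ c) j := by
    intro c hc
    rw [Finset.sum_mul]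
    refine Finset.sum_congr rfl (fun i hi => ?_)
    rw [Finset.mul_sum]
    refine Finset.sum_congr rfl (fun j hj => ?_)
    rw [h.xeq hi hj, h.ps_itr hc hj, dist_comm]
  rw [h1, Finset.sum_congr rfl h2, ← Finset.sum_sub_distrib, Finset.mul_sum]
  refine Finset.sum_le_sum (fun c hc => ?_)
  have h3 := h.in_le hc
  have h4 := mul_le_mul_of_nonneg_right (h.mass c hc) (h.in_nonneg (c := c))
  have h5 := h.in_nonneg (c := c)
  linarith only [h3, h4]

/-- Cost of the contracted instance. -/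
lemma contr_cost : ∑ i ∈ F, ∑ j ∈ J, x i j * dist (prj J F g x y r CC ρ i) (ps J r CC ρ j)
    ≤ fracCost J F x - 49 / 50 * ∑ c ∈ CC, ain J F g x y r c := by
  classical
  set P := prj J F g x y r CC ρ with hP
  set Q := ps J r CC ρ with hQ
  have hx0 := h.rad.sol.x_nonneg
  -- rest facilities
  have h1 : ∑ i ∈ restF J F g x y r CC, ∑ j ∈ J, x i j * dist (P i) (Q j)
      ≤ ∑ i ∈ restF J F g x y r CC, ∑ j ∈ J, (x i j * dist i j + x i j * dist j (Q j)) := by
    refine Finset.sum_le_sum (fun i hi => Finset.sum_le_sum (fun j hj => ?_))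
    have hiF : i ∈ F := (mem_restF.mp hi).1
    rw [hP, prj_rest hi, ← mul_add]
    exact mul_le_mul_of_nonneg_left (dist_triangle _ _ _) (hx0 i hiF j hj)
  -- near facilities
  have h2 : ∀ c ∈ CC, ∑ i ∈ near J F g x y r c, ∑ j ∈ J, x i j * dist (P i) (Q j)
      ≤ ∑ i ∈ near J F g x y r c, (∑ j ∈ J, (x i j * dist i j + x i j * dist j (Q j))
        - ∑ j ∈ itr J r c, (x i j * dist i j + x i j * dist j (Q j))
        + (∑ j ∈ J \ itr J r c, x i j) * dist i (ρ c)) := by
    intro c hc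
    refine Finset.sum_le_sum (fun i hi => ?_)
    have hsub : itr J r c ⊆ J := itr_sub
    rw [← Finset.sum_sdiff hsub, ← Finset.sum_sdiff hsub
      (f := fun j => x i j * dist i j + x i j * dist j (Q j))]
    have h3 : ∑ j ∈ itr J r c, x i j * dist (P i) (Q j) = 0 := by
      refine Finset.sum_eq_zero (fun j hj => ?_)
      rw [hP, hQ, h.prj_near hc hi, h.ps_itr hc hj, dist_self, mul_zero]
    have h4 : ∑ j ∈ J \ itr J r c, x i j * dist (P i) (Q j)
        ≤ ∑ j ∈ J \ itr J r c, ((x i j * dist i j + x i j * dist j (Q j))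
          + x i j * dist i (ρ c)) := by
      refine Finset.sum_le_sum (fun j hj => ?_)
      have hjJ := (Finset.mem_sdiff.mp hj).1
      rw [hP, h.prj_near hc hi, ← mul_add, ← mul_add]
      apply mul_le_mul_of_nonneg_left _ (hx0 i (near_sub hi) j hjJ)
      have e1 := dist_triangle (ρ c) i (Q j)
      have e2 := dist_triangle i j (Q j)
      rw [dist_comm (ρ c) i] at e1
      linarith only [e1, e2]
    rw [Finset.sum_add_distrib, ← Finset.sum_mul] at h4
    rw [h3]
    linarith only [h4]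
  have h3 := Finset.sum_le_sum h2
  simp only [Finset.sum_add_distrib, Finset.sum_sub_distrib] at h1 h3
  have hA : ∑ c ∈ CC, ∑ i ∈ near J F g x y r c, (∑ j ∈ J \ itr J r c, x i j) * dist i (ρ c)
      ≤ 1 / 100 * ∑ c ∈ CC, ain J F g x y r c := by
    rw [Finset.mul_sum]
    exact Finset.sum_le_sum (fun c hc => h.move_fac hc)
  have hD := h.disp_bound
  rw [← hQ] at hD
  rw [h.sum_fac (fun i => ∑ j ∈ J, x i j * dist j (Q j))] at hD
  have hC : fracCost J F x = ∑ i ∈ restF J F g x y r CC, ∑ j ∈ J, x i j * dist i j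
      + ∑ c ∈ CC, ∑ i ∈ near J F g x y r c, ∑ j ∈ J, x i j * dist i j := by
    rw [← sum_fcl]
    exact h.sum_fac (fun i => fcl J x i)
  have hain : ∑ c ∈ CC, ain J F g x y r c
      = ∑ c ∈ CC, ∑ i ∈ near J F g x y r c, ∑ j ∈ itr J r c, x i j * dist i j := rfl
  have hain0 : 0 ≤ ∑ c ∈ CC, ain J F g x y r c := Finset.sum_nonneg (fun c _ => h.ain_nonneg)
  rw [h.sum_fac (fun i => ∑ j ∈ J, x i j * dist (P i) (Q j))]
  rw [← hain] at h3
  linarith only [h1, h3, hA, hD, hC, hain0]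

/-- Cost of the contracted instance through the remaining facilities. -/
lemma contr_rest : ∑ i ∈ restF J F g x y r CC, fcl J x i - 1 / 249 * ∑ c ∈ CC, ain J F g x y r c
    ≤ ∑ i ∈ restF J F g x y r CC, ∑ j ∈ J, x i j * dist i (ps J r CC ρ j) := by
  classical
  set Q := ps J r CC ρ with hQ
  have hx0 := h.rad.sol.x_nonneg
  have hD := h.disp_bound
  rw [← hQ, h.sum_fac (fun i => ∑ j ∈ J, x i j * dist j (Q j))] at hD
  have h1 : ∑ i ∈ restF J F g x y r CC, fcl J x i
      ≤ ∑ i ∈ restF J F g x y r CC, ∑ j ∈ J, (x i j * dist i (Q j) + x i j * dist j (Q j)) := by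
    refine Finset.sum_le_sum (fun i hi => Finset.sum_le_sum (fun j hj => ?_))
    have hiF : i ∈ F := (mem_restF.mp hi).1
    rw [← mul_add]
    apply mul_le_mul_of_nonneg_left _ (hx0 i hiF j hj)
    have := dist_triangle i (Q j) j
    rwa [dist_comm (Q j) j] at this
  have h2 : ∑ c ∈ CC, ∑ i ∈ near J F g x y r c, ∑ j ∈ itr J r c, x i j * dist j (Q j)
      ≤ ∑ c ∈ CC, ∑ i ∈ near J F g x y r c, ∑ j ∈ J, x i j * dist j (Q j) := by
    refine Finset.sum_le_sum (fun c _ => Finset.sum_le_sum (fun i hi => ?_))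
    apply Finset.sum_le_sum_of_subset_of_nonneg itr_sub
    intro j hj _
    exact mul_nonneg (hx0 i (near_sub hi) j hj) dist_nonneg
  simp only [Finset.sum_add_distrib] at h1
  linarith only [hD, h2, h1]

lemma rep_far {c l : X} (hc : c ∈ CC) (hl : l ∈ J) (hne : ps J r CC ρ l ≠ ρ c) :
    23 / 200 * r c ≤ dist (ρ c) (ps J r CC ρ l) := by
  have hr := h.rpos c
  by_cases hl2 : ∃ c' ∈ CC, l ∈ itr J r c'
  · obtain ⟨c', hc', hl3⟩ := hl2
    rw [h.ps_itr hc' hl3] at hne ⊢
    have hcc : c ≠ c' := fun he => hne (by rw [he])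
    have := h.rep_sep hc hc' hcc
    linarith
  · push Not at hl2
    rw [ps_rest hl2]
    exact h.far (h.rep_dist hc) hl (hl2 c hc)

/-- The cost of a set is at most the cost of the contracted instance plus the displacement. -/
lemma cost_le_contr (S : Finset X) : cost J S
    ≤ ∑ c ∈ CC, ∑ j ∈ itr J r c, dist (ρ c) j
      + ∑ j ∈ J, Metric.infDist (ps J r CC ρ j) (S : Set X) := by
  have h1 := h.sum_disp (fun _ => 1)
  simp only [one_mul] at h1
  rw [← h1, ← Finset.sum_add_distrib]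
  unfold cost
  refine Finset.sum_le_sum (fun j _ => ?_)
  rw [add_comm]
  exact Metric.infDist_le_infDist_add_dist

lemma sum_in_le : ∑ c ∈ CC, ∑ j ∈ itr J r c, dist (ρ c) j
    ≤ 250 / 249 * ∑ c ∈ CC, ain J F g x y r c := by
  rw [Finset.mul_sum]
  exact Finset.sum_le_sum (fun c hc => h.in_le hc)

/-- The weight of the far clients in a star with representative as facility. -/
lemma star_weight [DecidableEq X] {c : X} (hc : c ∈ CC) {w : X → ℝ} (hw : ∀ l ∈ J, 0 ≤ w l)
    {f : ℝ} (hf : 0 ≤ f) :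
    f / nR J (ps J r CC ρ) (ρ c) * ∑ l ∈ J with ps J r CC ρ l ≠ ρ c, w l
      ≤ 45 * (f / g) * ∑ l ∈ J, w l * dist (ρ c) (ps J r CC ρ l) := by
  rw [h.nR_eq hc]
  have hn := h.card_pos hc
  have hr := h.rpos c
  have hg := h.rad.g_pos
  set n : ℝ := ((itr J r c).card : ℝ) with hndef
  set W := ∑ l ∈ J with ps J r CC ρ l ≠ ρ c, w l with hW
  set D := ∑ l ∈ J, w l * dist (ρ c) (ps J r CC ρ l) with hD
  have hW0 : 0 ≤ W := Finset.sum_nonneg (fun l hl => hw l (Finset.mem_filter.mp hl).1)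
  have h1 : W * (23 / 200 * r c) ≤ D := by
    rw [hW, Finset.sum_mul]
    calc ∑ l ∈ J with ps J r CC ρ l ≠ ρ c, w l * (23 / 200 * r c)
        ≤ ∑ l ∈ J with ps J r CC ρ l ≠ ρ c, w l * dist (ρ c) (ps J r CC ρ l) := by
          refine Finset.sum_le_sum (fun l hl => ?_)
          obtain ⟨hl1, hl2⟩ := Finset.mem_filter.mp hl
          exact mul_le_mul_of_nonneg_left (h.rep_far hc hl1 hl2) (hw l hl1)
      _ ≤ D := by
          apply Finset.sum_le_sum_of_subset_of_nonneg (Finset.filter_subset _ _)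
          intro l hl _
          exact mul_nonneg (hw l hl) dist_nonneg
  have hD0 : 0 ≤ D := le_trans (by (clear * - hW0 hr; positivity)) h1
  have h2 : g ≤ 5 * (n * r c) := by
    have := h.big c hc
    linarith only [this]
  have h3 : W * g ≤ 45 * D * n := by
    have e1 := mul_le_mul_of_nonneg_left h2 hW0
    have e2 : W * (5 * (n * r c)) = 5 * n * (200 / 23) * (W * (23 / 200 * r c)) := by ring
    have e3 := mul_le_mul_of_nonneg_left h1 (by (clear * - hn; positivity) : 0 ≤ 5 * n * (200 / 23))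
    have e4 : 0 ≤ D * n := by (clear * - hD0 hn; positivity)
    nlinarith only [e1, e3, e4]
  have h4 : f / n * W = f * (W * g) / (n * g) := by (clear * - hg hn; field_simp)
  have h5 : 45 * (f / g) * D = f * (45 * D * n) / (n * g) := by (clear * - hn hg; field_simp)
  rw [h4, h5]
  exact div_le_div_of_nonneg_right (mul_le_mul_of_nonneg_left h3 hf) (by (clear * - hn hg; positivity))

/-- The chain inequality for the contracted instance. -/
theorem case1_chain [DecidableEq X] {ε t : ℝ} (hε : 0 ≤ ε) (hε1 : ε ≤ 1) (ht : 0 < t) {M : ℕ}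
    (hM : 1 ≤ M) (hMε : 1 ≤ ε * M) {m N : ℕ} (hm : 1 ≤ m) (hN1 : 0 < N)
    (hN2 : N ≤ (F.image (prj J F g x y r CC ρ)).card) :
    ∃ (f : ℝ) (S : Finset X) (φ C' CU : ℝ), 0 ≤ f ∧ S ⊆ F ∧ S.card = N ∧ 0 ≤ φ ∧
      (φ < t * (1 + ε) ^ (m - 1) → cost J S
        ≤ 250 / 249 * ∑ c ∈ CC, ain J F g x y r c + φ) ∧
      0 ≤ CU ∧ CU ≤ C' ∧ C' ≤ fracCost J F x - 49 / 50 * ∑ c ∈ CC, ain J F g x y r c ∧
      ∑ i ∈ restF J F g x y r CC, fcl J x i - 1 / 249 * ∑ c ∈ CC, ain J F g x y r c ≤ CU ∧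
      ∀ T : ℝ, 1 ≤ T → φ + f * N ≤ 3 * f * ((M + 3) * m) + t * J.card + f * ∑ i ∈ F, y i
        + (2 + 90 * ε * (f / g)) * C'
        + (ε + 2 * (1 / (2048 * (T + 2)) / T)) * (f * ∑ i ∈ restF J F g x y r CC, y i)
        + (2 * ε - 1 / (2048 * (T + 2))) * CU := by
  classical
  set P := prj J F g x y r CC ρ with hP
  set Q := ps J r CC ρ with hQ
  set U := restF J F g x y r CC with hU
  have hg := h.rad.g_pos
  have hx0 := h.rad.sol.x_nonneg
  have hxle := h.rad.sol.x_le
  have hy0 := h.rad.sol.y_nonneg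
  set x' : X → X → ℝ := fun i j => ∑ i' ∈ F with P i' = i, x i' j with hx'
  set y' : X → ℝ := fun i => ∑ i' ∈ F with P i' = i, y i' with hy'
  have hx'0 : ∀ i, ∀ j ∈ J, 0 ≤ x' i j := fun i j hj =>
    Finset.sum_nonneg (fun i' hi' => hx0 i' (Finset.mem_filter.mp hi').1 j hj)
  have hx'y' : ∀ i, ∀ j ∈ J, x' i j ≤ y' i := fun i j hj =>
    Finset.sum_le_sum (fun i' hi' => hxle i' (Finset.mem_filter.mp hi').1 j hj)
  have hy'0 : ∀ i, 0 ≤ y' i := fun i =>
    Finset.sum_nonneg (fun i' hi' => hy0 i' (Finset.mem_filter.mp hi').1)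
  have hfr : ∀ c ∈ CC, F.filter (fun i' => P i' = ρ c) = near J F g x y r c :=
    fun c hc => h.fiber_rep hc
  have hx'r : ∀ c ∈ CC, ∀ j, x' (ρ c) j = ∑ i ∈ near J F g x y r c, x i j := by
    intro c hc j
    simp only [hx', hfr c hc]
  have hy'r : ∀ c ∈ CC, y' (ρ c) = ∑ i ∈ near J F g x y r c, y i := by
    intro c hc
    simp only [hy', hfr c hc]
  have hx'u : ∀ i ∈ U, ∀ j, x' i j = x i j := by
    intro i hi j
    have : F.filter (fun i' => P i' = i) = {i} := h.fiber_rest hi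
    simp only [hx', this, Finset.sum_singleton]
  have hy'u : ∀ i ∈ U, y' i = y i := by
    intro i hi
    have : F.filter (fun i' => P i' = i) = {i} := h.fiber_rest hi
    simp only [hy', this, Finset.sum_singleton]
  have hasg : ∀ j ∈ J, ∑ i ∈ F.image P, x' i j = 1 := by
    intro j hj
    rw [← h.rad.sol.assign j hj]
    exact Finset.sum_fiberwise_of_maps_to (fun i hi => Finset.mem_image_of_mem P hi) _
  obtain ⟨f, S, hf, hSF, hSN, φ, hφ0, hφ1, hmain⟩ := windows_chain J (F.image P) (CC.image ρ)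
    h.reps_sub Q x' y' hε ht hM hMε (fun i _ j hj => hx'0 i j hj) (fun i _ j hj => hx'y' i j hj)
    (fun i _ => hy'0 i) hasg
    (by
      intro v hv
      obtain ⟨c, hc, rfl⟩ := Finset.mem_image.mp hv
      rw [hQ, h.nR_eq hc]
      exact h.card_pos hc)
    (by
      intro v hv
      obtain ⟨c, hc, rfl⟩ := Finset.mem_image.mp hv
      rw [hy'r c hc]
      linarith only [h.mass c hc])
    (by
      intro v hv j hj he
      obtain ⟨c, hc, rfl⟩ := Finset.mem_image.mp hv
      rw [hx'r c hc, hy'r c hc]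
      have hji := (h.ps_eq_iff hc hj).mp he
      exact Finset.sum_congr rfl (fun i hi => h.xeq hi hji)) hm hN1 hN2
  have hinj : Set.InjOn ρ (CC : Set X) := fun c hc c' hc' he =>
    h.rep_inj (Finset.mem_coe.mp hc) (Finset.mem_coe.mp hc') he
  -- the two parts of the cost of the contracted instance
  obtain ⟨CU, hCU⟩ : ∃ CU : ℝ, CU = ∑ i ∈ U, ∑ j ∈ J, x i j * dist i (Q j) := ⟨_, rfl⟩
  obtain ⟨CR, hCR⟩ : ∃ CR : ℝ, CR = ∑ c ∈ CC, ∑ j ∈ J, x' (ρ c) j * dist (ρ c) (Q j) := ⟨_, rfl⟩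
  have hCR0 : 0 ≤ CR := by
    rw [hCR]
    exact Finset.sum_nonneg (fun c _ => Finset.sum_nonneg (fun j hj =>
      mul_nonneg (hx'0 _ j hj) dist_nonneg))
  have hCU0 : 0 ≤ CU := by
    rw [hCU]
    exact Finset.sum_nonneg (fun i hi => Finset.sum_nonneg (fun j hj =>
      mul_nonneg (hx0 i (mem_restF.mp hi).1 j hj) dist_nonneg))
  have hsum : CU + CR = ∑ i ∈ F, ∑ j ∈ J, x i j * dist (P i) (Q j) := by
    rw [h.sum_fac (fun i => ∑ j ∈ J, x i j * dist (P i) (Q j)), hCU, hCR]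
    congr 1
    · refine Finset.sum_congr rfl (fun i hi => ?_)
      rw [hP, prj_rest hi]
    · refine Finset.sum_congr rfl (fun c hc => ?_)
      rw [Finset.sum_comm (s := near J F g x y r c)]
      refine Finset.sum_congr rfl (fun j _ => ?_)
      rw [hx'r c hc, Finset.sum_mul]
      refine Finset.sum_congr rfl (fun i hi => ?_)
      rw [hP, h.prj_near hc hi]
  have hcc := h.contr_cost
  rw [← hP, ← hQ, ← hsum] at hcc
  have hcr := h.contr_rest
  rw [← hQ, ← hU, ← hCU] at hcr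
  refine ⟨f, S, φ, CU + CR, CU, hf, hSF.trans h.image_sub, hSN, hφ0, ?_, hCU0, by linarith only [hCR0], hcc,
    hcr, ?_⟩
  · intro hlt
    have h1 := h.cost_le_contr S
    have h2 := hφ1 hlt
    have h3 := h.sum_in_le
    linarith only [h1, h2, h3]
  · intro T hT
    have hT0 : 0 < T := by linarith only [hT]
    have h1 := hmain T hT0
    rw [Finset.sum_image hinj, h.sdiff_reps] at h1
    have h2 : ∑ c ∈ CC, (f * y' (ρ c) + 2 * ∑ j ∈ J, x' (ρ c) j * dist (ρ c) (Q j)
        + 2 * ε * (f / nR J Q (ρ c)) * ∑ l ∈ J with Q l ≠ ρ c, x' (ρ c) l)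
        ≤ ∑ c ∈ CC, (f * ∑ i ∈ near J F g x y r c, y i
          + (2 + 90 * ε * (f / g)) * ∑ j ∈ J, x' (ρ c) j * dist (ρ c) (Q j)) := by
      refine Finset.sum_le_sum (fun c hc => ?_)
      have h3 := h.star_weight hc (w := fun l => x' (ρ c) l) (fun l hl => hx'0 _ l hl) hf
      rw [← hQ] at h3
      have h4 := mul_le_mul_of_nonneg_left h3 (by linarith only [hε] : 0 ≤ 2 * ε)
      rw [hy'r c hc]
      linarith only [h4]
    rw [Finset.sum_add_distrib (s := CC) (f := fun c => f * ∑ i ∈ near J F g x y r c, y i),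
      ← Finset.mul_sum, ← Finset.mul_sum, ← hCR] at h2
    have h3 : ∑ i ∈ restF J F g x y r CC, ((1 + 1 / (2048 * (T + 2)) / T) * f * y' i
          + (2 - 1 / (2048 * (T + 2))) * ∑ j ∈ J, x' i j * dist i (Q j))
        = (1 + 1 / (2048 * (T + 2)) / T) * f * ∑ i ∈ U, y i
          + (2 - 1 / (2048 * (T + 2))) * CU := by
      rw [hCU, Finset.mul_sum, Finset.mul_sum, ← Finset.sum_add_distrib, ← hU]
      refine Finset.sum_congr rfl (fun i hi => ?_)
      rw [hy'u i hi, Finset.sum_congr rfl (fun j _ => by rw [hx'u i hi j])]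
    rw [h3] at h1
    have h4 := h.sum_fac y
    rw [← hU] at h4
    have hYU : 0 ≤ ∑ i ∈ U, y i := Finset.sum_nonneg (fun i hi => hy0 i (mem_restF.mp hi).1)
    have hδ0 : 0 < 1 / (2048 * (T + 2)) := by (clear * - hT; positivity)
    have hδ1 : 1 / (2048 * (T + 2)) / T ≥ 0 := by (clear * - hT; positivity)
    set δ := 1 / (2048 * (T + 2)) with hδ
    have hfY : 0 ≤ f * ∑ i ∈ U, y i := mul_nonneg hf hYU
    have h5 : (1 + ε) * ((1 + δ / T) * f * ∑ i ∈ U, y i + (2 - δ) * CU)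
        ≤ f * ∑ i ∈ U, y i + (ε + 2 * (δ / T)) * (f * ∑ i ∈ U, y i)
          + 2 * CU + (2 * ε - δ) * CU := by
      have e1 : ε * (δ / T) * (f * ∑ i ∈ U, y i) ≤ (δ / T) * (f * ∑ i ∈ U, y i) := by
        apply mul_le_mul_of_nonneg_right _ hfY
        nlinarith only [hε1, hδ1]
      have e2 : 0 ≤ ε * δ * CU := by (clear * - hε hT hCU0; positivity)
      nlinarith only [e1, e2]
    have h6 : 0 ≤ 90 * ε * (f / g) * CU := by (clear * - hε hf hg hCU0; positivity)
    have h7 : f * ∑ i ∈ F, y i = f * ∑ i ∈ U, y i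
        + f * ∑ c ∈ CC, ∑ i ∈ near J F g x y r c, y i := by rw [h4]; ring
    rw [h7]
    (clear * - h2 h1 h5 h6; linarith)

end Clu

end

end Vale.Agent.P334
end

section

/-!
The first case: a substantial part of the cost is inside the clusters or at the remaining
facilities.
-/

namespace Vale.Agent.P334

open Finset

/-- The constants of the first case. -/
lemma const1 {κ0 κ ε T1 T2 : ℝ} (hκ0 : 0 < κ0) (hκ01 : κ0 ≤ 1 / 100) (hT2 : T2 = 10 ^ 10 / κ0)
    (hκ : κ = κ0 / (8 * (2048 * (T2 + 2)))) (hT1 : T1 = 10 ^ 6 / κ) (hε : ε = κ / 10 ^ 10) :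
    0 < κ ∧ κ ≤ 1 / 1000 ∧ 1 ≤ T1 ∧ 1 ≤ T2 ∧ 0 < 1 / (2048 * (T2 + 2)) ∧
    1 / (2048 * (T2 + 2)) ≤ 1 / 100 ∧ 1 / (2048 * (T2 + 2)) * κ0 = 8 * κ ∧ 0 < ε ∧
    90 * ε ≤ κ / 32 ∧ 2 * ε ≤ 1 / (2048 * (T1 + 2)) ∧ 2 * ε ≤ 1 / (2048 * (T2 + 2)) ∧
    1000 * ε ≤ κ / 100 ∧ (ε + 2 * (1 / (2048 * (T1 + 2)) / T1)) * 10 ^ 7 ≤ κ / 16 ∧
    0 ≤ ε + 2 * (1 / (2048 * (T2 + 2)) / T2) ∧
    (ε + 2 * (1 / (2048 * (T2 + 2)) / T2)) * (9 * 10 ^ 7) ≤ 8 * κ / 20 := by
  have hT2' : 1 ≤ T2 := by
    rw [hT2, le_div_iff₀ hκ0]; linarith only [hκ01]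
  have hκpos : 0 < κ := by rw [hκ]; positivity
  have hκ1 : κ ≤ 1 / 1000 := by
    rw [hκ, div_le_iff₀ (by positivity)]
    linarith
  have hT1' : 1 ≤ T1 := by
    rw [hT1, le_div_iff₀ hκpos]; linarith only [hκ1]
  have hδκ : 1 / (2048 * (T2 + 2)) * κ0 = 8 * κ := by
    rw [hκ]; field_simp
  have hδ2 : 0 < 1 / (2048 * (T2 + 2)) := by positivity
  have hεpos : 0 < ε := by rw [hε]; positivity
  have hδ21 : 1 / (2048 * (T2 + 2)) ≤ 1 / 100 := by
    apply one_div_le_one_div_of_le (by norm_num)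
    nlinarith only [hT2']
  have hδ11 : 1 / (2048 * (T1 + 2)) ≤ 1 / 4096 := by
    apply one_div_le_one_div_of_le (by norm_num)
    nlinarith only [hT1']
  have hT1κ : T1 * κ = 10 ^ 6 := by rw [hT1]; (clear * - hκpos; field_simp)
  refine ⟨hκpos, hκ1, hT1', hT2', hδ2, hδ21, hδκ, hεpos, ?_, ?_, ?_, ?_, ?_, by (clear * - hεpos hT2'; positivity), ?_⟩
  · rw [hε]; linarith only [hε, hεpos]
  · rw [le_div_iff₀ (by (clear * - hT1'; positivity)), hε]
    nlinarith only [hκ1, hT1κ]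
  · have h1 : 8 * κ ≤ 1 / (2048 * (T2 + 2)) * 1 := by
      rw [← hδκ]
      exact mul_le_mul_of_nonneg_left (by linarith only [hκ01]) hδ2.le
    rw [hε]; linarith only [hε, hεpos, h1]
  · rw [hε]; linarith only [hε, hεpos]
  · have h1 : 1 / (2048 * (T1 + 2)) / T1 = 1 / (2048 * (T1 + 2)) * (κ / 10 ^ 6) := by
      rw [hT1]; (clear * - hκpos; field_simp)
    have h2 : 1 / (2048 * (T1 + 2)) * (κ / 10 ^ 6) ≤ 1 / 4096 * (κ / 10 ^ 6) :=
      mul_le_mul_of_nonneg_right hδ11 (by positivity)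
    rw [h1, hε]
    linarith only [hε, hεpos, h2]
  · have h1 : 1 / (2048 * (T2 + 2)) / T2 = 1 / (2048 * (T2 + 2)) * κ0 / 10 ^ 10 := by
      rw [hT2]; field_simp
    rw [h1, hδκ, hε]
    linarith only [hε, hεpos]

lemma top_arith {L κ n E : ℝ} (hL : 0 < L) (hn : 0 < n) (h : 3 * n ≤ κ / 16 * E) :
    3 * L ≤ κ / 16 * L / n * E := by
  have h1 : κ / 16 * L / n * E = L / n * (κ / 16 * E) := by
    (clear * - hn hL; field_simp)
  rw [h1]
  calc 3 * L = L / n * (3 * n) := by field_simp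
    _ ≤ _ := mul_le_mul_of_nonneg_left h (by positivity)

section

variable {X : Type} [MetricSpace X]
variable {J F : Finset X} {g : ℝ} {x : X → X → ℝ} {y r : X → ℝ} {CC : Finset X} {ρ : X → X}

namespace Clu

/-- Opening all facilities of the contracted instance. -/
lemma cost_all_contr [DecidableEq X] (h : Clu J F g x y r CC ρ) :
    cost J (F.image (prj J F g x y r CC ρ))
      ≤ 250 / 249 * ∑ c ∈ CC, ain J F g x y r c
        + (fracCost J F x - 49 / 50 * ∑ c ∈ CC, ain J F g x y r c) := by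
  have h1 := h.cost_le_contr (F.image (prj J F g x y r CC ρ))
  have h2 := h.sum_in_le
  have h3 := h.contr_cost
  have h4 : ∑ j ∈ J, Metric.infDist (ps J r CC ρ j)
      ((F.image (prj J F g x y r CC ρ) : Finset X) : Set X)
      ≤ ∑ i ∈ F, ∑ j ∈ J, x i j * dist (prj J F g x y r CC ρ i) (ps J r CC ρ j) := by
    rw [Finset.sum_comm]
    refine Finset.sum_le_sum (fun j hj => ?_)
    have e : Metric.infDist (ps J r CC ρ j) ((F.image (prj J F g x y r CC ρ) : Finset X) : Set X)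
        = ∑ i ∈ F, x i j * Metric.infDist (ps J r CC ρ j)
          ((F.image (prj J F g x y r CC ρ) : Finset X) : Set X) := by
      rw [← Finset.sum_mul, h.rad.sol.assign j hj, one_mul]
    rw [e]
    refine Finset.sum_le_sum (fun i hi => ?_)
    apply mul_le_mul_of_nonneg_left _ (h.rad.sol.x_nonneg i hi j hj)
    rw [dist_comm]
    exact Metric.infDist_le_dist_of_mem (Finset.mem_coe.mpr (Finset.mem_image_of_mem _ hi))
  linarith

lemma ain_le (h : Clu J F g x y r CC ρ) :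
    49 / 50 * ∑ c ∈ CC, ain J F g x y r c ≤ fracCost J F x := by
  have h1 := h.contr_cost
  have h2 : 0 ≤ ∑ i ∈ F, ∑ j ∈ J, x i j * dist (prj J F g x y r CC ρ i) (ps J r CC ρ j) :=
    Finset.sum_nonneg (fun i hi => Finset.sum_nonneg (fun j hj =>
      mul_nonneg (h.rad.sol.x_nonneg i hi j hj) dist_nonneg))
  linarith

/-- The case of a large chain. -/
lemma case1_main [DecidableEq X] (h : Clu J F g x y r CC ρ) {κ0 κ ε T1 T2 L : ℝ} {k m M : ℕ}
    (hκ0 : 0 < κ0) (hκ01 : κ0 ≤ 1 / 100) (hT2 : T2 = 10 ^ 10 / κ0)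
    (hκ : κ = κ0 / (8 * (2048 * (T2 + 2)))) (hT1 : T1 = 10 ^ 6 / κ) (hε : ε = κ / 10 ^ 10)
    (hL : 0 < L) (hC : fracCost J F x ≤ (1 + κ) * L) (hk : κ / 2 * L ≤ g * (k - ∑ i ∈ F, y i))
    (hcase : κ0 * fracCost J F x ≤ ∑ c ∈ CC, ain J F g x y r c
      + ∑ i ∈ restF J F g x y r CC, fcl J x i)
    (hJ : 1 ≤ J.card) (hM : 1 ≤ M) (hMε : 1 ≤ ε * M) (hm : 1 ≤ m)
    (hmpow : 3 * (J.card : ℝ) ≤ κ / 16 * (1 + ε) ^ (m - 1))
    (hcard : k + 3 * ((M + 3) * m) ≤ (F.image (prj J F g x y r CC ρ)).card) :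
    ∃ S ⊆ F, S.Nonempty ∧ S.card ≤ k + 3 * ((M + 3) * m) ∧ cost J S ≤ (2 - κ / 16) * L := by
  obtain ⟨hκpos, hκ1, hT1', hT2', hδ2, hδ21, hδκ, hεpos, h90, hεδ1, hεδ2, hεs, he1, he2, he2'⟩ :=
    const1 hκ0 hκ01 hT2 hκ hT1 hε
  have hn0 : (0 : ℝ) < J.card := by exact_mod_cast hJ
  have hg := h.rad.g_pos
  have htpos : 0 < κ / 16 * L / J.card := by (clear * - hκpos hL hJ; positivity)
  obtain ⟨f, S, φ, C', CU, hf, hSF, hSN, hφ, hcost, hCU0, hCUC', hC', hCUU, hmain⟩ :=
    h.case1_chain hεpos.le (by linarith only [hε, hκ1]) htpos hM hMε hm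
      (N := k + 3 * ((M + 3) * m)) (by (clear * - hM hm; positivity)) hcard
  have htn : κ / 16 * L / J.card * J.card = κ / 16 * L := by (clear * - hJ hL hκpos; field_simp)
  have hz : 0 ≤ f / g := div_nonneg hf hg.le
  have hfg : f = f / g * g := by (clear * - hg; field_simp)
  have hI : ∀ T : ℝ, 1 ≤ T → φ + f / g * (κ * L / 2) ≤ κ / 16 * L + (2 + 90 * ε * (f / g)) * C'
      + (ε + 2 * (1 / (2048 * (T + 2)) / T)) * (f / g * (10 ^ 7 * fracCost J F x))
      + (2 * ε - 1 / (2048 * (T + 2))) * CU := by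
    intro T hT
    have h1 := hmain T hT
    rw [htn] at h1
    push_cast at h1
    have h2 : f / g * (κ * L / 2) ≤ f * (k - ∑ i ∈ F, y i) := by
      have e : f * (k - ∑ i ∈ F, y i) = f / g * (g * (k - ∑ i ∈ F, y i)) := by (clear * - hg; field_simp)
      rw [e]
      apply mul_le_mul_of_nonneg_left _ hz
      linarith only [hk]
    have h3 : (ε + 2 * (1 / (2048 * (T + 2)) / T)) * (f * ∑ i ∈ restF J F g x y r CC, y i)
        ≤ (ε + 2 * (1 / (2048 * (T + 2)) / T)) * (f / g * (10 ^ 7 * fracCost J F x)) := by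
      apply mul_le_mul_of_nonneg_left _ (by (clear * - hεpos hT; positivity))
      have e : f * ∑ i ∈ restF J F g x y r CC, y i
          = f / g * (g * ∑ i ∈ restF J F g x y r CC, y i) := by (clear * - hg; field_simp)
      rw [e]
      apply mul_le_mul_of_nonneg_left _ hz
      linarith only [h.rest, fracCost_nonneg J F h.rad.sol]
    linarith only [h1, h2, h3]
  have hA0 : 0 ≤ ∑ c ∈ CC, ain J F g x y r c := Finset.sum_nonneg (fun c _ => h.ain_nonneg)
  obtain ⟨hφ3, hfin⟩ := case1_arith hL hκpos hκ1 hδ2 hδ21 hδκ hεpos.le h90 hεδ1 hεδ2 hεs he1 he2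
    he2' le_rfl (fracCost_nonneg J F h.rad.sol) hC hz hA0 hCU0 hCUC' hC' hCUU hcase
    (hI T1 hT1') (hI T2 hT2')
  have htop : 3 * L ≤ κ / 16 * L / J.card * (1 + ε) ^ (m - 1) := top_arith hL hn0 hmpow
  refine ⟨S, hSF, ?_, hSN.le, (hcost (by linarith only [hφ3, htop])).trans hfin⟩
  rw [← Finset.card_pos, hSN]
  (clear * - hM hm; positivity)

/-- The first case. -/
theorem case1 [DecidableEq X] (h : Clu J F g x y r CC ρ) {κ0 κ ε T1 T2 L : ℝ} {k m M : ℕ}
    (hκ0 : 0 < κ0) (hκ01 : κ0 ≤ 1 / 100) (hT2 : T2 = 10 ^ 10 / κ0)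
    (hκ : κ = κ0 / (8 * (2048 * (T2 + 2)))) (hT1 : T1 = 10 ^ 6 / κ) (hε : ε = κ / 10 ^ 10)
    (hL : 0 < L) (hC : fracCost J F x ≤ (1 + κ) * L) (hk : κ / 2 * L ≤ g * (k - ∑ i ∈ F, y i))
    (hcase : κ0 * fracCost J F x ≤ ∑ c ∈ CC, ain J F g x y r c
      + ∑ i ∈ restF J F g x y r CC, fcl J x i)
    (hF : F.Nonempty)
    (hJ : 1 ≤ J.card) (hM : 1 ≤ M) (hMε : 1 ≤ ε * M) (hm : 1 ≤ m)
    (hmpow : 3 * (J.card : ℝ) ≤ κ / 16 * (1 + ε) ^ (m - 1)) :
    ∃ S ⊆ F, S.Nonempty ∧ S.card ≤ k + 3 * ((M + 3) * m) ∧ cost J S ≤ (2 - κ / 16) * L := by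
  obtain ⟨hκpos, hκ1, -⟩ := const1 hκ0 hκ01 hT2 hκ hT1 hε
  rcases le_total (k + 3 * ((M + 3) * m)) (F.image (prj J F g x y r CC ρ)).card with hc | hc
  · exact h.case1_main hκ0 hκ01 hT2 hκ hT1 hε hL hC hk hcase hJ hM hMε hm hmpow hc
  · refine ⟨F.image (prj J F g x y r CC ρ), h.image_sub, hF.image _, hc, ?_⟩
    have h1 := h.cost_all_contr
    have h2 := h.ain_le
    have h3 := fracCost_nonneg J F h.rad.sol
    have h4 : 0 < κ * L := by (clear * - hκpos hL; positivity)
    have h5 : κ * L ≤ 1 / 1000 * L := mul_le_mul_of_nonneg_right hκ1 hL.le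
    linarith only [hC, h1, h2, h4, h5]

end Clu

end

end Vale.Agent.P334
end

section

/-!
Geometry for the second case.
-/

namespace Vale.Agent.P334

open Finset

section

variable {X : Type} [MetricSpace X]

/-- All facilities near `c`. -/
noncomputable def full (F : Finset X) (r : X → ℝ) (c : X) : Finset X :=
  open Classical in F.filter (fun i => dist i c ≤ r c / 100)

/-- Facilities that are near no center. -/
noncomputable def upF (F : Finset X) (r : X → ℝ) (CC : Finset X) : Finset X :=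
  open Classical in F.filter (fun i => ∀ c ∈ CC, i ∉ full F r c)

variable {J F : Finset X} {g : ℝ} {x : X → X → ℝ} {y r : X → ℝ} {CC : Finset X} {ρ : X → X}

lemma mem_full {c i : X} : i ∈ full F r c ↔ i ∈ F ∧ dist i c ≤ r c / 100 := by
  classical
  unfold full
  rw [Finset.mem_filter]

lemma mem_upF {i : X} : i ∈ upF F r CC ↔ i ∈ F ∧ ∀ c ∈ CC, i ∉ full F r c := by
  classical
  unfold upF
  rw [Finset.mem_filter]

lemma full_sub {c : X} : full F r c ⊆ F := fun _ hi => (mem_full.mp hi).1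

lemma upF_sub : upF F r CC ⊆ F := fun _ hi => (mem_upF.mp hi).1

/-- Missing mass of a cluster. -/
noncomputable def sc (F : Finset X) (y r : X → ℝ) (c : X) : ℝ := 1 - ∑ i ∈ full F r c, y i

/-- Mass of client `l` served by the cluster of `c`. -/
noncomputable def Xc (F : Finset X) (x : X → X → ℝ) (r : X → ℝ) (c l : X) : ℝ :=
  ∑ i ∈ full F r c, x i l

/-- Cost of client `l` through the cluster of `c`. -/
noncomputable def Qc (F : Finset X) (x : X → X → ℝ) (r : X → ℝ) (c l : X) : ℝ :=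
  ∑ i ∈ full F r c, x i l * dist i l

/-- Inner cost of a cluster, with all facilities near the center. -/
noncomputable def aip (J F : Finset X) (x : X → X → ℝ) (r : X → ℝ) (c : X) : ℝ :=
  ∑ l ∈ itr J r c, Qc F x r c l

namespace Clu

set_option linter.unusedSectionVars false

variable (h : Clu J F g x y r CC ρ)
include h

lemma full_near {c i : X} (hi : i ∈ full F r c) : dist i c ≤ r c / 8 := by
  have h1 := (mem_full.mp hi).2
  have h2 := h.rpos c
  linarith only [h1, h2]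

lemma full_disj : ∀ c ∈ CC, ∀ c' ∈ CC, ∀ i, i ∈ full F r c → i ∈ full F r c' →
    c = c' := fun _ hc _ hc' _ h1 h2 => h.eq_of_near hc hc' (h.full_near h1) (h.full_near h2)

omit h in
lemma near_sub_full {c : X} : near J F g x y r c ⊆ full F r c := fun _ hi =>
  mem_full.mpr ⟨near_sub hi, near_dist hi⟩

omit h in
lemma upF_sub_restF : upF F r CC ⊆ restF J F g x y r CC := fun _ hi =>
  mem_restF.mpr ⟨(mem_upF.mp hi).1, fun c hc hn => (mem_upF.mp hi).2 c hc (near_sub_full hn)⟩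

lemma sc_nonneg (c : X) : 0 ≤ sc F y r c := by
  unfold sc
  have := h.rad.ball_le (p := c) (G := full F r c) full_sub (fun i hi => by
    have h1 := (mem_full.mp hi).2
    have h2 := h.rpos c
    linarith only [h1, h2])
  linarith only [this]

lemma sc_le {c : X} (hc : c ∈ CC) : sc F y r c ≤ 1 / 10 ^ 4 := by
  classical
  obtain ⟨hcJ, hcg⟩ := Finset.mem_filter.mp (h.sub hc)
  have h1 := h.rad.good_mass hcJ hcg (θ := 1 / 100) (by norm_num)
  have h2 : ∑ i ∈ F with dist i c ≤ 1 / 100 * r c, y i = ∑ i ∈ full F r c, y i := by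
    apply Finset.sum_congr _ (fun _ _ => rfl)
    ext i
    rw [mem_full, Finset.mem_filter]
    have : 1 / 100 * r c = r c / 100 := by ring
    rw [this]
  rw [h2] at h1
  unfold sc
  have h3 : (1 : ℝ) - 1 / (10 ^ 6 * (1 / 100)) = 1 - 1 / 10 ^ 4 := by norm_num
  linarith only [h1]

lemma itr_full {c l i : X} (hl : l ∈ itr J r c) (hi : i ∈ full F r c) : x i l = y i :=
  h.rad.itr_eq hl (full_sub hi) (mem_full.mp hi).2

lemma Xc_itr {c l : X} (hl : l ∈ itr J r c) : Xc F x r c l = 1 - sc F y r c := by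
  unfold Xc sc
  rw [Finset.sum_congr rfl (fun i hi => h.itr_full hl hi)]
  ring

lemma Xc_nonneg {c l : X} (hl : l ∈ J) : 0 ≤ Xc F x r c l :=
  Finset.sum_nonneg (fun i hi => h.rad.sol.x_nonneg i (full_sub hi) l hl)

lemma Qc_nonneg {c l : X} (hl : l ∈ J) : 0 ≤ Qc F x r c l :=
  Finset.sum_nonneg (fun i hi => mul_nonneg (h.rad.sol.x_nonneg i (full_sub hi) l hl) dist_nonneg)

/-- Sums over facilities. -/
lemma sum_full (f : X → ℝ) : ∑ i ∈ F, f i = ∑ i ∈ upF F r CC, f i
    + ∑ c ∈ CC, ∑ i ∈ full F r c, f i := by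
  classical
  exact sum_blocks (fun c _ => full_sub) h.full_disj f

/-- The representative is very near to the center. -/
lemma rep_near {c : X} (hc : c ∈ CC) : dist (ρ c) c ≤ r c / 500 := by
  classical
  have hcore := h.rad.core (h.sub hc)
  have hmass := h.mass c hc
  have hr := h.rpos c
  have hg := h.rad.g_pos
  -- a near facility in the core
  have hex : ∃ i ∈ near J F g x y r c, dist i c ≤ r c / 2000 := by
    by_contra hcon
    push Not at hcon
    have hdisj : Disjoint (near J F g x y r c) (F.filter (fun i => dist i c ≤ r c / 2000)) := by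
      rw [Finset.disjoint_left]
      intro i hi hi'
      have := hcon i hi
      linarith only [this, (Finset.mem_filter.mp hi').2]
    have h1 : ∑ i ∈ near J F g x y r c ∪ F.filter (fun i => dist i c ≤ r c / 2000), y i ≤ 1 := by
      apply h.rad.ball_le (p := c)
      · exact Finset.union_subset near_sub (Finset.filter_subset _ _)
      · intro i hi
        rcases Finset.mem_union.mp hi with hi | hi
        · have := near_dist hi; linarith only [hr, this]
        · have := (Finset.mem_filter.mp hi).2; linarith only [hr, this]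
    rw [Finset.sum_union hdisj] at h1
    linarith
  obtain ⟨i, hi, hic⟩ := hex
  have hn := h.card_pos hc
  have hbig := h.big c hc
  have h1 := h.spread hi
  have hIN : ∀ a ∈ near J F g x y r c, ∑ j ∈ itr J r c, dist a j ≤ g / 10 ^ 4 := by
    intro a ha
    have hy := near_pos ha
    have h2 : y a * ∑ j ∈ itr J r c, dist a j ≤ g * y a / 10 ^ 4 := by
      refine le_trans ?_ (near_light ha)
      rw [Finset.mul_sum]
      unfold fcl
      calc ∑ j ∈ itr J r c, y a * dist a j = ∑ j ∈ itr J r c, x a j * dist a j :=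
            Finset.sum_congr rfl (fun j hj => by rw [h.xeq ha hj])
        _ ≤ _ := Finset.sum_le_sum_of_subset_of_nonneg itr_sub
            (fun j hj _ => mul_nonneg (h.rad.sol.x_nonneg a (near_sub ha) j hj) dist_nonneg)
    have h3 : g * y a / 10 ^ 4 = y a * (g / 10 ^ 4) := by ring
    rw [h3] at h2
    exact le_of_mul_le_mul_left h2 hy
  have h2 := hIN i hi
  have h3 := hIN (ρ c) (h.rep c hc)
  have h4 : (itr J r c).card * dist i (ρ c) ≤ (itr J r c).card * (r c / 1000) := by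
    have : g / 10 ^ 4 * 2 ≤ (itr J r c).card * (r c / 1000) := by linarith only [hbig]
    linarith only [hbig, h1, h2, h3]
  have h5 := le_of_mul_le_mul_left h4 hn
  have h6 := dist_triangle (ρ c) i c
  rw [dist_comm (ρ c) i] at h6
  linarith only [hr, hic, h5, h6]

/-- Outer clients: distance to the representative. -/
lemma Xc_dist {c l : X} (hc : c ∈ CC) (hl : l ∈ J) (hlc : l ∉ itr J r c) :
    Xc F x r c l * dist (ρ c) l ≤ 6 / 5 * Qc F x r c l := by
  unfold Xc Qc
  rw [Finset.sum_mul, Finset.mul_sum]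
  refine Finset.sum_le_sum (fun i hi => ?_)
  obtain ⟨hiF, hic⟩ := mem_full.mp hi
  have hx := h.rad.sol.x_nonneg i hiF l hl
  have h1 := h.far hic hl hlc
  have h2 := h.rep_near hc
  have h3 := dist_triangle (ρ c) i l
  have h4 := dist_triangle (ρ c) c i
  rw [dist_comm c i] at h4
  have hr := h.rpos c
  have h5 : dist (ρ c) l ≤ 6 / 5 * dist i l := by linarith
  have := mul_le_mul_of_nonneg_left h5 hx
  linarith only [this]

lemma Xc_radius {c l : X} (hl : l ∈ J) (hlc : l ∉ itr J r c) :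
    Xc F x r c l * r c ≤ 9 * Qc F x r c l := by
  unfold Xc Qc
  rw [Finset.sum_mul, Finset.mul_sum]
  refine Finset.sum_le_sum (fun i hi => ?_)
  obtain ⟨hiF, hic⟩ := mem_full.mp hi
  have hx := h.rad.sol.x_nonneg i hiF l hl
  have h1 := h.far hic hl hlc
  have h5 : r c ≤ 9 * dist i l := by
    have := h.rpos c
    linarith only [h1, this]
  have := mul_le_mul_of_nonneg_left h5 hx
  linarith only [this]

/-- The total mass of a client. -/
lemma mass_split {l : X} (hl : l ∈ J) : ∑ i ∈ upF F r CC, x i l + ∑ c ∈ CC, Xc F x r c l = 1 := by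
  rw [← h.rad.sol.assign l hl, h.sum_full (fun i => x i l)]
  rfl

/-- The total cost. -/
lemma cost_split : fracCost J F x = ∑ l ∈ J, (∑ i ∈ upF F r CC, x i l * dist i l
    + ∑ c ∈ CC, Qc F x r c l) := by
  unfold fracCost
  refine Finset.sum_congr rfl (fun l _ => ?_)
  rw [h.sum_full (fun i => x i l * dist i l)]
  rfl

/-- The missing mass of an inner client. -/
lemma missing [DecidableEq X] {c l : X} (hc : c ∈ CC) (hl : l ∈ itr J r c) :
    sc F y r c = ∑ i ∈ upF F r CC, x i l + ∑ c' ∈ CC.erase c, Xc F x r c' l := by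
  have h1 := h.mass_split (itr_sub hl)
  have h2 := h.Xc_itr hl
  rw [← Finset.add_sum_erase _ _ hc, h2] at h1
  linarith

/-- Facilities of `upF` are not too near to a representative. -/
lemma up_far {c i : X} (hc : c ∈ CC) (hi : i ∈ upF F r CC) : r c / 125 ≤ dist i (ρ c) := by
  obtain ⟨hiF, hi2⟩ := mem_upF.mp hi
  have h1 : r c / 100 < dist i c := by
    by_contra hcon
    push Not at hcon
    exact hi2 c hc (mem_full.mpr ⟨hiF, hcon⟩)
  have h2 := h.rep_near hc
  have h3 := dist_triangle i (ρ c) c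
  linarith

/-- The mass of inner clients at the facilities of `upF` is paid for. -/
lemma up_mass {c : X} (hc : c ∈ CC) :
    (∑ l ∈ itr J r c, ∑ i ∈ upF F r CC, x i l) * r c
      ≤ 125 * (∑ l ∈ itr J r c, ∑ i ∈ upF F r CC, x i l * dist i l)
        + 125 * ∑ l ∈ itr J r c, (∑ i ∈ upF F r CC, x i l) * dist (ρ c) l := by
  rw [Finset.sum_mul, ← mul_add, ← Finset.sum_add_distrib, Finset.mul_sum]
  refine Finset.sum_le_sum (fun l hl => ?_)
  rw [Finset.sum_mul, Finset.sum_mul, ← Finset.sum_add_distrib, Finset.mul_sum]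
  refine Finset.sum_le_sum (fun i hi => ?_)
  have hx := h.rad.sol.x_nonneg i (upF_sub hi) l (itr_sub hl)
  have h1 := h.up_far hc hi
  have h2 := dist_triangle i l (ρ c)
  rw [dist_comm l (ρ c)] at h2
  have h3 : r c ≤ 125 * (dist i l + dist (ρ c) l) := by linarith only [h1, h2]
  have := mul_le_mul_of_nonneg_left h3 hx
  linarith only [this]

/-- The mass of inner clients at other clusters is paid for. -/
lemma other_mass {c c' l : X} {R : ℝ} (hc : c ∈ CC) (hc' : c' ∈ CC) (hne : c ≠ c')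
    (hl : l ∈ J) (hR : R ≤ dist (ρ c) (ρ c')) :
    Xc F x r c' l * R ≤ 26 / 25 * (Qc F x r c' l + Xc F x r c' l * dist (ρ c) l) := by
  unfold Xc Qc
  rw [Finset.sum_mul, Finset.sum_mul, ← Finset.sum_add_distrib, Finset.mul_sum]
  refine Finset.sum_le_sum (fun i hi => ?_)
  obtain ⟨hiF, hic⟩ := mem_full.mp hi
  have hx := h.rad.sol.x_nonneg i hiF l hl
  have h1 := h.rep_near hc'
  have h2 := dist_triangle (ρ c) l i
  have h3 := dist_triangle (ρ c) i (ρ c')
  have h4 := dist_triangle i c' (ρ c')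
  rw [dist_comm c' (ρ c')] at h4
  rw [dist_comm l i] at h2
  have h5 := h.rep_sep hc' hc (fun h => hne h.symm)
  rw [dist_comm (ρ c') (ρ c)] at h5
  have h7 := dist_nonneg (x := i) (y := l)
  have h8 := dist_nonneg (x := ρ c) (y := l)
  have h6 : R ≤ 26 / 25 * (dist i l + dist (ρ c) l) := by linarith only [hR, hic, h1, h2, h3, h4, h5, h7, h8]
  have := mul_le_mul_of_nonneg_left h6 hx
  linarith

end Clu

end

end Vale.Agent.P334
end

section
attribute [-instance] ProperSMul.toContinuousSMul IsTopologicalTorsor.toContinuousSMul IdemSemiring.toCanonicallyOrderedAdd IdemSemiring.toMulLeftMono IdemSemiring.toMulRightMono AddQuantale.instAddLeftMono AddQuantale.instAddRightMono Quantale.instMulLeftMono Quantale.instMulRightMono FiniteDimensional.rclike_to_real IsScalarTower.complexToReal FiniteDimensional.complexToReal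

/-!
Isolated clusters.
-/

namespace Vale.Agent.P334

open Finset

section

variable {X : Type} [MetricSpace X]
variable {J F : Finset X} {g : ℝ} {x : X → X → ℝ} {y r : X → ℝ} {CC : Finset X} {ρ : X → X}

/-- Isolated clusters. -/
def Iso (r : X → ℝ) (CC : Finset X) (ρ : X → X) (c : X) : Prop :=
  ∀ c' ∈ CC, c' ≠ c → 5 * r c < dist (ρ c) (ρ c')

/-- Facilities of `upF` within `θ r c`. -/
noncomputable def vb (F : Finset X) (r : X → ℝ) (CC : Finset X) (θ : ℝ) (c : X) : Finset X :=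
  open Classical in (upF F r CC).filter (fun i => dist i c ≤ θ * r c)

lemma mem_vb {θ : ℝ} {c i : X} : i ∈ vb F r CC θ c ↔ i ∈ upF F r CC ∧ dist i c ≤ θ * r c := by
  classical
  unfold vb
  rw [Finset.mem_filter]

lemma vb_sub {θ : ℝ} {c : X} : vb F r CC θ c ⊆ upF F r CC := fun _ hi => (mem_vb.mp hi).1

namespace Clu

set_option linter.unusedSectionVars false

variable (h : Clu J F g x y r CC ρ)
include h

/-- Near an isolated center there are no facilities of other clusters. -/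
lemma iso_up {c i : X} (hc : c ∈ CC) (hi : Iso r CC ρ c) (hiF : i ∈ F) (hd : dist i c ≤ 3 * r c)
    (hn : i ∉ full F r c) : i ∈ upF F r CC := by
  refine mem_upF.mpr ⟨hiF, fun c' hc' hf => ?_⟩
  have hne : c' ≠ c := fun he => hn (by rw [← he]; exact hf)
  have h1 := hi c' hc' hne
  have h2 := (mem_full.mp hf).2
  have h3 := h.rep_near hc
  have h4 := h.rep_near hc'
  have h5 := h.rep_sep hc' hc hne
  rw [dist_comm (ρ c') (ρ c)] at h5
  have h6 := dist_triangle (ρ c) c (ρ c')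
  have h7 := dist_triangle c i (ρ c')
  have h8 := dist_triangle i c' (ρ c')
  rw [dist_comm c i] at h7
  rw [dist_comm c' (ρ c')] at h8
  have h9 := h.rpos c
  (clear * - hd h1 h2 h3 h4 h5 h6 h7 h8 h9; linarith)

/-- Facilities used by inner clients are near. -/
lemma used_near {c l i : X} (hl : l ∈ itr J r c) (hiF : i ∈ F) (hx : x i l ≠ 0) :
    dist i c ≤ 5 / 4 * r c := by
  have h1 : dist i l ≤ r l := by
    by_contra hcon
    push Not at hcon
    exact hx (h.rad.zero l (itr_sub hl) i hiF hcon)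
  have h2 := h.rad.lip l c
  have h3 := itr_dist hl
  have h4 := dist_triangle i l c
  linarith only [h1, h2, h3, h4]

/-- Inner clients of isolated clusters do not use other clusters. -/
lemma iso_zero {c c' l : X} (hc : c ∈ CC) (hi : Iso r CC ρ c) (hc' : c' ∈ CC) (hne : c' ≠ c)
    (hl : l ∈ itr J r c) : Xc F x r c' l = 0 := by
  refine Finset.sum_eq_zero (fun i hif => ?_)
  by_contra hx
  have h1 := h.used_near hl (full_sub hif) hx
  have h2 := h.rpos c
  have hnot : i ∉ full F r c := fun hf => hne (h.full_disj c' hc' c hc i hif hf)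
  have h3 := h.iso_up hc hi (full_sub hif) (by linarith) hnot
  exact (mem_upF.mp h3).2 c' hc' hif

lemma iso_missing {c l : X} (hc : c ∈ CC) (hi : Iso r CC ρ c) (hl : l ∈ itr J r c) :
    sc F y r c = ∑ i ∈ upF F r CC, x i l := by
  classical
  have h1 := h.missing hc hl
  rw [Finset.sum_eq_zero (s := CC.erase c), add_zero] at h1
  · exact h1
  · intro c' hc'
    obtain ⟨h2, h3⟩ := Finset.mem_erase.mp hc'
    exact h.iso_zero hc hi h3 h2 hl

/-- The missing mass is available nearby. -/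
lemma iso_mass {c : X} (hc : c ∈ CC) (hi : Iso r CC ρ c) :
    sc F y r c < ∑ i ∈ vb F r CC (3 / 2) c, y i := by
  classical
  have h1 := h.rad.gt c
  have hr := h.rpos c
  have h2 : ∑ i ∈ F with dist i c ≤ r c, y i ≤ ∑ i ∈ full F r c ∪ vb F r CC (3 / 2) c, y i := by
    apply Finset.sum_le_sum_of_subset_of_nonneg
    · intro i hi2
      obtain ⟨h3, h4⟩ := Finset.mem_filter.mp hi2
      by_cases hf : i ∈ full F r c
      · exact Finset.mem_union_left _ hf
      · apply Finset.mem_union_right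
        exact mem_vb.mpr ⟨h.iso_up hc hi h3 (by (clear * - hr h4; linarith)) hf, by linarith only [hr, h4]⟩
    · intro i hi2 _
      rcases Finset.mem_union.mp hi2 with h3 | h3
      · exact h.rad.sol.y_nonneg i (full_sub h3)
      · exact h.rad.sol.y_nonneg i (upF_sub (vb_sub h3))
  rw [Finset.sum_union (by
    rw [Finset.disjoint_left]
    intro i h3 h4
    exact (mem_upF.mp (vb_sub h4)).2 c hc h3)] at h2
  unfold sc
  linarith only [h1, h2]

/-- Balls of isolated centers are disjoint. -/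
lemma iso_disj {c c' i : X} (hc : c ∈ CC) (hc' : c' ∈ CC) (hi : Iso r CC ρ c)
    (hi' : Iso r CC ρ c') (h1 : dist i c ≤ 2 * r c) (h2 : dist i c' ≤ 2 * r c') : c = c' := by
  by_contra hne
  have h3 := hi c' hc' (fun h => hne h.symm)
  have h4 := hi' c hc hne
  rw [dist_comm (ρ c') (ρ c)] at h4
  have h5 := h.rep_near hc
  have h6 := h.rep_near hc'
  have h7 := dist_triangle (ρ c) c (ρ c')
  have h8 := dist_triangle c i (ρ c')
  have h9 := dist_triangle i c' (ρ c')
  rw [dist_comm c i] at h8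
  rw [dist_comm c' (ρ c')] at h9
  have h10 := h.rpos c
  have h11 := h.rpos c'
  linarith

/-- The price of the missing mass of an isolated cluster. -/
lemma iso_price {c : X} (hc : c ∈ CC) (hi : Iso r CC ρ c) :
    sc F y r c * ((itr J r c).card * r c)
      ≤ 125 * (∑ l ∈ itr J r c, ∑ i ∈ upF F r CC, x i l * dist i l)
        + 125 * (sc F y r c * ∑ l ∈ itr J r c, dist (ρ c) l) := by
  have h1 := h.up_mass hc
  have h2 : ∑ l ∈ itr J r c, ∑ i ∈ upF F r CC, x i l = (itr J r c).card * sc F y r c := by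
    rw [Finset.sum_congr rfl (fun l hl => (h.iso_missing hc hi hl).symm), Finset.sum_const,
      nsmul_eq_mul]
  have h3 : ∑ l ∈ itr J r c, (∑ i ∈ upF F r CC, x i l) * dist (ρ c) l
      = sc F y r c * ∑ l ∈ itr J r c, dist (ρ c) l := by
    rw [Finset.mul_sum]
    exact Finset.sum_congr rfl (fun l hl => by rw [h.iso_missing hc hi hl])
  rw [h2, h3] at h1
  linarith

/-- Moving the mass of outer clients from a facility near an isolated center with small nearby
mass to the representative. -/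
lemma iso_move {c i : X} (hc : c ∈ CC) (hi : Iso r CC ρ c)
    (hm : ∑ a ∈ vb F r CC 2 c, y a ≤ 1 - 1 / (8 * (F.card : ℝ))) (hiv : i ∈ vb F r CC (3 / 2) c)
    [DecidableEq X] :
    ∑ l ∈ J \ itr J r c, x i l * dist (ρ c) l ≤ 29 * fcl J x i + 291 / 5 * (g * y i) := by
  classical
  have hr := h.rpos c
  have hiF : i ∈ F := upF_sub (vb_sub hiv)
  have hid := (mem_vb.mp hiv).2
  have hyi := h.rad.sol.y_nonneg i hiF
  have hrep := h.rep_near hc
  set q : X → ℝ := fun l => if l ∉ itr J r c ∧ dist i l < r c / 18 then r c / 12 else 0 with hq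
  have hF1 : (1 : ℝ) ≤ F.card := by exact_mod_cast Finset.card_pos.mpr ⟨i, hiF⟩
  have hused : ∀ l ∈ J, ∑ b ∈ F with dist b l < q l, y b ≤ 1 - 1 / (8 * (F.card : ℝ)) := by
    intro l hl
    by_cases hcond : l ∉ itr J r c ∧ dist i l < r c / 18
    · refine le_trans ?_ hm
      apply Finset.sum_le_sum_of_subset_of_nonneg
      · intro b hb
        obtain ⟨hbF, hb1⟩ := Finset.mem_filter.mp hb
        simp only [hq, hcond, not_false_eq_true, and_self, if_true] at hb1
        have h2 := dist_triangle b l i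
        have h3 := dist_triangle b i c
        rw [dist_comm l i] at h2
        have h4 : b ∉ full F r c := by
          intro hf
          apply hcond.1
          refine Finset.mem_filter.mpr ⟨hl, ?_⟩
          have h5 := (mem_full.mp hf).2
          have h6 := dist_triangle l b c
          rw [dist_comm l b] at h6
          linarith only [hr, hb1, h5, h6]
        exact mem_vb.mpr ⟨h.iso_up hc hi hbF (by (clear * - hr hid hcond hb1 h2 h3; linarith)) h4, by linarith only [hr, hid, hcond, hb1, h2, h3]⟩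
      · intro b hb _
        exact h.rad.sol.y_nonneg b (upF_sub (vb_sub hb))
    · rw [Finset.filter_false_of_mem]
      · rw [Finset.sum_empty]
        have : 1 / (8 * (F.card : ℝ)) ≤ 1 := by
          rw [div_le_one (by (clear * - hF1; positivity))]
          linarith only [hF1]
        linarith
      · intro b _
        simp only [hq, hcond, if_false, not_lt]
        exact dist_nonneg
  have hloss := h.rad.loss i hiF q hused
  have hpt : ∀ l ∈ J \ itr J r c, x i l * dist (ρ c) l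
      ≤ 29 * (x i l * dist i l) + 57 * y i * max (q l - dist i l) 0 := by
    intro l hl
    obtain ⟨hlJ, hlc⟩ := Finset.mem_sdiff.mp hl
    have hx0 := h.rad.sol.x_nonneg i hiF l hlJ
    have hxy := h.rad.sol.x_le i hiF l hlJ
    have h1 := dist_triangle (ρ c) c l
    have h2 := dist_triangle c i l
    rw [dist_comm c i] at h2
    have h3 : dist (ρ c) l ≤ dist i l + 751 / 500 * r c := by linarith only [hid, hrep, h1, h2]
    have h4 := mul_le_mul_of_nonneg_left h3 hx0
    have hmax : 0 ≤ max (q l - dist i l) 0 := le_max_right _ _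
    by_cases hnear : dist i l < r c / 18
    · have h5 : q l = r c / 12 := by
        simp only [hq, hlc, hnear, not_false_eq_true, and_self, if_true]
      have h6 : r c / 36 ≤ max (q l - dist i l) 0 := by
        rw [h5]
        exact le_trans (by linarith only [hnear]) (le_max_left _ _)
      have h7 : x i l * (r c / 36) ≤ y i * max (q l - dist i l) 0 :=
        mul_le_mul hxy h6 (by (clear * - hr; positivity)) hyi
      have h8 : 0 ≤ x i l * dist i l := mul_nonneg hx0 dist_nonneg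
      have h9 : 0 ≤ y i * max (q l - dist i l) 0 := mul_nonneg hyi hmax
      linarith only [h4, h7, h8, h9]
    · push Not at hnear
      have h5 : x i l * r c ≤ 18 * (x i l * dist i l) := by
        have := mul_le_mul_of_nonneg_left hnear hx0
        linarith only [this]
      have h8 : 0 ≤ x i l * dist i l := mul_nonneg hx0 dist_nonneg
      have h9 : 0 ≤ y i * max (q l - dist i l) 0 := mul_nonneg hyi hmax
      linarith only [h4, h5, h8, h9]
  have h1 := Finset.sum_le_sum hpt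
  rw [Finset.sum_add_distrib, ← Finset.mul_sum, ← Finset.mul_sum] at h1
  have h2 : ∑ l ∈ J \ itr J r c, x i l * dist i l ≤ fcl J x i :=
    Finset.sum_le_sum_of_subset_of_nonneg Finset.sdiff_subset
      (fun l hl _ => mul_nonneg (h.rad.sol.x_nonneg i hiF l hl) dist_nonneg)
  have h3 : ∑ l ∈ J \ itr J r c, max (q l - dist i l) 0 ≤ 51 / 50 * g :=
    (Finset.sum_le_sum_of_subset_of_nonneg Finset.sdiff_subset
      (fun l _ _ => le_max_right _ _)).trans hloss
  have h4 := mul_le_mul_of_nonneg_left h3 (by (clear * - hyi; positivity) : 0 ≤ 57 * y i)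
  have h5 := mul_nonneg h.rad.g_pos.le hyi
  linarith only [h1, h2, h4, h5]

end Clu

end

end Vale.Agent.P334
end

section

/-!
Costs of closing clusters.
-/

namespace Vale.Agent.P334

open Finset

section

variable {X : Type} [MetricSpace X]

/-- Inner cost with respect to the representative. -/
noncomputable def inr (J : Finset X) (r : X → ℝ) (ρ : X → X) (c : X) : ℝ :=
  ∑ l ∈ itr J r c, dist (ρ c) l

/-- Cost of the inner clients of `c` through facilities of `upF`. -/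
noncomputable def cu (J F : Finset X) (x : X → X → ℝ) (r : X → ℝ) (CC : Finset X) (c : X) : ℝ :=
  ∑ l ∈ itr J r c, ∑ i ∈ upF F r CC, x i l * dist i l

/-- Cost of a client through the clusters to which it does not belong. -/
noncomputable def out (J F : Finset X) (x : X → X → ℝ) (r : X → ℝ) (CC : Finset X) (l : X) : ℝ :=
  open Classical in ∑ c ∈ CC with l ∉ itr J r c, Qc F x r c l

/-- Outer cost of a cluster. -/
noncomputable def oc (J F : Finset X) (x : X → X → ℝ) (r : X → ℝ) (c : X) : ℝ :=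
  open Classical in ∑ l ∈ J \ itr J r c, Qc F x r c l

/-- Cost of the inner clients of `c` through other clusters. -/
noncomputable def cross (J F : Finset X) (x : X → X → ℝ) (r : X → ℝ) (CC : Finset X) (c : X) : ℝ :=
  ∑ l ∈ itr J r c, out J F x r CC l

/-- Cost of the clients that are in no cluster through the clusters. -/
noncomputable def restOut (J F : Finset X) (x : X → X → ℝ) (r : X → ℝ) (CC : Finset X) : ℝ :=
  open Classical in ∑ l ∈ J with ∀ c ∈ CC, l ∉ itr J r c, out J F x r CC l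

/-- Cost of closing a cluster. -/
noncomputable def Lam (J F : Finset X) (x : X → X → ℝ) (r : X → ℝ) (CC : Finset X) (ρ π : X → X)
    (c : X) : ℝ :=
  open Classical in
  6 / 5 * cross J F x r CC c + (if Iso r CC ρ c
    then ∑ l ∈ J, Xc F x r c l * (dist (ρ c) l + 201 / 50 * r c)
    else ∑ l ∈ J, Xc F x r c l * dist (ρ c) (ρ (π c)))

variable {J F : Finset X} {g : ℝ} {x : X → X → ℝ} {y r : X → ℝ} {CC : Finset X} {ρ π : X → X}

namespace Clu

set_option linter.unusedSectionVars false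

variable (h : Clu J F g x y r CC ρ)
include h

lemma inr_nonneg (c : X) : 0 ≤ inr J r ρ c := Finset.sum_nonneg (fun _ _ => dist_nonneg)

lemma out_nonneg {l : X} (hl : l ∈ J) : 0 ≤ out J F x r CC l := by
  classical
  exact Finset.sum_nonneg (fun c _ => h.Qc_nonneg hl)

lemma cross_nonneg (c : X) : 0 ≤ cross J F x r CC c :=
  Finset.sum_nonneg (fun _ hl => h.out_nonneg (itr_sub hl))

lemma oc_nonneg (c : X) : 0 ≤ oc J F x r c := by
  classical
  exact Finset.sum_nonneg (fun _ hl => h.Qc_nonneg (Finset.mem_sdiff.mp hl).1)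

lemma cu_nonneg (c : X) : 0 ≤ cu J F x r CC c :=
  Finset.sum_nonneg (fun l hl => Finset.sum_nonneg (fun i hi =>
    mul_nonneg (h.rad.sol.x_nonneg i (upF_sub hi) l (itr_sub hl)) dist_nonneg))

lemma Xc_le_one {c l : X} (hl : l ∈ itr J r c) : Xc F x r c l ≤ 1 := by
  rw [h.Xc_itr hl]
  linarith [h.sc_nonneg c]

/-- Sum over all clients of `Xc` times a function, split into inner and outer clients. -/
lemma sum_Xc {c : X} {f : X → ℝ} {K1 K2 : ℝ} (hf : ∀ l ∈ itr J r c, 0 ≤ f l)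
    (h1 : ∑ l ∈ itr J r c, f l ≤ K1)
    (h2 : ∀ l ∈ J, l ∉ itr J r c → Xc F x r c l * f l ≤ K2 * Qc F x r c l) :
    ∑ l ∈ J, Xc F x r c l * f l ≤ K1 + K2 * oc J F x r c := by
  classical
  rw [← Finset.sum_sdiff (itr_sub (J := J) (r := r) (c := c))]
  have e1 : ∑ l ∈ J \ itr J r c, Xc F x r c l * f l ≤ K2 * oc J F x r c := by
    unfold oc
    rw [Finset.mul_sum]
    refine Finset.sum_le_sum (fun l hl => ?_)
    obtain ⟨h3, h4⟩ := Finset.mem_sdiff.mp hl
    exact h2 l h3 h4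
  have e2 : ∑ l ∈ itr J r c, Xc F x r c l * f l ≤ ∑ l ∈ itr J r c, f l := by
    refine Finset.sum_le_sum (fun l hl => ?_)
    have := mul_le_mul_of_nonneg_right (h.Xc_le_one hl) (hf l hl)
    linarith only [this]
  linarith only [h1, e1, e2]

/-- Closing an isolated cluster. -/
lemma lam_iso {c : X} (hc : c ∈ CC) (hi : Iso r CC ρ c) :
    sc F y r c * Lam J F x r CC ρ π c ≤ 21 / 20 * cross J F x r CC c
      + 1 / 200 * oc J F x r c + 700 * (cu J F x r CC c + inr J r ρ c) := by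
  classical
  have hs0 := h.sc_nonneg c
  have hs1 := h.sc_le hc
  have hr := h.rpos c
  have hcr := h.cross_nonneg c
  have hoc := h.oc_nonneg c
  have hcu := h.cu_nonneg c
  have hin := h.inr_nonneg c
  have hprice : sc F y r c * ((itr J r c).card * r c)
      ≤ 125 * cu J F x r CC c + 125 * (sc F y r c * inr J r ρ c) := h.iso_price hc hi
  unfold Lam
  rw [if_pos hi]
  have h1 := h.sum_Xc (c := c) (f := fun l => dist (ρ c) l + 201 / 50 * r c)
    (K1 := inr J r ρ c + 201 / 50 * ((itr J r c).card * r c)) (K2 := 38)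
    (fun l _ => by have := dist_nonneg (x := ρ c) (y := l); positivity)
    (by
      rw [Finset.sum_add_distrib, Finset.sum_const, nsmul_eq_mul]
      unfold inr
      linarith)
    (fun l hl hlc => by
      have e1 := h.Xc_dist hc hl hlc
      have e2 := h.Xc_radius hl hlc
      have e3 := h.Qc_nonneg (c := c) hl
      linarith)
  have h2 := mul_le_mul_of_nonneg_left h1 hs0
  have h3 : sc F y r c * cross J F x r CC c ≤ 1 / 10 ^ 4 * cross J F x r CC c :=
    mul_le_mul_of_nonneg_right hs1 hcr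
  have h4 : sc F y r c * oc J F x r c ≤ 1 / 10 ^ 4 * oc J F x r c :=
    mul_le_mul_of_nonneg_right hs1 hoc
  have h5 : sc F y r c * inr J r ρ c ≤ 1 / 10 ^ 4 * inr J r ρ c :=
    mul_le_mul_of_nonneg_right hs1 hin
  have e1 : sc F y r c * (6 / 5 * cross J F x r CC c
      + ∑ l ∈ J, Xc F x r c l * (dist (ρ c) l + 201 / 50 * r c))
      = 6 / 5 * (sc F y r c * cross J F x r CC c)
        + sc F y r c * ∑ l ∈ J, Xc F x r c l * (dist (ρ c) l + 201 / 50 * r c) := by ring
  have e2 : sc F y r c * (inr J r ρ c + 201 / 50 * ((itr J r c).card * r c) + 38 * oc J F x r c)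
      = sc F y r c * inr J r ρ c + 201 / 50 * (sc F y r c * ((itr J r c).card * r c))
        + 38 * (sc F y r c * oc J F x r c) := by ring
  rw [e1]
  rw [e2] at h2
  linarith only [hcr, hoc, hcu, hin, hprice, h2, h3, h4, h5]

/-- Closing a cluster with a near neighbour. -/
lemma lam_conn {c : X} (hc : c ∈ CC) (hi : ¬ Iso r CC ρ c)
    (hnear : ∀ c' ∈ CC, c' ≠ c → dist (ρ c) (ρ (π c)) ≤ dist (ρ c) (ρ c')) :
    sc F y r c * Lam J F x r CC ρ π c ≤ 21 / 20 * cross J F x r CC c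
      + 1 / 200 * oc J F x r c + 700 * (cu J F x r CC c + inr J r ρ c) := by
  classical
  have hs0 := h.sc_nonneg c
  have hs1 := h.sc_le hc
  have hr := h.rpos c
  have hcr := h.cross_nonneg c
  have hoc := h.oc_nonneg c
  have hcu := h.cu_nonneg c
  have hin := h.inr_nonneg c
  set R := dist (ρ c) (ρ (π c)) with hR
  have hR0 : 0 ≤ R := dist_nonneg
  have hR5 : R ≤ 5 * r c := by
    unfold Iso at hi
    push Not at hi
    obtain ⟨c', hc', hne, hd⟩ := hi
    exact (hnear c' hc' hne).trans hd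
  unfold Lam
  rw [if_neg hi]
  have h1 := h.sum_Xc (c := c) (f := fun _ => R) (K1 := (itr J r c).card * R) (K2 := 45)
    (fun _ _ => hR0)
    (by rw [Finset.sum_const, nsmul_eq_mul])
    (fun l hl hlc => by
      have e2 := h.Xc_radius hl hlc
      have e3 := mul_le_mul_of_nonneg_left hR5 (h.Xc_nonneg (c := c) hl)
      linarith only [e2, e3])
  have h2 := mul_le_mul_of_nonneg_left h1 hs0
  have h3 : sc F y r c * cross J F x r CC c ≤ 1 / 10 ^ 4 * cross J F x r CC c :=
    mul_le_mul_of_nonneg_right hs1 hcr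
  have h4 : sc F y r c * oc J F x r c ≤ 1 / 10 ^ 4 * oc J F x r c :=
    mul_le_mul_of_nonneg_right hs1 hoc
  -- the main term
  have hmain : sc F y r c * ((itr J r c).card * R)
      ≤ 26 / 25 * cross J F x r CC c + 627 * (cu J F x r CC c + inr J r ρ c) := by
    have e1 : sc F y r c * ((itr J r c).card * R)
        = ∑ l ∈ itr J r c, ((∑ i ∈ upF F r CC, x i l) * R
          + (∑ c' ∈ CC.erase c, Xc F x r c' l) * R) := by
      have : ∀ l ∈ itr J r c, (∑ i ∈ upF F r CC, x i l) * R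
          + (∑ c' ∈ CC.erase c, Xc F x r c' l) * R = sc F y r c * R := by
        intro l hl
        rw [h.missing hc hl]; ring
      rw [Finset.sum_congr rfl this, Finset.sum_const, nsmul_eq_mul]
      ring
    rw [e1, Finset.sum_add_distrib]
    have hU0 : ∀ l ∈ itr J r c, 0 ≤ ∑ i ∈ upF F r CC, x i l := fun l hl =>
      Finset.sum_nonneg (fun i hi => h.rad.sol.x_nonneg i (upF_sub hi) l (itr_sub hl))
    have hO0 : ∀ l ∈ itr J r c, 0 ≤ ∑ c' ∈ CC.erase c, Xc F x r c' l := fun l hl =>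
      Finset.sum_nonneg (fun c' _ => h.Xc_nonneg (itr_sub hl))
    have hU1 : ∀ l ∈ itr J r c, ∑ i ∈ upF F r CC, x i l ≤ 1 := fun l hl => by
      have e2 := h.missing hc hl
      have e3 := hO0 l hl
      linarith only [hs1, e2, e3]
    have hO1 : ∀ l ∈ itr J r c, ∑ c' ∈ CC.erase c, Xc F x r c' l ≤ 1 := fun l hl => by
      have e2 := h.missing hc hl
      have e3 := hU0 l hl
      linarith only [hs1, e2, e3]
    have hA : ∑ l ∈ itr J r c, (∑ i ∈ upF F r CC, x i l) * R
        ≤ 625 * (cu J F x r CC c + inr J r ρ c) := by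
      have e2 := h.up_mass hc
      have e3 : ∑ l ∈ itr J r c, (∑ i ∈ upF F r CC, x i l) * dist (ρ c) l ≤ inr J r ρ c := by
        refine Finset.sum_le_sum (fun l hl => ?_)
        have := mul_le_mul_of_nonneg_right (hU1 l hl) (dist_nonneg (x := ρ c) (y := l))
        linarith only [this]
      have e4 : ∑ l ∈ itr J r c, (∑ i ∈ upF F r CC, x i l) * R
          ≤ (∑ l ∈ itr J r c, ∑ i ∈ upF F r CC, x i l) * (5 * r c) := by
        rw [Finset.sum_mul]
        exact Finset.sum_le_sum (fun l hl => mul_le_mul_of_nonneg_left hR5 (hU0 l hl))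
      have e5 : cu J F x r CC c = ∑ l ∈ itr J r c, ∑ i ∈ upF F r CC, x i l * dist i l := rfl
      rw [← e5] at e2
      linarith only [e2, e3, e4]
    have hB : ∑ l ∈ itr J r c, (∑ c' ∈ CC.erase c, Xc F x r c' l) * R
        ≤ 26 / 25 * (cross J F x r CC c + inr J r ρ c) := by
      unfold cross inr
      rw [← Finset.sum_add_distrib, Finset.mul_sum]
      refine Finset.sum_le_sum (fun l hl => ?_)
      have e2 : out J F x r CC l = ∑ c' ∈ CC.erase c, Qc F x r c' l := by
        unfold out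
        apply Finset.sum_congr _ (fun _ _ => rfl)
        ext c'
        simp only [Finset.mem_filter, Finset.mem_erase]
        constructor
        · rintro ⟨h5, h6⟩
          exact ⟨fun he => h6 (by rw [he]; exact hl), h5⟩
        · rintro ⟨h5, h6⟩
          exact ⟨h6, fun hl' => h5 (h.itr_disj c' h6 c hc l hl' hl)⟩
      rw [e2]
      have e3 : ∑ c' ∈ CC.erase c, Xc F x r c' l * R
          ≤ ∑ c' ∈ CC.erase c, 26 / 25 * (Qc F x r c' l + Xc F x r c' l * dist (ρ c) l) := by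
        refine Finset.sum_le_sum (fun c' hc' => ?_)
        obtain ⟨h5, h6⟩ := Finset.mem_erase.mp hc'
        exact h.other_mass hc h6 (fun he => h5 he.symm) (itr_sub hl) (hnear c' h6 h5)
      rw [← Finset.mul_sum, Finset.sum_add_distrib] at e3
      have e5 : ∑ c' ∈ CC.erase c, Xc F x r c' l * R
          = (∑ c' ∈ CC.erase c, Xc F x r c' l) * R := (Finset.sum_mul _ _ _).symm
      have e6 : ∑ c' ∈ CC.erase c, Xc F x r c' l * dist (ρ c) l
          = (∑ c' ∈ CC.erase c, Xc F x r c' l) * dist (ρ c) l := (Finset.sum_mul _ _ _).symm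
      have e4 := mul_le_mul_of_nonneg_right (hO1 l hl) (dist_nonneg (x := ρ c) (y := l))
      (clear * - e3 e5 e6 e4; linarith)
    (clear * - hcu hin hA hB; linarith)
  have e1 : sc F y r c * (6 / 5 * cross J F x r CC c + ∑ l ∈ J, Xc F x r c l * R)
      = 6 / 5 * (sc F y r c * cross J F x r CC c)
        + sc F y r c * ∑ l ∈ J, Xc F x r c l * R := by ring
  have e2 : sc F y r c * ((itr J r c).card * R + 45 * oc J F x r c)
      = sc F y r c * ((itr J r c).card * R) + 45 * (sc F y r c * oc J F x r c) := by ring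
  rw [e1]
  rw [e2] at h2
  linarith

/-- Total outer cost. -/
lemma sum_oc : ∑ c ∈ CC, oc J F x r c = ∑ l ∈ J, out J F x r CC l := by
  classical
  unfold oc out
  apply Finset.sum_comm'
  intro c l
  simp only [Finset.mem_filter, Finset.mem_sdiff]
  (clear * -; tauto)

/-- Total cost of inner clients through `upF`. -/
lemma sum_cu : ∑ c ∈ CC, cu J F x r CC c ≤ ∑ i ∈ upF F r CC, fcl J x i := by
  classical
  have h1 := sum_blocks (G := J) (CC := CC) (A := itr J r) (fun c _ => itr_sub) h.itr_disj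
    (fun l => ∑ i ∈ upF F r CC, x i l * dist i l)
  have h2 : 0 ≤ ∑ l ∈ J with ∀ c ∈ CC, l ∉ itr J r c, ∑ i ∈ upF F r CC, x i l * dist i l :=
    Finset.sum_nonneg (fun l hl => Finset.sum_nonneg (fun i hi =>
      mul_nonneg (h.rad.sol.x_nonneg i (upF_sub hi) l (Finset.mem_filter.mp hl).1) dist_nonneg))
  have h3 : ∑ i ∈ upF F r CC, fcl J x i = ∑ l ∈ J, ∑ i ∈ upF F r CC, x i l * dist i l := by
    unfold fcl
    rw [Finset.sum_comm]
  have h4 : ∑ c ∈ CC, cu J F x r CC c
      = ∑ c ∈ CC, ∑ l ∈ itr J r c, ∑ i ∈ upF F r CC, x i l * dist i l := rfl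
  rw [h3, h4]
  linarith

/-- Total outer cost, split. -/
lemma sum_out : ∑ l ∈ J, out J F x r CC l
    = restOut J F x r CC + ∑ c ∈ CC, cross J F x r CC c := by
  classical
  exact sum_blocks (G := J) (CC := CC) (A := itr J r) (fun c _ => itr_sub) h.itr_disj
    (fun l => out J F x r CC l)

/-- The outer cost is at most the total cost. -/
lemma sum_out_le : ∑ l ∈ J, out J F x r CC l ≤ fracCost J F x := by
  classical
  rw [h.cost_split]
  refine Finset.sum_le_sum (fun l hl => ?_)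
  have h1 : out J F x r CC l ≤ ∑ c ∈ CC, Qc F x r c l :=
    Finset.sum_le_sum_of_subset_of_nonneg (Finset.filter_subset _ _)
      (fun c _ _ => h.Qc_nonneg hl)
  have h2 : 0 ≤ ∑ i ∈ upF F r CC, x i l * dist i l :=
    Finset.sum_nonneg (fun i hi => mul_nonneg (h.rad.sol.x_nonneg i (upF_sub hi) l hl)
      dist_nonneg)
  linarith

/-- Total closing costs, weighted by the missing masses. -/
lemma sum_lam {E : Finset X} (hE : E ⊆ CC)
    (hnear : ∀ c ∈ E, ¬ Iso r CC ρ c →
      ∀ c' ∈ CC, c' ≠ c → dist (ρ c) (ρ (π c)) ≤ dist (ρ c) (ρ c')) :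
    ∑ c ∈ E, sc F y r c * Lam J F x r CC ρ π c
      ≤ 21 / 20 * ∑ c ∈ CC, cross J F x r CC c + 1 / 200 * ∑ l ∈ J, out J F x r CC l
        + 700 * (∑ i ∈ upF F r CC, fcl J x i + ∑ c ∈ CC, inr J r ρ c) := by
  have h1 : ∑ c ∈ E, sc F y r c * Lam J F x r CC ρ π c
      ≤ ∑ c ∈ E, (21 / 20 * cross J F x r CC c
        + 1 / 200 * oc J F x r c + 700 * (cu J F x r CC c + inr J r ρ c)) := by
    refine Finset.sum_le_sum (fun c hc => ?_)
    by_cases hi : Iso r CC ρ c
    · exact h.lam_iso (hE hc) hi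
    · exact h.lam_conn (hE hc) hi (hnear c hc hi)
  have h2 : ∑ c ∈ E, (21 / 20 * cross J F x r CC c
        + 1 / 200 * oc J F x r c + 700 * (cu J F x r CC c + inr J r ρ c))
      ≤ ∑ c ∈ CC, (21 / 20 * cross J F x r CC c
        + 1 / 200 * oc J F x r c + 700 * (cu J F x r CC c + inr J r ρ c)) :=
    Finset.sum_le_sum_of_subset_of_nonneg hE (fun c _ _ => by
      have := h.cross_nonneg c
      have := h.oc_nonneg c
      have := h.cu_nonneg c
      have := h.inr_nonneg c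
      positivity)
  have h4 := h1.trans h2
  rw [Finset.sum_add_distrib, Finset.sum_add_distrib, ← Finset.mul_sum, ← Finset.mul_sum,
    ← Finset.mul_sum, Finset.sum_add_distrib, h.sum_oc] at h4
  have h3 := h.sum_cu
  linarith only [h4, h3]

end Clu

end

end Vale.Agent.P334
end

section
attribute [-instance] ProperSMul.toContinuousSMul IsTopologicalTorsor.toContinuousSMul IdemSemiring.toCanonicallyOrderedAdd IdemSemiring.toMulLeftMono IdemSemiring.toMulRightMono AddQuantale.instAddLeftMono AddQuantale.instAddRightMono Quantale.instMulLeftMono Quantale.instMulRightMono FiniteDimensional.rclike_to_real IsScalarTower.complexToReal FiniteDimensional.complexToReal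

/-!
The rounded fractional solution of the second case.
-/

namespace Vale.Agent.P334

open Finset

section

variable {X : Type} [MetricSpace X]

/-- Isolated clusters with small mass nearby. -/
noncomputable def IbS (F : Finset X) (y r : X → ℝ) (CC : Finset X) (ρ : X → X) : Finset X :=
  open Classical in CC.filter (fun c => Iso r CC ρ c ∧
    ∑ i ∈ vb F r CC 2 c, y i ≤ 1 - 1 / (8 * (F.card : ℝ)))

/-- Slightly increased opening variables. -/
noncomputable def infl (F : Finset X) (y : X → ℝ) (i : X) : ℝ := (1 + 1 / (4 * (F.card : ℝ))) * y i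

/-- Fraction of the nearby mass moved to the representative. -/
noncomputable def th (F : Finset X) (y r : X → ℝ) (CC : Finset X) (c : X) : ℝ :=
  sc F y r c / ∑ i ∈ vb F r CC (3 / 2) c, y i

variable {J F : Finset X} {g : ℝ} {x : X → X → ℝ} {y r : X → ℝ} {CC : Finset X} {ρ π : X → X}

lemma mem_IbS {c : X} : c ∈ IbS F y r CC ρ ↔
    c ∈ CC ∧ Iso r CC ρ c ∧ ∑ i ∈ vb F r CC 2 c, y i ≤ 1 - 1 / (8 * (F.card : ℝ)) := by
  classical
  unfold IbS
  rw [Finset.mem_filter]

/-- The bound of the cost of a free client. -/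
noncomputable def fb (F : Finset X) (x : X → X → ℝ) (y r : X → ℝ) (CC : Finset X) (ρ π : X → X)
    (Z : Finset X) (l : X) : ℝ :=
  open Classical in
  ∑ c ∈ CC, Xc F x r c l * dist (ρ c) l
    + ∑ c ∈ Z, (if Iso r CC ρ c then Xc F x r c l * (dist (ρ c) l + 201 / 50 * r c)
      else Xc F x r c l * dist (ρ c) (ρ (π c)))
    + ∑ c ∈ IbS F y r CC ρ, th F y r CC c * (∑ i ∈ vb F r CC (3 / 2) c, x i l) * dist (ρ c) l
    + 2 * ∑ i ∈ upF F r CC, x i l * dist i l

namespace Clu

set_option linter.unusedSectionVars false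

variable (h : Clu J F g x y r CC ρ)
include h

lemma infl_ge {i : X} (hi : i ∈ F) : y i ≤ infl F y i := by
  unfold infl
  have h1 := h.rad.sol.y_nonneg i hi
  have h2 : (0 : ℝ) ≤ 1 / (4 * (F.card : ℝ)) := by (clear * -; positivity)
  have h3 := mul_nonneg h2 h1
  linarith

lemma infl_mass {V : Finset X} (hV : V ⊆ F)
    (hm : ¬ ∑ i ∈ V, y i ≤ 1 - 1 / (8 * (F.card : ℝ))) : 1 ≤ ∑ i ∈ V, infl F y i := by
  push Not at hm
  rcases V.eq_empty_or_nonempty with h0 | ⟨i, hi⟩
  · exfalso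
    rw [h0, Finset.sum_empty] at hm
    rcases Nat.eq_zero_or_pos F.card with h1 | h1
    · rw [h1] at hm
      norm_num at hm
    · have h2 : (1 : ℝ) ≤ F.card := by exact_mod_cast h1
      have : 1 / (8 * (F.card : ℝ)) ≤ 1 := by
        rw [div_le_one (by (clear * - h1; positivity))]
        linarith only [h2]
      linarith only [hm, this]
  · have hF1 : (1 : ℝ) ≤ F.card := by exact_mod_cast Finset.card_pos.mpr ⟨i, hV hi⟩
    unfold infl
    rw [← Finset.mul_sum]
    obtain ⟨u, hu⟩ : ∃ u : ℝ, u = 1 / (8 * (F.card : ℝ)) := ⟨_, rfl⟩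
    have hu1 : 1 / (4 * (F.card : ℝ)) = 2 * u := by
      rw [hu]; field_simp; norm_num
    have hu0 : 0 ≤ u := by rw [hu]; (clear * - hF1; positivity)
    have hu2 : u ≤ 1 / 8 := by
      rw [hu]
      apply one_div_le_one_div_of_le (by norm_num)
      linarith only [hF1]
    rw [hu1]
    rw [← hu] at hm
    nlinarith only [hm, hu0, hu2]

lemma th_nonneg (c : X) : 0 ≤ th F y r CC c :=
  div_nonneg (h.sc_nonneg c) (Finset.sum_nonneg (fun i hi =>
    h.rad.sol.y_nonneg i (upF_sub (vb_sub hi))))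

lemma th_le {c : X} (hc : c ∈ CC) (hi : Iso r CC ρ c) : th F y r CC c ≤ 1 := by
  have h1 := h.iso_mass hc hi
  have h2 := h.sc_nonneg c
  unfold th
  rw [div_le_one (by linarith only [h1, h2])]
  exact h1.le

lemma th_mul {c : X} (hc : c ∈ CC) (hi : Iso r CC ρ c) :
    th F y r CC c * ∑ i ∈ vb F r CC (3 / 2) c, y i = sc F y r c := by
  have h1 := h.iso_mass hc hi
  have h2 := h.sc_nonneg c
  unfold th
  have h3 : ∑ i ∈ vb F r CC (3 / 2) c, y i ≠ 0 := by linarith
  (clear * - h3; field_simp)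

/-- Routing of a free client. -/
lemma route_free [DecidableEq X] {Z : Finset X} (hZ : Z ⊆ CC)
    (hZI : ∀ c ∈ Z, c ∉ IbS F y r CC ρ)
    (hπ : ∀ c ∈ Z, ¬ Iso r CC ρ c → π c ∈ CC \ Z) {l : X} (hl : l ∈ J) :
    ∃ z : X → ℝ, (∀ i ∈ F, 0 ≤ z i) ∧
      (∀ i ∈ F, z i ≤ yh ((CC \ Z).image ρ) (upF F r CC) (IbS F y r CC ρ) (vb F r CC (3 / 2))
        (th F y r CC) (infl F y) i) ∧
      ∑ i ∈ F, z i = 1 ∧
      ∑ i ∈ F, z i * ((if i ∈ (CC \ Z).image ρ then 1 else 2) * dist i l)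
        ≤ fb F x y r CC ρ π Z l := by
  classical
  have hX0 : ∀ c, 0 ≤ Xc F x r c l := fun c => h.Xc_nonneg hl
  have hIb : IbS F y r CC ρ ⊆ CC \ Z := fun c hc =>
    Finset.mem_sdiff.mpr ⟨(mem_IbS.mp hc).1, fun hcZ => hZI c hcZ hc⟩
  have hsplitZ : ∀ u : X → ℝ, ∑ c ∈ Z, u c
      = ∑ c ∈ Z with ¬ Iso r CC ρ c, u c + ∑ c ∈ Z with Iso r CC ρ c, u c := by
    intro u
    rw [add_comm, Finset.sum_filter_add_sum_filter_not]
  have hsplitC : ∀ u : X → ℝ, ∑ c ∈ CC, u c = ∑ c ∈ CC \ Z, u c + ∑ c ∈ Z, u c :=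
    fun u => (Finset.sum_sdiff hZ).symm
  obtain ⟨z, hz1, hz2, hz3, hz4⟩ := route (F := F) (U := upF F r CC) (Op := CC \ Z)
    (Z2 := Z.filter (fun c => ¬ Iso r CC ρ c)) (Z3 := Z.filter (fun c => Iso r CC ρ c))
    (Ib := IbS F y r CC ρ) (ρ := ρ) (π := π) (V := vb F r CC 2) (V' := vb F r CC (3 / 2))
    (θ := th F y r CC) (x := fun i => x i l) (y := infl F y) (Xm := fun c => Xc F x r c l)
    (d := fun i => dist i l) (B := fun c => dist (ρ c) l + 201 / 100 * r c)
    upF_sub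
    (fun c hc => near_sub (h.rep c (Finset.mem_sdiff.mp hc).1))
    (fun c hc hU => (mem_upF.mp hU).2 c (Finset.mem_sdiff.mp hc).1
      (near_sub_full (h.rep c (Finset.mem_sdiff.mp hc).1)))
    (fun c hc => hπ c (Finset.mem_filter.mp hc).1 (Finset.mem_filter.mp hc).2)
    hIb
    (fun c _ => vb_sub) (fun c _ => vb_sub)
    (fun c _ => h.th_nonneg c)
    (fun c hc => h.th_le (mem_IbS.mp hc).1 (mem_IbS.mp hc).2.1)
    (fun i hi => h.rad.sol.x_nonneg i hi l hl)
    (fun i hi => (h.rad.sol.x_le i hi l hl).trans (h.infl_ge hi))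
    (fun c _ => hX0 c) (fun c _ => hX0 c) (fun c _ => hX0 c)
    (by
      have h1 := h.mass_split hl
      rw [hsplitC, hsplitZ] at h1
      linarith)
    (fun c hc => by
      obtain ⟨h1, h2⟩ := Finset.mem_filter.mp hc
      have h3 := hZI c h1
      rw [mem_IbS] at h3
      exact h.infl_mass (vb_sub.trans upF_sub) (fun hcon => h3 ⟨hZ h1, h2, hcon⟩))
    (fun c hc c' hc' i hi hi' => by
      obtain ⟨h1, h2, _⟩ := mem_IbS.mp hc
      obtain ⟨h3, h4, _⟩ := mem_IbS.mp hc'
      have e1 := (mem_vb.mp hi).2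
      have e2 := (mem_vb.mp hi').2
      exact h.iso_disj h1 h3 h2 h4 (by linarith only [e1, h.rpos c]) (by linarith only [e2, h.rpos c']))
    (fun c hc c' hc' i hi hi' => by
      obtain ⟨h1, h2⟩ := Finset.mem_filter.mp hc
      obtain ⟨h3, h4⟩ := Finset.mem_filter.mp hc'
      exact h.iso_disj (hZ h1) (hZ h3) h2 h4 (mem_vb.mp hi).2 (mem_vb.mp hi').2)
    (fun c hc c' hc' i hi hi' => by
      obtain ⟨h1, h2, _⟩ := mem_IbS.mp hc
      obtain ⟨h3, h4⟩ := Finset.mem_filter.mp hc'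
      have e1 := (mem_vb.mp hi).2
      have e2 := (mem_vb.mp hi').2
      have e3 := h.iso_disj h1 (hZ h3) h2 h4 (by linarith only [e1, h.rpos c]) e2
      exact hZI c' h3 (by rw [← e3]; exact hc))
    (fun i _ => dist_nonneg)
    (fun c hc i hi => by
      obtain ⟨h1, h2⟩ := Finset.mem_filter.mp hc
      have e1 := (mem_vb.mp hi).2
      have e2 := h.rep_near (hZ h1)
      have e3 := dist_triangle i c l
      have e4 := dist_triangle c (ρ c) l
      rw [dist_comm c (ρ c)] at e4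
      have e5 := h.rpos c
      linarith)
  refine ⟨z, hz1, hz2, hz3, hz4.trans ?_⟩
  unfold fb
  rw [hsplitC (fun c => Xc F x r c l * dist (ρ c) l), hsplitZ, hsplitZ]
  have e1 : ∑ c ∈ Z with ¬ Iso r CC ρ c, Xc F x r c l * dist (ρ (π c)) l
      ≤ ∑ c ∈ Z with ¬ Iso r CC ρ c, Xc F x r c l * dist (ρ c) l
        + ∑ c ∈ Z with ¬ Iso r CC ρ c,
          (if Iso r CC ρ c then Xc F x r c l * (dist (ρ c) l + 201 / 50 * r c)
          else Xc F x r c l * dist (ρ c) (ρ (π c))) := by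
    rw [← Finset.sum_add_distrib]
    refine Finset.sum_le_sum (fun c hc => ?_)
    rw [if_neg (Finset.mem_filter.mp hc).2, ← mul_add]
    apply mul_le_mul_of_nonneg_left _ (hX0 c)
    have := dist_triangle (ρ (π c)) (ρ c) l
    rw [dist_comm (ρ (π c)) (ρ c)] at this
    linarith only [this]
  have e2 : 2 * ∑ c ∈ Z with Iso r CC ρ c, Xc F x r c l * (dist (ρ c) l + 201 / 100 * r c)
      = ∑ c ∈ Z with Iso r CC ρ c, Xc F x r c l * dist (ρ c) l
        + ∑ c ∈ Z with Iso r CC ρ c,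
          (if Iso r CC ρ c then Xc F x r c l * (dist (ρ c) l + 201 / 50 * r c)
          else Xc F x r c l * dist (ρ c) (ρ (π c))) := by
    rw [← Finset.sum_add_distrib, Finset.mul_sum]
    refine Finset.sum_congr rfl (fun c hc => ?_)
    rw [if_pos (Finset.mem_filter.mp hc).2]
    ring
  linarith only [e1, e2]

/-- Routing of a captured client. -/
lemma route_capt [DecidableEq X] {Z : Finset X} {c l : X} (hc : c ∈ CC \ Z) :
    ∃ z : X → ℝ, (∀ i ∈ F, 0 ≤ z i) ∧
      (∀ i ∈ F, z i ≤ yh ((CC \ Z).image ρ) (upF F r CC) (IbS F y r CC ρ) (vb F r CC (3 / 2))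
        (th F y r CC) (infl F y) i) ∧
      ∑ i ∈ F, z i = 1 ∧
      ∑ i ∈ F, z i * ((if i ∈ (CC \ Z).image ρ then 1 else 2) * dist i l)
        ≤ dist (ρ c) l := by
  classical
  have hcC := (Finset.mem_sdiff.mp hc).1
  have hρF : ρ c ∈ F := near_sub (h.rep c hcC)
  have hρO : ρ c ∈ (CC \ Z).image ρ := Finset.mem_image_of_mem ρ hc
  refine ⟨fun i => if i = ρ c then 1 else 0, ?_, ?_, ?_, ?_⟩
  · intro i _
    show (0 : ℝ) ≤ if i = ρ c then 1 else 0
    split_ifs <;> norm_num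
  · intro i hi
    show (if i = ρ c then (1 : ℝ) else 0) ≤ _
    split_ifs with hic
    · unfold yh
      rw [hic, if_pos hρO]
    · unfold yh
      split_ifs with h1 h2
      · exact zero_le_one
      · apply mul_nonneg ((h.rad.sol.y_nonneg i hi).trans (h.infl_ge hi))
        have := tau_le_one (Ib := IbS F y r CC ρ) (V' := vb F r CC (3 / 2)) (θ := th F y r CC)
          (fun c hc => h.th_le (mem_IbS.mp hc).1 (mem_IbS.mp hc).2.1)
          (fun c hc c' hc' i hi hi' => by
            obtain ⟨h1, h2, _⟩ := mem_IbS.mp hc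
            obtain ⟨h3, h4, _⟩ := mem_IbS.mp hc'
            have e1 := (mem_vb.mp hi).2
            have e2 := (mem_vb.mp hi').2
            exact h.iso_disj h1 h3 h2 h4 (by linarith [h.rpos c]) (by linarith only [e2, h.rpos c'])) i
        linarith only [this]
      · exact le_rfl
  · rw [Finset.sum_ite_eq' F (ρ c), if_pos hρF]
  · simp only [ite_mul, one_mul, zero_mul]
    rw [Finset.sum_ite_eq' F (ρ c), if_pos hρF, if_pos hρO]

/-- Moved mass near isolated clusters. -/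
lemma ib_bound [DecidableEq X] {Fr : Finset X}
    (hFr : ∀ c ∈ IbS F y r CC ρ, Fr ⊆ J \ itr J r c) :
    ∑ l ∈ Fr, ∑ c ∈ IbS F y r CC ρ,
        th F y r CC c * (∑ i ∈ vb F r CC (3 / 2) c, x i l) * dist (ρ c) l
      ≤ 36404 * ∑ i ∈ upF F r CC, fcl J x i + 36375 * ∑ c ∈ CC, inr J r ρ c := by
  classical
  have hg := h.rad.g_pos
  rw [Finset.sum_comm]
  have h1 : ∀ c ∈ IbS F y r CC ρ, ∑ l ∈ Fr,
      th F y r CC c * (∑ i ∈ vb F r CC (3 / 2) c, x i l) * dist (ρ c) l
      ≤ 29 * ∑ i ∈ vb F r CC (3 / 2) c, fcl J x i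
        + 291 / 5 * 625 * (cu J F x r CC c + inr J r ρ c) := by
    intro c hc
    obtain ⟨hcC, hci, hcm⟩ := mem_IbS.mp hc
    have hθ0 := h.th_nonneg c
    have hθ1 := h.th_le hcC hci
    have hθm := h.th_mul hcC hci
    have e1 : ∑ l ∈ Fr, th F y r CC c * (∑ i ∈ vb F r CC (3 / 2) c, x i l) * dist (ρ c) l
        = th F y r CC c * ∑ i ∈ vb F r CC (3 / 2) c, ∑ l ∈ Fr, x i l * dist (ρ c) l := by
      rw [Finset.sum_comm, Finset.mul_sum]
      refine Finset.sum_congr rfl (fun l _ => ?_)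
      rw [← Finset.sum_mul]; ring
    have e2 : ∑ i ∈ vb F r CC (3 / 2) c, ∑ l ∈ Fr, x i l * dist (ρ c) l
        ≤ ∑ i ∈ vb F r CC (3 / 2) c, (29 * fcl J x i + 291 / 5 * (g * y i)) := by
      refine Finset.sum_le_sum (fun i hi => ?_)
      refine le_trans ?_ (h.iso_move hcC hci hcm hi)
      apply Finset.sum_le_sum_of_subset_of_nonneg (hFr c hc)
      intro l hl _
      exact mul_nonneg (h.rad.sol.x_nonneg i (upF_sub (vb_sub hi)) l (Finset.mem_sdiff.mp hl).1)
        dist_nonneg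
    rw [Finset.sum_add_distrib, ← Finset.mul_sum, ← Finset.mul_sum, ← Finset.mul_sum] at e2
    have e3 := mul_le_mul_of_nonneg_left e2 hθ0
    have hf0 : 0 ≤ ∑ i ∈ vb F r CC (3 / 2) c, fcl J x i :=
      Finset.sum_nonneg (fun i hi => h.rad.fcl_nonneg (upF_sub (vb_sub hi)))
    have e4 : th F y r CC c * ∑ i ∈ vb F r CC (3 / 2) c, fcl J x i
        ≤ 1 * ∑ i ∈ vb F r CC (3 / 2) c, fcl J x i := mul_le_mul_of_nonneg_right hθ1 hf0
    have e5 : th F y r CC c * (29 * ∑ i ∈ vb F r CC (3 / 2) c, fcl J x i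
          + 291 / 5 * (g * ∑ i ∈ vb F r CC (3 / 2) c, y i))
        = 29 * (th F y r CC c * ∑ i ∈ vb F r CC (3 / 2) c, fcl J x i)
          + 291 / 5 * (g * (th F y r CC c * ∑ i ∈ vb F r CC (3 / 2) c, y i)) := by ring
    rw [e5, hθm] at e3
    -- g * sc ≤ 625 (cu + inr)
    have e6 : g * sc F y r c ≤ 625 * (cu J F x r CC c + inr J r ρ c) := by
      have p1 : sc F y r c * ((itr J r c).card * r c)
        ≤ 125 * cu J F x r CC c + 125 * (sc F y r c * inr J r ρ c) := h.iso_price hcC hci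
      have p2 := h.big c hcC
      have p3 := mul_le_mul_of_nonneg_left p2 (h.sc_nonneg c)
      have p4 : sc F y r c * inr J r ρ c ≤ 1 * inr J r ρ c :=
        mul_le_mul_of_nonneg_right (by linarith only [h.sc_le hcC]) (h.inr_nonneg c)
      linarith only [p1, p3, p4]
    rw [e1]
    linarith only [e3, e4, e6]
  refine (Finset.sum_le_sum h1).trans ?_
  rw [Finset.sum_add_distrib, ← Finset.mul_sum, ← Finset.mul_sum]
  have hIC : IbS F y r CC ρ ⊆ CC := fun c hc => (mem_IbS.mp hc).1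
  have h2 : ∑ c ∈ IbS F y r CC ρ, ∑ i ∈ vb F r CC (3 / 2) c, fcl J x i
      ≤ ∑ i ∈ upF F r CC, fcl J x i := by
    rw [← Finset.sum_biUnion]
    · apply Finset.sum_le_sum_of_subset_of_nonneg
      · intro i hi
        obtain ⟨c, _, hc⟩ := Finset.mem_biUnion.mp hi
        exact vb_sub hc
      · intro i hi _
        exact h.rad.fcl_nonneg (upF_sub hi)
    · intro c hc c' hc' hne
      rw [Function.onFun, Finset.disjoint_left]
      intro i hi hi'
      obtain ⟨h1, h2, _⟩ := mem_IbS.mp (Finset.mem_coe.mp hc)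
      obtain ⟨h3, h4, _⟩ := mem_IbS.mp (Finset.mem_coe.mp hc')
      have e1 := (mem_vb.mp hi).2
      have e2 := (mem_vb.mp hi').2
      exact hne (h.iso_disj h1 h3 h2 h4 (by linarith only [e1, h.rpos c]) (by (clear * - e2 h; linarith [h.rpos c'])))
  have h3 : ∑ c ∈ IbS F y r CC ρ, (cu J F x r CC c + inr J r ρ c)
      ≤ ∑ c ∈ CC, (cu J F x r CC c + inr J r ρ c) :=
    Finset.sum_le_sum_of_subset_of_nonneg hIC (fun c _ _ =>
      add_nonneg (h.cu_nonneg c) (h.inr_nonneg c))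
  rw [Finset.sum_add_distrib (s := CC)] at h3
  have h4 := h.sum_cu
  linarith only [h2, h3, h4]

/-- The total of the bounds over the free clients. -/
lemma sum_fb [DecidableEq X] {Z Fr : Finset X} (hZ : Z ⊆ CC)
    (hZI : ∀ c ∈ Z, c ∉ IbS F y r CC ρ) (hFrJ : Fr ⊆ J)
    (hFr : ∀ l ∈ Fr, ∀ c ∈ CC \ Z, l ∉ itr J r c) :
    ∑ l ∈ Fr, fb F x y r CC ρ π Z l ≤ ∑ c ∈ Z, inr J r ρ c + 6 / 5 * restOut J F x r CC
      + ∑ c ∈ Z, Lam J F x r CC ρ π c + 36406 * ∑ i ∈ upF F r CC, fcl J x i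
      + 36375 * ∑ c ∈ CC, inr J r ρ c := by
  classical
  have hx0 := h.rad.sol.x_nonneg
  unfold fb
  rw [Finset.sum_add_distrib, Finset.sum_add_distrib, Finset.sum_add_distrib]
  -- first term
  have h1 : ∑ l ∈ Fr, ∑ c ∈ CC, Xc F x r c l * dist (ρ c) l
      ≤ ∑ c ∈ Z, inr J r ρ c + 6 / 5 * (restOut J F x r CC + ∑ c ∈ Z, cross J F x r CC c) := by
    have e1 : ∀ l ∈ Fr, ∑ c ∈ CC, Xc F x r c l * dist (ρ c) l
        ≤ ∑ c ∈ Z with l ∈ itr J r c, dist (ρ c) l + 6 / 5 * out J F x r CC l := by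
      intro l hl
      rw [← Finset.sum_filter_add_sum_filter_not CC (fun c => l ∈ itr J r c)]
      apply add_le_add
      · have : CC.filter (fun c => l ∈ itr J r c) = Z.filter (fun c => l ∈ itr J r c) := by
          ext c
          simp only [Finset.mem_filter]
          constructor
          · rintro ⟨h2, h3⟩
            refine ⟨?_, h3⟩
            by_contra hcz
            exact hFr l hl c (Finset.mem_sdiff.mpr ⟨h2, hcz⟩) h3
          · rintro ⟨h2, h3⟩; exact ⟨hZ h2, h3⟩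
        rw [this]
        refine Finset.sum_le_sum (fun c hc => ?_)
        have h2 := (Finset.mem_filter.mp hc).2
        have h3 := mul_le_mul_of_nonneg_right (h.Xc_le_one h2) (dist_nonneg (x := ρ c) (y := l))
        linarith only [h3]
      · have hout : out J F x r CC l = ∑ c ∈ CC.filter (fun c => ¬ l ∈ itr J r c),
            Qc F x r c l := by
          unfold out
          exact Finset.sum_congr (by ext; simp only [mem_filter]) (fun _ _ => rfl)
        rw [hout, Finset.mul_sum]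
        refine Finset.sum_le_sum (fun c hc => ?_)
        obtain ⟨h2, h3⟩ := Finset.mem_filter.mp hc
        exact h.Xc_dist h2 (hFrJ hl) h3
    refine (Finset.sum_le_sum e1).trans ?_
    rw [Finset.sum_add_distrib, ← Finset.mul_sum]
    have e2 : ∑ l ∈ Fr, ∑ c ∈ Z with l ∈ itr J r c, dist (ρ c) l ≤ ∑ c ∈ Z, inr J r ρ c := by
      have e3 : ∑ l ∈ Fr, ∑ c ∈ Z with l ∈ itr J r c, dist (ρ c) l
          ≤ ∑ l ∈ J, ∑ c ∈ Z with l ∈ itr J r c, dist (ρ c) l :=
        Finset.sum_le_sum_of_subset_of_nonneg hFrJ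
          (fun l _ _ => Finset.sum_nonneg (fun _ _ => dist_nonneg))
      refine e3.trans (le_of_eq ?_)
      exact sum_swap (F := J) (A := Z) (V := itr J r) (fun c _ => itr_sub)
        (fun c l => dist (ρ c) l)
    have e4 : ∑ l ∈ Fr, out J F x r CC l
        ≤ restOut J F x r CC + ∑ c ∈ Z, cross J F x r CC c := by
      have e5 : Fr ⊆ J.filter (fun l => ∀ c ∈ CC, l ∉ itr J r c) ∪ Z.biUnion (itr J r) := by
        intro l hl
        by_cases h2 : ∀ c ∈ CC, l ∉ itr J r c
        · exact Finset.mem_union_left _ (Finset.mem_filter.mpr ⟨hFrJ hl, h2⟩)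
        · push Not at h2
          obtain ⟨c, hc, hlc⟩ := h2
          apply Finset.mem_union_right
          refine Finset.mem_biUnion.mpr ⟨c, ?_, hlc⟩
          by_contra hcz
          exact hFr l hl c (Finset.mem_sdiff.mpr ⟨hc, hcz⟩) hlc
      have e6 : ∑ l ∈ Fr, out J F x r CC l
          ≤ ∑ l ∈ J.filter (fun l => ∀ c ∈ CC, l ∉ itr J r c) ∪ Z.biUnion (itr J r),
            out J F x r CC l := by
        apply Finset.sum_le_sum_of_subset_of_nonneg e5
        intro l hl _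
        rcases Finset.mem_union.mp hl with h2 | h2
        · exact h.out_nonneg (Finset.mem_filter.mp h2).1
        · obtain ⟨c, _, hc⟩ := Finset.mem_biUnion.mp h2
          exact h.out_nonneg (itr_sub hc)
      have e7 : ∑ l ∈ Z.biUnion (itr J r), out J F x r CC l ≤ ∑ c ∈ Z, cross J F x r CC c :=
        sum_biUnion_le (F := J) (fun l hl => h.out_nonneg hl) Z (itr J r) (fun c _ => itr_sub)
      have e8 := Finset.sum_union_inter
        (s₁ := J.filter (fun l => ∀ c ∈ CC, l ∉ itr J r c)) (s₂ := Z.biUnion (itr J r))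
        (f := fun l => out J F x r CC l)
      have e9 : 0 ≤ ∑ l ∈ J.filter (fun l => ∀ c ∈ CC, l ∉ itr J r c) ∩ Z.biUnion (itr J r),
          out J F x r CC l :=
        Finset.sum_nonneg (fun l hl => h.out_nonneg
          (Finset.mem_filter.mp (Finset.mem_inter.mp hl).1).1)
      have e10 : restOut J F x r CC
          = ∑ l ∈ J.filter (fun l => ∀ c ∈ CC, l ∉ itr J r c), out J F x r CC l := by
        unfold restOut
        apply Finset.sum_congr _ (fun _ _ => rfl)
        ext; simp only [mem_filter]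
      linarith only [e6, e7, e8, e9, e10]
    linarith only [e2, e4]
  -- second term
  have h2 : ∑ l ∈ Fr, ∑ c ∈ Z, (if Iso r CC ρ c then Xc F x r c l * (dist (ρ c) l + 201 / 50 * r c)
      else Xc F x r c l * dist (ρ c) (ρ (π c)))
      + 6 / 5 * ∑ c ∈ Z, cross J F x r CC c ≤ ∑ c ∈ Z, Lam J F x r CC ρ π c := by
    have e1 : ∑ l ∈ Fr, ∑ c ∈ Z,
        (if Iso r CC ρ c then Xc F x r c l * (dist (ρ c) l + 201 / 50 * r c)
        else Xc F x r c l * dist (ρ c) (ρ (π c)))
        ≤ ∑ l ∈ J, ∑ c ∈ Z,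
        (if Iso r CC ρ c then Xc F x r c l * (dist (ρ c) l + 201 / 50 * r c)
        else Xc F x r c l * dist (ρ c) (ρ (π c))) := by
      apply Finset.sum_le_sum_of_subset_of_nonneg hFrJ
      intro l hl _
      refine Finset.sum_nonneg (fun c _ => ?_)
      have hX := h.Xc_nonneg (c := c) hl
      have hr := h.rpos c
      split_ifs
      · exact mul_nonneg hX (by have := dist_nonneg (x := ρ c) (y := l); positivity)
      · exact mul_nonneg hX dist_nonneg
    rw [Finset.sum_comm (s := J)] at e1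
    rw [Finset.mul_sum]
    have e2 : ∑ c ∈ Z, Lam J F x r CC ρ π c = ∑ c ∈ Z, 6 / 5 * cross J F x r CC c
        + ∑ c ∈ Z, ∑ l ∈ J,
          (if Iso r CC ρ c then Xc F x r c l * (dist (ρ c) l + 201 / 50 * r c)
          else Xc F x r c l * dist (ρ c) (ρ (π c))) := by
      rw [← Finset.sum_add_distrib]
      refine Finset.sum_congr rfl (fun c _ => ?_)
      unfold Lam
      by_cases hi : Iso r CC ρ c
      · simp only [hi, if_true]
      · simp only [hi, if_false]
    rw [e2]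
    linarith
  -- third term
  have h3 := h.ib_bound (Fr := Fr) (fun c hc l hl => by
    have hcI := mem_IbS.mp hc
    have hcZ : c ∈ CC \ Z := Finset.mem_sdiff.mpr ⟨hcI.1, fun hz => hZI c hz hc⟩
    exact Finset.mem_sdiff.mpr ⟨hFrJ hl, hFr l hl c hcZ⟩)
  -- fourth term
  have h4 : ∑ l ∈ Fr, 2 * ∑ i ∈ upF F r CC, x i l * dist i l
      ≤ 2 * ∑ i ∈ upF F r CC, fcl J x i := by
    rw [← Finset.mul_sum]
    apply mul_le_mul_of_nonneg_left _ (by norm_num)
    unfold fcl
    rw [Finset.sum_comm (s := upF F r CC)]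
    apply Finset.sum_le_sum_of_subset_of_nonneg hFrJ
    intro l hl _
    exact Finset.sum_nonneg (fun i hi => mul_nonneg (hx0 i (upF_sub hi) l hl) dist_nonneg)
  linarith only [h1, h2, h3, h4]

/-- Mass of the rounded opening variables. -/
lemma mass_yh [DecidableEq X] {Z : Finset X} (hZ : Z ⊆ CC) :
    (((CC \ Z).image ρ).card : ℝ) + ∑ i ∈ F \ (CC \ Z).image ρ,
        yh ((CC \ Z).image ρ) (upF F r CC) (IbS F y r CC ρ) (vb F r CC (3 / 2)) (th F y r CC)
          (infl F y) i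
      ≤ ∑ i ∈ F, y i - Z.card + ∑ c ∈ CC \ IbS F y r CC ρ, sc F y r c + 1 / 4 ∧
    ∑ i ∈ F \ (CC \ Z).image ρ,
        yh ((CC \ Z).image ρ) (upF F r CC) (IbS F y r CC ρ) (vb F r CC (3 / 2)) (th F y r CC)
          (infl F y) i
      ≤ 5 / 4 * ∑ i ∈ upF F r CC, y i := by
  classical
  set O := (CC \ Z).image ρ with hO
  set U := upF F r CC with hU
  have hUO : ∀ i ∈ U, i ∉ O := by
    intro i hi hiO
    obtain ⟨c, hc, rfl⟩ := Finset.mem_image.mp hiO
    exact (mem_upF.mp hi).2 c (Finset.mem_sdiff.mp hc).1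
      (near_sub_full (h.rep c (Finset.mem_sdiff.mp hc).1))
  have h1 : ∑ i ∈ F \ O, yh O U (IbS F y r CC ρ) (vb F r CC (3 / 2)) (th F y r CC) (infl F y) i
      = (1 + 1 / (4 * (F.card : ℝ))) *
        ∑ i ∈ U, y i * (1 - tau (IbS F y r CC ρ) (vb F r CC (3 / 2)) (th F y r CC) i) := by
    have e1 : ∑ i ∈ F \ O, yh O U (IbS F y r CC ρ) (vb F r CC (3 / 2)) (th F y r CC) (infl F y) i
        = ∑ i ∈ F \ O, (if i ∈ U then infl F y i *
          (1 - tau (IbS F y r CC ρ) (vb F r CC (3 / 2)) (th F y r CC) i) else 0) := by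
      refine Finset.sum_congr rfl (fun i hi => ?_)
      unfold yh
      rw [if_neg (Finset.mem_sdiff.mp hi).2]
    rw [e1, ← Finset.sum_filter, Finset.mul_sum]
    refine Finset.sum_congr ?_ (fun i _ => by unfold infl; ring)
    ext i
    simp only [Finset.mem_filter, Finset.mem_sdiff]
    constructor
    · rintro ⟨_, h3⟩; exact h3
    · intro hi; exact ⟨⟨upF_sub hi, hUO i hi⟩, hi⟩
  have h2 : ∑ i ∈ U, y i * (1 - tau (IbS F y r CC ρ) (vb F r CC (3 / 2)) (th F y r CC) i)
      = ∑ i ∈ U, y i - ∑ c ∈ IbS F y r CC ρ, sc F y r c := by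
    have e1 : ∑ i ∈ U, y i * tau (IbS F y r CC ρ) (vb F r CC (3 / 2)) (th F y r CC) i
        = ∑ c ∈ IbS F y r CC ρ, sc F y r c := by
      have e2 : ∑ c ∈ IbS F y r CC ρ, sc F y r c
          = ∑ c ∈ IbS F y r CC ρ, ∑ i ∈ vb F r CC (3 / 2) c, y i * th F y r CC c := by
        refine Finset.sum_congr rfl (fun c hc => ?_)
        obtain ⟨hcC, hci, _⟩ := mem_IbS.mp hc
        rw [← h.th_mul hcC hci, Finset.mul_sum]
        exact Finset.sum_congr rfl (fun i _ => mul_comm _ _)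
      rw [e2, ← sum_swap (F := U) (fun c _ => vb_sub)]
      refine Finset.sum_congr rfl (fun i _ => ?_)
      unfold tau
      rw [Finset.mul_sum]
    rw [← e1, ← Finset.sum_sub_distrib]
    exact Finset.sum_congr rfl (fun i _ => by ring)
  have h3 : ∑ i ∈ F, y i = ∑ i ∈ U, y i + (CC.card - ∑ c ∈ CC, sc F y r c) := by
    rw [h.sum_full y]
    congr 1
    have e1 : ∀ c ∈ CC, ∑ i ∈ full F r c, y i = 1 - sc F y r c := by
      intro c _
      unfold sc
      ring
    rw [Finset.sum_congr rfl e1, Finset.sum_sub_distrib]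
    simp only [sum_const, nsmul_eq_mul, mul_one]
  have hIC : IbS F y r CC ρ ⊆ CC := fun c hc => (mem_IbS.mp hc).1
  have h4 := Finset.sum_sdiff hIC (f := fun c => sc F y r c)
  have h5 : (O.card : ℝ) = CC.card - Z.card := by
    rw [hO, Finset.card_image_of_injOn (fun c hc c' hc' he =>
      h.rep_inj (Finset.mem_sdiff.mp (Finset.mem_coe.mp hc)).1
        (Finset.mem_sdiff.mp (Finset.mem_coe.mp hc')).1 he), Finset.card_sdiff_of_subset hZ,
      Nat.cast_sub (Finset.card_le_card hZ)]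
  have hI0 : 0 ≤ ∑ c ∈ IbS F y r CC ρ, sc F y r c :=
    Finset.sum_nonneg (fun c _ => h.sc_nonneg c)
  have hUF : ∑ i ∈ U, y i ≤ F.card := by
    calc ∑ i ∈ U, y i ≤ ∑ i ∈ F, y i :=
          Finset.sum_le_sum_of_subset_of_nonneg upF_sub (fun i hi _ => h.rad.sol.y_nonneg i hi)
      _ ≤ ∑ i ∈ F, (1 : ℝ) := Finset.sum_le_sum (fun i hi => h.rad.sol.y_le_one i hi)
      _ = F.card := by simp only [sum_const, nsmul_eq_mul, mul_one]
  have hU0 : 0 ≤ ∑ i ∈ U, y i := Finset.sum_nonneg (fun i hi => h.rad.sol.y_nonneg i (upF_sub hi))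
  -- the increase
  have hinc : 1 / (4 * (F.card : ℝ)) * ∑ i ∈ U, y i ≤ 1 / 4 ∧
      1 / (4 * (F.card : ℝ)) * ∑ i ∈ U, y i ≤ 1 / 4 * ∑ i ∈ U, y i ∧
      0 ≤ 1 / (4 * (F.card : ℝ)) := by
    rcases Nat.eq_zero_or_pos F.card with h0 | h0
    · rw [h0]
      refine ⟨by norm_num, ?_, by norm_num⟩
      norm_num
      exact hU0
    · have hF1 : (1 : ℝ) ≤ F.card := by exact_mod_cast h0
      refine ⟨?_, ?_, by (clear * - h0; positivity)⟩
      · calc 1 / (4 * (F.card : ℝ)) * ∑ i ∈ U, y i ≤ 1 / (4 * (F.card : ℝ)) * F.card :=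
              mul_le_mul_of_nonneg_left hUF (by (clear * - h0; positivity))
          _ = 1 / 4 := by (clear * - h0; field_simp)
      · apply mul_le_mul_of_nonneg_right _ hU0
        apply one_div_le_one_div_of_le (by norm_num)
        linarith only [hF1]
  obtain ⟨i1, i2, i3⟩ := hinc
  have i4 := mul_nonneg i3 hI0
  refine ⟨?_, ?_⟩
  · rw [h1, h2, h5, h3]
    linarith only [h4, i1, i4]
  · rw [h1, h2]
    linarith only [hI0, i2, i4]

lemma restOut_nonneg : 0 ≤ restOut J F x r CC := by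
  classical
  unfold restOut
  exact Finset.sum_nonneg (fun l hl => h.out_nonneg (Finset.mem_filter.mp hl).1)

lemma lam_nonneg {c : X} : 0 ≤ Lam J F x r CC ρ π c := by
  classical
  unfold Lam
  have h1 := h.cross_nonneg c
  have h2 := h.rpos c
  have h3 : 0 ≤ (if Iso r CC ρ c
    then ∑ l ∈ J, Xc F x r c l * (dist (ρ c) l + 201 / 50 * r c)
    else ∑ l ∈ J, Xc F x r c l * dist (ρ c) (ρ (π c))) := by
    split_ifs
    · exact Finset.sum_nonneg (fun l hl => mul_nonneg (h.Xc_nonneg hl)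
        (by have := dist_nonneg (x := ρ c) (y := l); positivity))
    · exact Finset.sum_nonneg (fun l hl => mul_nonneg (h.Xc_nonneg hl) dist_nonneg)
  linarith

/-- Feasibility of the opening variables. -/
lemma yh_nonneg [DecidableEq X] {Z : Finset X} {i : X} (hi : i ∈ F) :
    0 ≤ yh ((CC \ Z).image ρ) (upF F r CC) (IbS F y r CC ρ) (vb F r CC (3 / 2)) (th F y r CC)
      (infl F y) i := by
  unfold yh
  split_ifs with h1 h2
  · exact zero_le_one
  · apply mul_nonneg ((h.rad.sol.y_nonneg i hi).trans (h.infl_ge hi))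
    have := tau_le_one (Ib := IbS F y r CC ρ) (V' := vb F r CC (3 / 2)) (θ := th F y r CC)
      (fun c hc => h.th_le (mem_IbS.mp hc).1 (mem_IbS.mp hc).2.1)
      (fun c hc c' hc' i hi hi' => by
        obtain ⟨h1, h2, _⟩ := mem_IbS.mp hc
        obtain ⟨h3, h4, _⟩ := mem_IbS.mp hc'
        have e1 := (mem_vb.mp hi).2
        have e2 := (mem_vb.mp hi').2
        exact h.iso_disj h1 h3 h2 h4 (by linarith only [e1, h.rpos c]) (by linarith only [e2, h.rpos c'])) i
    linarith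
  · exact le_rfl

/-- The cost of the rounded solution. -/
lemma residual_cost [DecidableEq X] {Z : Finset X} (hZE : Z ⊆ CC \ IbS F y r CC ρ)
    (hnear : ∀ c ∈ CC, ¬ Iso r CC ρ c → ∀ c' ∈ CC, c' ≠ c →
      dist (ρ c) (ρ (π c)) ≤ dist (ρ c) (ρ c'))
    (hZL : (1 - 2 * (1 / 10 ^ 4)) * ∑ c ∈ Z, Lam J F x r CC ρ π c
      ≤ ∑ c ∈ CC \ IbS F y r CC ρ, sc F y r c * Lam J F x r CC ρ π c)
    {v : X → ℝ}
    (h4 : ∀ l ∈ J, (∀ c ∈ CC \ Z, l ∉ itr J r c) → v l ≤ fb F x y r CC ρ π Z l)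
    (h5 : ∀ l ∈ J, ∀ c ∈ CC \ Z, l ∈ itr J r c → v l ≤ dist (ρ c) l) :
    ∑ l ∈ J, v l ≤ 121 / 100 * fracCost J F x + 38000 * (∑ i ∈ upF F r CC, fcl J x i
        + ∑ c ∈ CC, inr J r ρ c) := by
  classical
  have hE : CC \ IbS F y r CC ρ ⊆ CC := Finset.sdiff_subset
  have hZ : Z ⊆ CC := hZE.trans hE
  have hZI : ∀ c ∈ Z, c ∉ IbS F y r CC ρ := fun c hc => (Finset.mem_sdiff.mp (hZE hc)).2
  set Fr := J.filter (fun l => ∀ c ∈ CC \ Z, l ∉ itr J r c) with hFrdef
  have hsplit := sum_blocks (G := J) (CC := CC \ Z) (A := itr J r) (fun c _ => itr_sub)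
    (fun c hc c' hc' => h.itr_disj c (Finset.mem_sdiff.mp hc).1 c' (Finset.mem_sdiff.mp hc').1)
    v
  rw [hsplit]
  have e1 : ∑ l ∈ J with ∀ c ∈ CC \ Z, l ∉ itr J r c, v l
      ≤ ∑ l ∈ Fr, fb F x y r CC ρ π Z l := by
    refine Finset.sum_le_sum (fun l hl => ?_)
    obtain ⟨h1, h2⟩ := Finset.mem_filter.mp hl
    exact h4 l h1 h2
  have e2 : ∑ c ∈ CC \ Z, ∑ l ∈ itr J r c, v l ≤ ∑ c ∈ CC \ Z, inr J r ρ c := by
    refine Finset.sum_le_sum (fun c hc => Finset.sum_le_sum (fun l hl => ?_))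
    exact h5 l (itr_sub hl) c hc hl
  have e3 := h.sum_fb (π := π) (Fr := Fr) hZ hZI (Finset.filter_subset _ _)
    (fun l hl => (Finset.mem_filter.mp hl).2)
  have e4 := Finset.sum_sdiff hZ (f := fun c => inr J r ρ c)
  have e5 := h.sum_lam (π := π) hE (fun c hc hi => hnear c (hE hc) hi)
  have e6 := h.sum_out
  have e7 := h.sum_out_le
  have hro := h.restOut_nonneg
  have hcr : 0 ≤ ∑ c ∈ CC, cross J F x r CC c := Finset.sum_nonneg (fun c _ => h.cross_nonneg c)
  have hin : 0 ≤ ∑ c ∈ CC, inr J r ρ c := Finset.sum_nonneg (fun c _ => h.inr_nonneg c)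
  have hup : 0 ≤ ∑ i ∈ upF F r CC, fcl J x i :=
    Finset.sum_nonneg (fun i hi => h.rad.fcl_nonneg (upF_sub hi))
  have hlz := hZL.trans e5
  have e8 : ∑ c ∈ Z, Lam J F x r CC ρ π c ≤ 1001 / 1000 * (21 / 20 * ∑ c ∈ CC, cross J F x r CC c
      + 1 / 200 * ∑ l ∈ J, out J F x r CC l
      + 700 * (∑ i ∈ upF F r CC, fcl J x i + ∑ c ∈ CC, inr J r ρ c)) := by
    have : 0 ≤ ∑ l ∈ J, out J F x r CC l := Finset.sum_nonneg (fun l hl => h.out_nonneg hl)
    linarith only [hZL, e5, e6, hro, hcr, hin, hup]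
  linarith only [hZL, e1, e2, e3, e4, e5, e6, e7, hro, hcr, hin, hup]

/-- The rounded fractional solution, for a given set of closed clusters. -/
theorem residual_of [DecidableEq X] {Z : Finset X} (hZE : Z ⊆ CC \ IbS F y r CC ρ)
    (hπ1 : ∀ c ∈ CC, ¬ Iso r CC ρ c → π c ∈ CC ∧ π c ≠ c)
    (hnear : ∀ c ∈ CC, ¬ Iso r CC ρ c → ∀ c' ∈ CC, c' ≠ c →
      dist (ρ c) (ρ (π c)) ≤ dist (ρ c) (ρ c'))
    (hZπ : ∀ c ∈ Z, π c ≠ c → π c ∉ Z)
    (hZc : ∑ c ∈ CC \ IbS F y r CC ρ, sc F y r c - 1 ≤ Z.card)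
    (hZL : (1 - 2 * (1 / 10 ^ 4)) * ∑ c ∈ Z, Lam J F x r CC ρ π c
      ≤ ∑ c ∈ CC \ IbS F y r CC ρ, sc F y r c * Lam J F x r CC ρ π c) :
    (CC \ Z).image ρ ⊆ F ∧ ∃ (xh : X → X → ℝ) (yy : X → ℝ),
    (∀ i ∈ F, ∀ l ∈ J, 0 ≤ xh i l) ∧ (∀ i ∈ F, ∀ l ∈ J, xh i l ≤ yy i) ∧ (∀ i ∈ F, 0 ≤ yy i) ∧
    (∀ l ∈ J, ∑ i ∈ F, xh i l = 1) ∧
    (((CC \ Z).image ρ).card : ℝ) + ∑ i ∈ F \ (CC \ Z).image ρ, yy i ≤ ∑ i ∈ F, y i + 5 / 4 ∧
    ∑ i ∈ F \ (CC \ Z).image ρ, yy i ≤ 5 / 4 * ∑ i ∈ upF F r CC, y i ∧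
    ∑ l ∈ J, ∑ i ∈ F, xh i l * ((if i ∈ (CC \ Z).image ρ then 1 else 2) * dist i l)
      ≤ 121 / 100 * fracCost J F x + 38000 * (∑ i ∈ upF F r CC, fcl J x i
        + ∑ c ∈ CC, inr J r ρ c) := by
  classical
  have hE : CC \ IbS F y r CC ρ ⊆ CC := Finset.sdiff_subset
  have hZ : Z ⊆ CC := hZE.trans hE
  have hZI : ∀ c ∈ Z, c ∉ IbS F y r CC ρ := fun c hc => (Finset.mem_sdiff.mp (hZE hc)).2
  have hZπ' : ∀ c ∈ Z, ¬ Iso r CC ρ c → π c ∈ CC \ Z := fun c hc hi =>
    Finset.mem_sdiff.mpr ⟨(hπ1 c (hZ hc) hi).1, hZπ c hc (hπ1 c (hZ hc) hi).2⟩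
  -- routing
  have hroute : ∀ l ∈ J, ∃ z : X → ℝ, (∀ i ∈ F, 0 ≤ z i) ∧ (∀ i ∈ F, z i ≤
      yh ((CC \ Z).image ρ) (upF F r CC) (IbS F y r CC ρ) (vb F r CC (3 / 2)) (th F y r CC)
        (infl F y) i) ∧
      ∑ i ∈ F, z i = 1 ∧
      ((∀ c ∈ CC \ Z, l ∉ itr J r c) →
        ∑ i ∈ F, z i * ((if i ∈ (CC \ Z).image ρ then 1 else 2) * dist i l)
          ≤ fb F x y r CC ρ π Z l) ∧
      (∀ c ∈ CC \ Z, l ∈ itr J r c →
        ∑ i ∈ F, z i * ((if i ∈ (CC \ Z).image ρ then 1 else 2) * dist i l) ≤ dist (ρ c) l) := by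
    intro l hl
    by_cases hfree : ∀ c ∈ CC \ Z, l ∉ itr J r c
    · obtain ⟨z, h1, h2, h3, h4⟩ := h.route_free hZ hZI hZπ' hl
      exact ⟨z, h1, h2, h3, fun _ => h4, fun c hc hlc => absurd hlc (hfree c hc)⟩
    · push Not at hfree
      obtain ⟨c, hc, hlc⟩ := hfree
      obtain ⟨z, h1, h2, h3, h4⟩ := h.route_capt (l := l) hc
      refine ⟨z, h1, h2, h3, fun hf => absurd hlc (hf c hc), fun c' hc' hlc' => ?_⟩
      have : c' = c := h.itr_disj c' (Finset.mem_sdiff.mp hc').1 c (Finset.mem_sdiff.mp hc).1 l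
        hlc' hlc
      rw [this]; exact h4
  choose! xh' hx1 hx2 hx3 hx4 hx5 using hroute
  obtain ⟨hm1, hm2⟩ := h.mass_yh hZ
  refine ⟨?_, fun i l => xh' l i, _, fun i hi l hl => hx1 l hl i hi,
    fun i hi l hl => hx2 l hl i hi, fun i hi => h.yh_nonneg hi, fun l hl => hx3 l hl,
    by linarith only [hZc, hm1], hm2, ?_⟩
  · intro i hi
    obtain ⟨c, hc, rfl⟩ := Finset.mem_image.mp hi
    exact near_sub (h.rep c (Finset.mem_sdiff.mp hc).1)
  · exact h.residual_cost hZE hnear hZL hx4 hx5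

/-- The rounded fractional solution. -/
theorem residual [DecidableEq X] : ∃ (O : Finset X) (xh : X → X → ℝ) (yy : X → ℝ), O ⊆ F ∧
    (∀ i ∈ F, ∀ l ∈ J, 0 ≤ xh i l) ∧ (∀ i ∈ F, ∀ l ∈ J, xh i l ≤ yy i) ∧ (∀ i ∈ F, 0 ≤ yy i) ∧
    (∀ l ∈ J, ∑ i ∈ F, xh i l = 1) ∧
    (O.card : ℝ) + ∑ i ∈ F \ O, yy i ≤ ∑ i ∈ F, y i + 5 / 4 ∧
    ∑ i ∈ F \ O, yy i ≤ 5 / 4 * ∑ i ∈ upF F r CC, y i ∧
    ∑ l ∈ J, ∑ i ∈ F, xh i l * ((if i ∈ O then 1 else 2) * dist i l)
      ≤ 121 / 100 * fracCost J F x + 38000 * (∑ i ∈ upF F r CC, fcl J x i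
        + ∑ c ∈ CC, inr J r ρ c) := by
  classical
  -- nearest neighbours
  have hex : ∀ c ∈ CC, ∃ p ∈ CC, (¬ Iso r CC ρ c → p ≠ c ∧
      ∀ c' ∈ CC, c' ≠ c → dist (ρ c) (ρ p) ≤ dist (ρ c) (ρ c')) := by
    intro c hc
    by_cases hi : Iso r CC ρ c
    · exact ⟨c, hc, fun hn => absurd hi hn⟩
    · have hne : (CC.erase c).Nonempty := by
        unfold Iso at hi
        push Not at hi
        obtain ⟨c', hc', hne, _⟩ := hi
        exact ⟨c', Finset.mem_erase.mpr ⟨hne, hc'⟩⟩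
      obtain ⟨p, hp, hmin⟩ := (CC.erase c).exists_min_image (fun c' => dist (ρ c) (ρ c')) hne
      obtain ⟨hp1, hp2⟩ := Finset.mem_erase.mp hp
      exact ⟨p, hp2, fun _ => ⟨hp1, fun c' hc' hne' =>
        hmin c' (Finset.mem_erase.mpr ⟨hne', hc'⟩)⟩⟩
  choose! π hπ1 hπ2 using hex
  have hE : CC \ IbS F y r CC ρ ⊆ CC := Finset.sdiff_subset
  obtain ⟨Z, hZE, hZπ, hZc, hZL⟩ := cheap_selection CC (CC \ IbS F y r CC ρ) hE π
    (fun c hc => hπ1 c (hE hc)) (fun c => sc F y r c) (fun c => Lam J F x r CC ρ π c)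
    (σ := 1 / 10 ^ 4) (by norm_num) (by (clear * -; norm_num)) (fun c _ => h.sc_nonneg c)
    (fun c hc => h.sc_le (hE hc)) (fun c _ => h.lam_nonneg)
  obtain ⟨h1, xh, yy, h2⟩ := h.residual_of (π := π) hZE
    (fun c hc hi => ⟨hπ1 c hc, (hπ2 c hc hi).1⟩) (fun c hc hi => (hπ2 c hc hi).2) hZπ hZc hZL
  exact ⟨_, xh, yy, h1, h2⟩

end Clu

end

end Vale.Agent.P334
end

section

/-!
The universal bound.
-/

namespace Vale.Agent.P334

open Finset

section

variable {X : Type} [MetricSpace X]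

/-- The dual fitting right hand side in terms of the weighted cost. -/
lemma rhsT_le [DecidableEq X] {J F O : Finset X} (hO : O ⊆ F) {f T : ℝ} (hT : 0 < T)
    {x : X → X → ℝ} {y : X → ℝ} (hx : ∀ i ∈ F, ∀ l ∈ J, 0 ≤ x i l) :
    rhsT J F O f T x y ≤ (1 + 1 / (2048 * (T + 2)) / T) * f * ∑ i ∈ F \ O, y i
      + ∑ l ∈ J, ∑ i ∈ F, x i l * ((if i ∈ O then 1 else 2) * dist i l) := by
  have hr : rhsT J F O f T x y = ∑ i ∈ F, (if i ∈ O then ∑ j ∈ J, x i j * dist i j
      else (1 + 1 / (2048 * (T + 2)) / T) * f * y i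
        + (2 - 1 / (2048 * (T + 2))) * ∑ j ∈ J, x i j * dist i j) := by
    unfold rhsT
    refine Finset.sum_congr rfl (fun i _ => ?_)
    by_cases hi : i ∈ O
    · rw [if_pos hi, if_pos hi]
    · rw [if_neg hi, if_neg hi]
  rw [hr, Finset.sum_comm (s := J), ← Finset.sum_sdiff hO, ← Finset.sum_sdiff hO
    (f := fun i => ∑ l ∈ J, x i l * ((if i ∈ O then 1 else 2) * dist i l)), Finset.mul_sum]
  have hδ : 0 < 1 / (2048 * (T + 2)) := by positivity
  have h1 : ∑ i ∈ F \ O, (if i ∈ O then ∑ j ∈ J, x i j * dist i j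
      else (1 + 1 / (2048 * (T + 2)) / T) * f * y i
        + (2 - 1 / (2048 * (T + 2))) * ∑ j ∈ J, x i j * dist i j)
      ≤ ∑ i ∈ F \ O, (1 + 1 / (2048 * (T + 2)) / T) * f * y i
        + ∑ i ∈ F \ O, ∑ l ∈ J, x i l * ((if i ∈ O then 1 else 2) * dist i l) := by
    rw [← Finset.sum_add_distrib]
    refine Finset.sum_le_sum (fun i hi => ?_)
    obtain ⟨h2, h3⟩ := Finset.mem_sdiff.mp hi
    rw [if_neg h3]
    have h4 : ∑ l ∈ J, x i l * ((if i ∈ O then 1 else 2) * dist i l)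
        = 2 * ∑ j ∈ J, x i j * dist i j := by
      rw [Finset.mul_sum]
      refine Finset.sum_congr rfl (fun l _ => ?_)
      rw [if_neg h3]; ring
    have h5 : 0 ≤ ∑ j ∈ J, x i j * dist i j :=
      Finset.sum_nonneg (fun j hj => mul_nonneg (hx i h2 j hj) dist_nonneg)
    have h6 := mul_nonneg hδ.le h5
    rw [h4]
    linarith only [h6]
  have h2 : ∑ i ∈ O, (if i ∈ O then ∑ j ∈ J, x i j * dist i j
      else (1 + 1 / (2048 * (T + 2)) / T) * f * y i
        + (2 - 1 / (2048 * (T + 2))) * ∑ j ∈ J, x i j * dist i j)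
      = ∑ i ∈ O, ∑ l ∈ J, x i l * ((if i ∈ O then 1 else 2) * dist i l) := by
    refine Finset.sum_congr rfl (fun i hi => ?_)
    rw [if_pos hi]
    refine Finset.sum_congr rfl (fun l _ => ?_)
    rw [if_pos hi, one_mul]
  linarith

/-- Arithmetic of the second case. -/
lemma case2_arith {L C φ z κ ε e W fk fY : ℝ} (hL : 0 < L) (hκ : 0 < κ) (hκ1 : κ ≤ 1 / 1000)
    (hε : 0 ≤ ε) (hε1 : ε ≤ 1 / 1000) (he : e * 10 ^ 7 ≤ κ / 16)
    (hC0 : 0 ≤ C) (hC : C ≤ (1 + κ) * L) (hz : 0 ≤ z) (hW : W ≤ 5 / 4 * C)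
    (hfk : z * (κ / 2 * L) ≤ fk) (hfY : e * fY ≤ e * (z * (10 ^ 7 * C)))
    (hmain : φ ≤ κ / 16 * L - fk + e * fY + (1 + ε) * W) : φ ≤ 13 / 10 * L := by
  have hC2 : C ≤ 2 * L := by nlinarith only [hL, hC, hκ1]
  have h1 : e * (z * (10 ^ 7 * C)) ≤ z * (κ / 8 * L) := by
    have h2 : e * 10 ^ 7 * (z * C) ≤ κ / 16 * (z * (2 * L)) := by
      have hzC : 0 ≤ z * C := mul_nonneg hz hC0
      calc e * 10 ^ 7 * (z * C) ≤ κ / 16 * (z * C) := mul_le_mul_of_nonneg_right he hzC
        _ ≤ _ := by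
          apply mul_le_mul_of_nonneg_left _ (by positivity)
          exact mul_le_mul_of_nonneg_left hC2 hz
    linarith only [h2]
  have h3 : 0 ≤ z * (κ * L) := by positivity
  have h4 : (1 + ε) * W ≤ (1 + ε) * (5 / 4 * C) := mul_le_mul_of_nonneg_left hW (by linarith only [hε])
  have h5 : (1 + ε) * (5 / 4 * C) ≤ 1001 / 1000 * (5 / 4 * C) :=
    mul_le_mul_of_nonneg_right (by linarith only [hε1]) (by positivity)
  have h6 : κ * L ≤ 1 / 1000 * L := mul_le_mul_of_nonneg_right hκ1 hL.le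
  linarith

namespace Clu

variable {J F : Finset X} {g : ℝ} {x : X → X → ℝ} {y r : X → ℝ} {CC : Finset X} {ρ : X → X}

/-- The second case. -/
theorem case2 [DecidableEq X] (h : Clu J F g x y r CC ρ) {κ0 κ ε T1 T2 L : ℝ} {k m : ℕ}
    (hκ0 : κ0 = 1 / 10 ^ 6) (hT2 : T2 = 10 ^ 10 / κ0)
    (hκ : κ = κ0 / (8 * (2048 * (T2 + 2)))) (hT1 : T1 = 10 ^ 6 / κ) (hε : ε = κ / 10 ^ 10)
    (hL : 0 < L) (hC : fracCost J F x ≤ (1 + κ) * L) (hk : κ / 2 * L ≤ g * (k - ∑ i ∈ F, y i))
    (hcase : ∑ c ∈ CC, ain J F g x y r c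
      + ∑ i ∈ restF J F g x y r CC, fcl J x i ≤ κ0 * fracCost J F x)
    (hF : F.Nonempty)
    (hJ : 1 ≤ J.card) (hm : 1 ≤ m)
    (hmpow : 3 * (J.card : ℝ) ≤ κ / 16 * (1 + ε) ^ (m - 1)) :
    ∃ S ⊆ F, S.Nonempty ∧ S.card ≤ k + 3 * m + 2 ∧ cost J S ≤ 13 / 10 * L := by
  classical
  obtain ⟨hκpos, hκ1, hT1', hT2', hδ2, hδ21, hδκ, hεpos, h90, hεδ1, hεδ2, hεs, he1, he2, he2'⟩ :=
    const1 (by rw [hκ0]; norm_num) (by rw [hκ0]; norm_num) hT2 hκ hT1 hε
  have hC0 := fracCost_nonneg J F h.rad.sol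
  rcases Nat.lt_or_ge F.card (k + 3 * m + 2) with hcard | hcard
  · refine ⟨F, Finset.Subset.refl F, hF, hcard.le, ?_⟩
    have h1 : cost J F ≤ fracCost J F x := cost_all_le h.rad.sol
    have h2 : κ * L ≤ 1 / 1000 * L := mul_le_mul_of_nonneg_right hκ1 hL.le
    linarith only [hL, hC, h1, h2]
  have hg := h.rad.g_pos
  have hn0 : (0 : ℝ) < J.card := by exact_mod_cast hJ
  obtain ⟨O, xh, yy, hO, hx0, hxy, hy0, hasg, hmass, hY, hW⟩ := h.residual
  set Y := ∑ i ∈ F \ O, yy i with hYdef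
  set W := ∑ l ∈ J, ∑ i ∈ F, xh i l * ((if i ∈ O then 1 else 2) * dist i l) with hWdef
  have hY0 : 0 ≤ Y := Finset.sum_nonneg (fun i hi => hy0 i (Finset.mem_sdiff.mp hi).1)
  have hspare : 0 < (k : ℝ) - ∑ i ∈ F, y i := by
    have h1 : 0 < g * (k - ∑ i ∈ F, y i) := lt_of_lt_of_le (by (clear * - hκpos hL; positivity)) hk
    exact (mul_pos_iff_of_pos_left hg).mp h1
  have hOc : O.card < k + 3 * m + 2 := by
    have h1 : (O.card : ℝ) < k + 2 := by linarith only [hmass, hY0, hspare]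
    have h2 : O.card < k + 2 := by exact_mod_cast h1
    omega
  have htpos : 0 < κ / 16 * L / J.card := by (clear * - hκpos hL hJ; positivity)
  obtain ⟨f, S, hf, hOS, hSF, hSN, φ, hφ, hcost, hmain⟩ := exists_solution J F O hO htpos.le
    hεpos.le hm hOc hcard
  have h1 := hmain T1 xh yy (by linarith only [hT1']) hx0 hxy hy0 hasg
  have h2 := rhsT_le (J := J) (f := f) (T := T1) (y := yy) hO (by linarith only [hT1']) hx0
  rw [← hYdef, ← hWdef] at h2
  have htn : J.card * (κ / 16 * L / J.card) = κ / 16 * L := by (clear * - hJ hL hκpos; field_simp)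
  rw [htn] at h1
  push_cast at h1
  -- bound of W
  have hWC : W ≤ 5 / 4 * fracCost J F x := by
    have e1 : ∑ i ∈ upF F r CC, fcl J x i ≤ ∑ i ∈ restF J F g x y r CC, fcl J x i :=
      Finset.sum_le_sum_of_subset_of_nonneg upF_sub_restF
        (fun i hi _ => h.rad.fcl_nonneg (mem_restF.mp hi).1)
    have e2 : ∑ c ∈ CC, inr J r ρ c ≤ 250 / 249 * ∑ c ∈ CC, ain J F g x y r c := h.sum_in_le
    have e3 : 0 ≤ ∑ c ∈ CC, ain J F g x y r c := Finset.sum_nonneg (fun c _ => h.ain_nonneg)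
    have e4 : 0 ≤ ∑ i ∈ restF J F g x y r CC, fcl J x i :=
      Finset.sum_nonneg (fun i hi => h.rad.fcl_nonneg (mem_restF.mp hi).1)
    rw [hκ0] at hcase
    linarith only [hcase, hC0, hW, e1, e2, e4]
  have hz : 0 ≤ f / g := div_nonneg hf hg.le
  have hδ1 : 0 < 1 / (2048 * (T1 + 2)) := by (clear * - hT1'; positivity)
  have hδ1T : 0 < 1 / (2048 * (T1 + 2)) / T1 := by positivity
  -- the price terms
  have hfk : f / g * (κ / 2 * L) ≤ f * (k - ∑ i ∈ F, y i) := by
    have e : f * (k - ∑ i ∈ F, y i) = f / g * (g * (k - ∑ i ∈ F, y i)) := by (clear * - hg hspare; field_simp)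
    rw [e]
    exact mul_le_mul_of_nonneg_left hk hz
  have hfY : (ε + 2 * (1 / (2048 * (T1 + 2)) / T1)) * (f * Y)
      ≤ (ε + 2 * (1 / (2048 * (T1 + 2)) / T1)) * (f / g * (10 ^ 7 * fracCost J F x)) := by
    apply mul_le_mul_of_nonneg_left _ (by (clear * - hεpos hT1'; positivity))
    have e1 : Y ≤ 5 / 4 * ∑ i ∈ restF J F g x y r CC, y i :=
      hY.trans (mul_le_mul_of_nonneg_left (Finset.sum_le_sum_of_subset_of_nonneg upF_sub_restF
        (fun i hi _ => h.rad.sol.y_nonneg i (mem_restF.mp hi).1)) (by norm_num))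
    have e2 := mul_le_mul_of_nonneg_left e1 hf
    have e3 : f * (5 / 4 * ∑ i ∈ restF J F g x y r CC, y i)
        = 5 / 4 * (f / g * (g * ∑ i ∈ restF J F g x y r CC, y i)) := by (clear * - hg; field_simp)
    have e4 := mul_le_mul_of_nonneg_left h.rest hz
    linarith only [e2, e3, e4]
  have hφ13 : φ ≤ 13 / 10 * L := by
    apply case2_arith (fk := f * (k - ∑ i ∈ F, y i)) (fY := f * Y) hL hκpos hκ1 hεpos.le
      (by linarith only [hε, hκ1]) he1 hC0 hC hz hWC hfk hfY
    have e1 : (1 + ε) * rhsT J F O f T1 xh yy ≤ (1 + ε) *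
        ((1 + 1 / (2048 * (T1 + 2)) / T1) * f * Y + W) :=
      mul_le_mul_of_nonneg_left h2 (by linarith only [hεpos])
    have hfY0 : 0 ≤ f * Y := mul_nonneg hf hY0
    have e2 : ε * (1 / (2048 * (T1 + 2)) / T1) * (f * Y)
        ≤ 1 * (1 / (2048 * (T1 + 2)) / T1) * (f * Y) := by
      apply mul_le_mul_of_nonneg_right _ hfY0
      exact mul_le_mul_of_nonneg_right (by linarith only [hε, hκ1]) hδ1T.le
    have e3 : f * (O.card + Y) ≤ f * (∑ i ∈ F, y i + 5 / 4) := mul_le_mul_of_nonneg_left hmass hf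
    linarith only [hf, h1, e1, e2, e3]
  have htop := top_arith hL hn0 hmpow
  refine ⟨S, hSF, ?_, hSN.le, (hcost (by linarith only [hL, hφ13, htop])).trans hφ13⟩
  rw [← Finset.card_pos, hSN]
  (clear * - hm; positivity)

end Clu

lemma opt_mono {J F : Finset X} (hF : F.Nonempty) {k m : ℕ} (hk : 1 ≤ k) (hkm : k ≤ m) :
    opt J F m ≤ opt J F k := by
  unfold opt
  apply csInf_le_csInf
  · refine ⟨0, ?_⟩
    rintro c ⟨T, _, _, _, rfl⟩
    exact cost_nonneg J T
  · obtain ⟨i, hi⟩ := hF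
    exact ⟨_, {i}, Finset.singleton_subset_iff.mpr hi, Finset.singleton_nonempty i,
      by rw [Finset.card_singleton]; exact hk, rfl⟩
  · rintro c ⟨T, h1, h2, h3, h4⟩
    exact ⟨T, h1, h2, h3.trans hkm, h4⟩

/-- If the relaxation has value zero then so has the problem. -/
lemma opt_of_lp_zero {J F : Finset X} (hF : F.Nonempty) {k : ℕ} (hk : 1 ≤ k)
    (hL : lpVal J F k = 0) : opt J F k ≤ 0 := by
  have h := main_bound J F k hk hF (ε := 1 / 2) (by norm_num) le_rfl
  have h2 := lpVal_nonneg J F ((1 + 1 / 2) * k)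
  have h3 : 0 < Real.exp (-1) := Real.exp_pos _
  rw [hL, mul_zero, zero_add, zero_sub] at h
  refine h.trans ?_
  apply mul_nonpos_of_nonneg_of_nonpos (by positivity)
  apply div_nonpos_of_nonpos_of_nonneg (by linarith only [h2]) (by norm_num)

/-- The core of the universal bound, with explicit constants. -/
lemma universal_core {κ0 κ ε T1 T2 : ℝ} {M m' : ℕ} (hκ0 : κ0 = 1 / 10 ^ 6)
    (hT2 : T2 = 10 ^ 10 / κ0) (hκ : κ = κ0 / (8 * (2048 * (T2 + 2)))) (hT1 : T1 = 10 ^ 6 / κ)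
    (hε : ε = κ / 10 ^ 10) (hM : 1 ≤ M) (hMε : 1 ≤ ε * M) (hm : 1 ≤ m')
    (J F : Finset X) (hF : F.Nonempty) {k : ℕ} (hk : 1 ≤ k) (hL : 0 < lpVal J F k)
    (hJ : 1 ≤ J.card) (hmpow : 3 * (J.card : ℝ) ≤ κ / 16 * (1 + ε) ^ (m' - 1)) :
    ∃ S ⊆ F, S.Nonempty ∧ S.card ≤ k + 3 * ((M + 3) * m') ∧
      cost J S ≤ (2 - κ / 16) * lpVal J F k := by
  classical
  obtain ⟨hκpos, hκ1, -⟩ := const1 (by rw [hκ0]; norm_num) (by rw [hκ0]; norm_num) hT2 hκ hT1 hε
  set L := lpVal J F k with hLdef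
  have hκL : 0 < κ * L := mul_pos hκpos hL
  have hκL1 : κ * L ≤ 1 / 1000 * L := mul_le_mul_of_nonneg_right hκ1 hL.le
  rcases exists_lopt J F hF (k := (k : ℝ)) (by exact_mod_cast hk) hL hκpos with
    ⟨i, hi, hcost⟩ | ⟨g, x, y, hlopt, hcost, hspare⟩
  · refine ⟨{i}, Finset.singleton_subset_iff.mpr hi, Finset.singleton_nonempty i, ?_, ?_⟩
    · rw [Finset.card_singleton]; omega
    · rw [← hLdef] at hcost
      (clear * - hκL hκL1 hcost; linarith)
  · rw [← hLdef] at hcost hspare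
    obtain ⟨r, hrad⟩ := hlopt.exists_rad
    obtain ⟨CC, ρ, hclu⟩ := hrad.exists_clu
    rcases le_total (κ0 * fracCost J F x) (∑ c ∈ CC, ain J F g x y r c
      + ∑ i ∈ restF J F g x y r CC, fcl J x i) with hc | hc
    · exact hclu.case1 (by rw [hκ0]; norm_num) (by rw [hκ0]; norm_num) hT2 hκ hT1 hε hL hcost
        hspare hc hF hJ hM hMε hm hmpow
    · obtain ⟨S, h1, h2, h3, h4⟩ := hclu.case2 hκ0 hT2 hκ hT1 hε hL hcost hspare hc hF hJ hm hmpow
      refine ⟨S, h1, h2, h3.trans ?_, by linarith only [hκL, hκL1, h4]⟩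
      have : 3 * m' + 2 ≤ 3 * ((M + 3) * m') := by nlinarith only [hm]
      omega

end

/-- The universal bound: with logarithmically many additional centers, the natural relaxation of
metric k-median has integrality gap at most an absolute constant smaller than two. -/
theorem universal : ∃ c K : ℝ, c < 2 ∧ 0 < K ∧
    ∀ (X : Type) [MetricSpace X] (J F : Finset X) (k m : ℕ), F.Nonempty → 1 ≤ k →
      (k : ℝ) + K * (1 + Real.log J.card) ≤ m → opt J F m ≤ c * lpVal J F k := by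
  obtain ⟨κ0, hκ0⟩ : ∃ κ0 : ℝ, κ0 = 1 / 10 ^ 6 := ⟨_, rfl⟩
  obtain ⟨T2, hT2⟩ : ∃ T2 : ℝ, T2 = 10 ^ 10 / κ0 := ⟨_, rfl⟩
  obtain ⟨κ, hκ⟩ : ∃ κ : ℝ, κ = κ0 / (8 * (2048 * (T2 + 2))) := ⟨_, rfl⟩
  obtain ⟨T1, hT1⟩ : ∃ T1 : ℝ, T1 = 10 ^ 6 / κ := ⟨_, rfl⟩
  obtain ⟨ε, hε⟩ : ∃ ε : ℝ, ε = κ / 10 ^ 10 := ⟨_, rfl⟩
  obtain ⟨hκpos, hκ1, -, -, -, -, -, hεpos, -⟩ :=
    const1 (by rw [hκ0]; norm_num) (by rw [hκ0]; norm_num) hT2 hκ hT1 hε
  obtain ⟨C, hC1, hC⟩ := exists_levels (ε := ε) (ϑ := κ / 16) hεpos (by positivity)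
    (by linarith only [hκ1])
  obtain ⟨M, hM⟩ : ∃ M : ℕ, M = ⌈1 / ε⌉₊ + 1 := ⟨_, rfl⟩
  have hM1 : 1 ≤ M := by omega
  have hMε : 1 ≤ ε * M := by
    have h1 : 1 / ε ≤ ⌈1 / ε⌉₊ := Nat.le_ceil _
    rw [div_le_iff₀ hεpos] at h1
    rw [hM]
    push_cast
    nlinarith only [h1]
  refine ⟨2 - κ / 16, 3 * (M + 3) * C, by linarith only [hε, hεpos], by (clear * - hM1 hC1; positivity), ?_⟩
  intro X _ J F k m hF hk hkm
  have hlog0 : 0 ≤ Real.log J.card := Real.log_natCast_nonneg _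
  have hK0 : 0 ≤ 3 * ((M : ℝ) + 3) * C * (1 + Real.log J.card) := by (clear * - hM1 hC1; positivity)
  have hkm' : k ≤ m := by
    have : (k : ℝ) ≤ m := by linarith only [hkm, hK0]
    exact_mod_cast this
  have hL0 : 0 ≤ lpVal J F k := lpVal_nonneg J F k
  rcases hL0.eq_or_lt with hLz | hLpos
  · have h1 := opt_mono (J := J) hF hk hkm'
    have h2 := opt_of_lp_zero hF hk hLz.symm
    rw [← hLz, mul_zero]
    exact h1.trans h2
  have hn1 : 1 ≤ J.card := by
    rcases Nat.eq_zero_or_pos J.card with h | h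
    · exfalso
      rw [Finset.card_eq_zero] at h
      obtain ⟨x, y, h'⟩ := exists_frac J F hF (by exact_mod_cast hk : (1 : ℝ) ≤ k)
      have := lpVal_le J F h'
      unfold fracCost at this
      rw [h] at this hLpos
      simp only [Finset.sum_empty] at this
      linarith only [hLpos, this]
    · exact h
  obtain ⟨m', hm1, hmC, hmpow⟩ := hC J.card hn1
  obtain ⟨S, h1, h2, h3, h4⟩ := universal_core hκ0 hT2 hκ hT1 hε hM1 hMε hm1 J F hF hk hLpos hn1
    hmpow
  have h5 : k + 3 * ((M + 3) * m') ≤ m := by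
    have h6 : ((k + 3 * ((M + 3) * m') : ℕ) : ℝ) ≤ m := by
      push_cast
      refine le_trans ?_ hkm
      have h7 : (0 : ℝ) ≤ 3 * (M + 3) := by (clear * - hM1; positivity)
      have h8 := mul_le_mul_of_nonneg_left hmC h7
      linarith only [h8]
    exact_mod_cast h6
  exact (opt_le J F m h1 h2 (h3.trans h5)).trans h4

end Vale.Agent.P334
end

section

/-!
The universal bound together with its consequences for the exact number of centers.
-/

namespace Vale.Agent.P334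

variable {X : Type} [MetricSpace X]

lemma lpVal_approx {J F : Finset X} (hF : F.Nonempty) {m ε : ℝ} (hm : 1 ≤ m) (hε : 0 < ε) :
    ∃ (x : X → X → ℝ) (y : X → ℝ), IsFrac J F m x y ∧ fracCost J F x < lpVal J F m + ε := by
  obtain ⟨x0, y0, h0⟩ := exists_frac J F hF hm
  have hne : {c : ℝ | ∃ (x : X → X → ℝ) (y : X → ℝ), IsFrac J F m x y ∧
      c = fracCost J F x}.Nonempty := ⟨_, x0, y0, h0, rfl⟩
  obtain ⟨c, ⟨x, y, h, rfl⟩, hc⟩ := exists_lt_of_csInf_lt hne
    (show sInf {c : ℝ | ∃ (x : X → X → ℝ) (y : X → ℝ), IsFrac J F m x y ∧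
      c = fracCost J F x} < lpVal J F m + ε by unfold lpVal; linarith only [hε])
  exact ⟨x, y, h, hc⟩

lemma lpVal_convex {J F : Finset X} (hF : F.Nonempty) {m₁ m₂ s : ℝ} (h1 : 1 ≤ m₁) (h2 : 1 ≤ m₂)
    (hs0 : 0 ≤ s) (hs1 : s ≤ 1) :
    lpVal J F ((1 - s) * m₁ + s * m₂) ≤ (1 - s) * lpVal J F m₁ + s * lpVal J F m₂ := by
  refine le_of_forall_pos_le_add (fun ε hε => ?_)
  obtain ⟨x₁, y₁, h₁, c₁⟩ := lpVal_approx (J := J) hF h1 hε
  obtain ⟨x₂, y₂, h₂, c₂⟩ := lpVal_approx (J := J) hF h2 hε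
  have h := lpVal_le J F (h₁.convex h₂ hs0 hs1)
  rw [fracCost_convex] at h
  nlinarith

lemma lpVal_anti {J F : Finset X} (hF : F.Nonempty) {m₁ m₂ : ℝ} (h1 : 1 ≤ m₁) (h12 : m₁ ≤ m₂) :
    lpVal J F m₂ ≤ lpVal J F m₁ := by
  refine le_of_forall_pos_le_add (fun ε hε => ?_)
  obtain ⟨x₁, y₁, h₁, c₁⟩ := lpVal_approx (J := J) hF h1 hε
  have h : IsFrac J F m₂ x₁ y₁ :=
    ⟨h₁.x_nonneg, h₁.x_le, h₁.y_nonneg, h₁.y_le_one, h₁.assign, h₁.budget.trans h12⟩
  linarith only [c₁, lpVal_le J F h]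

/-- Choice of the parameters. -/
lemma exact_arith {K0 θ B η K' ℓ k : ℝ} {t : ℕ} (hK0 : 0 < K0) (hθ : 0 < θ) (hθ2 : θ ≤ 1 / 2)
    (hB : 1 ≤ B) (hη : 0 < η)
    (hK' : K' = 4 + 2 * (K0 + 1) + (K0 + 1) * B / (θ * η) + (K0 + 1) / θ) (hℓ1 : 1 ≤ ℓ)
    (hk : K' * ℓ ≤ k) (ht1 : (t : ℝ) ≤ (K0 + 1) * ℓ) :
    0 < θ * k ∧ (t : ℝ) + 1 ≤ k ∧ (t : ℝ) / (θ * k) ≤ 1 ∧ (t : ℝ) / (θ * k) * (B - 1) ≤ η ∧
      1 ≤ k ∧ 1 ≤ (1 - θ) * k := by
  have hK01 : 0 < K0 + 1 := by linarith only [hK0]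
  have f1 : 0 ≤ (K0 + 1) * B / (θ * η) * ℓ := by positivity
  have f2 : 0 ≤ (K0 + 1) / θ * ℓ := by positivity
  have f3 : 0 ≤ 2 * (K0 + 1) * ℓ := by positivity
  have hexp : K' * ℓ = 4 * ℓ + 2 * (K0 + 1) * ℓ + (K0 + 1) * B / (θ * η) * ℓ
      + (K0 + 1) / θ * ℓ := by rw [hK']; ring
  have hk4 : 4 ≤ k := by linarith only [hℓ1, hk, ht1, f1, f2, hexp]
  have hkpos : 0 < k := by linarith only [hℓ1, hk, ht1, f1, f2, hexp]
  have hθk : 0 < θ * k := mul_pos hθ hkpos
  have g1 : (1 : ℝ) ≤ (K0 + 1) * ℓ := by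
    have := mul_le_mul (by linarith only [hK0] : (1 : ℝ) ≤ K0 + 1) hℓ1 (by norm_num) (by linarith only [hK0])
    linarith only [this]
  have g2 : (K0 + 1) * ℓ ≤ θ * k := by
    have h4 : (K0 + 1) * ℓ = θ * ((K0 + 1) / θ * ℓ) := by field_simp
    rw [h4]; exact mul_le_mul_of_nonneg_left (by linarith only [hℓ1, hk, f1, hexp, g1]) hθ.le
  have g3 : (K0 + 1) * ℓ * B ≤ η * (θ * k) := by
    have h4 : (K0 + 1) * ℓ * B = η * (θ * ((K0 + 1) * B / (θ * η) * ℓ)) := by field_simp
    rw [h4]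
    exact mul_le_mul_of_nonneg_left (mul_le_mul_of_nonneg_left (by linarith only [hℓ1, hk, f2, hexp, g1]) hθ.le) hη.le
  have g4 : (t : ℝ) / (θ * k) * B ≤ η := by
    rw [div_mul_eq_mul_div, div_le_iff₀ hθk]
    have : (t : ℝ) * B ≤ (K0 + 1) * ℓ * B := mul_le_mul_of_nonneg_right ht1 (by linarith only [hB])
    linarith only [g3, this]
  have g5 : 0 ≤ (t : ℝ) / (θ * k) := by (clear * - hθ hk4; positivity)
  refine ⟨hθk, by linarith only [hℓ1, hk, ht1, f1, f2, hexp], ?_, by linarith only [g5, g4], by linarith, ?_⟩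
  · rw [div_le_one hθk]; linarith only [ht1, g2]
  · have : θ * k ≤ 1 / 2 * k := mul_le_mul_of_nonneg_right hθ2 hkpos.le
    linarith only [hℓ1, hk, f1, f2, hexp, g1, this]

/-- From the bicriteria bound to the exact number of centers. -/
lemma exact_of_universal {c1 K0 : ℝ} (hc1one : 1 ≤ c1) (hc1lt : c1 < 2) (hK0 : 0 < K0)
    (hU1 : ∀ (X : Type) [MetricSpace X] (J F : Finset X) (k m : ℕ), F.Nonempty → 1 ≤ k →
      (k : ℝ) + K0 * (1 + Real.log J.card) ≤ m → opt J F m ≤ c1 * lpVal J F k)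
    {θ B : ℝ} (hθ : 0 < θ) (hθ2 : θ ≤ 1 / 2) (hB : 1 ≤ B) :
    ∃ K' : ℝ, 0 < K' ∧
      ∀ (X : Type) [MetricSpace X] (J F : Finset X) (k : ℕ), F.Nonempty →
        K' * (1 + Real.log J.card) ≤ k → lpVal J F ((1 - θ) * k) ≤ B * lpVal J F k →
        opt J F k ≤ (c1 + 2) / 2 * lpVal J F k := by
  obtain ⟨η, hη⟩ : ∃ η : ℝ, η = (2 - c1) / (2 * c1) := ⟨_, rfl⟩
  have hηpos : 0 < η := by rw [hη]; apply div_pos <;> linarith only [hc1lt, hc1one]
  have hc1η : c1 * (1 + η) = (c1 + 2) / 2 := by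
    rw [hη]; field_simp; ring
  obtain ⟨K', hK'⟩ : ∃ K' : ℝ, K' = 4 + 2 * (K0 + 1) + (K0 + 1) * B / (θ * η) + (K0 + 1) / θ :=
    ⟨_, rfl⟩
  refine ⟨K', by rw [hK']; positivity, ?_⟩
  intro X _ J F k hF hk hLB
  have hlog0 : 0 ≤ Real.log J.card := Real.log_natCast_nonneg _
  obtain ⟨ℓ, hℓ⟩ : ∃ ℓ : ℝ, ℓ = 1 + Real.log J.card := ⟨_, rfl⟩
  rw [← hℓ] at hk
  have hℓ1 : 1 ≤ ℓ := by linarith only [hlog0, hℓ]
  obtain ⟨t, ht⟩ : ∃ t : ℕ, t = ⌈K0 * ℓ⌉₊ := ⟨_, rfl⟩
  have hKℓ : 0 ≤ K0 * ℓ := by (clear * - hK0 hℓ1; positivity)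
  have ht0 : K0 * ℓ ≤ t := by rw [ht]; exact Nat.le_ceil _
  have ht1 : (t : ℝ) ≤ (K0 + 1) * ℓ := by
    have := Nat.ceil_lt_add_one hKℓ
    rw [← ht] at this
    linarith only [hlog0, hℓ, this]
  obtain ⟨hθk, htk, hs1, hsB, hk1, hk2⟩ := exact_arith hK0 hθ hθ2 hB hηpos hK' hℓ1 hk ht1
  have htk' : t + 1 ≤ k := by exact_mod_cast htk
  obtain ⟨s, hs⟩ : ∃ s : ℝ, s = t / (θ * k) := ⟨_, rfl⟩
  rw [← hs] at hs1 hsB
  have hs0 : 0 ≤ s := by rw [hs]; (clear * - hθ hk1; positivity)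
  have hcv := lpVal_convex (J := J) hF hk1 hk2 hs0 hs1
  have heq : (1 - s) * (k : ℝ) + s * ((1 - θ) * k) = ((k - t : ℕ) : ℝ) := by
    have h6 : s * (θ * k) = t := by rw [hs]; (clear * - hθ hk1; field_simp)
    rw [Nat.cast_sub (by omega : t ≤ k)]
    linear_combination -h6
  rw [heq] at hcv
  have hmain := hU1 X J F (k - t) k hF (by (clear * - ht htk'; omega)) (by
    rw [Nat.cast_sub (by omega : t ≤ k), ← hℓ]
    linarith only [ht0])
  have hL0 := lpVal_nonneg J F (k : ℝ)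
  have h7 : lpVal J F ((k - t : ℕ) : ℝ) ≤ (1 + η) * lpVal J F k := by
    have h8 := mul_le_mul_of_nonneg_left hLB hs0
    have h9 : s * (B - 1) * lpVal J F k ≤ η * lpVal J F k :=
      mul_le_mul_of_nonneg_right hsB hL0
    linear_combination hcv + h8 + h9
  calc opt J F k ≤ c1 * lpVal J F ((k - t : ℕ) : ℝ) := hmain
    _ ≤ c1 * ((1 + η) * lpVal J F k) := mul_le_mul_of_nonneg_left h7 (by linarith only [hc1one])
    _ = (c1 + 2) / 2 * lpVal J F k := by rw [← mul_assoc, hc1η]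

/-- The universal bound, and its consequence for the exact number of centers when the value of the
relaxation grows at most by a constant factor when a fixed fraction of the centers is removed. -/
theorem universal_and_exact : ∃ c K : ℝ, c < 2 ∧ 0 < K ∧
    (∀ (X : Type) [MetricSpace X] (J F : Finset X) (k m : ℕ), F.Nonempty → 1 ≤ k →
      (k : ℝ) + K * (1 + Real.log J.card) ≤ m → opt J F m ≤ c * lpVal J F k) ∧
    (∀ θ B : ℝ, 0 < θ → θ ≤ 1 / 2 → 1 ≤ B → ∃ K' : ℝ, 0 < K' ∧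
      ∀ (X : Type) [MetricSpace X] (J F : Finset X) (k : ℕ), F.Nonempty →
        K' * (1 + Real.log J.card) ≤ k → lpVal J F ((1 - θ) * k) ≤ B * lpVal J F k →
        opt J F k ≤ c * lpVal J F k) := by
  obtain ⟨c0, K0, hc0, hK0, hU⟩ := universal
  obtain ⟨c1, hc1d⟩ : ∃ c1 : ℝ, c1 = max c0 1 := ⟨_, rfl⟩
  have hc1lt : c1 < 2 := by rw [hc1d]; exact max_lt hc0 (by norm_num)
  have hc1one : 1 ≤ c1 := by rw [hc1d]; exact le_max_right _ _
  have hc01 : c0 ≤ c1 := by rw [hc1d]; exact le_max_left _ _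
  have hU1 : ∀ (X : Type) [MetricSpace X] (J F : Finset X) (k m : ℕ), F.Nonempty → 1 ≤ k →
      (k : ℝ) + K0 * (1 + Real.log J.card) ≤ m → opt J F m ≤ c1 * lpVal J F k := by
    intro X _ J F k m hF hk hkm
    exact (hU X J F k m hF hk hkm).trans
      (mul_le_mul_of_nonneg_right hc01 (lpVal_nonneg J F k))
  refine ⟨(c1 + 2) / 2, K0, by linarith, hK0, ?_, ?_⟩
  · intro X _ J F k m hF hk hkm
    exact (hU1 X J F k m hF hk hkm).trans
      (mul_le_mul_of_nonneg_right (by linarith only [hc1lt]) (lpVal_nonneg J F k))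
  · intro θ B hθ hθ2 hB
    exact exact_of_universal hc1one hc1lt hK0 hU1 hθ hθ2 hB

end Vale.Agent.P334
end

section
attribute [-instance] ProperSMul.toContinuousSMul IsTopologicalTorsor.toContinuousSMul IdemSemiring.toCanonicallyOrderedAdd IdemSemiring.toMulLeftMono IdemSemiring.toMulRightMono AddQuantale.instAddLeftMono AddQuantale.instAddRightMono Quantale.instMulLeftMono Quantale.instMulRightMono FiniteDimensional.rclike_to_real IsScalarTower.complexToReal FiniteDimensional.complexToReal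

/-!
The chain inequality for the contracted instance, for a given chain.
-/

namespace Vale.Agent.P334

open Finset

section

variable {X : Type} [MetricSpace X]
variable {J F : Finset X} {g : ℝ} {x : X → X → ℝ} {y r : X → ℝ} {CC : Finset X} {ρ : X → X}

/-- Outer weight of a cluster, relative to its mass. -/
noncomputable def omg (J F : Finset X) (g : ℝ) (x : X → X → ℝ) (y r : X → ℝ) (CC : Finset X)
    (ρ : X → X) (c : X) : ℝ :=
  open Classical in
  (∑ l ∈ J with ps J r CC ρ l ≠ ρ c, ∑ i ∈ near J F g x y r c, x i l)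
    / ∑ i ∈ near J F g x y r c, y i

namespace Clu

set_option linter.unusedSectionVars false

variable (h : Clu J F g x y r CC ρ)
include h

/-- The chain inequality for the contracted instance, for a given chain. -/
theorem case1_given [DecidableEq X] {ε t cst lo hi E : ℝ} {τ : ℕ → ℝ} {cap : X → ℕ → ℝ}
    {S : ℕ → Finset X} (hε : 0 ≤ ε) (hε1 : ε ≤ 1) (ht : 0 ≤ t) (htc : t ≤ cst) {M m : ℕ}
    (hhi : 0 ≤ hi)
    (hτ0 : τ 0 = 0) (hτ : ∀ p, τ p ≤ τ (p + 1)) (hτs : ∀ p, τ (p + 1) ≤ (1 + ε) * τ p + t)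
    (hcap : ∀ c ∈ CC, ∀ s, cap (ρ c) s ≤ cap (ρ c) (s + 1))
    (hcapR : ∀ c ∈ CC, ∃ η, 0 ≤ η ∧
      ((itr J r c).card : ℝ) * η ≤ ε * (hi / (itr J r c).card) * omg J F g x y r CC ρ c
        + cst * (itr J r c).card ∧ (∀ s, s ≤ M → cap (ρ c) (s + 1) ≤ cap (ρ c) s + η))
    (hct : ∀ c ∈ CC, hi / (itr J r c).card < cap (ρ c) (M + 1))
    (hc0 : ∀ c ∈ CC, cap (ρ c) 0 ≤ max 0 (hi / (itr J r c).card
      - (hi / (itr J r c).card) * omg J F g x y r CC ρ c / (itr J r c).card))
    (hS0 : S 0 = ∅)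
    (hS : ∀ q, q < (M + 3) * m → S q ⊆ S (q + 1))
    (hmax : ∀ q, q < (M + 3) * m → (posPot J (ps J r CC ρ)
      (wl (CC.image ρ) τ M cap (q + 1))).IsMax (F.image (prj J F g x y r CC ρ)) hi (S (q + 1)))
    (htot : ∀ q, q < (M + 3) * m → (posPot J (ps J r CC ρ)
      (wl (CC.image ρ) τ M cap (q + 1))).tot lo (S (q + 1))
      ≤ (posPot J (ps J r CC ρ) (wl (CC.image ρ) τ M cap (q + 1))).tot lo (S q) + E) :
    ∃ (C' CU : ℝ), 0 ≤ CU ∧ CU ≤ C' ∧ C' ≤ fracCost J F x - 49 / 50 * ∑ c ∈ CC, ain J F g x y r c ∧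
      ∑ i ∈ restF J F g x y r CC, fcl J x i - 1 / 249 * ∑ c ∈ CC, ain J F g x y r c ≤ CU ∧
      ∀ T : ℝ, 1 ≤ T → (posPot J (ps J r CC ρ) (wl (CC.image ρ) τ M cap ((M + 3) * m))).φ
          (S ((M + 3) * m)) + lo * (S ((M + 3) * m)).card
        ≤ E * ((M + 3) * m) + cst * J.card + hi * ∑ i ∈ F, y i
        + (2 + 90 * ε * (hi / g)) * C'
        + (ε + 2 * (1 / (2048 * (T + 2)) / T)) * (hi * ∑ i ∈ restF J F g x y r CC, y i)
        + (2 * ε - 1 / (2048 * (T + 2))) * CU := by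
  classical
  set P := prj J F g x y r CC ρ with hP
  set Q := ps J r CC ρ with hQ
  set U := restF J F g x y r CC with hU
  have hg := h.rad.g_pos
  have hx0 := h.rad.sol.x_nonneg
  have hxle := h.rad.sol.x_le
  have hy0 := h.rad.sol.y_nonneg
  set x' : X → X → ℝ := fun i j => ∑ i' ∈ F with P i' = i, x i' j with hx'
  set y' : X → ℝ := fun i => ∑ i' ∈ F with P i' = i, y i' with hy'
  have hx'0 : ∀ i, ∀ j ∈ J, 0 ≤ x' i j := fun i j hj =>
    Finset.sum_nonneg (fun i' hi' => hx0 i' (Finset.mem_filter.mp hi').1 j hj)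
  have hx'y' : ∀ i, ∀ j ∈ J, x' i j ≤ y' i := fun i j hj =>
    Finset.sum_le_sum (fun i' hi' => hxle i' (Finset.mem_filter.mp hi').1 j hj)
  have hy'0 : ∀ i, 0 ≤ y' i := fun i =>
    Finset.sum_nonneg (fun i' hi' => hy0 i' (Finset.mem_filter.mp hi').1)
  have hfr : ∀ c ∈ CC, F.filter (fun i' => P i' = ρ c) = near J F g x y r c :=
    fun c hc => h.fiber_rep hc
  have hx'r : ∀ c ∈ CC, ∀ j, x' (ρ c) j = ∑ i ∈ near J F g x y r c, x i j := by
    intro c hc j
    simp only [hx', hfr c hc]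
  have hy'r : ∀ c ∈ CC, y' (ρ c) = ∑ i ∈ near J F g x y r c, y i := by
    intro c hc
    simp only [hy', hfr c hc]
  have hx'u : ∀ i ∈ U, ∀ j, x' i j = x i j := by
    intro i hi j
    have : F.filter (fun i' => P i' = i) = {i} := h.fiber_rest hi
    simp only [hx', this, Finset.sum_singleton]
  have hy'u : ∀ i ∈ U, y' i = y i := by
    intro i hi
    have : F.filter (fun i' => P i' = i) = {i} := h.fiber_rest hi
    simp only [hy', this, Finset.sum_singleton]
  have hasg : ∀ j ∈ J, ∑ i ∈ F.image P, x' i j = 1 := by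
    intro j hj
    rw [← h.rad.sol.assign j hj]
    exact Finset.sum_fiberwise_of_maps_to (fun i hi => Finset.mem_image_of_mem P hi) _
  have hom : ∀ c ∈ CC, ∑ l ∈ J with Q l ≠ ρ c, x' (ρ c) l / y' (ρ c)
      = omg J F g x y r CC ρ c := by
    intro c hc
    unfold omg
    rw [← hQ, Finset.sum_div, hy'r c hc]
    apply Finset.sum_congr
    · ext; simp
    · intro l _
      rw [hx'r c hc]
  have hnR : ∀ c ∈ CC, nR J Q (ρ c) = (itr J r c).card := fun c hc => h.nR_eq hc
  have hRn : ∀ v ∈ CC.image ρ, 0 < nR J Q v := by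
    intro v hv
    obtain ⟨c, hc, rfl⟩ := Finset.mem_image.mp hv
    rw [hnR c hc]
    exact h.card_pos hc
  have hRy : ∀ v ∈ CC.image ρ, 0 < y' v := by
    intro v hv
    obtain ⟨c, hc, rfl⟩ := Finset.mem_image.mp hv
    rw [hy'r c hc]
    linarith only [h.mass c hc]
  have hRx : ∀ v ∈ CC.image ρ, ∀ j ∈ J, Q j = v → x' v j = y' v := by
    intro v hv j hj he
    obtain ⟨c, hc, rfl⟩ := Finset.mem_image.mp hv
    rw [hx'r c hc, hy'r c hc]
    have hji := (h.ps_eq_iff hc hj).mp he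
    exact Finset.sum_congr rfl (fun i hi => h.xeq hi hji)
  have hmain : ∀ T : ℝ, 0 < T → _ := fun T hT => chain_windows J (F.image P) (CC.image ρ)
    h.reps_sub Q x' y' hε ht htc hhi hτ0 hτ hτs (fun i _ j hj => hx'0 i j hj)
    (fun i _ j hj => hx'y' i j hj) (fun i _ => hy'0 i) hasg hRn hRy hRx
    (by
      intro v hv s
      obtain ⟨c, hc, rfl⟩ := Finset.mem_image.mp hv
      exact hcap c hc s)
    (by
      intro v hv
      obtain ⟨c, hc, rfl⟩ := Finset.mem_image.mp hv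
      obtain ⟨η, h1, h2, h3⟩ := hcapR c hc
      refine ⟨η, h1, ?_, h3⟩
      rw [hnR c hc, hom c hc]
      exact h2)
    (by
      intro v hv
      obtain ⟨c, hc, rfl⟩ := Finset.mem_image.mp hv
      rw [hnR c hc]
      exact hct c hc)
    (by
      intro v hv
      obtain ⟨c, hc, rfl⟩ := Finset.mem_image.mp hv
      rw [hnR c hc, hom c hc]
      exact hc0 c hc)
    hS0 hS hmax htot (T := T) hT
  have hinj : Set.InjOn ρ (CC : Set X) := fun c hc c' hc' he =>
    h.rep_inj (Finset.mem_coe.mp hc) (Finset.mem_coe.mp hc') he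
  -- the two parts of the cost of the contracted instance
  obtain ⟨CU, hCU⟩ : ∃ CU : ℝ, CU = ∑ i ∈ U, ∑ j ∈ J, x i j * dist i (Q j) := ⟨_, rfl⟩
  obtain ⟨CR, hCR⟩ : ∃ CR : ℝ, CR = ∑ c ∈ CC, ∑ j ∈ J, x' (ρ c) j * dist (ρ c) (Q j) := ⟨_, rfl⟩
  have hCR0 : 0 ≤ CR := by
    rw [hCR]
    exact Finset.sum_nonneg (fun c _ => Finset.sum_nonneg (fun j hj =>
      mul_nonneg (hx'0 _ j hj) dist_nonneg))
  have hCU0 : 0 ≤ CU := by
    rw [hCU]
    exact Finset.sum_nonneg (fun i hi => Finset.sum_nonneg (fun j hj =>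
      mul_nonneg (hx0 i (mem_restF.mp hi).1 j hj) dist_nonneg))
  have hsum : CU + CR = ∑ i ∈ F, ∑ j ∈ J, x i j * dist (P i) (Q j) := by
    rw [h.sum_fac (fun i => ∑ j ∈ J, x i j * dist (P i) (Q j)), hCU, hCR]
    congr 1
    · refine Finset.sum_congr rfl (fun i hi => ?_)
      rw [hP, prj_rest hi]
    · refine Finset.sum_congr rfl (fun c hc => ?_)
      rw [Finset.sum_comm (s := near J F g x y r c)]
      refine Finset.sum_congr rfl (fun j _ => ?_)
      rw [hx'r c hc, Finset.sum_mul]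
      refine Finset.sum_congr rfl (fun i hi => ?_)
      rw [hP, h.prj_near hc hi]
  have hcc := h.contr_cost
  rw [← hP, ← hQ, ← hsum] at hcc
  have hcr := h.contr_rest
  rw [← hQ, ← hU, ← hCU] at hcr
  refine ⟨CU + CR, CU, hCU0, by linarith only [hCR0], hcc, hcr, ?_⟩
  intro T hT
  have hT0 : 0 < T := by linarith only [hT]
  have h1 := hmain T hT0
  rw [Finset.sum_image hinj, h.sdiff_reps] at h1
  have h2 : ∑ c ∈ CC, (hi * y' (ρ c) + 2 * ∑ j ∈ J, x' (ρ c) j * dist (ρ c) (Q j)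
      + 2 * ε * (hi / nR J Q (ρ c)) * ∑ l ∈ J with Q l ≠ ρ c, x' (ρ c) l)
      ≤ ∑ c ∈ CC, (hi * ∑ i ∈ near J F g x y r c, y i
        + (2 + 90 * ε * (hi / g)) * ∑ j ∈ J, x' (ρ c) j * dist (ρ c) (Q j)) := by
    refine Finset.sum_le_sum (fun c hc => ?_)
    have h3 := h.star_weight hc (w := fun l => x' (ρ c) l) (fun l hl => hx'0 _ l hl) hhi
    rw [← hQ] at h3
    have h4 := mul_le_mul_of_nonneg_left h3 (by linarith only [hε] : 0 ≤ 2 * ε)
    rw [hy'r c hc]
    linarith only [h4]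
  rw [Finset.sum_add_distrib (s := CC) (f := fun c => hi * ∑ i ∈ near J F g x y r c, y i),
    ← Finset.mul_sum, ← Finset.mul_sum, ← hCR] at h2
  have h3 : ∑ i ∈ restF J F g x y r CC, ((1 + 1 / (2048 * (T + 2)) / T) * hi * y' i
        + (2 - 1 / (2048 * (T + 2))) * ∑ j ∈ J, x' i j * dist i (Q j))
      = (1 + 1 / (2048 * (T + 2)) / T) * hi * ∑ i ∈ U, y i
        + (2 - 1 / (2048 * (T + 2))) * CU := by
    rw [hCU, Finset.mul_sum, Finset.mul_sum, ← Finset.sum_add_distrib, ← hU]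
    refine Finset.sum_congr rfl (fun i hi => ?_)
    rw [hy'u i hi, Finset.sum_congr rfl (fun j _ => by rw [hx'u i hi j])]
  rw [h3] at h1
  have h4 := h.sum_fac y
  rw [← hU] at h4
  have hYU : 0 ≤ ∑ i ∈ U, y i := Finset.sum_nonneg (fun i hi => hy0 i (mem_restF.mp hi).1)
  have hδ0 : 0 < 1 / (2048 * (T + 2)) := by (clear * - hT; positivity)
  have hδ1 : 1 / (2048 * (T + 2)) / T ≥ 0 := by (clear * - hT; positivity)
  set δ := 1 / (2048 * (T + 2)) with hδ
  have hfY : 0 ≤ hi * ∑ i ∈ U, y i := mul_nonneg hhi hYU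
  have h5 : (1 + ε) * ((1 + δ / T) * hi * ∑ i ∈ U, y i + (2 - δ) * CU)
      ≤ hi * ∑ i ∈ U, y i + (ε + 2 * (δ / T)) * (hi * ∑ i ∈ U, y i)
        + 2 * CU + (2 * ε - δ) * CU := by
    have e1 : ε * (δ / T) * (hi * ∑ i ∈ U, y i) ≤ (δ / T) * (hi * ∑ i ∈ U, y i) := by
      apply mul_le_mul_of_nonneg_right _ hfY
      nlinarith only [hε1, hδ1]
    have e2 : 0 ≤ ε * δ * CU := by (clear * - hε hT hCU0; positivity)
    nlinarith only [e1, e2]
  have h6 : 0 ≤ 90 * ε * (hi / g) * CU := by (clear * - hε hhi hg hCU0; positivity)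
  have h7 : hi * ∑ i ∈ F, y i = hi * ∑ i ∈ U, y i
      + hi * ∑ c ∈ CC, ∑ i ∈ near J F g x y r c, y i := by rw [h4]; ring
  rw [h7]
  linarith only [h2, h1, h5, h6]

end Clu

end

end Vale.Agent.P334
end

section

/-!
The final bound of the first case, for a given chain.
-/

namespace Vale.Agent.P334

open Finset

section

variable {X : Type} [MetricSpace X]
variable {J F : Finset X} {g : ℝ} {x : X → X → ℝ} {y r : X → ℝ} {CC : Finset X} {ρ : X → X}

/-- The final accounting of the number of facilities with two prices. -/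
lemma two_prices {lo hi Δ N c φ : ℝ} (hlo : lo ≤ hi) (hhi : hi ≤ lo + Δ) (hN0 : 0 ≤ N)
    (hc0 : 0 ≤ c) (hN : c = N ∨ lo = 0) : φ + hi * N ≤ φ + lo * c + Δ * N := by
  rcases hN with h | h
  · rw [h]
    have := mul_le_mul_of_nonneg_right hhi hN0
    linarith only [this]
  · rw [h] at hhi ⊢
    have := mul_le_mul_of_nonneg_right hhi hN0
    linarith only [this]

namespace Clu

/-- The first case, for a given chain. -/
theorem case1_final [DecidableEq X] (h : Clu J F g x y r CC ρ) {κ0 κ ε T1 T2 L : ℝ} {k m M : ℕ}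
    {t cst lo hi E0 Δ : ℝ} {τ : ℕ → ℝ} {cap : X → ℕ → ℝ} {S : ℕ → Finset X}
    (hκ0 : 0 < κ0) (hκ01 : κ0 ≤ 1 / 100) (hT2 : T2 = 10 ^ 10 / κ0)
    (hκ : κ = κ0 / (8 * (2048 * (T2 + 2)))) (hT1 : T1 = 10 ^ 6 / κ) (hε : ε = κ / 10 ^ 10)
    (hL : 0 < L) (hC : fracCost J F x ≤ (1 + κ) * L) (hk : κ / 2 * L ≤ g * (k - ∑ i ∈ F, y i))
    (hcase : κ0 * fracCost J F x ≤ ∑ c ∈ CC, ain J F g x y r c
      + ∑ i ∈ restF J F g x y r CC, fcl J x i)
    (hJ : 1 ≤ J.card) (ht : 0 ≤ t) (htc : t ≤ cst) (hlo : 0 ≤ lo) (hlh : lo ≤ hi)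
    (hhi : hi ≤ lo + Δ) (hE0 : 0 ≤ E0)
    (hτ0 : τ 0 = 0) (hτ : ∀ p, τ p ≤ τ (p + 1)) (hτs : ∀ p, τ (p + 1) ≤ (1 + ε) * τ p + t)
    (hcap : ∀ c ∈ CC, ∀ s, cap (ρ c) s ≤ cap (ρ c) (s + 1))
    (hcapR : ∀ c ∈ CC, ∃ η, 0 ≤ η ∧
      ((itr J r c).card : ℝ) * η ≤ ε * (hi / (itr J r c).card) * omg J F g x y r CC ρ c
        + cst * (itr J r c).card ∧ (∀ s, s ≤ M → cap (ρ c) (s + 1) ≤ cap (ρ c) s + η))
    (hct : ∀ c ∈ CC, hi / (itr J r c).card < cap (ρ c) (M + 1))
    (hc0 : ∀ c ∈ CC, cap (ρ c) 0 ≤ max 0 (hi / (itr J r c).card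
      - (hi / (itr J r c).card) * omg J F g x y r CC ρ c / (itr J r c).card))
    (hS0 : S 0 = ∅)
    (hS : ∀ q, q < (M + 3) * m → S q ⊆ S (q + 1))
    (hmax : ∀ q, q < (M + 3) * m → (posPot J (ps J r CC ρ)
      (wl (CC.image ρ) τ M cap (q + 1))).IsMax (F.image (prj J F g x y r CC ρ)) hi (S (q + 1)))
    (htot : ∀ q, q < (M + 3) * m → (posPot J (ps J r CC ρ)
      (wl (CC.image ρ) τ M cap (q + 1))).tot lo (S (q + 1))
      ≤ (posPot J (ps J r CC ρ) (wl (CC.image ρ) τ M cap (q + 1))).tot lo (S q) + (3 * lo + E0))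
    (hN : (S ((M + 3) * m)).card = k + 3 * ((M + 3) * m) ∨ lo = 0)
    (herr : cst * J.card + E0 * ((M + 3) * m) + Δ * (k + 3 * ((M + 3) * m)) ≤ κ / 16 * L)
    (htop : 3 * L < τ m ∨ ((S ((M + 3) * m)).Nonempty ∧ ∀ a b : X, dist a b < τ m)) :
    (S ((M + 3) * m)).Nonempty ∧ cost J (S ((M + 3) * m)) ≤ (2 - κ / 16) * L := by
  classical
  obtain ⟨hκpos, hκ1, hT1', hT2', hδ2, hδ21, hδκ, hεpos, h90, hεδ1, hεδ2, hεs, he1, he2, he2'⟩ :=
    const1 hκ0 hκ01 hT2 hκ hT1 hε
  have hg := h.rad.g_pos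
  have hhi0 : 0 ≤ hi := hlo.trans hlh
  obtain ⟨C', CU, hCU0, hCUC', hC', hCUU, hmain⟩ := h.case1_given (E := 3 * lo + E0) hεpos.le
    (by linarith only [hε, hκ1]) ht htc hhi0 hτ0 hτ hτs hcap hcapR hct hc0 hS0 hS hmax htot
  set Sm := S ((M + 3) * m) with hSm
  set α := wl (CC.image ρ) τ M cap with hα
  have hαtop : ∀ v, α ((M + 3) * m) v = τ m := fun v => wl_zero m v
  have hτnn : 0 ≤ τ m := by
    rw [← hτ0]; exact monotone_nat_of_le_succ hτ (Nat.zero_le m)
  set φ := (posPot J (ps J r CC ρ) (α ((M + 3) * m))).φ Sm with hφdef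
  have hφ : 0 ≤ φ := Finset.sum_nonneg (fun j _ => tr_nonneg (by rw [hαtop]; exact hτnn) _ _)
  have hz : 0 ≤ hi / g := div_nonneg hhi0 hg.le
  have hI : ∀ T : ℝ, 1 ≤ T → φ + hi / g * (κ * L / 2) ≤ κ / 16 * L + (2 + 90 * ε * (hi / g)) * C'
      + (ε + 2 * (1 / (2048 * (T + 2)) / T)) * (hi / g * (10 ^ 7 * fracCost J F x))
      + (2 * ε - 1 / (2048 * (T + 2))) * CU := by
    intro T hT
    have h1 := hmain T hT
    have h0 := two_prices (φ := φ) (c := Sm.card) (N := (k : ℝ) + 3 * ((M + 3) * m)) hlh hhi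
      (by (clear * -; positivity)) (by (clear * -; positivity)) (by
        rcases hN with hN | hN
        · left; rw [hN]; push_cast; ring
        · right; exact hN)
    have h2 : hi / g * (κ * L / 2) ≤ hi * (k - ∑ i ∈ F, y i) := by
      have e : hi * (k - ∑ i ∈ F, y i) = hi / g * (g * (k - ∑ i ∈ F, y i)) := by (clear * - hg; field_simp)
      rw [e]
      apply mul_le_mul_of_nonneg_left _ hz
      linarith only [hk]
    have h3 : (ε + 2 * (1 / (2048 * (T + 2)) / T)) * (hi * ∑ i ∈ restF J F g x y r CC, y i)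
        ≤ (ε + 2 * (1 / (2048 * (T + 2)) / T)) * (hi / g * (10 ^ 7 * fracCost J F x)) := by
      apply mul_le_mul_of_nonneg_left _ (by (clear * - hεpos hT; positivity))
      have e : hi * ∑ i ∈ restF J F g x y r CC, y i
          = hi / g * (g * ∑ i ∈ restF J F g x y r CC, y i) := by (clear * - hg; field_simp)
      rw [e]
      apply mul_le_mul_of_nonneg_left _ hz
      have := h.rest
      have h5 := fracCost_nonneg J F h.rad.sol
      linarith only [this, h5]
    have h4 : (3 * lo + E0) * (((M : ℝ) + 3) * m) ≤ 3 * hi * ((M + 3) * m) + E0 * ((M + 3) * m) := by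
      have : 3 * lo * (((M : ℝ) + 3) * m) ≤ 3 * hi * ((M + 3) * m) :=
        mul_le_mul_of_nonneg_right (by linarith only [hlh]) (by (clear * -; positivity))
      linarith only [this]
    linarith only [herr, h1, h0, h2, h3, h4]
  have hA0 : 0 ≤ ∑ c ∈ CC, ain J F g x y r c := Finset.sum_nonneg (fun c _ => h.ain_nonneg)
  obtain ⟨hφ3, hfin⟩ := case1_arith hL hκpos hκ1 hδ2 hδ21 hδκ hεpos.le h90 hεδ1 hεδ2 hεs he1 he2
    he2' le_rfl (fracCost_nonneg J F h.rad.sol) hC hz hA0 hCU0 hCUC' hC' hCUU hcase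
    (hI T1 hT1') (hI T2 hT2')
  have hne : Sm.Nonempty := by
    rcases htop with htop | htop
    · by_contra hcon
      rw [Finset.not_nonempty_iff_eq_empty] at hcon
      have e1 : φ = J.card * τ m := by
        rw [hφdef, hcon]
        exact pos_phi_empty hαtop
      have e2 : (1 : ℝ) ≤ J.card := by exact_mod_cast hJ
      have e3 : 1 * τ m ≤ J.card * τ m := mul_le_mul_of_nonneg_right e2 hτnn
      linarith only [hφ3, htop, e1, e3]
    · exact htop.1
  refine ⟨hne, ?_⟩
  have hcostφ : ∑ j ∈ J, Metric.infDist (ps J r CC ρ j) (Sm : Set X) ≤ φ := by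
    rcases htop with htop | htop
    · exact pos_cost_le hαtop hτnn (by linarith only [hφ3, htop])
    · exact pos_cost_le' hαtop hne (fun j _ i _ => htop.2 _ _)
  have h1 := h.cost_le_contr Sm
  have h3 := h.sum_in_le
  linarith only [hfin, hcostφ, h1, h3]

end Clu

end

end Vale.Agent.P334
end

section

/-!
The list versions of the quantities used for closing clusters.
-/

namespace Vale.Agent.P334.Alg.C2

open Finset

section

variable {X : Type} [DecidableEq X]

/-! ### Minimizers -/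

omit [DecidableEq X] in
theorem argmin1_spec (f : X → ℕ) (a : X) (S : List X) :
    (argmin1 f a S = a ∨ argmin1 f a S ∈ S) ∧ f (argmin1 f a S) ≤ f a ∧
      ∀ s ∈ S, f (argmin1 f a S) ≤ f s := by
  induction S generalizing a with
  | nil => exact ⟨Or.inl rfl, le_rfl, fun s hs => absurd hs List.not_mem_nil⟩
  | cons q S ih =>
    have h : argmin1 f a (q :: S) = argmin1 f (if f q < f a then q else a) S := rfl
    rw [h]
    obtain ⟨h1, h2, h3⟩ := ih (if f q < f a then q else a)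
    refine ⟨?_, ?_, ?_⟩
    · rcases h1 with h1 | h1
      · rw [h1]
        split_ifs
        · exact Or.inr List.mem_cons_self
        · exact Or.inl rfl
      · exact Or.inr (List.mem_cons_of_mem _ h1)
    · refine h2.trans ?_
      split_ifs with h4
      · exact h4.le
      · exact le_rfl
    · intro s hs
      rcases List.mem_cons.mp hs with rfl | hs
      · refine h2.trans ?_
        split_ifs with h4
        · exact le_rfl
        · exact not_lt.mp h4
      · exact h3 s hs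

omit [DecidableEq X] in
theorem argmin_nil (f : X → ℕ) (a : X) : argmin f a [] = a := rfl

omit [DecidableEq X] in
theorem argmin_mem (f : X → ℕ) (a : X) {S : List X} (hS : S ≠ []) : argmin f a S ∈ S := by
  unfold argmin
  have h0 : S.headD a ∈ S := by
    cases S with
    | nil => exact absurd rfl hS
    | cons b S => exact List.mem_cons_self
  rcases (argmin1_spec f (S.headD a) S).1 with h | h
  · rw [h]; exact h0
  · exact h

omit [DecidableEq X] in
theorem argmin_le (f : X → ℕ) (a : X) {S : List X} {s : X} (hs : s ∈ S) :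
    f (argmin f a S) ≤ f s := (argmin1_spec f (S.headD a) S).2.2 s hs

/-! ### Counting units -/

/-- The number of units in a set of facilities. -/
theorem sum_count (A : Finset X) (L : List X) :
    ∑ i ∈ A, L.count i = L.countP (fun u => decide (u ∈ A)) := by
  induction L with
  | nil => simp only [List.nodup_nil, List.count_nil, sum_const_zero, List.countP_nil]
  | cons a L ih =>
    simp only [List.count_cons, List.countP_cons, Finset.sum_add_distrib, ih]
    congr 1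
    by_cases ha : a ∈ A
    · rw [if_pos (by simpa using ha)]
      rw [Finset.sum_eq_single a]
      · simp only [BEq.rfl, ↓reduceIte]
      · intro b _ hb
        rw [if_neg]
        simpa only [beq_iff_eq] using fun h => hb h.symm
      · intro h; exact absurd ha h
    · rw [if_neg (by simpa using ha)]
      refine Finset.sum_eq_zero (fun b hb => ?_)
      rw [if_neg]
      simp only [beq_iff_eq]
      rintro rfl
      exact ha hb

/-- Weighted version. -/
theorem sum_count_mul (A : Finset X) (L : List X) (f : X → ℕ) :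
    ∑ i ∈ A, L.count i * f i = ((L.filter (fun u => decide (u ∈ A))).map f).sum := by
  induction L with
  | nil => simp only [List.nodup_nil, List.count_nil, zero_mul, sum_const_zero, List.filter_nil, List.map_nil, List.sum_nil]
  | cons a L ih =>
    simp only [List.count_cons, add_mul, Finset.sum_add_distrib, ih]
    by_cases ha : a ∈ A
    · rw [List.filter_cons_of_pos (by simpa using ha), List.map_cons, List.sum_cons,
        add_comm (f a)]
      congr 1
      rw [Finset.sum_eq_single a]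
      · simp
      · intro b _ hb
        rw [if_neg, zero_mul]
        simpa using fun h => hb h.symm
      · intro h; exact absurd ha h
    · rw [List.filter_cons_of_neg (by simpa using ha)]
      rw [Nat.add_eq_left]
      refine Finset.sum_eq_zero (fun b hb => ?_)
      rw [if_neg, zero_mul]
      simp only [beq_iff_eq]
      rintro rfl
      exact ha hb

omit [DecidableEq X] in
theorem mem_filter' {p : X → Prop} {inst : DecidablePred p} {s : Finset X} {a : X} :
    a ∈ @Finset.filter X p inst s ↔ a ∈ s ∧ p a := @Finset.mem_filter X p inst s a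

theorem sum_toFinset {L : List X} (hL : L.Nodup) (f : X → ℝ) :
    ∑ i ∈ L.toFinset, f i = (L.map f).sum := List.sum_toFinset f hL

omit [DecidableEq X] in
theorem cast_sum_map (L : List X) (f : X → ℕ) :
    (((L.map f).sum : ℕ) : ℝ) = (L.map (fun i => (f i : ℝ))).sum := by
  rw [Nat.cast_list_sum, List.map_map]
  rfl

end

section

variable {X : Type} [MetricSpace X] [DecidableEq X] {d : X → X → ℕ}
  {D1 N : ℕ} {J F U : List X} {x : X → X → ℝ} {y r : X → ℝ} {CC : List X} {ρ : X → X}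

/-- All facilities near `c`. -/
theorem fullL_toFinset (hd : ∀ a b, dist a b = (d a b : ℝ))
    (hr : ∀ p, r p = (radN d D1 N U p : ℝ)) (c : X) :
    (fullL d D1 N F U c).toFinset = full F.toFinset r c := by
  ext i
  rw [mem_full, List.mem_toFinset, List.mem_toFinset, fullL, List.mem_filter, decide_eq_true_iff]
  refine and_congr_right (fun _ => ?_)
  rw [hd, hr, le_div_iff₀ (by norm_num)]
  constructor
  · intro h
    have : ((100 * d i c : ℕ) : ℝ) ≤ (radN d D1 N U c : ℝ) := by exact_mod_cast h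
    push_cast at this
    linarith only [this]
  · intro h
    have : ((100 * d i c : ℕ) : ℝ) ≤ (radN d D1 N U c : ℝ) := by
      push_cast
      linarith only [h]
    exact_mod_cast this

theorem mem_fullL (hd : ∀ a b, dist a b = (d a b : ℝ))
    (hr : ∀ p, r p = (radN d D1 N U p : ℝ)) {c i : X} :
    i ∈ fullL d D1 N F U c ↔ i ∈ full F.toFinset r c := by
  rw [← fullL_toFinset hd hr c, List.mem_toFinset]

/-- Inner clients. -/
theorem mem_itrL (hd : ∀ a b, dist a b = (d a b : ℝ))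
    (hr : ∀ p, r p = (radN d D1 N U p : ℝ)) {c j : X} :
    j ∈ itrL d D1 N J U c ↔ j ∈ itr J.toFinset r c := by
  unfold itr itrL
  rw [Finset.mem_filter, List.mem_filter, List.mem_toFinset, decide_eq_true_iff]
  refine and_congr_right (fun _ => ?_)
  rw [hd, hr, le_div_iff₀ (by norm_num)]
  constructor
  · intro h
    have : ((8 * d j c : ℕ) : ℝ) ≤ (radN d D1 N U c : ℝ) := by exact_mod_cast h
    push_cast at this
    linarith only [this]
  · intro h
    have : ((8 * d j c : ℕ) : ℝ) ≤ (radN d D1 N U c : ℝ) := by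
      push_cast
      linarith only [h]
    exact_mod_cast this

theorem itrL_toFinset (hd : ∀ a b, dist a b = (d a b : ℝ))
    (hr : ∀ p, r p = (radN d D1 N U p : ℝ)) (c : X) :
    (itrL d D1 N J U c).toFinset = itr J.toFinset r c := by
  ext j
  rw [List.mem_toFinset, mem_itrL hd hr]

/-- Mass of a client at a cluster. -/
theorem xcN_eq (hd : ∀ a b, dist a b = (d a b : ℝ))
    (hr : ∀ p, r p = (radN d D1 N U p : ℝ))
    (hx : ∀ i j, x i j = ((nearU d D1 N U j).count i : ℝ) / N) (c l : X) :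
    Xc F.toFinset x r c l = (xcN d D1 N F U c l : ℝ) / N := by
  unfold Xc
  rw [← fullL_toFinset hd hr c, Finset.sum_congr rfl (fun i _ => hx i l), ← Finset.sum_div]
  congr 1
  rw [← Nat.cast_sum, sum_count, xcN]
  congr 1
  refine List.countP_congr (fun u _ => ?_)
  simp

/-- Cost of a client through a cluster. -/
theorem qcN_eq (hd : ∀ a b, dist a b = (d a b : ℝ))
    (hr : ∀ p, r p = (radN d D1 N U p : ℝ))
    (hx : ∀ i j, x i j = ((nearU d D1 N U j).count i : ℝ) / N) (c l : X) :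
    Qc F.toFinset x r c l = (qcN d D1 N F U c l : ℝ) / N := by
  unfold Qc
  rw [← fullL_toFinset hd hr c]
  have h1 : ∀ i ∈ (fullL d D1 N F U c).toFinset, x i l * dist i l
      = (((nearU d D1 N U l).count i * d i l : ℕ) : ℝ) / N := by
    intro i _
    rw [hx, hd]
    push_cast
    ring
  rw [Finset.sum_congr rfl h1, ← Finset.sum_div]
  congr 1
  rw [← Nat.cast_sum, sum_count_mul, qcN]
  congr 3
  refine List.filter_congr (fun u _ => ?_)
  simp

/-- Isolated clusters. -/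
theorem isoL_iff (hd : ∀ a b, dist a b = (d a b : ℝ))
    (hr : ∀ p, r p = (radN d D1 N U p : ℝ)) {c : X} :
    isoL d D1 N U CC ρ c = true ↔ Iso r CC.toFinset ρ c := by
  unfold isoL Iso
  rw [List.all_eq_true]
  constructor
  · intro h c' hc' hne
    have h1 := h c' (List.mem_toFinset.mp hc')
    rw [decide_eq_true_iff] at h1
    rcases h1 with h1 | h1
    · exact absurd h1 hne
    · rw [hd, hr]
      exact_mod_cast h1
  · intro h c' hc'
    rw [decide_eq_true_iff]
    by_cases hne : c' = c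
    · exact Or.inl hne
    · have h1 := h c' (List.mem_toFinset.mpr hc') hne
      rw [hd, hr] at h1
      exact Or.inr (by exact_mod_cast h1)

/-- Cost through the other clusters. -/
theorem crossN_eq (hd : ∀ a b, dist a b = (d a b : ℝ))
    (hr : ∀ p, r p = (radN d D1 N U p : ℝ))
    (hx : ∀ i j, x i j = ((nearU d D1 N U j).count i : ℝ) / N)
    (hJ : J.Nodup) (hC : CC.Nodup) (c : X) :
    cross J.toFinset F.toFinset x r CC.toFinset c = (crossN d D1 N J F U CC c : ℝ) / N := by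
  classical
  have hout : ∀ l, out J.toFinset F.toFinset x r CC.toFinset l
      = ((((CC.filter (fun c' => decide (l ∉ itrL d D1 N J U c'))).map
        (fun c' => qcN d D1 N F U c' l)).sum : ℕ) : ℝ) / N := by
    intro l
    unfold out
    rw [Finset.sum_congr rfl (fun c' _ => qcN_eq hd hr hx c' l), ← Finset.sum_div]
    congr 1
    rw [cast_sum_map, ← sum_toFinset (hC.filter _)]
    refine Finset.sum_congr ?_ (fun _ _ => rfl)
    ext c'
    rw [mem_filter', List.mem_toFinset, List.mem_toFinset, List.mem_filter, decide_eq_true_iff,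
      mem_itrL hd hr]
  unfold cross crossN
  rw [Finset.sum_congr rfl (fun l _ => hout l), ← Finset.sum_div]
  congr 1
  have hI : (itrL d D1 N J U c).Nodup := hJ.filter _
  rw [cast_sum_map, ← itrL_toFinset hd hr, sum_toFinset hI]

/-- Cost of closing a cluster. -/
theorem lamN_eq (hd : ∀ a b, dist a b = (d a b : ℝ))
    (hr : ∀ p, r p = (radN d D1 N U p : ℝ))
    (hx : ∀ i j, x i j = ((nearU d D1 N U j).count i : ℝ) / N)
    (hJ : J.Nodup) (hC : CC.Nodup) (c : X) :
    Lam J.toFinset F.toFinset x r CC.toFinset ρ (piL d CC ρ) c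
      = (lamN d D1 N J F U CC ρ c : ℝ) / (50 * N) := by
  classical
  unfold Lam lamN
  rw [crossN_eq hd hr hx hJ hC]
  have hX : ∀ l, Xc F.toFinset x r c l = (xcN d D1 N F U c l : ℝ) / N :=
    fun l => xcN_eq hd hr hx c l
  by_cases hi : isoL d D1 N U CC ρ c = true
  · rw [if_pos hi, if_pos ((isoL_iff hd hr).mp hi)]
    have h1 : ∑ l ∈ J.toFinset, Xc F.toFinset x r c l * (dist (ρ c) l + 201 / 50 * r c)
        = (((J.map (fun l => xcN d D1 N F U c l
          * (50 * d (ρ c) l + 201 * radN d D1 N U c))).sum : ℕ) : ℝ) / (50 * N) := by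
      rw [cast_sum_map, ← sum_toFinset hJ, Finset.sum_div]
      refine Finset.sum_congr rfl (fun l _ => ?_)
      rw [hX, hd, hr]
      push_cast
      ring
    rw [h1]
    push_cast
    ring
  · rw [if_neg hi, if_neg (fun h => hi ((isoL_iff hd hr).mpr h))]
    have h1 : ∑ l ∈ J.toFinset, Xc F.toFinset x r c l * dist (ρ c) (ρ (piL d CC ρ c))
        = (((J.map (fun l => xcN d D1 N F U c l
          * (50 * d (ρ c) (ρ (piL d CC ρ c))))).sum : ℕ) : ℝ) / (50 * N) := by
      rw [cast_sum_map, ← sum_toFinset hJ, Finset.sum_div]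
      refine Finset.sum_congr rfl (fun l _ => ?_)
      rw [hX, hd]
      push_cast
      ring
    rw [h1]
    push_cast
    ring

/-! ### The nearest other cluster -/

omit [MetricSpace X] in
/-- The other cluster belongs to the family. -/
theorem piL_mem {c : X} (hc : c ∈ CC) : piL d CC ρ c ∈ CC := by
  unfold piL
  by_cases h : CC.filter (fun c' => decide (c' ≠ c)) = []
  · rw [h, argmin_nil]
    exact hc
  · exact (List.mem_filter.mp (argmin_mem _ _ h)).1

/-- It is the nearest one. -/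
theorem piL_spec (hd : ∀ a b, dist a b = (d a b : ℝ)) {c : X}
    (hi : ¬ Iso r CC.toFinset ρ c) :
    piL d CC ρ c ∈ CC ∧ piL d CC ρ c ≠ c ∧
      ∀ c' ∈ CC, c' ≠ c → dist (ρ c) (ρ (piL d CC ρ c)) ≤ dist (ρ c) (ρ c') := by
  unfold Iso at hi
  push Not at hi
  obtain ⟨c1, hc1, hne1, _⟩ := hi
  have hmem : c1 ∈ CC.filter (fun c' => decide (c' ≠ c)) :=
    List.mem_filter.mpr ⟨List.mem_toFinset.mp hc1, by simpa using hne1⟩
  have h0 : CC.filter (fun c' => decide (c' ≠ c)) ≠ [] := by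
    intro h
    rw [h] at hmem
    exact absurd hmem List.not_mem_nil
  have h1 := List.mem_filter.mp (argmin_mem (fun c' => d (ρ c) (ρ c')) c h0)
  refine ⟨h1.1, of_decide_eq_true h1.2, fun c' hc' hne => ?_⟩
  have h2 := argmin_le (fun c' => d (ρ c) (ρ c')) c
    (List.mem_filter.mpr ⟨hc', by simpa using hne⟩ :
      c' ∈ CC.filter (fun c' => decide (c' ≠ c)))
  rw [hd, hd]
  exact_mod_cast h2

omit [MetricSpace X] in
/-- It differs from the cluster if and only if there is another one. -/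
theorem piL_ne_iff {c : X} : piL d CC ρ c ≠ c ↔ ∃ c' ∈ CC, c' ≠ c := by
  constructor
  · intro h
    by_contra hcon
    push Not at hcon
    apply h
    unfold piL
    have : CC.filter (fun c' => decide (c' ≠ c)) = [] := by
      rw [List.filter_eq_nil_iff]
      intro a ha
      simpa using hcon a ha
    rw [this, argmin_nil]
  · rintro ⟨c1, hc1, hne1⟩
    have hmem : c1 ∈ CC.filter (fun c' => decide (c' ≠ c)) :=
      List.mem_filter.mpr ⟨hc1, by simpa using hne1⟩
    have h0 : CC.filter (fun c' => decide (c' ≠ c)) ≠ [] := by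
      intro h
      rw [h] at hmem
      exact absurd hmem List.not_mem_nil
    have h1 := List.mem_filter.mp (argmin_mem (fun c' => d (ρ c) (ρ c')) c h0)
    exact of_decide_eq_true h1.2

/-! ### Mass near an isolated cluster -/

/-- Units that are near no center and within `2 r c` of `c`. -/
theorem vb_sum (hd : ∀ a b, dist a b = (d a b : ℝ))
    (hr : ∀ p, r p = (radN d D1 N U p : ℝ)) (hy : ∀ i, y i = (U.count i : ℝ) / N)
    (hU : U ⊆ F) (c : X) :
    ∑ i ∈ vb F.toFinset r CC.toFinset 2 c, y i = (U.countP (fun u =>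
      decide ((∀ c' ∈ CC, u ∉ fullL d D1 N F U c') ∧ d u c ≤ 2 * radN d D1 N U c)) : ℝ) / N := by
  rw [Finset.sum_congr rfl (fun i _ => hy i), ← Finset.sum_div]
  congr 1
  rw [← Nat.cast_sum, sum_count]
  congr 1
  refine List.countP_congr (fun u hu => ?_)
  rw [decide_eq_true_iff, decide_eq_true_iff, mem_vb, mem_upF, hd, hr]
  have h1 : (∀ c' ∈ CC.toFinset, u ∉ full F.toFinset r c')
      ↔ ∀ c' ∈ CC, u ∉ fullL d D1 N F U c' := by
    constructor
    · intro h c' hc' hu'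
      exact h c' (List.mem_toFinset.mpr hc') ((mem_fullL hd hr).mp hu')
    · intro h c' hc' hu'
      exact h c' (List.mem_toFinset.mp hc') ((mem_fullL hd hr).mpr hu')
  have h2 : ((d u c : ℝ) ≤ 2 * (radN d D1 N U c : ℝ)) ↔ d u c ≤ 2 * radN d D1 N U c := by
    constructor
    · intro h; exact_mod_cast h
    · intro h; exact_mod_cast h
  rw [h1, h2]
  constructor
  · rintro ⟨⟨_, h3⟩, h4⟩; exact ⟨h3, h4⟩
  · rintro ⟨h3, h4⟩; exact ⟨⟨List.mem_toFinset.mpr (hU hu), h3⟩, h4⟩

/-- Isolated clusters with small mass nearby. -/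
theorem ibL_iff (hd : ∀ a b, dist a b = (d a b : ℝ))
    (hr : ∀ p, r p = (radN d D1 N U p : ℝ)) (hy : ∀ i, y i = (U.count i : ℝ) / N)
    (hU : U ⊆ F) (hN : 0 < N) {φ : ℕ} (hφ : 0 < φ) {c : X} :
    ibL d D1 N φ F U CC ρ c = true ↔ Iso r CC.toFinset ρ c ∧
      ∑ i ∈ vb F.toFinset r CC.toFinset 2 c, y i ≤ 1 - 1 / (8 * (φ : ℝ)) := by
  unfold ibL
  rw [Bool.and_eq_true, isoL_iff hd hr, decide_eq_true_iff, vb_sum hd hr hy hU]
  refine and_congr_right (fun _ => ?_)
  obtain ⟨m, hm⟩ : ∃ m : ℕ, m = U.countP (fun u =>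
      decide ((∀ c' ∈ CC, u ∉ fullL d D1 N F U c') ∧ d u c ≤ 2 * radN d D1 N U c)) := ⟨_, rfl⟩
  rw [← hm]
  have hN' : (0 : ℝ) < N := by exact_mod_cast hN
  have hφ' : (0 : ℝ) < φ := by exact_mod_cast hφ
  rw [div_le_iff₀ hN']
  have h8 : ((8 * φ - 1 : ℕ) : ℝ) = 8 * φ - 1 := by
    rw [Nat.cast_sub (by (clear * - hφ; omega))]
    push_cast
    ring
  have h1 : (1 - 1 / (8 * (φ : ℝ))) * N = ((8 * φ - 1) * N) / (8 * φ) := by
    (clear * - hφ hN; field_simp)
  rw [h1, le_div_iff₀ (by (clear * - hφ; positivity))]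
  constructor
  · intro h
    have : ((8 * φ * m : ℕ) : ℝ) ≤ (((8 * φ - 1) * N : ℕ) : ℝ) := by exact_mod_cast h
    rw [Nat.cast_mul (8 * φ - 1), h8] at this
    push_cast at this
    linarith only [this]
  · intro h
    have : ((8 * φ * m : ℕ) : ℝ) ≤ (((8 * φ - 1) * N : ℕ) : ℝ) := by
      rw [Nat.cast_mul (8 * φ - 1), h8]
      push_cast
      linarith only [h]
    exact_mod_cast this

end

/-! ### Moving points to representatives -/

section

variable {X : Type} [DecidableEq X] {CC : List X} {A : X → List X} {ρ : X → X}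

theorem snapL_mem (hdisj : ∀ c ∈ CC, ∀ c' ∈ CC, ∀ i, i ∈ A c → i ∈ A c' → c = c') {c i : X}
    (hc : c ∈ CC) (hi : i ∈ A c) : snapL CC A ρ i = ρ c := by
  unfold snapL
  cases h : CC.find? (fun c => decide (i ∈ A c)) with
  | none =>
    have := List.find?_eq_none.mp h c hc
    simp [hi] at this
  | some c' =>
    have h1 := List.find?_some h
    have h2 := List.mem_of_find?_eq_some h
    rw [decide_eq_true_iff] at h1
    have : c' = c := hdisj c' h2 c hc i h1 hi
    rw [this]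
    rfl

theorem snapL_notMem {i : X} (h : ∀ c ∈ CC, i ∉ A c) : snapL CC A ρ i = i := by
  unfold snapL
  have : CC.find? (fun c => decide (i ∈ A c)) = none := by
    rw [List.find?_eq_none]
    intro c hc
    simpa using h c hc
  rw [this]
  rfl

/-- The list version agrees with the finite set version. -/
theorem snapL_eq (hdisj : ∀ c ∈ CC, ∀ c' ∈ CC, ∀ i, i ∈ A c → i ∈ A c' → c = c')
    {A' : X → Finset X} (hA : ∀ c ∈ CC, ∀ i, i ∈ A' c ↔ i ∈ A c) (i : X) :
    snapL CC A ρ i = snap CC.toFinset A' ρ i := by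
  by_cases h : ∃ c ∈ CC, i ∈ A c
  · obtain ⟨c, hc, hi⟩ := h
    rw [snapL_mem hdisj hc hi]
    rw [snap_mem (c := c) _ (List.mem_toFinset.mpr hc) ((hA c hc i).mpr hi)]
    intro a ha b hb k hk hk'
    have ha := List.mem_toFinset.mp ha
    have hb := List.mem_toFinset.mp hb
    exact hdisj a ha b hb k ((hA a ha k).mp hk) ((hA b hb k).mp hk')
  · push Not at h
    rw [snapL_notMem h]
    rw [snap_notMem]
    intro c hc hi
    have hc := List.mem_toFinset.mp hc
    exact h c hc ((hA c hc i).mp hi)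

end

end Vale.Agent.P334.Alg.C2
end

section

set_option linter.all false

/-!
The dual fitting guarantee for a given chain of sets (two prices), and the cost bound.
-/

namespace Vale.Agent.P334

open Finset

section Total

variable {X : Type} [MetricSpace X] [DecidableEq X]

/-- The accounting along a chain, with a general error per step. -/
theorem chain_total_E (J : Finset X) (α : ℕ → X → ℝ) (f E : ℝ) (S : ℕ → Finset X) (m : ℕ)
    (h : ∀ q, q < m → (trPot J (α (q + 1))).tot f (S (q + 1))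
      ≤ (trPot J (α (q + 1))).tot f (S q) + E) :
    ∀ q, q ≤ m → (trPot J (α q)).tot f (S q) ≤ (trPot J (α 0)).tot f (S 0)
      + ∑ j ∈ J, ∑ p ∈ Finset.range q, (tr (α (p + 1) j) j (S p) - tr (α p j) j (S p))
      + E * q := by
  intro q
  induction q with
  | zero => intro _; simp only [range_zero, sum_sub_distrib, sum_empty, sub_self, sum_const_zero, add_zero, CharP.cast_eq_zero, mul_zero, Std.le_refl]
  | succ q ih =>
    intro hq
    have h1 := ih (by omega)
    have h2 := h q (by omega)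
    have h3 : (trPot J (α (q + 1))).tot f (S q) = (trPot J (α q)).tot f (S q)
        + ∑ j ∈ J, (tr (α (q + 1) j) j (S q) - tr (α q j) j (S q)) := by
      unfold Pot.tot
      rw [Finset.sum_sub_distrib]
      show ∑ j ∈ J, tr (α (q + 1) j) j (S q) + f * _ = ∑ j ∈ J, tr (α q j) j (S q) + f * _ + _
      ring
    have h4 : ∑ j ∈ J, ∑ p ∈ Finset.range (q + 1), (tr (α (p + 1) j) j (S p) - tr (α p j) j (S p))
        = ∑ j ∈ J, ∑ p ∈ Finset.range q, (tr (α (p + 1) j) j (S p) - tr (α p j) j (S p))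
          + ∑ j ∈ J, (tr (α (q + 1) j) j (S q) - tr (α q j) j (S q)) := by
      rw [← Finset.sum_add_distrib]
      refine Finset.sum_congr rfl (fun j _ => ?_)
      rw [Finset.sum_range_succ]
    rw [h4]
    push_cast
    linarith only [h1, h2, h3]

end Total

section Chain

variable {X : Type} [MetricSpace X]

/-- The dual fitting guarantee for every fractional solution, for a given chain of sets that are
maximal for the price `hi` and whose totals are compared at the price `lo ≤ hi`. -/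
theorem chain_uniform [DecidableEq X] (J F O : Finset X) {τ : ℕ → ℝ} {S : ℕ → Finset X} {m : ℕ}
    {lo hi E ε t : ℝ} (hlo : 0 ≤ lo) (hlh : lo ≤ hi) (hε : 0 ≤ ε) (ht : 0 ≤ t)
    (hτ0 : τ 0 = 0) (hτ : ∀ p, τ p ≤ τ (p + 1))
    (hτs : ∀ p, τ (p + 1) ≤ (1 + ε) * τ p + t) (hS0 : S 0 = O) (hO : O ⊆ F)
    (hS : ∀ q, q < m → S q ⊆ S (q + 1)) (hSF : ∀ q, q < m → S (q + 1) ⊆ F)
    (hmax : ∀ q, q < m → (trPot J (fun _ => τ (q + 1))).IsMax F hi (S (q + 1)))
    (htot : ∀ q, q < m → (trPot J (fun _ => τ (q + 1))).tot lo (S (q + 1))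
      ≤ (trPot J (fun _ => τ (q + 1))).tot lo (S q) + E) :
    ∀ (T : ℝ) (x : X → X → ℝ) (y : X → ℝ), 0 < T → (∀ i ∈ F, ∀ j ∈ J, 0 ≤ x i j) →
      (∀ i ∈ F, ∀ j ∈ J, x i j ≤ y i) → (∀ i ∈ F, 0 ≤ y i) → (∀ j ∈ J, ∑ i ∈ F, x i j = 1) →
      (trPot J (fun _ => τ m)).φ (S m) + lo * ((S m).card - O.card)
        ≤ E * m + J.card * t + (1 + ε) * rhsT J F O hi T x y := by
  intro T x y hT hx0 hxy hy0 hasg
  have hτnn : ∀ p, 0 ≤ τ p := fun p => by
    rw [← hτ0]; exact monotone_nat_of_le_succ hτ (Nat.zero_le p)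
  have h1 := chain_total_E J (fun q _ => τ q) lo E S m (fun q hq => htot q hq) m le_rfl
  have h2 : (trPot J (fun _ => τ 0)).tot lo (S 0) ≤ lo * O.card := by
    unfold Pot.tot
    rw [hS0]
    have : (trPot J (fun _ => τ 0)).φ O ≤ 0 :=
      Finset.sum_nonpos (fun j _ => by
        show tr (τ 0) j O ≤ 0
        rw [← hτ0]; exact tr_le)
    linarith only [this]
  have h3 : ∑ j ∈ J, ∑ p ∈ Finset.range m, (tr (τ (p + 1)) j (S p) - tr (τ p) j (S p))
      ≤ ∑ j ∈ J, ((1 + ε) * τ (lastLev (fun p _ => τ p) S m j) + t) := by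
    refine Finset.sum_le_sum (fun j _ => ?_)
    have h4 := growth_le (α := fun p (_ : X) => τ p) (S := S) (m := m) (fun _ => hτ0)
      (fun p _ => hτ p) hS j m le_rfl
    refine h4.trans ?_
    set c := lastLev (fun p (_ : X) => τ p) S m j with hc
    split_ifs with hcm
    · have : c = m := le_antisymm (lastLev_le j) hcm
      rw [← this]
      have := hτnn c
      nlinarith only [ht, hε, this]
    · refine le_trans tr_le ?_
      exact hτs c
  have h5 := sum_levels_le (O := O) (hlo.trans hlh) hT hτ0 hτ hS hS0 hmax hx0 hxy hy0 hasg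
  rw [Finset.sum_add_distrib, ← Finset.mul_sum, Finset.sum_const, nsmul_eq_mul] at h3
  have h6 := mul_le_mul_of_nonneg_left h5 (by linarith only [hε] : 0 ≤ 1 + ε)
  have h7 : (trPot J (fun _ => τ m)).tot lo (S m)
      = (trPot J (fun _ => τ m)).φ (S m) + lo * (S m).card := rfl
  have h8 : rhsT J F O hi T x y = ∑ i ∈ F, (if i ∈ O then ∑ j ∈ J, x i j * dist i j
      else (1 + 1 / (2048 * (T + 2)) / T) * hi * y i
        + (2 - 1 / (2048 * (T + 2))) * ∑ j ∈ J, x i j * dist i j) := by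
    unfold rhsT
    refine Finset.sum_congr rfl (fun i _ => ?_)
    split_ifs <;> rfl
  rw [← h8] at h6
  change (trPot J (fun _ => τ m)).tot lo (S m) ≤ (trPot J (fun _ => τ 0)).tot lo (S 0)
    + ∑ j ∈ J, ∑ p ∈ Finset.range m, (tr (τ (p + 1)) j (S p) - tr (τ p) j (S p)) + E * m at h1
  rw [h7] at h1
  linarith only [h2, h3, h6, h1]

/-- If every client sees a facility within the level, the potential bounds the cost. -/
theorem tr_cost_le [DecidableEq X] {J S : Finset X} {τ : ℝ} (hS : S.Nonempty)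
    (h : ∀ j ∈ J, ∀ i ∈ S, dist i j < τ) : cost J S ≤ (trPot J (fun _ => τ)).φ S := by
  unfold cost
  show _ ≤ ∑ j ∈ J, tr τ j S
  refine Finset.sum_le_sum (fun j hj => ?_)
  apply infDist_le_tr
  obtain ⟨i, hi⟩ := hS
  exact lt_of_le_of_lt (tr_le_dist hi) (h j hj i hi)

/-- Version in which every client sees some facility within the level. -/
theorem tr_cost_le' [DecidableEq X] {J S : Finset X} {τ : ℝ}
    (h : ∀ j ∈ J, ∃ i ∈ S, dist i j < τ) : cost J S ≤ (trPot J (fun _ => τ)).φ S := by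
  unfold cost
  show _ ≤ ∑ j ∈ J, tr τ j S
  refine Finset.sum_le_sum (fun j hj => ?_)
  apply infDist_le_tr
  obtain ⟨i, hi, hlt⟩ := h j hj
  exact lt_of_le_of_lt (tr_le_dist hi) hlt

/-- The potential of the empty set. -/
theorem trPot_phi_empty [DecidableEq X] (J : Finset X) (τ : ℝ) :
    (trPot J (fun _ => τ)).φ ∅ = J.card * τ := by
  show ∑ j ∈ J, tr τ j ∅ = _
  have : ∀ j ∈ J, tr τ j (∅ : Finset X) = τ := fun j _ => by
    unfold tr
    exact Finset.fold_empty
  rw [Finset.sum_congr rfl this, Finset.sum_const, nsmul_eq_mul]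

end Chain

end Vale.Agent.P334
end

section

/-!
The final bound of the second case, for a given chain and a given set of closed clusters.
-/

namespace Vale.Agent.P334

open Finset

section

variable {X : Type} [MetricSpace X]
variable {J F : Finset X} {g : ℝ} {x : X → X → ℝ} {y r : X → ℝ} {CC : Finset X} {ρ : X → X}

/-- The cost of facilities that see all clients within the level. -/
lemma tr_cost_phi [DecidableEq X] {J S : Finset X} {τ : ℝ} (hτ : 0 ≤ τ)
    (h : (trPot J (fun _ => τ)).φ S < τ) : cost J S ≤ (trPot J (fun _ => τ)).φ S := by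
  have h0 : ∀ j ∈ J, 0 ≤ tr τ j S := fun j _ => tr_nonneg hτ _ _
  apply tr_cost_le'
  intro j hj
  by_contra hcon
  push Not at hcon
  have h1 : tr τ j S = τ := by
    apply le_antisymm tr_le
    exact le_tr.mpr ⟨le_rfl, fun i hi => hcon i hi⟩
  have h2 : tr τ j S ≤ ∑ j ∈ J, tr τ j S := Finset.single_le_sum h0 hj
  have h3 : (trPot J (fun _ => τ)).φ S = ∑ j ∈ J, tr τ j S := rfl
  linarith

namespace Clu

/-- The second case, for a given chain and given closed clusters. -/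
theorem case2_final [DecidableEq X] (h : Clu J F g x y r CC ρ) {κ0 κ ε T1 T2 L : ℝ} {k m : ℕ}
    {t lo hi E0 Δ : ℝ} {τ : ℕ → ℝ} {S : ℕ → Finset X} {Z : Finset X} {π : X → X}
    (hκ0 : κ0 = 1 / 10 ^ 6) (hT2 : T2 = 10 ^ 10 / κ0)
    (hκ : κ = κ0 / (8 * (2048 * (T2 + 2)))) (hT1 : T1 = 10 ^ 6 / κ) (hε : ε = κ / 10 ^ 10)
    (hL : 0 < L) (hC : fracCost J F x ≤ (1 + κ) * L) (hk : κ / 2 * L ≤ g * (k - ∑ i ∈ F, y i))
    (hcase : ∑ c ∈ CC, ain J F g x y r c
      + ∑ i ∈ restF J F g x y r CC, fcl J x i ≤ κ0 * fracCost J F x)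
    (hJ : 1 ≤ J.card) (ht : 0 ≤ t) (hlo : 0 ≤ lo) (hlh : lo ≤ hi)
    (hhi : hi ≤ lo + Δ) (hE0 : 0 ≤ E0)
    (hZE : Z ⊆ CC \ IbS F y r CC ρ)
    (hπ1 : ∀ c ∈ CC, ¬ Iso r CC ρ c → π c ∈ CC ∧ π c ≠ c)
    (hnear : ∀ c ∈ CC, ¬ Iso r CC ρ c → ∀ c' ∈ CC, c' ≠ c →
      dist (ρ c) (ρ (π c)) ≤ dist (ρ c) (ρ c'))
    (hZπ : ∀ c ∈ Z, π c ≠ c → π c ∉ Z)
    (hZc : ∑ c ∈ CC \ IbS F y r CC ρ, sc F y r c - 1 ≤ Z.card)
    (hZL : (1 - 2 * (1 / 10 ^ 4)) * ∑ c ∈ Z, Lam J F x r CC ρ π c
      ≤ ∑ c ∈ CC \ IbS F y r CC ρ, sc F y r c * Lam J F x r CC ρ π c)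
    (hτ0 : τ 0 = 0) (hτ : ∀ p, τ p ≤ τ (p + 1)) (hτs : ∀ p, τ (p + 1) ≤ (1 + ε) * τ p + t)
    (hS0 : S 0 = (CC \ Z).image ρ)
    (hS : ∀ q, q < m → S q ⊆ S (q + 1)) (hSF : ∀ q, q < m → S (q + 1) ⊆ F)
    (hmax : ∀ q, q < m → (trPot J (fun _ => τ (q + 1))).IsMax F hi (S (q + 1)))
    (htot : ∀ q, q < m → (trPot J (fun _ => τ (q + 1))).tot lo (S (q + 1))
      ≤ (trPot J (fun _ => τ (q + 1))).tot lo (S q) + (3 * lo + E0))
    (hN : (S m).card = k + 3 * m + 2 ∨ lo = 0)
    (herr : t * J.card + E0 * m + Δ * (k + 3 * m + 2) ≤ κ / 16 * L)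
    (htop : 3 * L < τ m ∨ ((S m).Nonempty ∧ ∀ a b : X, dist a b < τ m)) :
    (S m).Nonempty ∧ cost J (S m) ≤ 13 / 10 * L := by
  classical
  obtain ⟨hκpos, hκ1, hT1', hT2', hδ2, hδ21, hδκ, hεpos, h90, hεδ1, hεδ2, hεs, he1, he2, he2'⟩ :=
    const1 (by rw [hκ0]; norm_num) (by rw [hκ0]; norm_num) hT2 hκ hT1 hε
  have hC0 := fracCost_nonneg J F h.rad.sol
  have hg := h.rad.g_pos
  have hhi0 : 0 ≤ hi := hlo.trans hlh
  obtain ⟨hO, xh, yy, hx0, hxy, hy0, hasg, hmass, hY, hW⟩ :=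
    h.residual_of hZE hπ1 hnear hZπ hZc hZL
  set O := (CC \ Z).image ρ with hOdef
  set Y := ∑ i ∈ F \ O, yy i with hYdef
  set W := ∑ l ∈ J, ∑ i ∈ F, xh i l * ((if i ∈ O then 1 else 2) * dist i l) with hWdef
  have hY0 : 0 ≤ Y := Finset.sum_nonneg (fun i hi => hy0 i (Finset.mem_sdiff.mp hi).1)
  have hτnn : 0 ≤ τ m := by
    rw [← hτ0]; exact monotone_nat_of_le_succ hτ (Nat.zero_le m)
  have hT1p : 0 < T1 := by linarith only [hT1']
  have h1 := chain_uniform J F O hlo hlh hεpos.le ht hτ0 hτ hτs hS0 hO hS hSF hmax htot T1 xh yy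
    hT1p hx0 hxy hy0 hasg
  have h2 := rhsT_le (J := J) (f := hi) (T := T1) (y := yy) hO hT1p hx0
  rw [← hYdef, ← hWdef] at h2
  set φ := (trPot J (fun _ => τ m)).φ (S m) with hφdef
  have hφ : 0 ≤ φ := Finset.sum_nonneg (fun j _ => tr_nonneg hτnn _ _)
  -- bound of W
  have hWC : W ≤ 5 / 4 * fracCost J F x := by
    have e1 : ∑ i ∈ upF F r CC, fcl J x i ≤ ∑ i ∈ restF J F g x y r CC, fcl J x i :=
      Finset.sum_le_sum_of_subset_of_nonneg upF_sub_restF
        (fun i hi _ => h.rad.fcl_nonneg (mem_restF.mp hi).1)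
    have e2 : ∑ c ∈ CC, inr J r ρ c ≤ 250 / 249 * ∑ c ∈ CC, ain J F g x y r c := h.sum_in_le
    have e3 : 0 ≤ ∑ c ∈ CC, ain J F g x y r c := Finset.sum_nonneg (fun c _ => h.ain_nonneg)
    have e4 : 0 ≤ ∑ i ∈ restF J F g x y r CC, fcl J x i :=
      Finset.sum_nonneg (fun i hi => h.rad.fcl_nonneg (mem_restF.mp hi).1)
    rw [hκ0] at hcase
    linarith only [hcase, hC0, hW, e1, e2, e4]
  have hz : 0 ≤ hi / g := div_nonneg hhi0 hg.le
  have hδ1 : 0 < 1 / (2048 * (T1 + 2)) := by positivity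
  have hδ1T : 0 < 1 / (2048 * (T1 + 2)) / T1 := by positivity
  -- the price terms
  have hfk : hi / g * (κ / 2 * L) ≤ hi * (k - ∑ i ∈ F, y i) := by
    have e : hi * (k - ∑ i ∈ F, y i) = hi / g * (g * (k - ∑ i ∈ F, y i)) := by (clear * - hg; field_simp)
    rw [e]
    exact mul_le_mul_of_nonneg_left hk hz
  have hfY : (ε + 2 * (1 / (2048 * (T1 + 2)) / T1)) * (hi * Y)
      ≤ (ε + 2 * (1 / (2048 * (T1 + 2)) / T1)) * (hi / g * (10 ^ 7 * fracCost J F x)) := by
    apply mul_le_mul_of_nonneg_left _ (by (clear * - hεpos hT1'; positivity))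
    have e1 : Y ≤ 5 / 4 * ∑ i ∈ restF J F g x y r CC, y i :=
      hY.trans (mul_le_mul_of_nonneg_left (Finset.sum_le_sum_of_subset_of_nonneg upF_sub_restF
        (fun i hi _ => h.rad.sol.y_nonneg i (mem_restF.mp hi).1)) (by norm_num))
    have e2 := mul_le_mul_of_nonneg_left e1 hhi0
    have e3 : hi * (5 / 4 * ∑ i ∈ restF J F g x y r CC, y i)
        = 5 / 4 * (hi / g * (g * ∑ i ∈ restF J F g x y r CC, y i)) := by (clear * - hg; field_simp)
    have e4 := mul_le_mul_of_nonneg_left h.rest hz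
    linarith only [e2, e3, e4]
  have hφ13 : φ ≤ 13 / 10 * L := by
    apply case2_arith (fk := hi * (k - ∑ i ∈ F, y i)) (fY := hi * Y) hL hκpos hκ1 hεpos.le
      (by linarith only [hε, hκ1]) he1 hC0 hC hz hWC hfk hfY
    have e0 := two_prices (φ := φ) (c := (S m).card) (N := (k : ℝ) + 3 * m + 2) hlh hhi
      (by (clear * -; positivity)) (by (clear * -; positivity)) (by
        rcases hN with hN | hN
        · left; rw [hN]; push_cast; ring
        · right; exact hN)
    have e1 : (1 + ε) * rhsT J F O hi T1 xh yy ≤ (1 + ε) *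
        ((1 + 1 / (2048 * (T1 + 2)) / T1) * hi * Y + W) :=
      mul_le_mul_of_nonneg_left h2 (by linarith only [hεpos])
    have hfY0 : 0 ≤ hi * Y := mul_nonneg hhi0 hY0
    have e2 : ε * (1 / (2048 * (T1 + 2)) / T1) * (hi * Y)
        ≤ 1 * (1 / (2048 * (T1 + 2)) / T1) * (hi * Y) := by
      apply mul_le_mul_of_nonneg_right _ hfY0
      exact mul_le_mul_of_nonneg_right (by linarith only [hε, hκ1]) hδ1T.le
    have e3 : hi * (O.card + Y) ≤ hi * (∑ i ∈ F, y i + 5 / 4) := mul_le_mul_of_nonneg_left hmass hhi0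
    have e5 : lo * O.card ≤ hi * O.card := mul_le_mul_of_nonneg_right hlh (by (clear * -; positivity))
    have e6 : lo * m ≤ hi * m := mul_le_mul_of_nonneg_right hlh (by (clear * -; positivity))
    linarith only [hlo, hlh, herr, h1, e0, e1, e2, e3, e5, e6]
  have hne : (S m).Nonempty := by
    rcases htop with htop | htop
    · by_contra hcon
      rw [Finset.not_nonempty_iff_eq_empty] at hcon
      have e1 : φ = J.card * τ m := by
        rw [hφdef, hcon]
        exact trPot_phi_empty J _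
      have e2 : (1 : ℝ) ≤ J.card := by exact_mod_cast hJ
      have e3 : 1 * τ m ≤ J.card * τ m := mul_le_mul_of_nonneg_right e2 hτnn
      linarith only [hL, hφ13, htop, e1, e3]
    · exact htop.1
  refine ⟨hne, ?_⟩
  have hcostφ : cost J (S m) ≤ φ := by
    rcases htop with htop | htop
    · exact tr_cost_phi hτnn (by linarith only [hL, hφ13, htop])
    · exact tr_cost_le hne (fun j _ i _ => htop.2 _ _)
  linarith only [hφ13, hcostφ]

end Clu

end

end Vale.Agent.P334
end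

section

/-!
The closed clusters.
-/

namespace Vale.Agent.P334.Alg

open Finset

theorem closeZ_spec {X : Type} [MetricSpace X] [DecidableEq X] {d : X → X → ℕ}
    (hd : ∀ a b, dist a b = (d a b : ℝ)) {D : ℕ} (_hD : ∀ a b, d a b ≤ D) {J F U : List X}
    (hJ : J.Nodup) (hF : F.Nodup) (hU : ∀ u ∈ U, u ∈ F) {N m gg : ℕ} (hN : 0 < N) (hm : 0 < m)
    {g : ℝ} {x : X → X → ℝ} {y r : X → ℝ} (hg : g = (gg : ℝ) / m)
    (hx : ∀ i j, x i j = ((nearU d (D + 1) N U j).count i : ℝ) / N)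
    (hy : ∀ i, y i = (U.count i : ℝ) / N)
    (hr : ∀ p, r p = (radN d (D + 1) N U p : ℝ)) (h : Rad J.toFinset F.toFinset g x y r)
    {CC : List X} (hCC : CC = ccL d (D + 1) N m gg J F U) {rho : X → X}
    (hrho : rho = rhoL d (D + 1) N m gg J F U) {π : X → X} (hπ : π = piL d CC rho) :
    ∃ Z ∈ closeCands π (lamN d (D + 1) N J F U CC rho) CC
      (CC.filter (fun c => !ibL d (D + 1) N F.length F U CC rho c)),
      Z.Nodup ∧ Z.toFinset ⊆ CC.toFinset \ IbS F.toFinset y r CC.toFinset rho ∧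
      (∀ c ∈ CC.toFinset, ¬ Iso r CC.toFinset rho c → π c ∈ CC.toFinset ∧ π c ≠ c) ∧
      (∀ c ∈ CC.toFinset, ¬ Iso r CC.toFinset rho c → ∀ c' ∈ CC.toFinset, c' ≠ c →
        dist (rho c) (rho (π c)) ≤ dist (rho c) (rho c')) ∧
      (∀ c ∈ Z.toFinset, π c ≠ c → π c ∉ Z.toFinset) ∧
      (∑ c ∈ CC.toFinset \ IbS F.toFinset y r CC.toFinset rho, sc F.toFinset y r c) - 1
        ≤ Z.toFinset.card ∧
      (1 - 2 * (1 / 10 ^ 4)) * ∑ c ∈ Z.toFinset,
          Lam J.toFinset F.toFinset x r CC.toFinset rho π c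
        ≤ ∑ c ∈ CC.toFinset \ IbS F.toFinset y r CC.toFinset rho,
          sc F.toFinset y r c * Lam J.toFinset F.toFinset x r CC.toFinset rho π c ∧
      ((CC.filter (fun c => decide (c ∉ Z))).map rho).Nodup ∧
      (∀ i ∈ (CC.filter (fun c => decide (c ∉ Z))).map rho, i ∈ F) ∧
      ((CC.filter (fun c => decide (c ∉ Z))).map rho).toFinset
        = (CC.toFinset \ Z.toFinset).image rho := by
  classical
  have hclu : Clu J.toFinset F.toFinset g x y r CC.toFinset rho := by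
    rw [hCC, hrho]
    exact clu_spec hd hJ hF hU hN hm hg hx hy hr h
  have hCn : CC.Nodup := by
    rw [hCC]
    exact ccL_nodup hd hU hN hx hy hr h
  set E := CC.filter (fun c => !ibL d (D + 1) N F.length F U CC rho c) with hE
  have hEE : E.toFinset = CC.toFinset \ IbS F.toFinset y r CC.toFinset rho := by
    ext c
    rw [List.mem_toFinset, hE, List.mem_filter, Finset.mem_sdiff, List.mem_toFinset, mem_IbS,
      List.mem_toFinset]
    have hcard : F.toFinset.card = F.length := List.toFinset_card_of_nodup hF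
    constructor
    · rintro ⟨h1, h2⟩
      refine ⟨h1, fun h3 => ?_⟩
      have hFp : 0 < F.length := by
        have := near_sub (hclu.rep c (List.mem_toFinset.mpr h1))
        exact List.length_pos_of_mem (List.mem_toFinset.mp this)
      have h4 := (C2.ibL_iff (CC := CC) (ρ := rho) hd hr hy (fun u hu => hU u hu) hN hFp
        (c := c)).mpr ⟨h3.2.1, by rw [← hcard]; exact h3.2.2⟩
      rw [h4] at h2
      simp at h2
    · rintro ⟨h1, h2⟩
      refine ⟨h1, ?_⟩
      have hFp : 0 < F.length := by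
        have := near_sub (hclu.rep c (List.mem_toFinset.mpr h1))
        exact List.length_pos_of_mem (List.mem_toFinset.mp this)
      by_contra h3
      have h3' : ibL d (D + 1) N F.length F U CC rho c = true := by
        cases hb : ibL d (D + 1) N F.length F U CC rho c
        · rw [hb] at h3; simp at h3
        · rfl
      have h4 := (C2.ibL_iff (CC := CC) (ρ := rho) hd hr hy (fun u hu => hU u hu) hN hFp
        (c := c)).mp h3'
      exact h2 ⟨h1, h4.1, by rw [hcard]; exact h4.2⟩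
  have hEC : ∀ c ∈ E, c ∈ CC := fun c hc => (List.mem_filter.mp hc).1
  obtain ⟨Z, hZ, hZE, hZn, hZπ, hZc, hZL⟩ := closeCands_spec π
    (lamN d (D + 1) N J F U CC rho) CC E hCn (fun c hc => hEC c hc) (hCn.filter _)
    (fun c hc => by rw [hπ]; exact C2.piL_mem (hEC c hc)) (fun c => sc F.toFinset y r c)
    (σ := 1 / 10 ^ 4) (by norm_num) (by norm_num) (fun c _ => hclu.sc_nonneg c)
    (fun c hc => hclu.sc_le (List.mem_toFinset.mpr (hEC c hc)))
  have hZC : ∀ c ∈ Z, c ∈ CC := fun c hc => hEC c (hZE hc)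
  have hLam : ∀ c, Lam J.toFinset F.toFinset x r CC.toFinset rho π c
      = (lamN d (D + 1) N J F U CC rho c : ℝ) / (50 * N) := fun c => by
    rw [hπ]
    exact C2.lamN_eq hd hr hx hJ hCn c
  refine ⟨Z, hZ, hZn, ?_, ?_, ?_, ?_, ?_, ?_, ?_, ?_, ?_⟩
  · rw [← hEE]
    intro c hc
    rw [List.mem_toFinset] at hc ⊢
    exact hZE hc
  · intro c hc hi
    have := C2.piL_spec hd hi
    rw [hπ]
    exact ⟨List.mem_toFinset.mpr this.1, this.2.1⟩
  · intro c hc hi c' hc' hne
    have := C2.piL_spec hd hi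
    rw [hπ]
    exact this.2.2 c' (List.mem_toFinset.mp hc') hne
  · intro c hc hne
    rw [List.mem_toFinset] at hc ⊢
    exact hZπ c hc hne
  · rw [← hEE, List.toFinset_card_of_nodup hZn]
    exact hZc
  · rw [← hEE]
    have h1 : ∑ c ∈ Z.toFinset, Lam J.toFinset F.toFinset x r CC.toFinset rho π c
        = (∑ c ∈ Z.toFinset, (lamN d (D + 1) N J F U CC rho c : ℝ)) / (50 * N) := by
      rw [Finset.sum_div]
      exact Finset.sum_congr rfl (fun c _ => hLam c)
    have h2 : ∑ c ∈ E.toFinset,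
        sc F.toFinset y r c * Lam J.toFinset F.toFinset x r CC.toFinset rho π c
        = (∑ c ∈ E.toFinset, sc F.toFinset y r c * (lamN d (D + 1) N J F U CC rho c : ℝ))
          / (50 * N) := by
      rw [Finset.sum_div]
      refine Finset.sum_congr rfl (fun c _ => ?_)
      rw [hLam c, mul_div_assoc]
    rw [h1, h2, ← mul_div_assoc]
    exact div_le_div_of_nonneg_right hZL (by positivity)
  · refine List.Nodup.map_on ?_ (hCn.filter _)
    intro a ha b hb hab
    exact hclu.rep_inj (List.mem_toFinset.mpr (List.mem_filter.mp ha).1)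
      (List.mem_toFinset.mpr (List.mem_filter.mp hb).1) hab
  · intro i hi
    obtain ⟨c, hc, rfl⟩ := List.mem_map.mp hi
    exact List.mem_toFinset.mp
      (near_sub (hclu.rep c (List.mem_toFinset.mpr (List.mem_filter.mp hc).1)))
  · ext i
    rw [List.mem_toFinset, List.mem_map, Finset.mem_image]
    constructor
    · rintro ⟨c, hc, rfl⟩
      obtain ⟨h1, h2⟩ := List.mem_filter.mp hc
      refine ⟨c, Finset.mem_sdiff.mpr ⟨List.mem_toFinset.mpr h1, fun h3 => ?_⟩, rfl⟩
      exact (decide_eq_true_iff.mp h2) (List.mem_toFinset.mp h3)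
    · rintro ⟨c, hc, rfl⟩
      obtain ⟨h1, h2⟩ := Finset.mem_sdiff.mp hc
      refine ⟨c, List.mem_filter.mpr ⟨List.mem_toFinset.mp h1, decide_eq_true ?_⟩, rfl⟩
      exact fun h3 => h2 (List.mem_toFinset.mpr h3)

end Vale.Agent.P334.Alg
end
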