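import Vale.Agent.P334.MathlibUsed
import Vale.Agent.P334.Bdl.B2
import Vale.Agent.P334.Bdl.B4
import Vale.Agent.P334.Bdl.B3
import Vale.Agent.P334.Bdl.B1
import Vale.Agent.Lib.PolyTime.NatArith2

set_option linter.all false

section

/-!
Geometric and interpolated levels: arithmetic of `tauL`, `capL` and `wlL` (Part 3, LEV-a).
-/

namespace Vale.Agent.P334.Alg

/-! ### Auxiliary facts on natural division -/

theorem floor_le (x y : ℕ) : ((x / y : ℕ) : ℝ) ≤ (x : ℝ) / y := Nat.cast_div_le

theorem lt_floor (x : ℕ) {y : ℕ} (hy : 0 < y) : (x : ℝ) / y < ((x / y : ℕ) : ℝ) + 1 := by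
  have h : x < (x / y + 1) * y := by
    have h1 := Nat.div_add_mod x y
    have h2 := Nat.mod_lt x hy
    have h3 : (x / y + 1) * y = y * (x / y) + y := by ring
    omega
  have hy' : (0 : ℝ) < y := by exact_mod_cast hy
  rw [div_lt_iff₀ hy']
  have h' : (x : ℝ) < (((x / y + 1) * y : ℕ) : ℝ) := by exact_mod_cast h
  push_cast at h'
  exact h'

/-- Changing the numerator by at most `c * y` changes the quotient by at most `c`. -/
theorem div_le_add (x z y c : ℕ) (hy : 0 < y) (h : z ≤ x + c * y) : z / y ≤ x / y + c := by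
  have h1 : z / y ≤ (x + c * y) / y := Nat.div_le_div_right h
  rwa [Nat.add_mul_div_right _ _ hy] at h1

/-! ### Geometric levels -/

section Tau

variable (top t e : ℕ)

theorem tauL_zero : tauL top t e 0 = 0 := rfl

theorem tauL_succ (p : ℕ) : tauL top t e (p + 1)
    = min top (tauL top t e p + tauL top t e p / e + t) := by
  unfold tauL
  rw [Function.iterate_succ_apply']

theorem tauL_le_top (p : ℕ) : tauL top t e p ≤ top := by
  cases p with
  | zero => rw [tauL_zero]; exact Nat.zero_le _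
  | succ p => rw [tauL_succ]; exact min_le_left _ _

theorem tauL_step (p : ℕ) : tauL top t e p ≤ tauL top t e (p + 1) := by
  rw [tauL_succ]
  refine le_min (tauL_le_top top t e p) ?_
  rw [Nat.add_assoc]
  exact Nat.le_add_right _ _

theorem tauL_mono : Monotone (tauL top t e) := monotone_nat_of_le_succ (tauL_step top t e)

theorem tauL_succ_le (p : ℕ) : tauL top t e (p + 1)
    ≤ tauL top t e p + tauL top t e p / e + t := by
  rw [tauL_succ]
  exact min_le_right _ _

/-- Real version of the growth bound. -/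
theorem tauL_succ_le_real (p : ℕ) : (tauL top t e (p + 1) : ℝ)
    ≤ tauL top t e p + (tauL top t e p : ℝ) / e + t := by
  have h := tauL_succ_le top t e p
  have h1 : (tauL top t e (p + 1) : ℝ)
      ≤ ((tauL top t e p + tauL top t e p / e + t : ℕ) : ℝ) := by exact_mod_cast h
  push_cast at h1
  have h2 := floor_le (tauL top t e p) e
  (clear * - h1 h2; linarith)

/-- The levels are positive after the first one. -/
theorem tauL_pos (htop : 0 < top) (ht : 0 < t) {p : ℕ} (hp : 0 < p) : 0 < tauL top t e p := by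
  obtain ⟨p, rfl⟩ : ∃ q, p = q + 1 := ⟨p - 1, by omega⟩
  rw [tauL_succ]
  exact lt_min htop (Nat.lt_of_lt_of_le ht (Nat.le_add_left _ _))

theorem tauL_eq_top {p q : ℕ} (hpq : p ≤ q) (h : tauL top t e p = top) :
    tauL top t e q = top :=
  le_antisymm (tauL_le_top top t e q) (h.symm.le.trans (tauL_mono top t e hpq))

/-- Geometric growth until the top is reached. -/
theorem tauL_geom (ht : 1 ≤ t) (he : 1 ≤ e) (p : ℕ) : tauL top t e (p + 1) = top ∨
    ((t : ℝ) - 1) * (1 + 1 / (e : ℝ)) ^ p ≤ tauL top t e (p + 1) := by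
  have he' : (0 : ℝ) < e := by exact_mod_cast he
  have ht' : (1 : ℝ) ≤ t := by exact_mod_cast ht
  induction p with
  | zero =>
    rw [tauL_succ, tauL_zero]
    rcases le_total top (0 + 0 / e + t) with h | h
    · left; exact min_eq_left h
    · right
      rw [min_eq_right h]
      simp only [one_div, pow_zero, mul_one, Nat.zero_div, add_zero, zero_add, tsub_le_iff_right, le_add_iff_nonneg_right, zero_le_one]
  | succ p ih =>
    rcases ih with h | h
    · left; exact tauL_eq_top top t e (Nat.le_succ _) h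
    · rw [tauL_succ top t e (p + 1)]
      set x := tauL top t e (p + 1) with hx
      rcases le_total top (x + x / e + t) with h1 | h1
      · left; exact min_eq_left h1
      · right
        rw [min_eq_right h1]
        push_cast
        have h2 := lt_floor x (show 0 < e by omega)
        have h3 : ((t : ℝ) - 1) * (1 + 1 / (e : ℝ)) ^ (p + 1)
            ≤ x * (1 + 1 / (e : ℝ)) := by
          rw [pow_succ, ← mul_assoc]
          exact mul_le_mul_of_nonneg_right h (by positivity)
        have h4 : (x : ℝ) * (1 + 1 / (e : ℝ)) = x + (x : ℝ) / e := by ring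
        linarith only [ht', h2, h3, h4]

/-- The form of the geometric growth used in the task list. -/
theorem tauL_geom' (ht : 1 ≤ t) (he : 1 ≤ e) {p : ℕ} (hp : 1 ≤ p) : tauL top t e p = top ∨
    ((t : ℝ) - 1) * (1 + 1 / (e : ℝ)) ^ (p - 1) ≤ tauL top t e p := by
  obtain ⟨q, rfl⟩ : ∃ q, p = q + 1 := ⟨p - 1, by omega⟩
  rw [Nat.add_sub_cancel]
  exact tauL_geom top t e ht he q

end Tau

/-! ### Thresholds -/

section Cap

variable (M t f n a b : ℕ)

theorem capL_zero : capL M t f n a b 0 = f * (b * n - a) / (b * n * n) := by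
  simp only [capL, zero_mul, add_zero]

theorem capL_succ (s : ℕ) : capL M t f n a b (s + 1)
    = capL M t f n a b s + (f * a / (b * n * n * M) + 1 + t) := by
  unfold capL
  ring

theorem capL_mono_step (s : ℕ) : capL M t f n a b s ≤ capL M t f n a b (s + 1) := by
  rw [capL_succ]; exact Nat.le_add_right _ _

theorem capL_mono : Monotone (capL M t f n a b) :=
  monotone_nat_of_le_succ (capL_mono_step M t f n a b)

/-- Upper bound for one step, over the reals. -/
theorem capL_succ_le (s : ℕ) : (capL M t f n a b (s + 1) : ℝ)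
    ≤ capL M t f n a b s + ((f : ℝ) * a / (b * n * n * M) + 1 + t) := by
  rw [capL_succ]
  push_cast
  have h := floor_le (f * a) (b * n * n * M)
  push_cast at h
  linarith

theorem capL_zero_le (hb : 0 < b) (hn : 0 < n) : (capL M t f n a b 0 : ℝ)
    ≤ max 0 ((f : ℝ) / n - f * a / (b * n * n)) := by
  have hb' : (0 : ℝ) < b := by exact_mod_cast hb
  have hn' : (0 : ℝ) < n := by exact_mod_cast hn
  rw [capL_zero]
  rcases le_total a (b * n) with h | h
  · refine le_trans (floor_le _ _) (le_trans (le_of_eq ?_) (le_max_right _ _))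
    push_cast [Nat.cast_sub h]
    (clear * - hb hn; field_simp)
  · rw [Nat.sub_eq_zero_of_le h]
    simp only [mul_zero, Nat.zero_div, CharP.cast_eq_zero, le_sup_left]

/-- Lower bound for all thresholds. -/
theorem capL_ge (hb : 0 < b) (hn : 0 < n) (hM : 0 < M) (s : ℕ) :
    (f : ℝ) / n - f * a / (b * n * n) - 1 + s * ((f : ℝ) * a / (b * n * n * M) + t)
      ≤ capL M t f n a b s := by
  have hb' : (0 : ℝ) < b := by exact_mod_cast hb
  have hn' : (0 : ℝ) < n := by exact_mod_cast hn
  have hM' : (0 : ℝ) < M := by exact_mod_cast hM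
  have h1 : (f : ℝ) / n - f * a / (b * n * n) - 1 ≤ ((f * (b * n - a) / (b * n * n) : ℕ) : ℝ) := by
    rcases le_total a (b * n) with h | h
    · have h2 := lt_floor (f * (b * n - a)) (show 0 < b * n * n by (clear * - hb hn; positivity))
      have h3 : ((f * (b * n - a) : ℕ) : ℝ) / ((b * n * n : ℕ) : ℝ)
          = (f : ℝ) / n - f * a / (b * n * n) := by
        push_cast [Nat.cast_sub h]
        field_simp
      rw [h3] at h2
      linarith only [h2]
    · have h2 : (f : ℝ) / n ≤ f * a / (b * n * n) := by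
        rw [div_le_div_iff₀ hn' (by positivity)]
        have h3 : (b : ℝ) * n ≤ a := by exact_mod_cast h
        have h4 : (0 : ℝ) ≤ f * n := by (clear * - hn; positivity)
        nlinarith only [h3, h4]
      have h5 : (0 : ℝ) ≤ ((f * (b * n - a) / (b * n * n) : ℕ) : ℝ) := Nat.cast_nonneg _
      linarith only [h2]
  have h6 := lt_floor (f * a) (show 0 < b * n * n * M by positivity)
  have h7 : ((f * a : ℕ) : ℝ) / ((b * n * n * M : ℕ) : ℝ) = (f : ℝ) * a / (b * n * n * M) := by
    push_cast; rfl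
  rw [h7] at h6
  have h8 : (s : ℝ) * ((f : ℝ) * a / (b * n * n * M) + t)
      ≤ s * (((f * a / (b * n * n * M) : ℕ) : ℝ) + 1 + t) := by
    refine mul_le_mul_of_nonneg_left ?_ (Nat.cast_nonneg s)
    linarith only [h6]
  unfold capL
  push_cast at h1 h8 ⊢
  linarith

/-- The last threshold is above the price per client. -/
theorem lt_capL (hb : 0 < b) (hn : 0 < n) (hM : 0 < M) {δ : ℕ} (ht : δ + 2 ≤ t) :
    ((f : ℝ) + 1 + δ) / n < capL M t f n a b (M + 1) := by
  have hb' : (0 : ℝ) < b := by exact_mod_cast hb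
  have hn' : (1 : ℝ) ≤ n := by exact_mod_cast hn
  have hM' : (1 : ℝ) ≤ M := by exact_mod_cast hM
  have hn0 : (0 : ℝ) < n := by linarith only [hn']
  have hM0 : (0 : ℝ) < M := by linarith only [hM']
  have ht' : (δ : ℝ) + 2 ≤ t := by exact_mod_cast ht
  have hδ : (0 : ℝ) ≤ δ := Nat.cast_nonneg δ
  have h1 := capL_ge M t f n a b hb hn hM (M + 1)
  push_cast at h1
  have h2 : (M : ℝ) * ((f : ℝ) * a / (b * n * n * M)) = f * a / (b * n * n) := by
    field_simp
  have h3 : (0 : ℝ) ≤ (f : ℝ) * a / (b * n * n * M) := by (clear * - hb hn hM; positivity)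
  have h4 : ((f : ℝ) + 1 + δ) / n ≤ (f : ℝ) / n + (1 + δ) := by
    rw [add_assoc, add_div]
    have : (1 + (δ : ℝ)) / n ≤ 1 + δ := div_le_self (by linarith only []) hn'
    linarith only [this]
  have h5 : ((M : ℝ) + 1) * ((f : ℝ) * a / (b * n * n * M) + t)
      = f * a / (b * n * n) + (f : ℝ) * a / (b * n * n * M) + M * t + t := by
    rw [← h2]; ring
  rw [h5] at h1
  have h6 : (t : ℝ) ≤ M * t := by
    have : (0 : ℝ) ≤ t := Nat.cast_nonneg t
    nlinarith only [hM']
  linarith only [ht', h1, h3, h4, h6]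

/-- The thresholds are monotone in the price. -/
theorem capL_price_mono (s : ℕ) : capL M t f n a b s ≤ capL M t (f + 1) n a b s := by
  unfold capL
  refine Nat.add_le_add (Nat.div_le_div_right (Nat.mul_le_mul_right _ (Nat.le_succ f)))
    (Nat.mul_le_mul_left s ?_)
  refine Nat.add_le_add_right (Nat.add_le_add_right ?_ 1) t
  exact Nat.div_le_div_right (Nat.mul_le_mul_right _ (Nat.le_succ f))

/-- The thresholds change by at most `1 + s * n'` when the price changes by one. -/
theorem capL_price_step (hb : 0 < b) (hn : 0 < n) (hM : 0 < M) {n' : ℕ} (ha : a ≤ b * n')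
    (s : ℕ) : capL M t (f + 1) n a b s ≤ capL M t f n a b s + (1 + s * n') := by
  have h1 : (f + 1) * (b * n - a) / (b * n * n) ≤ f * (b * n - a) / (b * n * n) + 1 := by
    refine div_le_add _ _ _ _ (by positivity) ?_
    have h2 : b * n - a ≤ b * n * n := by
      refine (Nat.sub_le _ _).trans ?_
      exact Nat.le_mul_of_pos_right _ hn
    have h3 : (f + 1) * (b * n - a) = f * (b * n - a) + (b * n - a) := by ring
    omega
  have h4 : (f + 1) * a / (b * n * n * M) ≤ f * a / (b * n * n * M) + n' := by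
    refine div_le_add _ _ _ _ (by positivity) ?_
    have h5 : a ≤ n' * (b * n * n * M) := by
      refine ha.trans ?_
      have h6 : b * n' * 1 ≤ b * n' * (n * n * M) :=
        Nat.mul_le_mul_left _ (Nat.succ_le_of_lt (by positivity))
      calc b * n' = b * n' * 1 := (mul_one _).symm
        _ ≤ b * n' * (n * n * M) := h6
        _ = n' * (b * n * n * M) := by ring
    have h7 : (f + 1) * a = f * a + a := by ring
    omega
  unfold capL
  have h8 : s * ((f + 1) * a / (b * n * n * M) + 1 + t)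
      ≤ s * (f * a / (b * n * n * M) + 1 + t) + s * n' := by
    rw [← Nat.mul_add]
    exact Nat.mul_le_mul_left s (by (clear * - h4; omega))
  omega

end Cap

/-! ### Interpolated levels -/

section WL

variable {X : Type} [DecidableEq X] (τ : ℕ → ℕ) (M : ℕ) (R : List X) (cap cap' : X → ℕ → ℕ)

/-- The interpolated levels on lists and on finite sets agree. -/
theorem wlL_cast (q : ℕ) (v : X) : (wlL τ M R cap q v : ℝ)
    = wl R.toFinset (fun p => (τ p : ℝ)) M (fun v s => (cap v s : ℝ)) q v := by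
  unfold wlL wl
  simp only [List.mem_toFinset]
  split_ifs
  · rfl
  · push_cast; rfl
  · rfl

theorem wlL_zero : wlL τ M R cap 0 = fun _ => τ 0 := by
  funext v
  unfold wlL
  rw [Nat.zero_mod, if_pos rfl, Nat.zero_div]

/-- At multiples of `M + 3` the levels are uniform. -/
theorem wlL_mul (p : ℕ) (v : X) : wlL τ M R cap ((M + 3) * p) v = τ p := by
  unfold wlL
  rw [Nat.mul_mod_right, if_pos rfl, Nat.mul_div_cancel_left p (by omega)]

variable {τ M R cap cap'}

theorem wlL_bounds_aux (hτ : ∀ p, τ p ≤ τ (p + 1)) (q : ℕ) (v : X) :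
    τ (q / (M + 3)) ≤ wlL τ M R cap q v ∧ wlL τ M R cap q v ≤ τ (q / (M + 3) + 1) := by
  have h := hτ (q / (M + 3))
  unfold wlL
  split_ifs
  · exact ⟨le_rfl, h⟩
  · exact ⟨le_min h (le_max_left _ _), min_le_left _ _⟩
  · exact ⟨h, le_rfl⟩

/-- The quotient and the remainder of the next index. -/
theorem succ_div_mod (M q : ℕ) : (q % (M + 3) + 1 < M + 3 ∧ (q + 1) / (M + 3) = q / (M + 3) ∧
    (q + 1) % (M + 3) = q % (M + 3) + 1) ∨ (q % (M + 3) = M + 2 ∧
    (q + 1) / (M + 3) = q / (M + 3) + 1 ∧ (q + 1) % (M + 3) = 0) := by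
  have hq := Nat.div_add_mod q (M + 3)
  have hs := Nat.mod_lt q (show M + 3 > 0 by omega)
  rcases Nat.lt_or_ge (q % (M + 3) + 1) (M + 3) with h | h
  · left
    refine ⟨h, ?_, ?_⟩
    · conv_lhs => rw [← hq, Nat.add_assoc, Nat.mul_add_div (by omega), Nat.div_eq_of_lt h,
        Nat.add_zero]
    · conv_lhs => rw [← hq, Nat.add_assoc, Nat.mul_add_mod, Nat.mod_eq_of_lt h]
  · right
    have h1 : q % (M + 3) = M + 2 := by omega
    have h2 : q + 1 = (M + 3) * (q / (M + 3) + 1) := by
      rw [Nat.mul_add, Nat.mul_one]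
      omega
    refine ⟨h1, ?_, ?_⟩
    · conv_lhs => rw [h2, Nat.mul_div_cancel_left _ (show 0 < M + 3 by (clear * -; omega))]
    · conv_lhs => rw [h2, Nat.mul_mod_right]

theorem wlL_bounds (hτ : ∀ p, τ p ≤ τ (p + 1)) (q : ℕ) (v : X) :
    τ (q / (M + 3)) ≤ wlL τ M R cap q v ∧ wlL τ M R cap (q + 1) v ≤ τ (q / (M + 3) + 1) := by
  refine ⟨(wlL_bounds_aux hτ q v).1, ?_⟩
  rcases succ_div_mod M q with ⟨-, h2, -⟩ | ⟨-, h2, h3⟩
  · have h := (wlL_bounds_aux (M := M) (R := R) (cap := cap) hτ (q + 1) v).2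
    rwa [h2] at h
  · unfold wlL
    rw [if_pos h3, h2]

theorem wlL_mono (hτ : ∀ p, τ p ≤ τ (p + 1)) (hcap : ∀ v ∈ R, ∀ s, cap v s ≤ cap v (s + 1))
    (q : ℕ) (v : X) : wlL τ M R cap q v ≤ wlL τ M R cap (q + 1) v := by
  rcases succ_div_mod M q with ⟨h1, h2, h3⟩ | ⟨-, h2, h3⟩
  · by_cases h0 : q % (M + 3) = 0
    · have h4 := (wlL_bounds_aux (M := M) (R := R) (cap := cap) hτ (q + 1) v).1
      rw [h2] at h4
      refine le_trans (le_of_eq ?_) h4
      unfold wlL
      rw [if_pos h0]
    · have h6 : (q + 1) % (M + 3) ≠ 0 := by omega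
      by_cases hv : v ∈ R
      · have e1 : wlL τ M R cap q v = min (τ (q / (M + 3) + 1))
            (max (τ (q / (M + 3))) (cap v (q % (M + 3) - 1))) := by
          unfold wlL
          rw [if_neg h0, if_pos hv]
        have e2 : wlL τ M R cap (q + 1) v = min (τ (q / (M + 3) + 1))
            (max (τ (q / (M + 3))) (cap v (q % (M + 3)))) := by
          unfold wlL
          rw [if_neg h6, if_pos hv, h2, h3, Nat.add_sub_cancel]
        rw [e1, e2]
        refine min_le_min le_rfl (max_le_max le_rfl ?_)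
        have h5 := hcap v hv (q % (M + 3) - 1)
        rwa [show q % (M + 3) - 1 + 1 = q % (M + 3) by (clear * - h3 h0 h6; omega)] at h5
      · have e1 : wlL τ M R cap q v = τ (q / (M + 3) + 1) := by
          unfold wlL
          rw [if_neg h0, if_neg hv]
        have e2 : wlL τ M R cap (q + 1) v = τ (q / (M + 3) + 1) := by
          unfold wlL
          rw [if_neg h6, if_neg hv, h2]
        rw [e1, e2]
  · refine (wlL_bounds_aux hτ q v).2.trans (le_of_eq ?_)
    unfold wlL
    rw [if_pos h3, h2]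

theorem wlL_le_top {top : ℕ} (hτ : ∀ p, τ p ≤ top) (q : ℕ) (v : X) :
    wlL τ M R cap q v ≤ top := by
  unfold wlL
  split_ifs
  · exact hτ _
  · exact (min_le_left _ _).trans (hτ _)
  · exact hτ _

/-- Thresholds that differ by at most `e` give levels that differ by at most `e`. -/
theorem wlL_lip {e : ℕ} {q : ℕ} {v : X} (h : ∀ s ≤ M + 1, v ∈ R → cap' v s ≤ cap v s + e) :
    wlL τ M R cap' q v ≤ wlL τ M R cap q v + e := by
  unfold wlL
  split_ifs with h1 h2
  · (clear * -; omega)
  · have h3 := Nat.mod_lt q (show M + 3 > 0 by omega)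
    have h4 := h (q % (M + 3) - 1) (by omega) h2
    omega
  · omega

/-- Monotonicity of the levels in the thresholds. -/
theorem wlL_cap_mono {q : ℕ} {v : X} (h : ∀ s ≤ M + 1, v ∈ R → cap v s ≤ cap' v s) :
    wlL τ M R cap q v ≤ wlL τ M R cap' q v :=
  wlL_lip (cap := cap') (cap' := cap) (e := 0) h

/-- Sensitivity of the levels with the thresholds `capL` with respect to the price. -/
theorem wlL_capL_price {t b f n' : ℕ} {N A : X → ℕ} (hb : 0 < b) (hM : 0 < M)
    (hN : ∀ v ∈ R, 0 < N v) (hA : ∀ v ∈ R, A v ≤ b * n') (q : ℕ) (v : X) :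
    wlL τ M R (fun v => capL M t f (N v) (A v) b) q v
      ≤ wlL τ M R (fun v => capL M t (f + 1) (N v) (A v) b) q v ∧
    wlL τ M R (fun v => capL M t (f + 1) (N v) (A v) b) q v
      ≤ wlL τ M R (fun v => capL M t f (N v) (A v) b) q v + (1 + (M + 1) * n') := by
  constructor
  · exact wlL_cap_mono fun s _ _ => capL_price_mono M t f (N v) (A v) b s
  · refine wlL_lip fun s hs hv => ?_
    refine (capL_price_step M t f (N v) (A v) b hb (hN v hv) hM (hA v hv) s).trans ?_
    have : s * n' ≤ (M + 1) * n' := Nat.mul_le_mul_right _ hs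
    omega

end WL

end Vale.Agent.P334.Alg
end

section
attribute [-instance] ProperSMul.toContinuousSMul IsTopologicalTorsor.toContinuousSMul IdemSemiring.toCanonicallyOrderedAdd IdemSemiring.toMulLeftMono IdemSemiring.toMulRightMono AddQuantale.instAddLeftMono AddQuantale.instAddRightMono Quantale.instMulLeftMono Quantale.instMulRightMono FiniteDimensional.rclike_to_real IsScalarTower.complexToReal FiniteDimensional.complexToReal

/-!
Constants of the pseudo-approximation algorithm, and the choice of the parameter `w`.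
-/

namespace Vale.Agent.P334.Alg

/-- Existence of `C`. -/
theorem exists_C {q K : ℝ} (hq : 1 < q) (hK : 0 < K) : ∃ C : ℕ, 1 ≤ C ∧ ∀ n : ℕ, 1 ≤ n →
    K * n ≤ q ^ (C * Nat.size n - 1) := by
  obtain ⟨N, hN⟩ := pow_unbounded_of_one_lt (2 * K + 2) hq
  refine ⟨N + 1, by omega, fun n hn => ?_⟩
  have hs : 0 < Nat.size n := Nat.size_pos.2 hn
  obtain ⟨s, hs'⟩ : ∃ s, Nat.size n = s + 1 := ⟨Nat.size n - 1, by omega⟩
  have h1 : n < 2 ^ (s + 1) := by
    have := Nat.lt_size_self n
    rwa [hs'] at this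
  have h1' : (n : ℝ) ≤ 2 ^ (s + 1) := by exact_mod_cast h1.le
  rw [hs']
  have h2 : (N + 1) * (s + 1) - 1 = N + (N + 1) * s := by
    have : (N + 1) * (s + 1) = (N + 1) * s + N + 1 := by ring
    omega
  rw [h2, pow_add, pow_mul]
  have h3 : (2 : ℝ) ≤ q ^ (N + 1) := by
    have : q ^ N ≤ q ^ (N + 1) := pow_le_pow_right₀ hq.le (by omega)
    linarith only [hK, hN, this]
  have h4 : (2 : ℝ) ^ s ≤ (q ^ (N + 1)) ^ s := pow_le_pow_left₀ (by norm_num) h3 s
  calc K * n ≤ K * 2 ^ (s + 1) := mul_le_mul_of_nonneg_left h1' hK.le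
    _ = (2 * K) * 2 ^ s := by ring
    _ ≤ q ^ N * 2 ^ s := mul_le_mul_of_nonneg_right (by linarith only [hN]) (by positivity)
    _ ≤ q ^ N * (q ^ (N + 1)) ^ s := mul_le_mul_of_nonneg_left h4 (by positivity)

/-- Existence of the constants. -/
theorem consts_exist : ∃ (e M C : ℕ) (κ0 κ ε T1 T2 : ℝ), κ0 = 1 / 10 ^ 6 ∧ T2 = 10 ^ 10 / κ0 ∧
    κ = κ0 / (8 * (2048 * (T2 + 2))) ∧ T1 = 10 ^ 6 / κ ∧ ε = κ / 10 ^ 10 ∧ ε = 1 / e ∧ 1 ≤ e ∧
    1 ≤ M ∧ 1 ≤ ε * M ∧ 1 ≤ C ∧
    ∀ n : ℕ, 1 ≤ n → 200 * n / κ ≤ (1 + 1 / (e : ℝ)) ^ (C * Nat.size n - 1) := by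
  have he0 : (0 : ℝ) < ((10 ^ 16 * 16384 * (10 ^ 16 + 2) : ℕ) : ℝ) := by (clear * -; positivity)
  obtain ⟨C, hC1, hC⟩ := exists_C (q := 1 + 1 / ((10 ^ 16 * 16384 * (10 ^ 16 + 2) : ℕ) : ℝ))
    (K := 200 / ((1 / 10 ^ 6 : ℝ) / (8 * (2048 * ((10 ^ 10 / (1 / 10 ^ 6)) + 2)))))
    (by have : 0 < 1 / ((10 ^ 16 * 16384 * (10 ^ 16 + 2) : ℕ) : ℝ) := by positivity
        linarith only []) (by (clear * -; positivity))
  refine ⟨10 ^ 16 * 16384 * (10 ^ 16 + 2), 10 ^ 16 * 16384 * (10 ^ 16 + 2), C, 1 / 10 ^ 6,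
    (1 / 10 ^ 6 : ℝ) / (8 * (2048 * ((10 ^ 10 / (1 / 10 ^ 6)) + 2))),
    (1 / 10 ^ 6 : ℝ) / (8 * (2048 * ((10 ^ 10 / (1 / 10 ^ 6)) + 2))) / 10 ^ 10,
    10 ^ 6 / ((1 / 10 ^ 6 : ℝ) / (8 * (2048 * ((10 ^ 10 / (1 / 10 ^ 6)) + 2)))),
    10 ^ 10 / (1 / 10 ^ 6), rfl, rfl, rfl, rfl, rfl, ?_, ?_, ?_, ?_, hC1, ?_⟩
  · push_cast
    norm_num
  · norm_num
  · norm_num
  · push_cast
    norm_num
  · intro n hn
    have := hC n hn
    have e : 200 / ((1 / 10 ^ 6 : ℝ) / (8 * (2048 * ((10 ^ 10 / (1 / 10 ^ 6)) + 2)))) * n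
        = 200 * n / ((1 / 10 ^ 6 : ℝ) / (8 * (2048 * ((10 ^ 10 / (1 / 10 ^ 6)) + 2)))) := by
      ring
    rw [e] at this
    exact this

/-- The polynomial in the definition of `usP`. -/
theorem usP_cast (e M C n φ : ℕ) : (usP e M C n φ : ℝ) = 1000 * e *
    (n * ((dlP M n : ℝ) + 4) + (2 * (dlP M n : ℝ) + 1) * (φ + 3 * ((M + 3) * (mS C n : ℝ)) + 2)
      + φ * (2 * (dlP M n : ℝ) + 1) * ((M + 3) * (mS C n : ℝ)) + 1000) := by
  unfold usP
  push_cast
  rfl

/-- The scale `κ * L`. -/
theorem scale_le {e κ ε L P : ℝ} (he0 : 0 < e) (hκpos : 0 < κ) (hε : ε = κ / 10 ^ 10)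
    (hεe : ε = 1 / e) (hus : 1000 * e * P ≤ L) : 10 ^ 13 * P ≤ κ * L := by
  have heκ : e * κ = 10 ^ 10 := by
    have h1 : κ / 10 ^ 10 = 1 / e := by rw [← hε, hεe]
    field_simp at h1
    linarith only [h1]
  have h1 := mul_le_mul_of_nonneg_left hus hκpos.le
  have h2 : κ * (1000 * e * P) = 10 ^ 13 * P := by
    have : κ * (1000 * e * P) = 1000 * (e * κ) * P := by ring
    rw [this, heκ]; ring
  linarith only [h1, h2]

/-- First budget. -/
theorem budget1 {n φ k M dl ms Y w t : ℝ} (hn : 1 ≤ n) (hφ : 1 ≤ φ) (hk : k ≤ φ) (hM : 1 ≤ M)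
    (hdl : 0 ≤ dl) (hms : 0 ≤ ms)
    (hP : 10 ^ 13 * (n * (dl + 4) + (2 * dl + 1) * (φ + 3 * ((M + 3) * ms) + 2)
      + φ * (2 * dl + 1) * ((M + 3) * ms) + 1000) ≤ Y)
    (hw : w ≤ 9 / 10 * Y) (ht : t * n ≤ w / 16) :
    (t + 1) * n + φ * (2 * dl + 1) * ((M + 3) * ms)
        + (2 * dl + 1) * (k + 3 * ((M + 3) * ms)) ≤ Y / 16 := by
  have h1 : (2 * dl + 1) * (k + 3 * ((M + 3) * ms))
      ≤ (2 * dl + 1) * (φ + 3 * ((M + 3) * ms) + 2) :=
    mul_le_mul_of_nonneg_left (by linarith only [hk]) (by (clear * - hdl; positivity))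
  have hA0 : 0 ≤ φ * (2 * dl + 1) * ((M + 3) * ms) := by positivity
  have hB0 : 0 ≤ (2 * dl + 1) * (φ + 3 * ((M + 3) * ms) + 2) := by positivity
  have hN0 : n ≤ n * (dl + 4) := le_mul_of_one_le_right (by linarith only [hn])
    (by linarith only [hdl])
  have h3 : (t + 1) * n = t * n + n := by ring
  rw [h3]
  linarith only [h1, hA0, hB0, hN0, hP, hw, ht, hn]

/-- Second budget. -/
theorem budget2 {n φ k M dl ms Y w t : ℝ} (hn : 1 ≤ n) (hφ : 1 ≤ φ) (hk : k ≤ φ) (hM : 1 ≤ M)
    (hdl : 0 ≤ dl) (hms : 0 ≤ ms)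
    (hP : 10 ^ 13 * (n * (dl + 4) + (2 * dl + 1) * (φ + 3 * ((M + 3) * ms) + 2)
      + φ * (2 * dl + 1) * ((M + 3) * ms) + 1000) ≤ Y)
    (hw : w ≤ 9 / 10 * Y) (ht : t * n ≤ w / 16) :
    t * n + φ * ms + (k + 3 * ms + 2) ≤ Y / 16 := by
  have h2 : ms ≤ (M + 3) * ms := le_mul_of_one_le_left hms (by linarith only [hM])
  have hX0 : 0 ≤ φ + 3 * ((M + 3) * ms) + 2 := by (clear * - hφ hM hms; positivity)
  have h1 : k + 3 * ms + 2 ≤ (2 * dl + 1) * (φ + 3 * ((M + 3) * ms) + 2) := by
    have h3 : φ + 3 * ((M + 3) * ms) + 2 ≤ (2 * dl + 1) * (φ + 3 * ((M + 3) * ms) + 2) :=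
      le_mul_of_one_le_left hX0 (by linarith only [hdl])
    linarith only [h2, h3, hk]
  have h4 : φ * ms ≤ φ * (2 * dl + 1) * ((M + 3) * ms) := by
    have h5 : ms ≤ (2 * dl + 1) * ((M + 3) * ms) :=
      h2.trans (le_mul_of_one_le_left (by positivity) (by linarith only [hdl]))
    have h6 := mul_le_mul_of_nonneg_left h5 (by linarith only [hφ] : (0 : ℝ) ≤ φ)
    have h7 : φ * ((2 * dl + 1) * ((M + 3) * ms)) = φ * (2 * dl + 1) * ((M + 3) * ms) := by ring
    linarith only [h6, h7]
  have hN0 : n ≤ n * (dl + 4) := le_mul_of_one_le_right (by linarith only [hn])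
    (by linarith only [hdl])
  have hA0 : 0 ≤ φ * ms := by positivity
  have hB0 : 0 ≤ φ + 3 * ((M + 3) * ms) + 2 := hX0
  have hC0 : 0 ≤ (2 * dl + 1) * (φ + 3 * ((M + 3) * ms) + 2) := by positivity
  linarith only [h1, h4, hN0, hP, hw, ht, hn, hA0, hC0]

/-- The last level is large. -/
theorem top_large {n κ L t w : ℝ} (hκpos : 0 < κ) (hn : 1 ≤ n) (hY : 10 ^ 13 * n ≤ κ * L)
    (hw : 6 / 10 * (κ * L) ≤ w) (ht : w / 16 < (t + 1) * n) :
    3 * L < (t - 1) * (200 * n / κ) := by
  have h2 : (t - 1) * (200 * n / κ) = 200 * ((t + 1) * n - 2 * n) / κ := by ring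
  rw [h2, lt_div_iff₀ hκpos]
  have h3 : 3 * L * κ = 3 * (κ * L) := by ring
  rw [h3]
  linarith only [hY, hw, ht, hn]

/-- The quotient `t = w / (16 n)`. -/
theorem quot_bounds {w n : ℕ} (hn : 1 ≤ n) : ((w / (16 * n) : ℕ) : ℝ) * n ≤ (w : ℝ) / 16 ∧
    (w : ℝ) / 16 < (((w / (16 * n) : ℕ) : ℝ) + 1) * n := by
  have hn0 : (0 : ℝ) < n := by exact_mod_cast hn
  have ht1 : ((w / (16 * n) : ℕ) : ℝ) ≤ (w : ℝ) / (16 * n) := by
    have := floor_le w (16 * n)
    push_cast at this
    exact this
  have ht2 : (w : ℝ) / (16 * n) < ((w / (16 * n) : ℕ) : ℝ) + 1 := by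
    have := lt_floor w (show 0 < 16 * n by omega)
    push_cast at this
    exact this
  have h2 : (w : ℝ) / (16 * n) * n = w / 16 := by field_simp
  constructor
  · have h1 := mul_le_mul_of_nonneg_right ht1 hn0.le
    rwa [h2] at h1
  · have h1 := mul_lt_mul_of_pos_right ht2 hn0
    rwa [h2] at h1

/-- The choice of the parameter `w`. -/
theorem arith_w {e M C : ℕ} {κ0 κ ε T2 : ℝ} (hκ0 : κ0 = 1 / 10 ^ 6) (hT2 : T2 = 10 ^ 10 / κ0)
    (hκ : κ = κ0 / (8 * (2048 * (T2 + 2)))) (hε : ε = κ / 10 ^ 10) (hεe : ε = 1 / e)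
    (he : 1 ≤ e) (hM : 1 ≤ M) (hC1 : 1 ≤ C)
    (hC : ∀ n : ℕ, 1 ≤ n → 200 * n / κ ≤ (1 + 1 / (e : ℝ)) ^ (C * Nat.size n - 1))
    {n φ k D : ℕ} {L : ℝ} (hn : 1 ≤ n) (hφ : 1 ≤ φ) (hk : k ≤ φ)
    (hus : (usP e M C n φ : ℝ) ≤ L) (hL : L ≤ n * D) :
    ∃ w ∈ List.range (n * (D + 1) + 1), 1000 ≤ w ∧ (w : ℝ) + 1 ≤ κ * L ∧
      κ / 2 * L ≤ 49 / 50 * w ∧ dlP M n + 2 ≤ w / (16 * n) ∧
      (((w / (16 * n) : ℕ) : ℝ) + 1) * n + φ * (2 * dlP M n + 1) * ((M + 3) * mS C n)
        + (2 * dlP M n + 1) * (k + 3 * ((M + 3) * mS C n)) ≤ κ / 16 * L ∧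
      ((w / (16 * n) : ℕ) : ℝ) * n + φ * mS C n + (k + 3 * mS C n + 2) ≤ κ / 16 * L ∧
      (3 * L < tauL (D + 1) (w / (16 * n)) e (mS C n) ∨
        tauL (D + 1) (w / (16 * n)) e (mS C n) = D + 1) := by
  have hκpos : 0 < κ := by
    rw [hκ, hT2, hκ0]; positivity
  have hκ1 : κ ≤ 1 := by
    rw [hκ, hT2, hκ0]; (clear * -; norm_num)
  have he0 : (0 : ℝ) < e := by exact_mod_cast he
  have hn' : (1 : ℝ) ≤ n := by exact_mod_cast hn
  have hφ' : (1 : ℝ) ≤ φ := by exact_mod_cast hφ
  have hk' : (k : ℝ) ≤ φ := by exact_mod_cast hk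
  have hM' : (1 : ℝ) ≤ M := by exact_mod_cast hM
  have hdl0 : (0 : ℝ) ≤ (dlP M n : ℝ) := Nat.cast_nonneg _
  have hms0 : (0 : ℝ) ≤ (mS C n : ℝ) := Nat.cast_nonneg _
  rw [usP_cast] at hus
  have hY := scale_le he0 hκpos hε hεe hus
  have hA0 : 0 ≤ (φ : ℝ) * (2 * (dlP M n : ℝ) + 1) * ((M + 3) * (mS C n : ℝ)) := by (clear * - hφ hM; positivity)
  have hB0 : 0 ≤ (2 * (dlP M n : ℝ) + 1) * (φ + 3 * ((M + 3) * (mS C n : ℝ)) + 2) := by
    (clear * - hφ hM; positivity)
  have hnP : (n : ℝ) ≤ n * ((dlP M n : ℝ) + 4) :=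
    le_mul_of_one_le_right (by linarith only []) (by linarith only [hdl0])
  have hY1 : 10 ^ 13 * ((n : ℝ) * ((dlP M n : ℝ) + 4)) + 10 ^ 16 ≤ κ * L := by
    linarith only [hY, hA0, hB0]
  have hY2 : 10 ^ 16 ≤ κ * L := by linarith only [hY1, hnP]
  have hY3 : 10 ^ 13 * (n : ℝ) ≤ κ * L := by linarith only [hY1, hnP, hn']
  have hLpos : 0 < L := by
    by_contra h
    push Not at h
    have : κ * L ≤ 0 := mul_nonpos_of_nonneg_of_nonpos hκpos.le h
    linarith only [this, hY2]
  have hκL : κ * L ≤ L := mul_le_of_le_one_left hLpos.le hκ1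
  have hw0 : 0 ≤ 9 / 10 * (κ * L) := by linarith only [hY2]
  have hwle := Nat.floor_le hw0
  have hwlt := Nat.lt_floor_add_one (9 / 10 * (κ * L))
  generalize ⌊9 / 10 * (κ * L)⌋₊ = w at hwle hwlt
  have hwge : 6 / 10 * (κ * L) ≤ w := by linarith only [hwlt, hY2]
  obtain ⟨ht3, ht4⟩ := quot_bounds (w := w) hn
  have h16 : κ / 16 * L = κ * L / 16 := by ring
  have hdt : dlP M n + 2 ≤ w / (16 * n) := by
    have h1 : (dlP M n + 2) * (16 * n) ≤ w := by
      have h2 : (((dlP M n : ℝ) + 2) * (16 * n)) ≤ w := by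
        have h3 : ((dlP M n : ℝ) + 2) * (16 * n) ≤ 16 * ((n : ℝ) * ((dlP M n : ℝ) + 4)) := by
          have h4 : ((dlP M n : ℝ) + 2) * (16 * n) = 16 * ((n : ℝ) * ((dlP M n : ℝ) + 4)) - 32 * n := by
            ring
          linarith only []
        have h5 : 0 ≤ (n : ℝ) * ((dlP M n : ℝ) + 4) := by (clear * - hn; positivity)
        linarith only [hY1, hwge]
      exact_mod_cast h2
    exact (Nat.le_div_iff_mul_le (by omega)).2 h1
  refine ⟨w, ?_, ?_, ?_, ?_, hdt, ?_, ?_, ?_⟩
  · rw [List.mem_range]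
    have h1 : (w : ℝ) < (n * (D + 1) + 1 : ℕ) := by
      push_cast
      have h2 : (w : ℝ) ≤ L := by linarith only [hwle, hκL]
      have h3 : (n : ℝ) * ((D : ℝ) + 1) = n * D + n := by ring
      linarith only [h2, hL]
    exact_mod_cast h1
  · have : (1000 : ℝ) ≤ w := by linarith only [hwge, hY2]
    exact_mod_cast this
  · linarith only [hwle, hY2]
  · have : κ / 2 * L = κ * L / 2 := by ring
    rw [this]
    linarith only [hwge]
  · rw [h16]
    exact budget1 hn' hφ' hk' hM' hdl0 hms0 hY hwle ht3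
  · rw [h16]
    exact budget2 hn' hφ' hk' hM' hdl0 hms0 hY hwle ht3
  · have hs : 0 < Nat.size n := Nat.size_pos.2 hn
    have hp : 1 ≤ mS C n := by
      unfold mS
      exact Nat.mul_pos hC1 hs
    have ht5 : 1 ≤ w / (16 * n) := by omega
    rcases tauL_geom' (D + 1) (w / (16 * n)) e ht5 he hp with h | h
    · right; exact h
    · left
      refine lt_of_lt_of_le ?_ h
      refine lt_of_lt_of_le (top_large hκpos hn' hY3 hwge ht4) ?_
      refine mul_le_mul_of_nonneg_left ?_ ?_
      · unfold mS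
        exact hC n hn
      · have : (1 : ℝ) ≤ ((w / (16 * n) : ℕ) : ℝ) := by exact_mod_cast ht5
        linarith only [this]

end Vale.Agent.P334.Alg
end

section
attribute [-instance] ProperSMul.toContinuousSMul IsTopologicalTorsor.toContinuousSMul IdemSemiring.toCanonicallyOrderedAdd IdemSemiring.toMulLeftMono IdemSemiring.toMulRightMono AddQuantale.instAddLeftMono AddQuantale.instAddRightMono Quantale.instMulLeftMono Quantale.instMulRightMono FiniteDimensional.rclike_to_real IsScalarTower.complexToReal FiniteDimensional.complexToReal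

set_option linter.all false

/-!
[LP-4]: gain and loss of the fractional solution found by the local search.
-/

namespace Vale.Agent.P334.Alg

/-! ### lists of numbers -/

lemma lsum_range (f : ℕ → ℕ) (n : ℕ) :
    ((List.range n).map f).sum = ∑ r ∈ Finset.range n, f r := by
  induction n with
  | zero => simp
  | succ n ih =>
    rw [List.range_succ, List.map_append, List.sum_append, ih, Finset.sum_range_succ]
    simp

lemma down_le {P : ℕ → Bool} (hP : ∀ r, P (r + 1) = true → P r = true) :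
    ∀ n r, r ≤ n → P n = true → P r = true := by
  intro n
  induction n with
  | zero => intro r hr h; rw [Nat.le_zero.1 hr]; exact h
  | succ n ih =>
    intro r hr h
    rcases Nat.lt_or_ge r (n + 1) with h1 | h1
    · exact ih r (by omega) (hP n h)
    · have : r = n + 1 := by omega
      rw [this]; exact h

lemma countP_range_iff {P : ℕ → Bool} (hP : ∀ r, P (r + 1) = true → P r = true) :
    ∀ n r, r < n → (P r = true ↔ r < (List.range n).countP P) := by
  intro n
  induction n with
  | zero => intro r hr; omega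
  | succ n ih =>
    intro r hr
    rw [List.range_succ, List.countP_append]
    have hle : (List.range n).countP P ≤ n := by
      have := List.countP_le_length (p := P) (l := List.range n)
      simpa only [ge_iff_le, List.length_range] using this
    by_cases hn : P n = true
    · have hall : (List.range n).countP P = n := by
        have h1 : (List.range n).countP P = (List.range n).length := by
          rw [List.countP_eq_length]
          intro a ha
          exact down_le hP n a (List.mem_range.1 ha).le hn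
        simpa using h1
      have h2 : [n].countP P = 1 := by simp [hn]
      rw [hall, h2]
      exact ⟨fun _ => hr, fun _ => down_le hP n r (by omega) hn⟩
    · have h2 : [n].countP P = 0 := by simp [hn]
      rw [h2, Nat.add_zero]
      rcases Nat.lt_or_ge r n with h3 | h3
      · exact ih r h3
      · have h4 : r = n := by (clear * - hr h3; omega)
        subst h4
        constructor
        · intro h5; exact absurd h5 hn
        · intro h5; omega

section

variable {X : Type} [DecidableEq X] {d : X → X → ℕ} {U : List X}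

omit [DecidableEq X] in
lemma ballN_mono (d : X → X → ℕ) (U : List X) (p : X) {r r' : ℕ} (h : r ≤ r') :
    ballN d U p r ≤ ballN d U p r' := by
  unfold ballN
  refine List.countP_mono_left fun u _ hu => ?_
  simp only [decide_eq_true_eq] at hu ⊢
  exact hu.trans h

omit [DecidableEq X] in
lemma ballN_all {D : ℕ} (hD : ∀ a b, d a b ≤ D) (p : X) {r : ℕ} (hr : D ≤ r) :
    ballN d U p r = U.length := by
  unfold ballN
  rw [List.countP_eq_length]
  intro u _
  simp only [decide_eq_true_eq]
  exact (hD u p).trans hr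

omit [DecidableEq X] in
/-- The radius of the ball of mass one. -/
lemma lt_radN (d : X → X → ℕ) (D1 N : ℕ) (U : List X) (p : X) {r : ℕ} (hr : r < D1) :
    ballN d U p r ≤ N ↔ r < radN d D1 N U p := by
  have h := countP_range_iff (P := fun r => decide (ballN d U p r ≤ N)) (by
    intro r h
    simp only [decide_eq_true_eq] at h ⊢
    exact (ballN_mono d U p (Nat.le_succ r)).trans h) D1 r hr
  simp only [decide_eq_true_eq] at h
  exact h

/-- The sum of the marginal losses is a sum of radii. -/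
lemma lmM_le (d : X → X → ℕ) (D1 N m : ℕ) (J U : List X) (i : X) :
    lmM d D1 N m J U i ≤ (J.map (fun j => m * (radN d D1 N U j - d i j))).sum := by
  unfold lmM
  refine List.sum_le_sum fun j _ => ?_
  rw [lsum_range]
  have h1 : ∀ r ∈ Finset.range D1, (if d i j ≤ r then min (N + 1 - ballN d U j r) m else 0) ≤
      if r ∈ Finset.Ico (d i j) (radN d D1 N U j) then m else 0 := by
    intro r hr
    have hr' := Finset.mem_range.1 hr
    by_cases hb : ballN d U j r ≤ N
    · have h2 := (lt_radN d D1 N U j hr').1 hb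
      by_cases hdr : d i j ≤ r
      · rw [if_pos hdr, if_pos (Finset.mem_Ico.2 ⟨hdr, h2⟩)]
        exact min_le_right _ _
      · rw [if_neg hdr]; exact Nat.zero_le _
    · have h3 : N + 1 - ballN d U j r = 0 := by omega
      rw [h3]
      simp only [zero_le, inf_of_le_left, ite_self, Finset.mem_Ico]
  refine (Finset.sum_le_sum h1).trans ?_
  calc ∑ r ∈ Finset.range D1, (if r ∈ Finset.Ico (d i j) (radN d D1 N U j) then m else 0)
      ≤ ∑ r ∈ Finset.Ico (d i j) (radN d D1 N U j), m := by
        rw [← Finset.sum_filter]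
        refine Finset.sum_le_sum_of_subset_of_nonneg ?_ fun _ _ _ => Nat.zero_le _
        intro r hr
        exact (Finset.mem_filter.1 hr).2
    _ = m * (radN d D1 N U j - d i j) := by
        rw [Finset.sum_const, Nat.card_Ico, smul_eq_mul, mul_comm]

/-- The marginal losses never reach the cap. -/
lemma lmM_le_cap (d : X → X → ℕ) (D1 N m : ℕ) (J U : List X) (i : X) :
    lmM d D1 N m J U i ≤ J.length * D1 * m := by
  unfold lmM
  have h1 : ∀ j ∈ J, ((List.range D1).map (fun r =>
      if d i j ≤ r then min (N + 1 - ballN d U j r) m else 0)).sum ≤ D1 * m := by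
    intro j _
    rw [lsum_range]
    calc ∑ r ∈ Finset.range D1, (if d i j ≤ r then min (N + 1 - ballN d U j r) m else 0)
        ≤ ∑ _r ∈ Finset.range D1, m := by
          refine Finset.sum_le_sum fun r _ => ?_
          split_ifs
          · exact min_le_right _ _
          · exact Nat.zero_le _
      _ = D1 * m := by simp
  calc (J.map (fun j => ((List.range D1).map (fun r =>
      if d i j ≤ r then min (N + 1 - ballN d U j r) m else 0)).sum)).sum
      ≤ (J.map (fun _ => D1 * m)).sum := List.sum_le_sum h1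
    _ = J.length * D1 * m := by simp [mul_assoc]

end

section real

variable {X : Type} [MetricSpace X] [DecidableEq X] {d : X → X → ℕ} {D D1 N m : ℕ}
  {J F U : List X}

/-- Mass of a set of facilities. -/
lemma mass_eq (hU : ∀ u ∈ U, u ∈ F) (P : X → Prop) [DecidablePred P] :
    ∑ b ∈ F.toFinset with P b, ((U.count b : ℝ) / N) =
      (U.countP (fun u => decide (P u)) : ℝ) / N := by
  rw [Finset.sum_filter]
  have h1 := sum_count_mul F.toFinset (fun b => if P b then (1 : ℝ) / N else 0) U
    (fun u hu => List.mem_toFinset.2 (hU u hu))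
  have h2 : ∀ b ∈ F.toFinset, (if P b then ((U.count b : ℝ) / N) else 0) =
      (U.count b : ℝ) * (if P b then (1 : ℝ) / N else 0) := by
    intro b _
    split_ifs <;> ring
  rw [Finset.sum_congr rfl h2, h1]
  clear h1 h2
  induction U with
  | nil => simp
  | cons a L ih =>
    rw [List.map_cons, List.sum_cons, ih (fun u hu => hU u (List.mem_cons_of_mem a hu)),
      List.countP_cons]
    by_cases ha : P a
    · simp only [ha, if_true, decide_true]
      push_cast
      ring
    · simp only [ha, if_false, decide_false]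
      simp only [zero_add, Bool.false_eq_true, ↓reduceIte, add_zero]

/-- Gain of every unit. -/
theorem lp_gain {k w G : ℕ} (hd : ∀ a b, dist a b = (d a b : ℝ)) (hJ : J.Nodup) (hm : 0 < m)
    (h : LocOpt d D1 N k w G m J F U) {i : X} (hi : i ∈ F) (hU : i ∈ U) :
    (gfm k w N G m (U.length - 1) : ℝ) / m ≤
      ∑ j ∈ J.toFinset, max ((radN d D1 N U j : ℝ) - dist i j) 0 := by
  have hm' : (0 : ℝ) < m := by exact_mod_cast hm
  have h1 := (lm_del h hi hU).trans (lmM_le d D1 N m J U i)
  have h2 : (gfm k w N G m (U.length - 1) : ℝ) ≤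
      (((J.map (fun j => m * (radN d D1 N U j - d i j))).sum : ℕ) : ℝ) := by exact_mod_cast h1
  rw [div_le_iff₀ hm', List.sum_toFinset _ hJ]
  refine h2.trans (le_of_eq ?_)
  rw [cast_sum_map, ← List.sum_map_mul_right]
  congr 1
  refine List.map_congr_left fun j _ => ?_
  push_cast
  rw [hd]
  rcases le_total (d i j) (radN d D1 N U j) with h3 | h3
  · rw [Nat.cast_sub h3, max_eq_left (by
      have : (d i j : ℝ) ≤ radN d D1 N U j := by exact_mod_cast h3
      linarith only [this])]
    ring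
  · rw [Nat.sub_eq_zero_of_le h3, max_eq_right (by
      have : (radN d D1 N U j : ℝ) ≤ d i j := by exact_mod_cast h3
      linarith only [this])]
    simp

/-- The loss caused by one more unit. -/
theorem lp_loss {k w G : ℕ} (hd : ∀ a b, dist a b = (d a b : ℝ)) (hD : ∀ a b, d a b ≤ D)
    (hD1 : D < D1) (hJ : J.Nodup) (hF : F.Nodup) (hm : 0 < m) (hN : 8 * F.length * m ≤ N)
    (hU : ∀ u ∈ U, u ∈ F) (hNU : N < U.length) (hcap : ∀ i, U.count i ≤ N)
    (h : LocOpt d D1 N k w G m J F U) {i : X} (hi : i ∈ F) (q : X → ℝ)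
    (hq : ∀ j ∈ J.toFinset, ∑ b ∈ F.toFinset with dist b j < q j, ((U.count b : ℝ) / N) ≤
      1 - 1 / (8 * (F.toFinset.card : ℝ))) :
    ∑ j ∈ J.toFinset, max (q j - dist i j) 0 ≤ (gfm k w N G m U.length : ℝ) / m := by
  classical
  have hm' : (0 : ℝ) < m := by exact_mod_cast hm
  have hφ : 0 < F.length := List.length_pos_of_mem hi
  have hφ' : (0 : ℝ) < F.length := by exact_mod_cast hφ
  have hN0 : 0 < N := lt_of_lt_of_le (by (clear * - hφ hm; positivity)) hN
  have hN' : (0 : ℝ) < N := by exact_mod_cast hN0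
  have hcard : F.toFinset.card = F.length := List.toFinset_card_of_nodup hF
  -- the balls below the thresholds are light
  have hlight : ∀ j ∈ J, ∀ r : ℕ, (r : ℝ) < q j → ballN d U j r + m ≤ N := by
    intro j hj r hr
    have h1 := hq j (List.mem_toFinset.2 hj)
    rw [mass_eq hU (fun b => dist b j < q j), hcard] at h1
    have h2 : ballN d U j r ≤ U.countP (fun u => decide (dist u j < q j)) := by
      unfold ballN
      refine List.countP_mono_left fun u _ hu => ?_
      simp only [decide_eq_true_eq] at hu ⊢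
      rw [hd]
      have : (d u j : ℝ) ≤ r := by exact_mod_cast hu
      linarith only [hr, this]
    have h3 : (ballN d U j r : ℝ) ≤ (U.countP (fun u => decide (dist u j < q j)) : ℝ) := by
      exact_mod_cast h2
    rw [div_le_iff₀ hN'] at h1
    have h4 : (8 * F.length * m : ℝ) ≤ N := by exact_mod_cast hN
    have h5 : (m : ℝ) ≤ 1 / (8 * (F.length : ℝ)) * N := by
      rw [div_mul_eq_mul_div, one_mul, le_div_iff₀ (by (clear * - hφ; positivity))]
      linarith only [h4]
    have h6 : (ballN d U j r : ℝ) + m ≤ N := by nlinarith only [h1, h3, h5]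
    exact_mod_cast h6
  by_cases hci : U.count i < N
  · have h1 := lm_add h hi hci
    have h2 : (lmP d D1 N m J U i : ℝ) ≤ (gfm k w N G m U.length : ℝ) := by exact_mod_cast h1
    rw [le_div_iff₀ hm']
    refine le_trans ?_ h2
    unfold lmP
    rw [cast_sum_map, List.sum_toFinset _ hJ, ← List.sum_map_mul_right]
    refine List.sum_le_sum fun j hj => ?_
    rw [lsum_range]
    rcases le_or_gt (q j) (d i j : ℝ) with h3 | h3
    · rw [hd, max_eq_right (by linarith only [h3])]
      simp only [zero_mul, Nat.cast_sum, Nat.cast_ite, Nat.cast_min, CharP.cast_eq_zero]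
      (clear * - hm; positivity)
    · set t := ⌈q j⌉₊ with ht
      have hq0 : 0 < q j := lt_of_le_of_lt (Nat.cast_nonneg _) h3
      have ht1 : d i j < t := Nat.lt_ceil.2 h3
      have htq : q j ≤ t := Nat.le_ceil _
      have hr : ∀ r : ℕ, r < t → (r : ℝ) < q j := fun r hr => Nat.lt_ceil.1 hr
      have htD : t ≤ D1 := by
        by_contra hcon
        push Not at hcon
        have h5 := hlight j hj D (hr D (by omega))
        rw [ballN_all hD j le_rfl] at h5
        omega
      have h6 : m * (t - d i j) ≤ ∑ r ∈ Finset.range D1,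
          (if d i j ≤ r then min (N - ballN d U j r) m else 0) := by
        calc m * (t - d i j) = ∑ _r ∈ Finset.Ico (d i j) t, m := by
              rw [Finset.sum_const, Nat.card_Ico, smul_eq_mul, mul_comm]
          _ ≤ ∑ r ∈ Finset.Ico (d i j) t,
              (if d i j ≤ r then min (N - ballN d U j r) m else 0) := by
              refine Finset.sum_le_sum fun r hr' => ?_
              have h7 := Finset.mem_Ico.1 hr'
              rw [if_pos h7.1]
              have h8 := hlight j hj r (hr r h7.2)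
              rw [min_eq_right (by omega)]
          _ ≤ _ := by
              refine Finset.sum_le_sum_of_subset_of_nonneg ?_ fun _ _ _ => Nat.zero_le _
              intro r hr'
              exact Finset.mem_range.2 ((Finset.mem_Ico.1 hr').2.trans_le htD)
      have h9 : ((m * (t - d i j) : ℕ) : ℝ) ≤ ((∑ r ∈ Finset.range D1,
          (if d i j ≤ r then min (N - ballN d U j r) m else 0) : ℕ) : ℝ) := by
        exact_mod_cast h6
      refine le_trans ?_ h9
      rw [Nat.cast_mul, Nat.cast_sub ht1.le, hd, max_eq_left (by linarith only [h3])]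
      nlinarith only [htq]
  · -- the facility is completely open
    have hci' : U.count i = N := le_antisymm (hcap i) (not_lt.1 hci)
    have h0 : ∀ j ∈ J.toFinset, max (q j - dist i j) 0 = 0 := by
      intro j hj
      refine max_eq_right ?_
      by_contra hcon
      push Not at hcon
      have h1 := hlight j (List.mem_toFinset.1 hj) (d i j) (by rw [← hd]; linarith only [hcon])
      have h2 : N ≤ ballN d U j (d i j) := by
        rw [← hci', List.count_eq_countP]
        unfold ballN
        refine List.countP_mono_left fun u _ hu => ?_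
        have : u = i := by simpa using hu
        rw [this]
        simp
      omega
    rw [Finset.sum_eq_zero h0]
    (clear * - hm; positivity)

end real

end Vale.Agent.P334.Alg
end

section

/-!
The potential of clients at positions, on lists (Part 3, LEV-b).
-/

namespace Vale.Agent.P334.Alg

/-! ### Truncated distances -/

section Mins

variable {X : Type}

theorem minsP_cons (d : X → X → ℕ) (l : ℕ) (v s : X) (S : List X) :
    mins d l v (s :: S) = min (d v s) (mins d l v S) := rfl

theorem minsP_le (d : X → X → ℕ) (l : ℕ) (v : X) (S : List X) : mins d l v S ≤ l := by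
  induction S with
  | nil => exact le_rfl
  | cons q Q ih => rw [minsP_cons]; exact (min_le_right _ _).trans ih

theorem minsP_le_of_mem (d : X → X → ℕ) (l : ℕ) (v : X) {S : List X} {s : X} (hs : s ∈ S) :
    mins d l v S ≤ d v s := by
  induction S with
  | nil => exact absurd hs List.not_mem_nil
  | cons q Q ih =>
    rw [minsP_cons]
    rcases List.mem_cons.1 hs with rfl | hs
    · exact min_le_left _ _
    · exact (min_le_right _ _).trans (ih hs)

theorem le_minsP (d : X → X → ℕ) (l : ℕ) (v : X) {S : List X} {m : ℕ} (h1 : m ≤ l)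
    (h2 : ∀ s ∈ S, m ≤ d v s) : m ≤ mins d l v S := by
  induction S with
  | nil => exact h1
  | cons q Q ih =>
    rw [minsP_cons]
    exact le_min (h2 q List.mem_cons_self) (ih fun s hs => h2 s (List.mem_cons_of_mem _ hs))

theorem minsP_anti (d : X → X → ℕ) (l : ℕ) (v : X) {S T : List X} (h : S ⊆ T) :
    mins d l v T ≤ mins d l v S :=
  le_minsP d l v (minsP_le d l v T) fun _ hs => minsP_le_of_mem d l v (h hs)

/-- Sensitivity in the truncation level. -/
theorem minsP_lev (d : X → X → ℕ) {l l' e : ℕ} (h : l ≤ l' + e) (v : X) (S : List X) :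
    mins d l v S ≤ mins d l' v S + e := by
  induction S with
  | nil => exact h
  | cons q Q ih =>
    rw [minsP_cons, minsP_cons]
    omega

theorem minsP_mono_lev (d : X → X → ℕ) {l l' : ℕ} (h : l ≤ l') (v : X) (S : List X) :
    mins d l v S ≤ mins d l' v S := minsP_lev d (e := 0) h v S

end Mins

/-! ### The potential -/

section Pot

variable {X : Type}

/-- The potential for clients at the positions `pos j` with the levels `lv`. -/
def phiP (d : X → X → ℕ) (J : List X) (pos : X → X) (lv : X → ℕ) (S : List X) : ℕ :=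
  (J.map (fun j => mins d (lv (pos j)) (pos j) S)).sum

variable (d : X → X → ℕ) (J : List X) (pos : X → X) (lv : X → ℕ)

theorem phiP_ins (x : X) (S : List X) :
    phiP d J pos lv (x :: S) + mgP d J pos lv x S = phiP d J pos lv S := by
  unfold phiP mgP
  induction J with
  | nil => rfl
  | cons j J ih =>
    simp only [List.map_cons, List.sum_cons]
    have h : mins d (lv (pos j)) (pos j) (x :: S)
        + (mins d (lv (pos j)) (pos j) S - d (pos j) x) = mins d (lv (pos j)) (pos j) S := by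
      rw [minsP_cons]
      omega
    omega

theorem mgP_anti (x : X) {S R : List X} (h : S ⊆ R) :
    mgP d J pos lv x R ≤ mgP d J pos lv x S := by
  unfold mgP
  exact List.sum_le_sum fun j _ => Nat.sub_le_sub_right (minsP_anti d _ _ h) _

theorem mgP_mem {x : X} {S : List X} (hx : x ∈ S) : mgP d J pos lv x S = 0 := by
  unfold mgP
  rw [List.sum_eq_zero_iff]
  intro z hz
  obtain ⟨j, _, rfl⟩ := List.mem_map.1 hz
  exact Nat.sub_eq_zero_of_le (minsP_le_of_mem d _ _ hx)

theorem phiP_anti {S R : List X} (h : S ⊆ R) : phiP d J pos lv R ≤ phiP d J pos lv S :=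
  List.sum_le_sum fun _ _ => minsP_anti d _ _ h

theorem phiP_congr {S R : List X} (h : ∀ x, x ∈ S ↔ x ∈ R) :
    phiP d J pos lv S = phiP d J pos lv R :=
  le_antisymm (phiP_anti d J pos lv fun x hx => (h x).2 hx)
    (phiP_anti d J pos lv fun x hx => (h x).1 hx)

theorem phiP_perm {S R : List X} (h : S.Perm R) : phiP d J pos lv S = phiP d J pos lv R :=
  phiP_congr d J pos lv fun _ => h.mem_iff

theorem mgP_congr (x : X) {S R : List X} (h : ∀ x, x ∈ S ↔ x ∈ R) :
    mgP d J pos lv x S = mgP d J pos lv x R :=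
  le_antisymm (mgP_anti d J pos lv x fun x hx => (h x).2 hx)
    (mgP_anti d J pos lv x fun x hx => (h x).1 hx)

theorem sum_map_le_mul {ι : Type} (L : List ι) (g : ι → ℕ) {c : ℕ} (h : ∀ j ∈ L, g j ≤ c) :
    (L.map g).sum ≤ L.length * c := by
  induction L with
  | nil => simp
  | cons j L ih =>
    simp only [List.map_cons, List.sum_cons, List.length_cons]
    have h1 := h j List.mem_cons_self
    have h2 := ih fun j hj => h j (List.mem_cons_of_mem _ hj)
    have h3 : (L.length + 1) * c = L.length * c + c := by ring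
    omega

/-- Upper bounds by the top level. -/
theorem phiP_le {top : ℕ} (h : ∀ v, lv v ≤ top) (S : List X) :
    phiP d J pos lv S ≤ J.length * top :=
  sum_map_le_mul J _ fun _ _ => (minsP_le d _ _ S).trans (h _)

theorem mgP_le {top : ℕ} (h : ∀ v, lv v ≤ top) (x : X) (S : List X) :
    mgP d J pos lv x S ≤ J.length * top :=
  sum_map_le_mul J _ fun _ _ => (Nat.sub_le _ _).trans ((minsP_le d _ _ S).trans (h _))

variable {J pos lv}

/-- Levels that differ by at most `e` change the marginal gains by at most `|J| * e`. -/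
theorem mgP_lev {lv' : X → ℕ} {e : ℕ} (h : ∀ j ∈ J, lv (pos j) ≤ lv' (pos j) + e) (x : X)
    (S : List X) : mgP d J pos lv x S ≤ mgP d J pos lv' x S + J.length * e := by
  unfold mgP
  induction J with
  | nil => simp only [List.map_nil, List.sum_nil, List.length_nil, zero_mul, add_zero, Std.le_refl]
  | cons j J ih =>
    simp only [List.map_cons, List.sum_cons, List.length_cons]
    have h1 := minsP_lev d (h j List.mem_cons_self) (pos j) S
    have h2 := ih fun j hj => h j (List.mem_cons_of_mem _ hj)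
    have h3 : (J.length + 1) * e = J.length * e + e := by ring
    (clear * - h1 h2 h3; omega)

/-- The same for the potential. -/
theorem phiP_lev {lv' : X → ℕ} {e : ℕ} (h : ∀ j ∈ J, lv (pos j) ≤ lv' (pos j) + e)
    (S : List X) : phiP d J pos lv S ≤ phiP d J pos lv' S + J.length * e := by
  unfold phiP
  induction J with
  | nil => simp
  | cons j J ih =>
    simp only [List.map_cons, List.sum_cons, List.length_cons]
    have h1 := minsP_lev d (h j List.mem_cons_self) (pos j) S
    have h2 := ih fun j hj => h j (List.mem_cons_of_mem _ hj)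
    have h3 : (J.length + 1) * e = J.length * e + e := by ring
    omega

end Pot

/-! ### Real version -/

section Real

variable {X : Type} [MetricSpace X] [DecidableEq X] {d : X → X → ℕ}
  (hd : ∀ a b, dist a b = (d a b : ℝ))

include hd

theorem minsP_cast (l : ℕ) (v : X) (S : List X) :
    (mins d l v S : ℝ) = tr (l : ℝ) v S.toFinset := by
  induction S with
  | nil => simp only [mins, List.foldr_nil, tr, List.toFinset_nil, Finset.fold_empty]
  | cons q Q ih =>
    rw [minsP_cons, List.toFinset_cons, tr_insert, ← ih, dist_comm, hd]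
    push_cast
    rfl

theorem phiP_cast {J : List X} (hJ : J.Nodup) (pos : X → X) (lv : X → ℕ) (S : List X) :
    (phiP d J pos lv S : ℝ)
      = (posPot J.toFinset pos (fun v => (lv v : ℝ))).φ S.toFinset := by
  unfold phiP
  rw [Nat.cast_list_sum, List.map_map]
  show _ = ∑ j ∈ J.toFinset, tr (lv (pos j) : ℝ) (pos j) S.toFinset
  rw [List.sum_toFinset _ hJ]
  congr 1
  refine List.map_congr_left fun j _ => ?_
  exact minsP_cast hd _ _ S

theorem mgP_cast {J : List X} (hJ : J.Nodup) (pos : X → X) (lv : X → ℕ) (x : X) (S : List X) :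
    (mgP d J pos lv x S : ℝ)
      = (posPot J.toFinset pos (fun v => (lv v : ℝ))).mg x S.toFinset := by
  unfold mgP
  rw [Nat.cast_list_sum, List.map_map]
  show _ = ∑ j ∈ J.toFinset, max (tr (lv (pos j) : ℝ) (pos j) S.toFinset - dist x (pos j)) 0
  rw [List.sum_toFinset _ hJ]
  congr 1
  refine List.map_congr_left fun j _ => ?_
  rw [← minsP_cast hd, dist_comm, hd]
  rcases le_total (mins d (lv (pos j)) (pos j) S) (d (pos j) x) with h | h
  · have h' : (mins d (lv (pos j)) (pos j) S : ℝ) ≤ d (pos j) x := by exact_mod_cast h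
    show ((mins d (lv (pos j)) (pos j) S - d (pos j) x : ℕ) : ℝ) = _
    rw [Nat.sub_eq_zero_of_le h, max_eq_right (by linarith only [h'])]
    simp
  · have h' : (d (pos j) x : ℝ) ≤ mins d (lv (pos j)) (pos j) S := by exact_mod_cast h
    show ((mins d (lv (pos j)) (pos j) S - d (pos j) x : ℕ) : ℝ) = _
    rw [max_eq_left (by linarith only [h']), Nat.cast_sub h]

end Real

end Vale.Agent.P334.Alg
end

section

/-!
The walk between two maximal sets in the chain machine.
-/

namespace Vale.Agent.P334.Alg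

section

variable {X : Type} [DecidableEq X]

namespace NPot

variable (P : NPot X)

theorem mg_same {S R : List X} (h : ∀ x, x ∈ S ↔ x ∈ R) (x : X) : P.mg x S = P.mg x R :=
  le_antisymm (P.anti x R S fun y hy => (h y).2 hy) (P.anti x S R fun y hy => (h y).1 hy)

/-- Potential plus price times the number of elements. -/
def tot (lo : ℕ) (S : List X) : ℕ := P.phi S + lo * S.length

variable {P} {lo : ℕ}

theorem tot_cons {x : X} {S : List X} (hx : x ∉ S) :
    P.tot lo (x :: S) + P.mg x S = P.tot lo S + lo := by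
  have h := P.ins x S hx
  unfold tot
  rw [List.length_cons, Nat.mul_succ]
  omega

theorem tot_perm {S R : List X} (h : S.Perm R) : P.tot lo S = P.tot lo R := by
  unfold tot
  rw [P.perm S R h, h.length_eq]

theorem tot_erase {x : X} {S : List X} (hS : S.Nodup) (hx : x ∈ S) :
    P.tot lo S + P.mg x (S.erase x) = P.tot lo (S.erase x) + lo := by
  rw [tot_perm (List.perm_cons_erase hx)]
  exact tot_cons hS.not_mem_erase

/-- If the elements of `Y` outside `R` pay for themselves, then `Y` is not more expensive. -/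
theorem tot_le_of_pay {Y R : List X} (hY : Y.Nodup)
    (hpay : ∀ z ∈ Y, z ∉ R → lo ≤ P.mg z (Y.erase z)) :
    ∀ (n : ℕ) (T : List X), T.Nodup → R ⊆ T → T ⊆ Y → Y.length - T.length ≤ n →
      P.tot lo Y ≤ P.tot lo T := by
  intro n
  induction n with
  | zero =>
    intro T hT _ hTY hn
    have h1 : T.Subperm Y := List.subperm_of_subset hT hTY
    have h2 : T.Perm Y := h1.perm_of_length_le (by omega)
    exact (tot_perm h2).ge
  | succ n ih =>
    intro T hT hRT hTY hn
    by_cases hYT : Y ⊆ T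
    · have h2 : T.Perm Y := (List.perm_ext_iff_of_nodup hT hY).2
        fun x => ⟨fun h => hTY h, fun h => hYT h⟩
      exact (tot_perm h2).ge
    · obtain ⟨z, hz, hzT⟩ : ∃ z ∈ Y, z ∉ T := by
        by_contra hcon
        push Not at hcon
        exact hYT fun z hz => hcon z hz
      have h1 : P.tot lo Y ≤ P.tot lo (z :: T) := by
        refine ih (z :: T) (List.nodup_cons.2 ⟨hzT, hT⟩)
          (fun x hx => List.mem_cons_of_mem _ (hRT hx)) ?_ ?_
        · intro x hx
          rcases List.mem_cons.1 hx with rfl | hx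
          · exact hz
          · exact hTY hx
        · rw [List.length_cons]
          omega
      have h2 := tot_cons (P := P) (lo := lo) hzT
      have h3 : P.mg z (Y.erase z) ≤ P.mg z T := by
        refine P.anti z T _ fun y hy => ?_
        rw [hY.mem_erase_iff]
        exact ⟨fun h => hzT (h ▸ hy), hTY hy⟩
      have h4 := hpay z hz fun h => hzT (hRT h)
      omega

end NPot

/-- One step of the walk, as a relation. -/
inductive WStep (mg : X → List X → ℕ) (lo hi : ℕ) (F : List X) : WState X → WState X → Prop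
  | mark (Y R bs : List X) (z : X) : z ∈ Y → z ∉ R → mg z (Y.erase z) < lo →
      WStep mg lo hi F ([], Y, R, bs) ([z], Y.erase z, R, bs)
  | take (Y R bs : List X) (b : X) : (∀ z ∈ Y, z ∉ R → lo ≤ mg z (Y.erase z)) → b ∈ Y →
      WStep mg lo hi F ([], Y, R, b :: bs) ([], Y, b :: R, bs)
  | add (Y R bs : List X) (b : X) : (∀ z ∈ Y, z ∉ R → lo ≤ mg z (Y.erase z)) → b ∉ Y →
      WStep mg lo hi F ([], Y, R, b :: bs) ([], b :: Y, b :: R, bs)
  | down (Y R : List X) (z : X) : (∀ z ∈ Y, z ∉ R → lo ≤ mg z (Y.erase z)) → z ∈ Y → z ∉ R →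
      WStep mg lo hi F ([], Y, R, []) ([], Y.erase z, R, [])
  | stop (Y R : List X) : (∀ z ∈ Y, z ∈ R) → WStep mg lo hi F ([], Y, R, []) ([], Y, R, [])
  | fill (z : X) (zs Y R bs : List X) (x : X) : x ∈ F → hi < mg x Y →
      WStep mg lo hi F (z :: zs, Y, R, bs) (z :: zs, x :: Y, R, bs)
  | drop (z : X) (zs Y R bs : List X) : (∀ x ∈ F, mg x Y ≤ hi) →
      WStep mg lo hi F (z :: zs, Y, R, bs) ([], Y, R, bs)

theorem wstep_wnext (mg : X → List X → ℕ) (lo hi : ℕ) (F : List X) (s : WState X) :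
    WStep mg lo hi F s (wnext mg lo hi F s) := by
  obtain ⟨zs, Y, R, bs⟩ := s
  unfold wnext
  cases zs with
  | nil =>
    rw [if_pos rfl]
    show WStep mg lo hi F ([], Y, R, bs)
      (match Y.find? (fun z => decide (z ∉ R ∧ mg z (Y.erase z) < lo)) with
      | some z => ([z], Y.erase z, R, bs)
      | none =>
        match bs with
        | b :: bs => if b ∈ Y then ([], Y, b :: R, bs) else ([], b :: Y, b :: R, bs)
        | [] =>
          match Y.find? (fun z => decide (z ∉ R)) with
          | some z => ([], Y.erase z, R, [])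
          | none => ([], Y, R, bs))
    cases h : Y.find? (fun z => decide (z ∉ R ∧ mg z (Y.erase z) < lo)) with
    | some z =>
      have h1 := List.mem_of_find?_eq_some h
      have h2 := List.find?_some h
      rw [decide_eq_true_eq] at h2
      exact WStep.mark Y R bs z h1 h2.1 h2.2
    | none =>
      rw [List.find?_eq_none] at h
      have hpay : ∀ z ∈ Y, z ∉ R → lo ≤ mg z (Y.erase z) := by
        intro z hz hzR
        have := h z hz
        rw [decide_eq_true_eq] at this
        by_contra hcon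
        exact this ⟨hzR, not_le.1 hcon⟩
      cases bs with
      | cons b bs =>
        show WStep mg lo hi F ([], Y, R, b :: bs)
          (if b ∈ Y then ([], Y, b :: R, bs) else ([], b :: Y, b :: R, bs))
        by_cases hb : b ∈ Y
        · rw [if_pos hb]
          exact WStep.take Y R bs b hpay hb
        · rw [if_neg hb]
          exact WStep.add Y R bs b hpay hb
      | nil =>
        show WStep mg lo hi F ([], Y, R, [])
          (match Y.find? (fun z => decide (z ∉ R)) with
          | some z => ([], Y.erase z, R, [])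
          | none => ([], Y, R, []))
        cases h' : Y.find? (fun z => decide (z ∉ R)) with
        | some z =>
          have h1 := List.mem_of_find?_eq_some h'
          have h2 := List.find?_some h'
          rw [decide_eq_true_eq] at h2
          exact WStep.down Y R z hpay h1 h2
        | none =>
          rw [List.find?_eq_none] at h'
          refine WStep.stop Y R fun z hz => ?_
          have := h' z hz
          rw [decide_eq_true_eq] at this
          exact not_not.1 this
  | cons z zs =>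
    rw [if_neg (by simp)]
    show WStep mg lo hi F (z :: zs, Y, R, bs)
      (match F.find? (fun x => decide (hi < mg x Y)) with
      | some x => (z :: zs, x :: Y, R, bs)
      | none => ([], Y, R, bs))
    cases h : F.find? (fun x => decide (hi < mg x Y)) with
    | some x =>
      have h1 := List.mem_of_find?_eq_some h
      have h2 := List.find?_some h
      rw [decide_eq_true_eq] at h2
      exact WStep.fill z zs Y R bs x h1 h2
    | none =>
      rw [List.find?_eq_none] at h
      refine WStep.drop z zs Y R bs fun x hx => ?_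
      have := h x hx
      rw [decide_eq_true_eq] at this
      exact not_lt.1 this

/-- Invariants of the walk. -/
structure WInv (P : NPot X) (F W B : List X) (lo hi c : ℕ) (s : WState X) : Prop where
  nd : (s.1 ++ s.2.1).Nodup
  sub : s.1 ++ s.2.1 ⊆ F
  zl : s.1.length ≤ 1
  zlo : ∀ z ∈ s.1, P.mg z s.2.1 < lo
  RY : s.2.2.1 ⊆ s.2.1
  WR : W ⊆ s.2.2.1
  RB : (s.2.2.2.reverse ++ s.2.2.1).Perm B
  pre : ∀ k, P.tot lo ((s.2.2.2.take k).reverse ++ s.2.2.1) ≤ c
  max : ∀ x ∈ F, P.mg x (s.1 ++ s.2.1) ≤ hi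
  totY : P.tot lo s.2.1 ≤ c + lo

variable {P : NPot X} {F W B : List X} {lo hi c : ℕ}

theorem WInv.step (hlh : lo ≤ hi) (hB : B.Nodup) (hBF : B ⊆ F)
    (hBmax : ∀ x ∈ F, P.mg x B ≤ hi) {s s' : WState X} (h : WInv P F W B lo hi c s)
    (hs : WStep P.mg lo hi F s s') : WInv P F W B lo hi c s' := by
  obtain ⟨nd, sub, zl, zlo, RY, WR, RB, pre, max, totY⟩ := h
  have hRn : s.2.2.1.Nodup := by
    have h1 := RB.nodup_iff.2 hB
    exact (List.nodup_append.1 h1).2.1
  have hR0 : P.tot lo s.2.2.1 ≤ c := by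
    have := pre 0
    simpa only [ge_iff_le, List.take_zero, List.reverse_nil, List.nil_append] using this
  cases hs with
  | mark Y R bs z hz hzR hlo =>
    simp only [List.nil_append] at nd sub max RY WR RB pre totY hRn hR0 ⊢
    have hp := List.perm_cons_erase hz
    have hte := NPot.tot_erase (P := P) (lo := lo) nd hz
    refine ⟨?_, ?_, by simp, ?_, ?_, WR, RB, pre, ?_, ?_⟩
    · exact hp.nodup_iff.1 nd
    · intro x hx
      exact sub (hp.mem_iff.2 hx)
    · intro w hw
      rw [List.mem_singleton] at hw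
      subst hw
      exact hlo
    · intro x hx
      rw [nd.mem_erase_iff]
      exact ⟨fun h => hzR (h ▸ hx), RY hx⟩
    · intro x hx
      show P.mg x (z :: Y.erase z) ≤ hi
      rw [P.mg_same (R := Y) (fun y => (hp.mem_iff (a := y)).symm) x]
      exact max x hx
    · show P.tot lo (Y.erase z) ≤ c + lo
      omega
  | take Y R bs b hpay hb =>
    simp only [List.nil_append] at nd sub max RY WR RB pre totY hRn hR0 ⊢
    refine ⟨nd, sub, by simp only [List.length_nil, zero_le], by simp, ?_, ?_, ?_, ?_, max, totY⟩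
    · intro x hx
      rcases List.mem_cons.1 hx with rfl | hx
      · exact hb
      · exact RY hx
    · exact fun x hx => List.mem_cons_of_mem _ (WR hx)
    · rw [List.reverse_cons, List.append_assoc] at RB
      exact RB
    · intro k
      have := pre (k + 1)
      rw [List.take_succ_cons, List.reverse_cons, List.append_assoc] at this
      exact this
  | add Y R bs b hpay hb =>
    simp only [List.nil_append] at nd sub max RY WR RB pre totY hRn hR0 ⊢
    have hbF : b ∈ F := by
      refine hBF (RB.mem_iff.1 ?_)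
      simp
    refine ⟨List.nodup_cons.2 ⟨hb, nd⟩, ?_, by simp only [List.length_nil, zero_le], by simp, ?_, ?_, ?_, ?_, ?_, ?_⟩
    · intro x hx
      rcases List.mem_cons.1 hx with rfl | hx
      · exact hbF
      · exact sub hx
    · intro x hx
      rcases List.mem_cons.1 hx with rfl | hx
      · exact List.mem_cons_self
      · exact List.mem_cons_of_mem _ (RY hx)
    · exact fun x hx => List.mem_cons_of_mem _ (WR hx)
    · rw [List.reverse_cons, List.append_assoc] at RB
      exact RB
    · intro k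
      have := pre (k + 1)
      rw [List.take_succ_cons, List.reverse_cons, List.append_assoc] at this
      exact this
    · intro x hx
      exact (P.anti x Y _ (List.subset_cons_self _ _)).trans (max x hx)
    · have h1 := NPot.tot_le_of_pay (P := P) (lo := lo) nd hpay _ R hRn (fun _ h => h) RY le_rfl
      have h2 := NPot.tot_cons (P := P) (lo := lo) hb
      show P.tot lo (b :: Y) ≤ c + lo
      (clear * - hR0 h1 h2; omega)
  | down Y R z hpay hz hzR =>
    simp only [List.nil_append] at nd sub max RY WR RB pre totY hRn hR0 ⊢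
    have hRe : R ⊆ Y.erase z := by
      intro x hx
      rw [nd.mem_erase_iff]
      exact ⟨fun h => hzR (h ▸ hx), RY hx⟩
    have hen : (Y.erase z).Nodup := nd.erase z
    refine ⟨hen, fun x hx => sub (List.mem_of_mem_erase hx), by simp only [List.length_nil, zero_le], by simp, hRe, WR, RB, pre,
      ?_, ?_⟩
    · intro x hx
      refine (P.anti x R _ hRe).trans ?_
      rw [P.mg_same (R := B) (fun y => ?_) x]
      · exact hBmax x hx
      · exact RB.mem_iff
    · have h1 := NPot.tot_le_of_pay (P := P) (lo := lo) (Y := Y.erase z) (R := R) hen ?_ _ R hRn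
        (fun _ h => h) hRe le_rfl
      · show P.tot lo (Y.erase z) ≤ c + lo
        omega
      · intro w hw hwR
        refine (hpay w (List.mem_of_mem_erase hw) hwR).trans (P.anti w _ _ ?_)
        intro y hy
        rw [hen.mem_erase_iff] at hy
        rw [nd.mem_erase_iff]
        exact ⟨hy.1, List.mem_of_mem_erase hy.2⟩
  | stop Y R hYR => exact ⟨nd, sub, zl, zlo, RY, WR, RB, pre, max, totY⟩
  | fill z zs Y R bs x hxF hx =>
    have hxY : x ∉ Y := by
      intro h
      rw [P.mem x Y h] at hx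
      omega
    have hxz : x ∉ z :: zs := by
      intro h
      have := zlo x h
      simp only at this
      omega
    have ht := NPot.tot_cons (P := P) (lo := lo) hxY
    simp only at nd sub zl zlo max RY WR RB pre totY hRn hR0 ⊢
    have hp : (z :: zs ++ x :: Y).Perm (x :: (z :: zs ++ Y)) := List.perm_middle
    refine ⟨?_, ?_, zl, ?_, ?_, WR, RB, pre, ?_, ?_⟩
    · refine hp.nodup_iff.2 (List.nodup_cons.2 ⟨?_, nd⟩)
      rw [List.mem_append]
      exact fun h => h.elim hxz hxY
    · intro y hy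
      rcases List.mem_cons.1 (hp.mem_iff.1 hy) with rfl | h
      · exact hxF
      · exact sub h
    · intro w hw
      exact lt_of_le_of_lt (P.anti w Y _ (List.subset_cons_self _ _)) (zlo w hw)
    · exact fun y hy => List.mem_cons_of_mem _ (RY hy)
    · intro y hy
      refine (P.anti y (z :: zs ++ Y) _ ?_).trans (max y hy)
      intro w hw
      exact hp.mem_iff.2 (List.mem_cons_of_mem _ hw)
    · show P.tot lo (x :: Y) ≤ c + lo
      (clear * - hlh hx totY ht; omega)
  | drop z zs Y R bs hmax =>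
    simp only [List.nil_append] at nd sub max RY WR RB pre totY hRn hR0 ⊢
    refine ⟨(List.nodup_append.1 nd).2.1, fun x hx => sub (List.mem_append_right _ hx), by simp only [List.length_nil, zero_le],
      by simp only [List.not_mem_nil, IsEmpty.forall_iff, implies_true], RY, WR, RB, pre, hmax, totY⟩

open Classical in
/-- The number of remaining steps. -/
noncomputable def wmeas (P : NPot X) (F : List X) (lo : ℕ) (s : WState X) : ℕ :=
  if s.1 = [] ∧ s.2.2.2 = [] ∧ ∀ z ∈ s.2.1, z ∉ s.2.2.1 → lo ≤ P.mg z (s.2.1.erase z) then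
    s.2.1.length
  else 2 * P.tot lo s.2.1 + s.1.length + s.2.2.2.length * (2 * lo + 2) + F.length + 1

theorem wmeas_le (s : WState X) (h1 : s.1 ++ s.2.1 ⊆ F) (h2 : (s.1 ++ s.2.1).Nodup) :
    wmeas P F lo s ≤
      2 * P.tot lo s.2.1 + s.1.length + s.2.2.2.length * (2 * lo + 2) + F.length + 1 := by
  unfold wmeas
  have h3 : s.2.1.length ≤ F.length := by
    have := (List.subperm_of_subset h2 h1).length_le
    rw [List.length_append] at this
    omega
  split_ifs
  · omega
  · exact le_rfl

theorem WInv.meas (hlh : lo ≤ hi) (hB : B.Nodup) (hBF : B ⊆ F)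
    (hBmax : ∀ x ∈ F, P.mg x B ≤ hi) {s s' : WState X} (h : WInv P F W B lo hi c s)
    (hs : WStep P.mg lo hi F s s') : wmeas P F lo s' < wmeas P F lo s ∨
      (s' = s ∧ s.1 = [] ∧ s.2.2.2 = [] ∧ ∀ z ∈ s.2.1, z ∈ s.2.2.1) := by
  have h' := h.step hlh hB hBF hBmax hs
  have hle := wmeas_le (P := P) (F := F) (lo := lo) s' h'.sub h'.nd
  have hbig : ¬ (s.1 = [] ∧ s.2.2.2 = [] ∧
      ∀ z ∈ s.2.1, z ∉ s.2.2.1 → lo ≤ P.mg z (s.2.1.erase z)) → wmeas P F lo s =
      2 * P.tot lo s.2.1 + s.1.length + s.2.2.2.length * (2 * lo + 2) + F.length + 1 := by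
    intro hn
    unfold wmeas
    rw [if_neg hn]
  cases hs with
  | mark Y R bs z hz hzR hlo =>
    left
    have hb := hbig (fun hcon => by
      have := hcon.2.2 z hz hzR
      simp only at this
      omega)
    have nd := h.nd
    simp only [List.nil_append] at nd
    have hte := NPot.tot_erase (P := P) (lo := lo) nd hz
    simp only [List.length_nil, List.length_cons] at hb hle
    omega
  | take Y R bs b hpay hb' =>
    left
    have hb := hbig (fun hcon => by simpa using hcon.2.1)
    simp only [List.length_nil, List.length_cons] at hb hle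
    have e1 : (bs.length + 1) * (2 * lo + 2) = bs.length * (2 * lo + 2) + (2 * lo + 2) := by ring
    rw [e1] at hb
    (clear * - hle hb; omega)
  | add Y R bs b hpay hb' =>
    left
    have hb := hbig (fun hcon => by simpa using hcon.2.1)
    simp only [List.length_nil, List.length_cons] at hb hle
    have e1 : (bs.length + 1) * (2 * lo + 2) = bs.length * (2 * lo + 2) + (2 * lo + 2) := by ring
    rw [e1] at hb
    have ht := NPot.tot_cons (P := P) (lo := lo) hb'
    omega
  | down Y R z hpay hz hzR =>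
    left
    have nd := h.nd
    simp only [List.nil_append] at nd
    have hen : (Y.erase z).Nodup := nd.erase z
    unfold wmeas
    rw [if_pos, if_pos]
    · show (Y.erase z).length < Y.length
      rw [List.length_erase_of_mem hz]
      have := List.length_pos_of_mem hz
      omega
    · exact ⟨rfl, rfl, hpay⟩
    · refine ⟨rfl, rfl, ?_⟩
      intro w hw hwR
      refine (hpay w (List.mem_of_mem_erase hw) hwR).trans (P.anti w _ _ ?_)
      intro y hy
      rw [hen.mem_erase_iff] at hy
      rw [nd.mem_erase_iff]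
      exact ⟨hy.1, List.mem_of_mem_erase hy.2⟩
  | stop Y R hYR => exact Or.inr ⟨rfl, rfl, rfl, hYR⟩
  | fill z zs Y R bs x hxF hx =>
    left
    have hb := hbig (fun hcon => by simpa using hcon.1)
    have hxY : x ∉ Y := by
      intro h
      rw [P.mem x Y h] at hx
      omega
    have ht := NPot.tot_cons (P := P) (lo := lo) hxY
    simp only [List.length_cons] at hb hle
    omega
  | drop z zs Y R bs hmax =>
    left
    have hb := hbig (fun hcon => by simpa using hcon.1)
    simp only [List.length_nil, List.length_cons] at hb hle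
    omega

/-- Consecutive sets of the walk differ by at most one element. -/
theorem WInv.adj (hlh : lo ≤ hi) {s s' : WState X} (h : WInv P F W B lo hi c s)
    (hs : WStep P.mg lo hi F s s') : (wset s).Perm (wset s') ∨
      (∃ x, x ∉ wset s ∧ (wset s').Perm (x :: wset s)) ∨
      (∃ x, x ∉ wset s' ∧ (wset s).Perm (x :: wset s')) := by
  have nd := h.nd
  cases hs with
  | mark Y R bs z hz hzR hlo => exact Or.inl (List.perm_cons_erase hz)
  | take Y R bs b hpay hb' => exact Or.inl (List.Perm.refl _)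
  | add Y R bs b hpay hb' => exact Or.inr (Or.inl ⟨b, hb', List.Perm.refl _⟩)
  | down Y R z hpay hz hzR =>
    exact Or.inr (Or.inr ⟨z, List.Nodup.not_mem_erase nd, List.perm_cons_erase hz⟩)
  | stop Y R hYR => exact Or.inl (List.Perm.refl _)
  | fill z zs Y R bs x hxF hx =>
    right; left
    refine ⟨x, ?_, List.perm_middle⟩
    unfold wset
    rw [List.mem_append]
    rintro (h1 | h1)
    · have := h.zlo x h1
      simp only at this
      omega
    · rw [P.mem x Y h1] at hx
      omega
  | drop z zs Y R bs hmax =>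
    right; right
    have hzs : zs = [] := by
      have := h.zl
      simp only [List.length_cons] at this
      exact List.length_eq_zero_iff.1 (by omega)
    subst hzs
    refine ⟨z, ?_, List.Perm.refl _⟩
    exact (List.nodup_cons.1 nd).1

/-- The walk reaches a change of the status or the end. -/
theorem walk_iter (hlh : lo ≤ hi) (hB : B.Nodup) (hBF : B ⊆ F)
    (hBmax : ∀ x ∈ F, P.mg x B ≤ hi) (st : List X → Bool) :
    ∀ (n : ℕ) (s : WState X), WInv P F W B lo hi c s → wmeas P F lo s ≤ n →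
      WInv P F W B lo hi c (walkTo P.mg lo hi F st n s) ∧
      st (wset (walkTo P.mg lo hi F st n s)) = st (wset s) ∧
      (st (wset (wnext P.mg lo hi F (walkTo P.mg lo hi F st n s))) ≠
          st (wset (walkTo P.mg lo hi F st n s)) ∨
        ((walkTo P.mg lo hi F st n s).1 = [] ∧ (walkTo P.mg lo hi F st n s).2.2.2 = [] ∧
          ∀ z ∈ (walkTo P.mg lo hi F st n s).2.1, z ∈ (walkTo P.mg lo hi F st n s).2.2.1)) := by
  intro n
  induction n with
  | zero =>
    intro s hs hn
    have h0 : walkTo P.mg lo hi F st 0 s = s := rfl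
    rw [h0]
    refine ⟨hs, rfl, Or.inr ?_⟩
    rcases hs.meas hlh hB hBF hBmax (wstep_wnext P.mg lo hi F s) with h | h
    · omega
    · exact h.2
  | succ n ih =>
    intro s hs hn
    have h1 : walkTo P.mg lo hi F st (n + 1) s = walkTo P.mg lo hi F st n
        (if st (wset (wnext P.mg lo hi F s)) = st (wset s) then wnext P.mg lo hi F s else s) := by
      unfold walkTo
      rw [Function.iterate_succ_apply]
    have hfix : (if st (wset (wnext P.mg lo hi F s)) = st (wset s) then wnext P.mg lo hi F s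
        else s) = s → walkTo P.mg lo hi F st (n + 1) s = s := by
      intro hf
      unfold walkTo
      exact Function.iterate_fixed (f := fun s => if st (wset (wnext P.mg lo hi F s)) =
        st (wset s) then wnext P.mg lo hi F s else s) hf _
    by_cases hst : st (wset (wnext P.mg lo hi F s)) = st (wset s)
    · rcases hs.meas hlh hB hBF hBmax (wstep_wnext P.mg lo hi F s) with h | h
      · rw [h1, if_pos hst]
        obtain ⟨h2, h3, h4⟩ := ih (wnext P.mg lo hi F s)
          (hs.step hlh hB hBF hBmax (wstep_wnext P.mg lo hi F s)) (by omega)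
        exact ⟨h2, h3.trans hst, h4⟩
      · have h2 := hfix (by rw [if_pos hst]; exact h.1)
        rw [h2]
        exact ⟨hs, rfl, Or.inr h.2⟩
    · have h2 := hfix (by rw [if_neg hst])
      rw [h2]
      exact ⟨hs, rfl, Or.inl hst⟩

/-- The critical pair. -/
theorem wpair_spec (P : NPot X) {F A B W L E : List X} {lo hi T : ℕ} {st : List X → Bool}
    (hlh : lo ≤ hi) (hst : ∀ M M', M.Perm M' → st M = st M') (hne : st A ≠ st B)
    (hL : L.Nodup) (hW : W.Nodup) (hWL : W ⊆ L) (hLl : L.length ≤ W.length + 1)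
    (hA : A.Nodup) (hAF : A ⊆ F) (hWA : W ⊆ A) (hAmax : ∀ x ∈ F, P.mg x A ≤ hi)
    (hAt : P.tot lo A ≤ P.tot lo W + 2 * lo) (hBE : B = E ++ L) (hB : B.Nodup) (hBF : B ⊆ F)
    (hBmax : ∀ x ∈ F, P.mg x B ≤ hi)
    (hrun : ∀ E'', E'' <:+ E → P.tot lo (E'' ++ L) ≤ P.tot lo L)
    (hT : 2 * P.tot lo A + F.length * (2 * lo + 2) + F.length + 1 ≤ T)
    {M M' : List X} (hM : wpair P.mg lo hi F st T A B W L = (M, M')) :
    M.Nodup ∧ M'.Nodup ∧ M ⊆ M' ∧ M'.length = M.length + 1 ∧ W ⊆ M ∧ M' ⊆ F ∧ st M ≠ st M' ∧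
      (∀ x ∈ F, P.mg x M ≤ hi) ∧ P.tot lo M ≤ P.tot lo W + 3 * lo ∧
      P.tot lo M' ≤ P.tot lo W + 3 * lo := by
  have htake : B.take (B.length - L.length) = E := by
    rw [hBE, List.length_append, Nat.add_sub_cancel, List.take_left']
    rfl
  set D := L.filter (fun x => decide (x ∉ W)) with hD
  have hDW : (D ++ W).Perm L := by
    rw [List.perm_ext_iff_of_nodup _ hL]
    · intro x
      rw [List.mem_append, hD, List.mem_filter, decide_eq_true_eq]
      constructor
      · rintro (h | h)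
        · exact h.1
        · exact hWL h
      · intro h
        by_cases hx : x ∈ W
        · exact Or.inr hx
        · exact Or.inl ⟨h, hx⟩
    · rw [List.nodup_append]
      refine ⟨hL.filter _, hW, ?_⟩
      intro x hx y hy hxy
      rw [hD, List.mem_filter, decide_eq_true_eq] at hx
      exact hx.2 (hxy ▸ hy)
  have hDl : D.length ≤ 1 := by
    have := hDW.length_eq
    rw [List.length_append] at this
    omega
  have htL : P.tot lo L ≤ P.tot lo W + lo := by
    rw [← NPot.tot_perm hDW]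
    match hD' : D, hDl with
    | [], _ => simp only [List.nil_append, le_add_iff_nonneg_right, zero_le]
    | [x], _ =>
      have hx : x ∉ W := by
        have : x ∈ L.filter (fun x => decide (x ∉ W)) := by
          rw [← hD]
          exact List.mem_singleton_self x
        rw [List.mem_filter, decide_eq_true_eq] at this
        exact this.2
      have := NPot.tot_cons (P := P) (lo := lo) hx
      show P.tot lo (x :: W) ≤ _
      (clear * - this; omega)
    | x :: y :: l, h => simp only [List.length_cons, add_le_iff_nonpos_left, nonpos_iff_eq_zero, Nat.add_eq_zero_iff, List.length_eq_zero_iff, one_ne_zero, and_false] at h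
  -- the initial state
  have hinit : WInv P F W B lo hi (P.tot lo W + lo) ([], A, W, D ++ E.reverse) := by
    refine ⟨hA, hAF, by simp only [List.length_nil, zero_le], by simp, hWA, fun _ h => h, ?_, ?_, hAmax, ?_⟩
    · show ((D ++ E.reverse).reverse ++ W).Perm B
      rw [List.reverse_append, List.reverse_reverse, List.append_assoc, hBE]
      refine List.Perm.append_left E ?_
      exact ((List.reverse_perm D).append_right W).trans hDW
    · intro k
      show P.tot lo (((D ++ E.reverse).take k).reverse ++ W) ≤ P.tot lo W + lo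
      rw [List.take_append]
      rcases Nat.lt_or_ge k D.length with hk | hk
      · have hk0 : k = 0 := by omega
        subst hk0
        simp
      · rw [List.take_of_length_le hk, List.reverse_append, List.append_assoc]
        have h1 : ((E.reverse.take (k - D.length)).reverse) <:+ E := by
          rw [List.reverse_take, List.reverse_reverse]
          exact List.drop_suffix _ _
        have h2 := hrun _ h1
        refine le_trans (le_of_eq (NPot.tot_perm ?_)) (h2.trans htL)
        refine List.Perm.append_left _ ?_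
        exact ((List.reverse_perm D).append_right W).trans hDW
    · show P.tot lo A ≤ P.tot lo W + lo + lo
      omega
  have hDE : (D ++ E.reverse).length ≤ F.length := by
    have h1 : ((D ++ E.reverse).reverse ++ W).Perm B := hinit.RB
    have h2 := h1.length_eq
    have h3 := (List.subperm_of_subset hB hBF).length_le
    rw [List.length_append, List.length_reverse] at h2
    omega
  have hmeas : wmeas P F lo ([], A, W, D ++ E.reverse) ≤ T := by
    refine (wmeas_le _ hinit.sub hinit.nd).trans ?_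
    have h1 : (D ++ E.reverse).length * (2 * lo + 2) ≤ F.length * (2 * lo + 2) :=
      Nat.mul_le_mul_right _ hDE
    show 2 * P.tot lo A + 0 + (D ++ E.reverse).length * (2 * lo + 2) + F.length + 1 ≤ T
    omega
  obtain ⟨hI, hs1, hs2⟩ := walk_iter hlh hB hBF hBmax st T _ hinit hmeas
  set s := walkTo P.mg lo hi F st T ([], A, W, D ++ E.reverse) with hs
  have hcrit : st (wset (wnext P.mg lo hi F s)) ≠ st (wset s) := by
    rcases hs2 with h | ⟨h1, h2, h3⟩
    · exact h
    · exfalso
      have h4 : (wset s).Perm B := by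
        have h5 := hI.RB
        rw [h2, List.reverse_nil, List.nil_append] at h5
        refine List.Perm.trans ?_ h5
        have h6 : wset s = s.2.1 := by
          unfold wset
          rw [h1, List.nil_append]
        rw [h6, List.perm_ext_iff_of_nodup (by have := hI.nd; rw [h1] at this; exact this)
          (h5.nodup_iff.2 hB)]
        exact fun x => ⟨fun h => h3 x h, fun h => hI.RY h⟩
      rw [hst _ _ h4] at hs1
      exact hne hs1.symm
  have hI' := hI.step hlh hB hBF hBmax (wstep_wnext P.mg lo hi F s)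
  have hadj := hI.adj hlh (wstep_wnext P.mg lo hi F s)
  -- bounds for both sets
  have hbd : ∀ t : WState X, WInv P F W B lo hi (P.tot lo W + lo) t →
      (wset t).Nodup ∧ W ⊆ wset t ∧ wset t ⊆ F ∧ (∀ x ∈ F, P.mg x (wset t) ≤ hi) ∧
      P.tot lo (wset t) ≤ P.tot lo W + 3 * lo := by
    intro t ht
    refine ⟨ht.nd, fun x hx => List.mem_append_right _ (ht.RY (ht.WR hx)), ht.sub, ht.max, ?_⟩
    have h1 := ht.totY
    have h2 := ht.zl
    have h3 := ht.nd
    unfold wset
    match h4 : t.1 with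
    | [] => simp only [List.nil_append, ge_iff_le]; omega
    | [z] =>
      rw [h4] at h3
      have h5 := NPot.tot_cons (P := P) (lo := lo) (x := z) (S := t.2.1)
        (List.nodup_cons.1 h3).1
      show P.tot lo (z :: t.2.1) ≤ _
      omega
    | z :: w :: l => rw [h4] at h2; simp only [List.length_cons, add_le_iff_nonpos_left, nonpos_iff_eq_zero, Nat.add_eq_zero_iff, List.length_eq_zero_iff, one_ne_zero, and_false] at h2
  obtain ⟨a1, a2, a3, a4, a5⟩ := hbd s hI
  obtain ⟨b1, b2, b3, b4, b5⟩ := hbd _ hI'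
  have hpair : wpair P.mg lo hi F st T A B W L =
      if (wset s).length ≤ (wset (wnext P.mg lo hi F s)).length
        then (wset s, wset (wnext P.mg lo hi F s))
        else (wset (wnext P.mg lo hi F s), wset s) := by
    unfold wpair
    rw [htake]
  rw [hpair] at hM
  rcases hadj with h | ⟨x, hx, h⟩ | ⟨x, hx, h⟩
  · exact absurd (hst _ _ h).symm hcrit
  · have hl := h.length_eq
    rw [List.length_cons] at hl
    rw [if_pos (by omega)] at hM
    obtain ⟨rfl, rfl⟩ := Prod.mk.inj hM
    exact ⟨a1, b1, fun y hy => h.mem_iff.2 (List.mem_cons_of_mem _ hy), hl, a2, b3,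
      fun h' => hcrit h'.symm, a4, a5, b5⟩
  · have hl := h.length_eq
    rw [List.length_cons] at hl
    rw [if_neg (by omega)] at hM
    obtain ⟨rfl, rfl⟩ := Prod.mk.inj hM
    exact ⟨b1, a1, fun y hy => h.mem_iff.2 (List.mem_cons_of_mem _ hy), hl, b2, a3, hcrit, b4,
      b5, a5⟩

theorem NPot.Grd.tot_suffix {lo : ℕ} {P : NPot X} {L : List X} :
    ∀ {new : List X}, P.Grd lo L new → ∀ E, E <:+ new → P.tot lo (E ++ L) ≤ P.tot lo L := by
  intro new
  induction new with
  | nil =>
    intro _ E hE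
    rw [List.suffix_nil.1 hE, List.nil_append]
  | cons x R ih =>
    intro h E hE
    rcases List.suffix_cons_iff.1 hE with rfl | hE
    · have h1 := ih h.1 R (List.suffix_refl R)
      have h2 := NPot.tot_cons (P := P) (lo := lo) h.2.1
      have h3 := h.2.2
      rw [List.cons_append]
      omega
    · exact ih h.1 E hE

theorem walkSpec : WalkSpec := by
  intro X _ P lo hi F A W L new st T Bd hlh hF hA hAF hWA hW hL hWL hLl hBn hBF hAmax hBmax hAt
    hgrd hst hne hBd hT
  have hAl : A.length ≤ F.length := (List.subperm_of_subset hA hAF).length_le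
  have h1 : P.tot lo A ≤ Bd + lo * F.length := by
    unfold NPot.tot
    exact Nat.add_le_add (hBd A) (Nat.mul_le_mul_left _ hAl)
  have e1 : (F.length + 1) * (2 * lo + 2) = F.length * (2 * lo + 2) + (2 * lo + 2) := by ring
  rw [e1] at hT
  refine ⟨(wpair P.mg lo hi F st T A (new ++ L) W L).1,
    (wpair P.mg lo hi F st T A (new ++ L) W L).2, rfl, ?_⟩
  have hAt' : P.tot lo A ≤ P.tot lo W + 2 * lo := by
    unfold NPot.tot
    (clear * - hAt; omega)
  obtain ⟨a1, a2, a3, a4, a5, a6, a7, a8, a9, a10⟩ := wpair_spec P hlh hst hne hL hW hWL hLl hA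
    hAF hWA hAmax hAt' rfl hBn hBF hBmax (fun E hE => hgrd.tot_suffix E hE) (T := T)
    (by (clear * - hT h1 e1; omega)) (M := (wpair P.mg lo hi F st T A (new ++ L) W L).1)
    (M' := (wpair P.mg lo hi F st T A (new ++ L) W L).2) rfl
  unfold NPot.tot at a9 a10
  exact ⟨a1, a2, a3, a4, a5, a6, a7, a8, by (clear * - a9; omega), by omega⟩

end

end Vale.Agent.P334.Alg
end

section

/-!
The specification of the chain machine.
-/

namespace Vale.Agent.P334.Alg

/-- The chain machine. -/
theorem machine_spec {X : Type} [DecidableEq X] (P : ℕ → ℕ → NPot X) {F O : List X}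
    {N m fmax T δ B : ℕ} (hF : F.Nodup) (hO : O.Nodup) (hOF : O ⊆ F) (hN : O.length < N)
    (_hm : 1 ≤ m)
    (h1 : ∀ f q x S, (P (f + 1) q).mg x S ≤ (P f q).mg x S + δ)
    (h2 : ∀ f q x S, (P f q).mg x S ≤ (P (f + 1) q).mg x S + δ)
    (hbig : ∀ f, fmax ≤ f → ∀ q x S, (P f q).mg x S ≤ f) (hB : ∀ f q S, (P f q).phi S ≤ B)
    (hT : 2 * (B + fmax * (F.length + 1)) + (F.length + 1) * (2 * fmax + 4) + F.length + 3 ≤ T) :
    ∃ (f : ℕ) (S : ℕ → List X), S 0 = O ∧
      S m = machine (fun f q => (P f q).mg) F O N m fmax T δ ∧ (S m).length ≤ N ∧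
      ((S m).length = N ∨ (f = 0 ∧ ∀ q < m, ∀ x ∈ F, (P 0 q).mg x (S (q + 1)) = 0)) ∧
      ∀ q < m, S q ⊆ S (q + 1) ∧ S (q + 1) ⊆ F ∧ (S (q + 1)).Nodup ∧
        (∀ x ∈ F, (P f q).mg x (S (q + 1)) ≤ f + 1 + δ) ∧
        (P f q).phi (S (q + 1)) + (f - δ) * (S (q + 1)).length
          ≤ (P f q).phi (S q) + (f - δ) * (S q).length + 3 * (f - δ) + F.length * (2 * δ + 1) :=
  machine_spec_of walkSpec P hF hO hOF hN h1 h2 hbig hB hT

end Vale.Agent.P334.Alg
end

section
attribute [-instance] ProperSMul.toContinuousSMul IsTopologicalTorsor.toContinuousSMul IdemSemiring.toCanonicallyOrderedAdd IdemSemiring.toMulLeftMono IdemSemiring.toMulRightMono AddQuantale.instAddLeftMono AddQuantale.instAddRightMono Quantale.instMulLeftMono Quantale.instMulRightMono FiniteDimensional.rclike_to_real IsScalarTower.complexToReal FiniteDimensional.complexToReal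

/-!
The chain machine for potentials of clients at positions, in terms of real potentials.
-/

namespace Vale.Agent.P334.Alg

section

variable {X : Type} [DecidableEq X]

/-- The potential as input of the machine. -/
def nposP (d : X → X → ℕ) (J : List X) (pos : X → X) (lv : X → ℕ) : NPot X where
  phi := phiP d J pos lv
  mg := mgP d J pos lv
  ins := fun x S _ => phiP_ins d J pos lv x S
  anti := fun x _ _ h => mgP_anti d J pos lv x h
  mem := fun _ _ hx => mgP_mem d J pos lv hx
  perm := fun _ _ h => phiP_perm d J pos lv h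

variable [MetricSpace X] {d : X → X → ℕ}

/-- The chain machine, in terms of real potentials. -/
theorem machine_real (hd : ∀ a b, dist a b = (d a b : ℝ)) {J F O : List X} (hJ : J.Nodup)
    (hF : F.Nodup) (hO : O.Nodup) (hOF : ∀ x ∈ O, x ∈ F) {pos : X → X} (lv : ℕ → ℕ → X → ℕ)
    {top e0 : ℕ} (hlv : ∀ f q v, lv f q v ≤ top)
    (h1 : ∀ f q, ∀ j ∈ J, lv (f + 1) q (pos j) ≤ lv f q (pos j) + e0)
    (h2 : ∀ f q, ∀ j ∈ J, lv f q (pos j) ≤ lv (f + 1) q (pos j) + e0)
    {N m T δ : ℕ} (hON : O.length < N) (hm : 1 ≤ m) (hδ : J.length * e0 ≤ δ)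
    (hT : 2 * (J.length * top + J.length * top * (F.length + 1))
      + (F.length + 1) * (2 * (J.length * top) + 4) + F.length + 3 ≤ T) {A : List X}
    (hA : A = machine (fun f q => mgP d J pos (lv f q)) F O N m (J.length * top) T δ) :
    A.Nodup ∧ (∀ x ∈ A, x ∈ F) ∧ A.length ≤ N ∧ ∃ (f : ℕ) (S : ℕ → Finset X),
      S 0 = O.toFinset ∧ S m = A.toFinset ∧ (∀ q, q < m → S q ⊆ S (q + 1)) ∧
      (∀ q, q < m → S (q + 1) ⊆ F.toFinset) ∧
      (∀ q, q < m → (posPot J.toFinset pos (fun v => (lv f q v : ℝ))).IsMax F.toFinset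
        ((f : ℝ) + 1 + δ) (S (q + 1))) ∧
      (∀ q, q < m → (posPot J.toFinset pos (fun v => (lv f q v : ℝ))).tot
          ((f - δ : ℕ) : ℝ) (S (q + 1))
        ≤ (posPot J.toFinset pos (fun v => (lv f q v : ℝ))).tot ((f - δ : ℕ) : ℝ) (S q)
          + (3 * ((f - δ : ℕ) : ℝ) + F.length * (2 * δ + 1))) ∧
      ((S m).card = N ∨ (f = 0 ∧ ∀ q, q < m → ∀ x ∈ F,
        (posPot J.toFinset pos (fun v => (lv 0 q v : ℝ))).mg x (S (q + 1)) = 0)) := by
  obtain ⟨f, S, hS0, hSm, hlen, hN, hch⟩ := machine_spec (fun f q => nposP d J pos (lv f q))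
    (F := F) (O := O) (N := N) (m := m) (fmax := J.length * top) (T := T) (δ := δ)
    (B := J.length * top) hF hO (fun x hx => hOF x hx) hON hm
    (fun f q x S => (mgP_lev d (h1 f q) x S).trans (Nat.add_le_add_left hδ _))
    (fun f q x S => (mgP_lev d (h2 f q) x S).trans (Nat.add_le_add_left hδ _))
    (fun f hf q x S => (mgP_le d J pos (lv f q) (hlv f q) x S).trans hf)
    (fun f q S => phiP_le d J pos (lv f q) (hlv f q) S) hT
  have hA' : A = S m := by rw [hA, hSm]; rfl
  obtain ⟨q0, hq0⟩ : ∃ q0, m = q0 + 1 := ⟨m - 1, by omega⟩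
  have hnd : ∀ q, q ≤ m → (S q).Nodup := by
    intro q hq
    rcases Nat.eq_zero_or_pos q with h | h
    · rw [h, hS0]; exact hO
    · obtain ⟨p, rfl⟩ : ∃ p, q = p + 1 := ⟨q - 1, by omega⟩
      exact (hch p (by omega)).2.2.1
  have hcard : ∀ q, q ≤ m → (((S q).toFinset.card : ℕ)) = (S q).length := fun q hq =>
    List.toFinset_card_of_nodup (hnd q hq)
  refine ⟨by rw [hA']; exact hnd m le_rfl, ?_, by rw [hA']; exact hlen, f,
    fun q => (S q).toFinset, by simp only [hS0], by simp only [hA'], ?_, ?_, ?_, ?_, ?_⟩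
  · intro x hx
    rw [hA', hq0] at hx
    exact (hch q0 (by omega)).2.1 hx
  · intro q hq x hx
    rw [List.mem_toFinset] at hx ⊢
    exact (hch q hq).1 hx
  · intro q hq x hx
    rw [List.mem_toFinset] at hx ⊢
    exact (hch q hq).2.1 hx
  · intro q hq x hx
    rw [List.mem_toFinset] at hx
    have h3 : mgP d J pos (lv f q) x (S (q + 1)) ≤ f + 1 + δ := (hch q hq).2.2.2.1 x hx
    have h4 := mgP_cast hd hJ pos (lv f q) x (S (q + 1))
    have h5 : (mgP d J pos (lv f q) x (S (q + 1)) : ℝ) ≤ (f : ℝ) + 1 + δ := by exact_mod_cast h3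
    rw [h4] at h5
    exact h5
  · intro q hq
    have h3 : phiP d J pos (lv f q) (S (q + 1)) + (f - δ) * (S (q + 1)).length
        ≤ phiP d J pos (lv f q) (S q) + (f - δ) * (S q).length + 3 * (f - δ)
          + F.length * (2 * δ + 1) := (hch q hq).2.2.2.2
    have h4 := phiP_cast hd hJ pos (lv f q) (S (q + 1))
    have h5 := phiP_cast hd hJ pos (lv f q) (S q)
    have h6 : (phiP d J pos (lv f q) (S (q + 1)) : ℝ) + ((f - δ : ℕ) : ℝ) * (S (q + 1)).length
        ≤ phiP d J pos (lv f q) (S q) + ((f - δ : ℕ) : ℝ) * (S q).length + 3 * ((f - δ : ℕ) : ℝ)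
          + F.length * (2 * δ + 1) := by exact_mod_cast h3
    rw [h4, h5] at h6
    unfold Pot.tot
    rw [hcard q (by omega), hcard (q + 1) (by omega)]
    linarith only [h6]
  · rcases hN with hN | ⟨hf, hN⟩
    · left
      rw [hcard m le_rfl]; exact hN
    · right
      refine ⟨hf, fun q hq x hx => ?_⟩
      have h3 : mgP d J pos (lv 0 q) x (S (q + 1)) = 0 := hN q hq x hx
      have h4 := mgP_cast hd hJ pos (lv 0 q) x (S (q + 1))
      rw [h3, Nat.cast_zero] at h4
      exact h4.symm

/-- If all gains at a level above all distances vanish, the set is not empty. -/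
theorem pos_nonempty (hd : ∀ a b, dist a b = (d a b : ℝ)) {J F : List X} (hJ0 : J ≠ [])
    (hF0 : F ≠ []) {pos : X → X} {lv : X → ℕ} (hlv : ∀ a b, d a b < lv b) {S : Finset X}
    (h : ∀ x ∈ F, (posPot J.toFinset pos (fun v => (lv v : ℝ))).mg x S = 0) : S.Nonempty := by
  by_contra hcon
  rw [Finset.not_nonempty_iff_eq_empty] at hcon
  obtain ⟨x, hx⟩ := List.exists_mem_of_ne_nil F hF0
  obtain ⟨j, hj⟩ := List.exists_mem_of_ne_nil J hJ0
  have h1 := h x hx
  have h2 : ∀ j ∈ J.toFinset, 0 ≤ max (tr (lv (pos j) : ℝ) (pos j) S - dist x (pos j)) 0 :=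
    fun j _ => le_max_right _ _
  have h3 : max (tr (lv (pos j) : ℝ) (pos j) S - dist x (pos j)) 0
      ≤ (posPot J.toFinset pos (fun v => (lv v : ℝ))).mg x S :=
    Finset.single_le_sum (f := fun j => max (tr (lv (pos j) : ℝ) (pos j) S - dist x (pos j)) 0)
      h2 (List.mem_toFinset.mpr hj)
  have h4 : tr (lv (pos j) : ℝ) (pos j) S = lv (pos j) := by rw [hcon]; simp only [tr, Finset.fold_empty]
  have h5 : (d x (pos j) : ℝ) < lv (pos j) := by exact_mod_cast hlv x (pos j)
  have h6 := le_max_left (tr (lv (pos j) : ℝ) (pos j) S - dist x (pos j)) 0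
  rw [h4, hd] at h6
  rw [h1, h4, hd] at h3
  linarith only [h3, h5, h6]

end

end Vale.Agent.P334.Alg
end

section

/-!
One trial of the randomized algorithm for stable instances (note 5300, part 2), as a function on
lists. Randomness enters through four functions `r1 r2 r3 r4 : ℕ → ℕ` (chunks of random bits):
colors, guesses for the large centers, sampled clients, radii.
-/

namespace Vale.Agent.P334.Alg

section

variable {X : Type} [DecidableEq X]

/-- Truncation of weighted distances. -/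
def topOf (D : ℕ) (J : List X) : ℕ := 100 * (J.length * D + 1)

/-- The number of colors (counting those that mean no color at all). -/
def ncol (z : ℕ) : ℕ := 2 ^ Nat.size (12000 * z)

/-- The color of `s`. -/
def col (r : ℕ → ℕ) (z : ℕ) (S : List X) (s : X) : ℕ := r (S.idxOf s) % ncol z

/-- Adding the elements of `Q` to `T`, without repetitions. -/
def addAll (Q T : List X) : List X := Q.foldr (fun q T' => if q ∈ T' then T' else q :: T') T

/-- The cost of the clients served by `s`. -/
def cA (d : X → X → ℕ) (x0 : X) (J S : List X) (s : X) : ℕ :=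
  ((J.filter (fun j => decide (A1.near d x0 S j = s))).map (fun j => d j s)).sum

/-- Centers with a large cluster cost. -/
def bigS (d : X → X → ℕ) (D : ℕ) (x0 : X) (J S : List X) (tz : ℕ) : List X :=
  S.filter (fun s => decide (cst d D J S ≤ 2000 * tz * cA d x0 J S s))

/-- Each client repeated as often as its distance to `S`. -/
def bag (d : X → X → ℕ) (D : ℕ) (J S : List X) : List X := urn (fun j => mins d D j S) J

/-- The client sampled by the number `r`. -/
def pnt (d : X → X → ℕ) (D : ℕ) (x0 : X) (J S : List X) (r : ℕ) : X :=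
  (bag d D J S).getD (r % (bag d D J S).length) x0

/-- The radius for the client `p` and the number `u`. -/
def radi (d : X → X → ℕ) (D : ℕ) (S : List X) (p : X) (u : ℕ) : ℕ :=
  (u + 1) * mins d D p S / 100

/-- The anchors. -/
def anch (d : X → X → ℕ) (D : ℕ) (x0 : X) (J S : List X) (r3 r4 : ℕ → ℕ) (h : ℕ) :
    List (X × ℕ) :=
  (List.range h).map (fun i => (pnt d D x0 J S (r3 i),
    radi d D S (pnt d D x0 J S (r3 i)) (r4 i % 2541000)))

/-- Candidate of algorithm 1. -/
def cand1s (d : X → X → ℕ) (D : ℕ) (x0 : X) (J F S : List X) (r1 : ℕ → ℕ) (z h : ℕ) : List X :=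
  addAll (A1.alg1 d D (topOf D J) x0 J F S (col r1 z S) z h) []

/-- Candidate of algorithm 2. -/
def cand2 (d : X → X → ℕ) (D : ℕ) (x0 : X) (J F S : List X) (tz : ℕ) (r1 r2 r3 r4 : ℕ → ℕ)
    (z h : ℕ) : List X :=
  addAll (A2.alg2 d D (topOf D J) x0 J F S (bigS d D x0 J S tz)
    ((bigS d D x0 J S tz).filter (fun s => decide (r2 (S.idxOf s) % 2 = 1)))
    (col r1 z S) z (anch d D x0 J S r3 r4 h)) []

/-- All candidates. -/
def cands (d : X → X → ℕ) (D : ℕ) (x0 : X) (J F S : List X) (tq tz : ℕ) (r1 r2 r3 r4 : ℕ → ℕ) :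
    List (List X) :=
  (List.range (tz + 1)).flatMap (fun z => (List.range (tq + 1)).flatMap (fun h =>
    [cand1s d D x0 J F S r1 z h, cand2 d D x0 J F S tz r1 r2 r3 r4 z h]))

/-- The best solution in a list of candidates that has at least one and at most `k` elements, or
the first facility. -/
def bestOf (d : X → X → ℕ) (D : ℕ) (J F : List X) (k : ℕ) (L : List (List X)) : List X :=
  argmin1 (cst d D J) (F.take 1) (L.filter (fun T => decide (T.length ≤ k ∧ T ≠ [])))

/-- One trial for a stable instance. The parameters are `b, t` (saturation) and `tq, tz`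
(bounds for the numbers of facilities to be added and removed). -/
def trial (d : X → X → ℕ) (D : ℕ) (J F : List X) (k : ℕ) (b t tq tz : ℕ) (S0 : List X)
    (r1 r2 r3 r4 : ℕ → ℕ) : List X :=
  bestOf d D J F k ((F.take 1).flatMap (fun x0 =>
    cands d D x0 J F (prep d D b t J F S0) tq tz r1 r2 r3 r4))

/-! ### Parameters and random bits -/

/-- Bound for the number of facilities to be added; `K3 * sz` is the number of extra centers of
the starting solution and `1 / (Kb * sz)` the stability parameter. -/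
def tauQ (K3 Kb sz : ℕ) : ℕ := (K3 + 600000 * Kb) * sz

/-- Saturation parameter. -/
def satB (K3 Kb sz : ℕ) : ℕ := 2000000000 * tauQ K3 Kb sz

/-- Number of saturation steps. -/
def satT (K3 Kb sz : ℕ) : ℕ := 3 * (satB K3 Kb sz + 1)

/-- Bound for the number of facilities to be removed. -/
def tauZ (K3 Kb sz : ℕ) : ℕ := (2 * K3 + 600000 * Kb) * sz + satT K3 Kb sz

/-- Number of bits in a chunk. -/
def wid (D : ℕ) (J F : List X) : ℕ := Nat.size (12000 * (J.length * D + F.length + 1000))

/-- The number of chunks used. -/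
def nchunk (F : List X) : ℕ := (F.length + F.length) + (F.length + F.length)

/-- The number of random bits used. -/
def nbits (D : ℕ) (J F : List X) : ℕ := nchunk F * wid D J F

/-- One trial for a stable instance, from a sequence of chunks. -/
def trialR (d : X → X → ℕ) (D : ℕ) (J F : List X) (k K3 Kb : ℕ) (S0 : List X)
    (r : ℕ → ℕ) : List X :=
  trial d D J F k (satB K3 Kb (Nat.size J.length)) (satT K3 Kb (Nat.size J.length))
    (tauQ K3 Kb (Nat.size J.length)) (tauZ K3 Kb (Nat.size J.length)) S0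
    r (fun i => r (F.length + i)) (fun i => r ((F.length + F.length) + i))
    (fun i => r ((F.length + F.length) + (F.length + i)))

/-- One trial for a stable instance, from a list of random bits. -/
def stableTrial (d : X → X → ℕ) (D : ℕ) (J F : List X) (k K3 Kb : ℕ) (S0 : List X)
    (bits : List Bool) : List X :=
  trialR d D J F k K3 Kb S0 (fun i => chunk (wid D J F) i bits)

end

end Vale.Agent.P334.Alg
end

section

/-!
Specifications of the remaining pieces of the analysis of `stableTrial`.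
Every `def ... : Prop` below is a statement to be proved in its own file.
-/

namespace Vale.Agent.P334.Alg

/-- Standing assumptions: an integral metric with distances at most `D`. -/
structure Inst {X : Type} [MetricSpace X] (d : X → X → ℕ) (D : ℕ) (J F : List X) : Prop where
  hd : ∀ a b, dist a b = (d a b : ℝ)
  hD : ∀ a b, d a b ≤ D
  hJ : J.Nodup
  hF : F.Nodup
  hJ0 : J ≠ []
  hF0 : F ≠ []

/-- Level B of algorithm 2: from the hidden target and good random choices to the cost bound. Here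
`χ` is the coloring, `os` the list of the new centers in the order of the anchors, `p` and `R`
give the anchor and the radius for each new center. -/
def LevelBSpec : Prop :=
  ∀ {X : Type} [MetricSpace X] [DecidableEq X] (d : X → X → ℕ) (D : ℕ) (J F : List X),
    Inst d D J F → ∀ (x0 : X) (S : List X) (T0 : Finset X) (τ : ℝ) (tz : ℕ) (K Q : Finset X)
    (e : X → X) (v : X → ℝ) (G : X → Finset X),
    S.Nodup → S ⊆ F → S ≠ [] → 0 < cst d D J S → T0 ⊆ F.toFinset → T0.Nonempty →
    (S.toFinset \ T0).card ≤ tz →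
    Target J.toFinset S.toFinset T0 τ K Q e v G →
    ∃ Cr : Finset X, Cr ⊆ (A2.small (bigS d D x0 J S tz) S).toFinset ∩ K ∧ Cr.card ≤ tz ∧
      ∀ (z : ℕ) (χ : X → ℕ) (Zb os : List X) (p : X → X) (R : X → ℕ),
        z = ((A2.small (bigS d D x0 J S tz) S).toFinset \ K).card →
        Set.BijOn χ ((A2.small (bigS d D x0 J S tz) S).toFinset \ K : Finset X) {a | a < z} →
        (∀ s ∈ Cr, z ≤ χ s) →
        (∑ s ∈ ((A2.small (bigS d D x0 J S tz) S).toFinset \
            ((A2.small (bigS d D x0 J S tz) S).toFinset \ K)) \ Cr, (if χ s < z then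
          2 * ∑ j ∈ J.toFinset.filter (fun j => e j = s), (d j s : ℝ) else 0) ≤
            1 / 3000 * ∑ j ∈ J.toFinset, (d j (e j) : ℝ)) →
        Zb = (bigS d D x0 J S tz).filter (fun s => decide (s ∉ K)) →
        os.Nodup → os.toFinset = Q →
        (∀ o ∈ Q, p o ∈ G o ∧ d (p o) o ≤ R o ∧ (R o : ℝ) ≤ 231 / 200 * v o) →
        ∀ T : List X, T = A2.alg2 d D (topOf D J) x0 J F S (bigS d D x0 J S tz) Zb χ z
          (os.map fun o => (p o, R o)) →
        T ⊆ F ∧ T ≠ [] ∧ T.length ≤ K.card + Q.card ∧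
          (cst d D J T : ℝ) ≤ 199 / 100 * cost J.toFinset T0

/-- The radius grid. -/
def RadSpec : Prop :=
  ∀ (g D0 : ℕ) (v : ℝ), 4000 ≤ v → (g : ℝ) ≤ 11 / 10 * v → v / 22000 ≤ D0 →
    (D0 : ℝ) ≤ 21 / 10 * v →
    ∃ u < 2541000, g ≤ (u + 1) * D0 / 100 ∧ (((u + 1) * D0 / 100 : ℕ) : ℝ) ≤ 231 / 200 * v

/-- Probability of a good coloring (used for algorithm 1 with `V = S` and for algorithm 2 with `V`
the small centers): `Z` receives the different colors `0, ..., z - 1`, `Cr` no color, and the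
colored loss is at most `2 / 12000` of the total. -/
def ColorSpec : Prop :=
  ∀ {X : Type} [DecidableEq X] (S : List X) (N w z : ℕ) (Z Cr V : Finset X) (loss : X → ℝ),
    S.Nodup → S.length ≤ N → V ⊆ S.toFinset → Z ⊆ V → Cr ⊆ V → Disjoint Z Cr → Z.card = z →
    (∀ s, 0 ≤ loss s) → Nat.size (12000 * z) ≤ w →
    ((2 ^ w : ℕ) : ℝ) ^ N ≤ 2 * 90000 ^ z * 2 ^ Cr.card *
      (Nat.card {r : Fin N → Fin (2 ^ w) //
        Set.BijOn (col (extN r) z S) (Z : Set X) {a | a < z} ∧
        (∀ s ∈ Cr, z ≤ col (extN r) z S s) ∧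
        ∑ s ∈ (V \ Z) \ Cr, (if col (extN r) z S s < z then loss s else 0) ≤
          2 / 12000 * ∑ s ∈ (V \ Z) \ Cr, loss s} : ℝ)

/-- Probability that given bits are right. -/
def BitsSpec : Prop :=
  ∀ {X : Type} [DecidableEq X] (S : List X) (N w : ℕ) (B Z : Finset X),
    S.Nodup → S.length ≤ N → B ⊆ S.toFinset → 1 ≤ w →
    (2 ^ w) ^ N ≤ 2 ^ B.card * Nat.card {r : Fin N → Fin (2 ^ w) //
      ∀ s ∈ B, (extN r (S.idxOf s) % 2 = 1 ↔ s ∈ Z)}

/-- Probability of good anchors. -/
def AnchorSpec : Prop :=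
  ∀ {X : Type} [DecidableEq X] (L : List X) (x0 : X) (N w M : ℕ) (Q : Finset X)
    (G : X → Finset X) (rad : X → X → ℕ) (q τ : ℝ),
    0 < L.length → L.length ≤ 2 ^ w → 0 < M → M ≤ 2 ^ w → Q.card ≤ N → 0 < q → 0 < τ →
    (∀ o ∈ Q, ∀ o' ∈ Q, o ≠ o' → Disjoint (G o) (G o')) →
    (∀ o ∈ Q, ∀ p ∈ G o, rad o p < M) →
    (∀ o ∈ Q, q * L.length / τ ≤ (L.countP (fun x => decide (x ∈ G o)) : ℝ)) →
    ((2 ^ w : ℕ) : ℝ) ^ (N + N) ≤ Real.exp (4 * M * τ / q) *
      (Nat.card {r : Fin (N + N) → Fin (2 ^ w) //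
        ∃ o : Fin Q.card ≃ {x // x ∈ Q}, ∀ i : Fin Q.card,
          L.getD (extN r i % L.length) x0 ∈ G (o i) ∧
          extN r (N + i) % M = rad (o i) (L.getD (extN r i % L.length) x0)} : ℝ)

/-- Independence of the parts of a sequence of chunks. -/
def SplitSpec : Prop :=
  ∀ (N W : ℕ) (P1 P2 P3 : (ℕ → ℕ) → Prop),
    (∀ r s : ℕ → ℕ, (∀ i < N, r i = s i) → P1 r → P1 s) →
    (∀ r s : ℕ → ℕ, (∀ i < N, r i = s i) → P2 r → P2 s) →
    (∀ r s : ℕ → ℕ, (∀ i < N + N, r i = s i) → P3 r → P3 s) →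
    Nat.card {r : Fin N → Fin W // P1 (extN r)} * Nat.card {r : Fin N → Fin W // P2 (extN r)} *
      Nat.card {r : Fin (N + N) → Fin W // P3 (extN r)} ≤
    Nat.card {r : Fin ((N + N) + (N + N)) → Fin W //
      P1 (extN r) ∧ P2 (fun i => extN r (N + i)) ∧ P3 (fun i => extN r ((N + N) + i))}

/-- The result of part 2. -/
def StableSpec : Prop :=
  ∀ K3 Kb : ℕ, 1 ≤ Kb → ∃ K2 : ℕ,
    ∀ {X : Type} [MetricSpace X] [DecidableEq X] (d : X → X → ℕ) (D : ℕ) (J F : List X),
      Inst d D J F → ∀ (k : ℕ) (S0 : List X), 2 ≤ k → (∀ x y, 4000 * J.length ∣ d x y) →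
      0 < opt J.toFinset F.toFinset k →
      (1 + 1 / ((Kb : ℝ) * Nat.size J.length)) * opt J.toFinset F.toFinset k ≤
        opt J.toFinset F.toFinset (k - 1) →
      S0.Nodup → S0 ⊆ F → S0 ≠ [] → S0.length ≤ k + K3 * Nat.size J.length →
      cost J.toFinset S0.toFinset ≤ 2 * opt J.toFinset F.toFinset k →
      2 ^ nbits D J F ≤ (2 * J.length) ^ K2 *
        Nat.card {b : List.Vector Bool (nbits D J F) //
          cost J.toFinset (stableTrial d D J F k K3 Kb S0 b.toList).toFinset ≤
            1995 / 1000 * opt J.toFinset F.toFinset k}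

/-- Every outcome of a trial is a feasible solution. -/
def ValidSpec : Prop :=
  ∀ {X : Type} [MetricSpace X] [DecidableEq X] (d : X → X → ℕ) (D : ℕ) (J F : List X),
    Inst d D J F → ∀ (k K3 Kb : ℕ) (S0 : List X) (b : List Bool), 1 ≤ k → S0.Nodup → S0 ⊆ F →
      (stableTrial d D J F k K3 Kb S0 b).Nodup ∧
        stableTrial d D J F k K3 Kb S0 b ⊆ F ∧ stableTrial d D J F k K3 Kb S0 b ≠ [] ∧
        (stableTrial d D J F k K3 Kb S0 b).length ≤ k

end Vale.Agent.P334.Alg
end

section

/-!
From metric spaces to integral metrics on the natural numbers.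
-/

namespace Vale.Agent.P334.Alg.One

/-- The metric space on the natural numbers given by an integral metric. -/
@[reducible] def Met.space {d : ℕ → ℕ → ℕ} (h : Met d) : MetricSpace ℕ where
  dist a b := (d a b : ℝ)
  dist_self a := by rw [(h.zero a a).2 rfl, Nat.cast_zero]
  dist_comm a b := by rw [h.symm]
  dist_triangle a b c := by exact_mod_cast h.tri a b c
  eq_of_dist_eq_zero {a b} h0 := by
    have : d a b = 0 := by exact_mod_cast h0
    exact (h.zero a b).1 this

section

variable {m : MetricSpace ℕ} {d : ℕ → ℕ → ℕ}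
  (hd : ∀ a b, @dist ℕ m.toPseudoMetricSpace.toDist a b = (d a b : ℝ)) {l : ℕ}
  (hl : ∀ a b, d a b ≤ l) {J F : List ℕ} (hJ : J.Nodup)

include hd hl hJ

/-- The optimum of the metric space is the optimum of the integral instance. -/
theorem opt_eq (hF : F ≠ []) {k : ℕ} (hk : 1 ≤ k) :
    @opt ℕ m J.toFinset F.toFinset k = (optN d l J F k : ℝ) := by
  have hbd : BddBelow {c : ℝ | ∃ S : Finset ℕ, S ⊆ F.toFinset ∧ S.Nonempty ∧ S.card ≤ k ∧
      c = @cost ℕ m J.toFinset S} := by
    refine ⟨0, ?_⟩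
    rintro c ⟨S, -, -, -, rfl⟩
    exact Finset.sum_nonneg fun _ _ => Metric.infDist_nonneg
  obtain ⟨T, hT, hTn, hTc⟩ := exists_optN d l J hF hk
  have hTr : (cst d l J T : ℝ) = @cost ℕ m J.toFinset T.toFinset :=
    cst_real hd hJ hT.1 (fun j _ s _ => hl j s)
  apply le_antisymm
  · rw [← hTc, hTr]
    refine csInf_le hbd ⟨T.toFinset, ?_, ?_, ?_, rfl⟩
    · intro x hx
      rw [List.mem_toFinset] at hx ⊢
      exact hT.2.1 x hx
    · rw [List.toFinset_nonempty_iff]
      exact hT.1
    · exact (List.toFinset_card_le _).trans hT.2.2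
  · refine le_csInf ⟨_, T.toFinset, ?_, ?_, ?_, rfl⟩ ?_
    · intro x hx
      rw [List.mem_toFinset] at hx ⊢
      exact hT.2.1 x hx
    · rw [List.toFinset_nonempty_iff]
      exact hT.1
    · exact (List.toFinset_card_le _).trans hT.2.2
    · rintro c ⟨S, h1, h2, h3, rfl⟩
      have hS : S.toList ≠ [] := by
        rw [Ne, Finset.toList_eq_nil]
        exact h2.ne_empty
      have h4 : (cst d l J S.toList : ℝ) = @cost ℕ m J.toFinset S := by
        rw [cst_real hd hJ hS (fun j _ s _ => hl j s), Finset.toList_toFinset]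
      rw [← h4]
      have h5 : Feas F k S.toList := by
        refine ⟨hS, ?_, ?_⟩
        · intro x hx
          rw [Finset.mem_toList] at hx
          exact List.mem_toFinset.1 (h1 hx)
        · rw [Finset.length_toList]
          exact h3
      exact_mod_cast optN_le h5

end

/-- Part 2. -/
theorem trialSpec_of (hS : StableSpec) (hV : ValidSpec) (K3 Kb : ℕ) (hKb : 1 ≤ Kb) :
    ∃ K2 : ℕ, TrialSpec (1995 / 1000) K3 Kb K2 (fun n _ => 4000 * max n 1)
      (fun n f D => ((f + f) + (f + f)) * Nat.size (12000 * (n * D + f + 1000)))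
      (fun d l J F k S0 bits => stableTrial d l J F k K3 Kb S0 bits) := by
  obtain ⟨K2, hK2⟩ := hS K3 Kb hKb
  refine ⟨K2, ⟨by (clear * -; norm_num), by norm_num, fun n f => by positivity, ?_⟩⟩
  intro d l J F k S0 hset hk hkF hdvd hpos hst hf0 hn0 hc0
  obtain ⟨m, hm⟩ : ∃ m : MetricSpace ℕ, m = hset.met.space := ⟨_, rfl⟩
  have hd : ∀ a b : ℕ, @dist ℕ m.toPseudoMetricSpace.toDist a b = (d a b : ℝ) := by
    intro a b
    subst hm
    rfl
  have hI : @Inst ℕ m d l J F := ⟨hd, hset.le, hset.nodupJ, hset.nodupF, hset.neJ, hset.neF⟩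
  have hJpos : 0 < J.length := List.length_pos_iff.2 hset.neJ
  have hdvd' : ∀ x y, 4000 * J.length ∣ d x y := by
    intro x y
    have := hdvd x y
    rwa [max_eq_left hJpos] at this
  have ho1 := opt_eq hd hset.le hset.nodupJ hset.neF (k := k) (by omega)
  have ho2 := opt_eq hd hset.le hset.nodupJ hset.neF (k := k - 1) (by omega)
  have hcS0 : (cst d l J S0 : ℝ) = @cost ℕ m J.toFinset S0.toFinset :=
    cst_real hd hset.nodupJ hf0.1 (fun j _ s _ => hset.le j s)
  have key := @hK2 ℕ m _ d l J F hI k S0 hk hdvd' (by rw [ho1]; exact_mod_cast hpos)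
    (by rw [ho1, ho2]; exact hst) hn0 (fun x hx => hf0.2.1 x hx) hf0.1 hf0.2.2
    (by rw [← hcS0, ho1]; exact hc0)
  have e : nbits l J F = ((F.length + F.length) + (F.length + F.length)) *
    Nat.size (12000 * (J.length * l + F.length + 1000)) := rfl
  rw [← e]
  refine key.trans ?_
  refine Nat.mul_le_mul ?_ ?_
  · exact Nat.pow_le_pow_left (by omega) _
  · refine Nat.card_le_card_of_injective
      (fun b => ⟨b.1.get, ?_⟩) ?_
    · have hb := b.2
      have hv := @hV ℕ m _ d l J F hI k K3 Kb S0 b.1.toList (by omega) hn0 (fun x hx => hf0.2.1 x hx)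
      have e2 : List.ofFn b.1.get = b.1.toList := by
        rw [← List.Vector.toList_ofFn, List.Vector.ofFn_get]
      rw [e2]
      refine ⟨⟨hv.2.2.1, fun x hx => hv.2.1 hx, hv.2.2.2⟩, ?_⟩
      rw [cst_real hd hset.nodupJ hv.2.2.1 (fun j _ s _ => hset.le j s), ← ho1]
      exact hb
    · intro b b' h
      have h' : b.1.get = b'.1.get := congrArg Subtype.val h
      apply Subtype.ext
      rw [← List.Vector.ofFn_get b.1, ← List.Vector.ofFn_get b'.1, h']

end Vale.Agent.P334.Alg.One
end

section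

/-!
Selection of the best candidate, and elementary facts on one trial.
-/

namespace Vale.Agent.P334.Alg

section

theorem argmin1_spec {Y : Type} (f : Y → ℕ) (a : Y) (S : List Y) :
    (argmin1 f a S = a ∨ argmin1 f a S ∈ S) ∧ f (argmin1 f a S) ≤ f a ∧
      ∀ s ∈ S, f (argmin1 f a S) ≤ f s := by
  induction S generalizing a with
  | nil => exact ⟨Or.inl rfl, le_rfl, by simp only [List.not_mem_nil, IsEmpty.forall_iff, implies_true]⟩
  | cons b S ih =>
    have h : argmin1 f a (b :: S) = argmin1 f (if f b < f a then b else a) S := rfl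
    rw [h]
    obtain ⟨h1, h2, h3⟩ := ih (if f b < f a then b else a)
    by_cases hb : f b < f a
    · rw [if_pos hb] at h1 h2 h3 ⊢
      refine ⟨Or.inr ?_, h2.trans hb.le, ?_⟩
      · rcases h1 with h1 | h1
        · rw [h1]; exact List.mem_cons_self
        · exact List.mem_cons_of_mem _ h1
      · intro s hs
        rcases List.mem_cons.1 hs with rfl | hs
        · exact h2
        · exact h3 s hs
    · rw [if_neg hb] at h1 h2 h3 ⊢
      refine ⟨h1.imp id (List.mem_cons_of_mem _), h2, ?_⟩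
      intro s hs
      rcases List.mem_cons.1 hs with rfl | hs
      · exact h2.trans (not_lt.1 hb)
      · exact h3 s hs

theorem argmin_mem {Y : Type} (f : Y → ℕ) (a : Y) {S : List Y} (hS : S ≠ []) :
    argmin f a S ∈ S ∧ ∀ s ∈ S, f (argmin f a S) ≤ f s := by
  unfold argmin
  obtain ⟨b, S', rfl⟩ := List.exists_cons_of_ne_nil hS
  rw [List.headD_cons]
  obtain ⟨h1, h2, h3⟩ := argmin1_spec f b (b :: S')
  refine ⟨?_, h3⟩
  rcases h1 with h1 | h1
  · rw [h1]; exact List.mem_cons_self
  · exact h1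

variable {X : Type} [DecidableEq X]

theorem bestOf_spec (d : X → X → ℕ) (D : ℕ) (J F : List X) (k : ℕ) (L : List (List X))
    (hk : 1 ≤ k) (hF : F ≠ []) :
    bestOf d D J F k L ≠ [] ∧ (bestOf d D J F k L).length ≤ k ∧
    (bestOf d D J F k L ∈ L ∨ bestOf d D J F k L = F.take 1) ∧
    cst d D J (bestOf d D J F k L) ≤ cst d D J (F.take 1) ∧
    ∀ T ∈ L, T ≠ [] → T.length ≤ k → cst d D J (bestOf d D J F k L) ≤ cst d D J T := by
  obtain ⟨h1, h2, h3⟩ := argmin1_spec (cst d D J) (F.take 1)
    (L.filter (fun T => decide (T.length ≤ k ∧ T ≠ [])))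
  have hb : bestOf d D J F k L = argmin1 (cst d D J) (F.take 1)
    (L.filter (fun T => decide (T.length ≤ k ∧ T ≠ []))) := rfl
  rw [← hb] at h1 h2 h3
  have hF1 : F.take 1 ≠ [] ∧ (F.take 1).length ≤ k := by
    obtain ⟨a, F', rfl⟩ := List.exists_cons_of_ne_nil hF
    exact ⟨by simp, by simpa only [List.take_succ_cons, List.take_zero, List.length_cons, List.length_nil, zero_add] using hk⟩
  have hmem : ∀ T, T ∈ L.filter (fun T => decide (T.length ≤ k ∧ T ≠ [])) ↔
      T ∈ L ∧ T.length ≤ k ∧ T ≠ [] := by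
    intro T
    rw [List.mem_filter, decide_eq_true_eq]
  refine ⟨?_, ?_, ?_, h2, ?_⟩
  · rcases h1 with h1 | h1
    · rw [h1]; exact hF1.1
    · exact ((hmem _).1 h1).2.2
  · rcases h1 with h1 | h1
    · rw [h1]; exact hF1.2
    · exact ((hmem _).1 h1).2.1
  · rcases h1 with h1 | h1
    · exact Or.inr h1
    · exact Or.inl ((hmem _).1 h1).1
  · intro T hT h4 h5
    exact h3 T ((hmem T).2 ⟨hT, h5, h4⟩)

theorem addAll_spec (Q T : List X) (hT : T.Nodup) :
    (addAll Q T).Nodup ∧ (∀ x, x ∈ addAll Q T ↔ x ∈ Q ∨ x ∈ T) ∧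
      (addAll Q T).length ≤ Q.length + T.length := by
  induction Q with
  | nil => exact ⟨hT, by simp only [addAll, List.foldr_nil, List.not_mem_nil, false_or, implies_true], by simp [addAll]⟩
  | cons q Q ih =>
    have h : addAll (q :: Q) T = if q ∈ addAll Q T then addAll Q T else q :: addAll Q T := rfl
    rw [h]
    obtain ⟨h1, h2, h3⟩ := ih
    by_cases hq : q ∈ addAll Q T
    · rw [if_pos hq]
      refine ⟨h1, ?_, ?_⟩
      · intro x
        rw [h2, List.mem_cons]
        have := (h2 q).1 hq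
        constructor
        · rintro (h | h)
          · exact Or.inl (Or.inr h)
          · exact Or.inr h
        · rintro ((rfl | h) | h)
          · exact this
          · exact Or.inl h
          · exact Or.inr h
      · rw [List.length_cons]; omega
    · rw [if_neg hq]
      refine ⟨List.nodup_cons.2 ⟨hq, h1⟩, ?_, ?_⟩
      · intro x
        rw [List.mem_cons, h2, List.mem_cons, or_assoc]
      · rw [List.length_cons, List.length_cons]; omega

theorem mem_cands (d : X → X → ℕ) (D : ℕ) (x0 : X) (J F S : List X) (tq tz : ℕ)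
    (r1 r2 r3 r4 : ℕ → ℕ) (T : List X) :
    T ∈ cands d D x0 J F S tq tz r1 r2 r3 r4 ↔ ∃ z ≤ tz, ∃ h ≤ tq,
      T = cand1s d D x0 J F S r1 z h ∨ T = cand2 d D x0 J F S tz r1 r2 r3 r4 z h := by
  unfold cands
  simp only [List.mem_flatMap, List.mem_range, List.mem_cons, List.not_mem_nil, or_false]
  constructor
  · rintro ⟨z, hz, h, hh, hT⟩
    exact ⟨z, by (clear * - hz; omega), h, by omega, hT⟩
  · rintro ⟨z, hz, h, hh, hT⟩
    exact ⟨z, by omega, h, by omega, hT⟩

theorem two_pow_size_le {n : ℕ} (hn : 1 ≤ n) : 2 ^ Nat.size n ≤ 2 * n := by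
  have h1 : Nat.size n = Nat.size n - 1 + 1 := by
    have : 0 < Nat.size n := Nat.size_pos.2 hn
    omega
  have h2 : 2 ^ (Nat.size n - 1) ≤ n := Nat.lt_size.1 (by omega)
  calc 2 ^ Nat.size n = 2 * 2 ^ (Nat.size n - 1) := by
        conv_lhs => rw [h1]
        rw [pow_succ]; ring
    _ ≤ 2 * n := Nat.mul_le_mul_left _ h2

end

end Vale.Agent.P334.Alg
end

section

/-!
Algorithm 2: from the hidden target and good random choices to the bound for the cost.
-/

namespace Vale.Agent.P334.Alg.LB

open A1 Finset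

section

variable {X : Type}

theorem cap_le_blue {d : X → X → ℕ} {t : ℕ} {B : List X} {anch e : List (X × ℕ)} {c : X × ℕ}
    (hc : c ∈ e) {b : X} (hb : b ∈ B) : A2.cap d t B anch e ≤ c.2 * d c.1 b := by
  have h1 : A2.cap d t B anch e ≤ wdS d t e B := fmin_le_cap (wv d t e) _ _
  have h2 : wdS d t e B ≤ wd d t e b := fmin_le (wd d t e) _ hb
  have h3 : wd d t e b ≤ c.2 * d c.1 b := fmin_le (fun c : X × ℕ => c.2 * d c.1 b) _ hc
  exact h1.trans (h2.trans h3)

theorem cap_le_anchor {d : X → X → ℕ} {t : ℕ} {B : List X} {anch e : List (X × ℕ)} {c : X × ℕ}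
    (hc : c ∈ e) {a : X × ℕ} (ha : a ∈ anch) :
    A2.cap d t B anch e ≤ c.2 * (d c.1 a.1 + a.2) := by
  have h1 : A2.cap d t B anch e ≤ wv d t e a := fmin_le (wv d t e) _ ha
  have h3 : wv d t e a ≤ c.2 * (d c.1 a.1 + a.2) :=
    fmin_le (fun c : X × ℕ => c.2 * (d c.1 a.1 + a.2)) _ hc
  exact h1.trans h3

theorem fmin_le_mem {d : X → X → ℕ} {t b : ℕ} {e : List (X × ℕ)} {c : X × ℕ} (hc : c ∈ e)
    {Q : List X} {q : X} (hq : q ∈ Q) : fmin (wd d t e) b Q ≤ c.2 * d c.1 q := by
  have h1 : fmin (wd d t e) b Q ≤ wd d t e q := fmin_le _ _ hq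
  have h3 : wd d t e q ≤ c.2 * d c.1 q :=
    fmin_le (fun c : X × ℕ => c.2 * d c.1 q) _ hc
  exact h1.trans h3

theorem fib [DecidableEq X] (A T : Finset X) (σ : X → X) (w : X → ℝ) :
    ∑ s ∈ T, ∑ j ∈ A.filter (fun j => σ j = s), w j = ∑ j ∈ A, if σ j ∈ T then w j else 0 := by
  simp only [Finset.sum_filter]
  rw [Finset.sum_comm]
  refine Finset.sum_congr rfl fun j _ => ?_
  rw [Finset.sum_ite_eq]

end

end LB

open A1 Finset LB

set_option maxHeartbeats 1000000 in
theorem levelBSpec : LevelBSpec := by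
  intro X _ _ d D J F hI x0 S T0 τ tz K Q e v G hSn hSF hS _ hTF hT0 htz hH
  classical
  have htri : ∀ a b c, d a c ≤ d a b + d b c := by
    intro a b c
    have := dist_triangle a b c
    rw [hI.hd, hI.hd, hI.hd] at this
    exact_mod_cast this
  have hsym : ∀ a b, d a b = d b a := by
    intro a b
    have := dist_comm a b
    rw [hI.hd, hI.hd] at this
    exact_mod_cast this
  have hds : ∀ j, d j (A1.near d x0 S j) = mins d D j S := d_near d D x0 hS hI.hD
  have hcS : (cst d D J S : ℝ) = cost J.toFinset S.toFinset :=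
    cst_real hI.hd hI.hJ hS fun _ _ _ _ => hI.hD _ _
  have hmS : ∀ j, (mins d D j S : ℝ) = Metric.infDist j (S.toFinset : Set X) := fun j =>
    mins_real hI.hd hS fun _ _ => hI.hD _ _
  have hKS : ∀ t ∈ K, t ∈ S := fun t ht => List.mem_toFinset.1 (hH.K_sub ht)
  have hkz : (S.toFinset \ K).card ≤ tz := by
    refine le_trans (Finset.card_le_card ?_) htz
    intro s hs
    rw [Finset.mem_sdiff] at hs ⊢
    exact ⟨hs.1, fun h' => hs.2 (hH.inter_sub (Finset.mem_inter.2 ⟨hs.1, h'⟩))⟩
  have hQF : ∀ q ∈ Q, q ∈ F := fun q hq =>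
    List.mem_toFinset.1 (hTF (Finset.mem_sdiff.1 (hH.Q_sub hq)).1)
  -- the radius term
  obtain ⟨rr, hrr⟩ : ∃ rr : X → ℝ, rr = fun t => if t ∈ Q then 231 / 200 * v t else 0 :=
    ⟨_, rfl⟩
  have hrrQ : ∀ t ∈ Q, rr t = 231 / 200 * v t := fun t ht => by rw [hrr]; exact if_pos ht
  have hrr0 : ∀ t, t ∉ Q → rr t = 0 := fun t ht => by rw [hrr]; exact if_neg ht
  have hrrn : ∀ t, 0 ≤ rr t := by
    intro t
    by_cases ht : t ∈ Q
    · rw [hrrQ t ht]
      have := hH.v_pos t ht
      (clear * - this; positivity)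
    · rw [hrr0 t ht]
  have hmem : ∀ j ∈ J, e j ∈ K ∪ Q := fun j hj => hH.e_mem j (List.mem_toFinset.2 hj)
  have hne : (K ∪ Q).Nonempty := by
    obtain ⟨j, hj⟩ := List.exists_mem_of_ne_nil J hI.hJ0
    exact ⟨_, hmem j hj⟩
  -- the targets of the elements of `S` outside `K`
  set Bg := bigS d D x0 J S tz with hBg
  set Sm := A2.small Bg S with hSm
  have hmSm : ∀ s, s ∈ Sm ↔ s ∈ S ∧ s ∉ Bg := fun s => A2.mem_small
  have hmBg : ∀ s, s ∈ Bg ↔ s ∈ S ∧ cst d D J S ≤ 2000 * tz * cA d x0 J S s := by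
    intro s
    rw [hBg]
    unfold bigS
    rw [List.mem_filter, decide_eq_true_eq]
  have hex : ∀ s, ∃ t, (s ∈ Sm → t ∈ K ∪ Q ∧
      ∀ t' ∈ K ∪ Q, (d s t : ℝ) + 4 / 5 * rr t ≤ d s t' + 4 / 5 * rr t') ∧
      (s ∉ Sm → K.Nonempty → t ∈ K ∧ ∀ t' ∈ K, d s t ≤ d s t') := by
    intro s
    by_cases hs : s ∈ Sm
    · obtain ⟨t, ht, h⟩ := Finset.exists_min_image (K ∪ Q)
        (fun t => (d s t : ℝ) + 4 / 5 * rr t) hne
      exact ⟨t, fun _ => ⟨ht, h⟩, fun h' => absurd hs h'⟩
    · by_cases hK : K.Nonempty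
      · obtain ⟨t, ht, h⟩ := Finset.exists_min_image K (fun t => d s t) hK
        exact ⟨t, fun h' => absurd h' hs, fun _ _ => ⟨ht, h⟩⟩
      · exact ⟨s, fun h' => absurd h' hs, fun _ h' => absurd h' hK⟩
  choose g hg1 hg2 using hex
  refine ⟨(S.toFinset \ K).image g ∩ (Sm.toFinset ∩ K), Finset.inter_subset_right,
    (Finset.card_le_card Finset.inter_subset_left).trans (Finset.card_image_le.trans hkz), ?_⟩
  set Cr := (S.toFinset \ K).image g ∩ (Sm.toFinset ∩ K) with hCr
  intro z χ Zb os p R hz hbij hcr hloss hZb hosn hosQ hpR T hT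
  rw [sdiff_sdiff_right_self, Finset.inf_eq_inter] at hloss
  have hmZ : ∀ s, s ∈ Zb ↔ s ∈ Bg ∧ s ∉ K := by
    intro s
    rw [hZb, List.mem_filter, decide_eq_true_eq]
  have hosm : ∀ o, o ∈ os ↔ o ∈ Q := fun o => by rw [← hosQ, List.mem_toFinset]
  set Bl := A2.blue2 χ z Bg Zb S with hBl
  have hmBl : ∀ s, s ∈ Bl ↔ s ∈ S ∧ s ∉ Zb ∧ (s ∈ Bg ∨ z ≤ χ s) := fun s => A2.mem_blue2
  have hKpc : ∀ t ∈ K, t ∈ Bl ∨ (t ∈ Sm ∧ χ t < z) := by
    intro t ht
    have htS := hKS t ht
    have htZ : t ∉ Zb := fun h => ((hmZ t).1 h).2 ht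
    by_cases hb : t ∈ Bg
    · left
      rw [hmBl]
      exact ⟨htS, htZ, Or.inl hb⟩
    · have hts : t ∈ Sm := (hmSm t).2 ⟨htS, hb⟩
      by_cases hc : z ≤ χ t
      · exact Or.inl ((hmBl t).2 ⟨htS, htZ, Or.inr hc⟩)
      · exact Or.inr ⟨hts, not_le.1 hc⟩
  have hgbl : ∀ s ∈ S, s ∉ K → g s ∈ K → g s ∈ Bl := by
    intro s hs hsK hgK
    rcases hKpc (g s) hgK with h | ⟨h1, h2⟩
    · exact h
    · exfalso
      have h3 : g s ∈ Cr := by
        rw [hCr, Finset.mem_inter, Finset.mem_inter]
        refine ⟨Finset.mem_image_of_mem g (Finset.mem_sdiff.2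
          ⟨List.mem_toFinset.2 hs, hsK⟩), List.mem_toFinset.2 h1, hgK⟩
      exact absurd (hcr _ h3) (not_le.2 h2)
  -- bounds for an element
  obtain ⟨cp, hcp⟩ : ∃ cp : List (X × ℕ) → ℕ, cp = A2.cap d (topOf D J) Bl
    (os.map fun o => (p o, R o)) := ⟨_, rfl⟩
  obtain ⟨mo, hmo⟩ : ∃ mo : List (X × ℕ) → ℕ, mo = fun el => fmin (wd d (topOf D J) el)
    (cp el) os := ⟨_, rfl⟩
  have elQ : ∀ el : List (X × ℕ), ∀ c ∈ el, ∀ f ∈ Q,
      2 * (cp el : ℝ) + 3 * (mo el : ℝ) ≤ 5 * (c.2 * ((d c.1 f : ℝ) + 4 / 5 * rr f)) := by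
    intro el c hc f hf
    have hfo := (hosm f).2 hf
    obtain ⟨_, hpd, hpR'⟩ := hpR f hf
    have h1 : cp el ≤ c.2 * (d c.1 (p f) + R f) := by
      rw [hcp]
      exact cap_le_anchor (a := (p f, R f)) hc
        (List.mem_map_of_mem (f := fun o => (p o, R o)) hfo)
    have h2 : mo el ≤ c.2 * d c.1 f := by
      rw [hmo]
      exact fmin_le_mem hc hfo
    have h3 : d c.1 (p f) + R f ≤ d c.1 f + 2 * R f := by
      have h4 := htri c.1 f (p f)
      rw [hsym f (p f)] at h4
      omega
    have h4 : (cp el : ℝ) ≤ c.2 * ((d c.1 f : ℝ) + 2 * rr f) := by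
      have h5 : cp el ≤ c.2 * (d c.1 f + 2 * R f) := h1.trans (Nat.mul_le_mul_left _ h3)
      have h6 : (cp el : ℝ) ≤ c.2 * ((d c.1 f : ℝ) + 2 * (R f : ℝ)) := by exact_mod_cast h5
      have h7 : (R f : ℝ) ≤ rr f := by
        rw [hrrQ f hf]
        exact hpR'
      refine h6.trans (mul_le_mul_of_nonneg_left ?_ (Nat.cast_nonneg _))
      linarith only [h7]
    have h5 : (mo el : ℝ) ≤ c.2 * (d c.1 f : ℝ) := by exact_mod_cast h2
    linarith only [h4, h5]
  have elB : ∀ el : List (X × ℕ), ∀ c ∈ el, ∀ f ∈ Bl,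
      2 * (cp el : ℝ) + 3 * (mo el : ℝ) ≤ 5 * (c.2 * (d c.1 f : ℝ)) := by
    intro el c hc f hf
    have h1 : cp el ≤ c.2 * d c.1 f := by
      rw [hcp]
      exact cap_le_blue hc hf
    have h2 : mo el ≤ cp el := by
      rw [hmo]
      exact fmin_le_cap _ _ _
    have h3 : (cp el : ℝ) ≤ c.2 * (d c.1 f : ℝ) := by exact_mod_cast h1
    have h4 : (mo el : ℝ) ≤ cp el := by exact_mod_cast h2
    linarith only [h3, h4]
  -- the loss
  obtain ⟨L, hL⟩ : ∃ L : X → ℝ, L = fun j => if e j ∈ (Sm.toFinset ∩ K) \ Cr then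
      (if χ (e j) < z then 2 * (d j (e j) : ℝ) else 0) else 0 := ⟨_, rfl⟩
  have hLn : ∀ j, 0 ≤ L j := by
    intro j
    rw [hL]
    beta_reduce
    split_ifs <;> (clear * -; positivity)
  have hLsum : ∑ j ∈ J.toFinset, L j ≤ 1 / 3000 * ∑ j ∈ J.toFinset, (d j (e j) : ℝ) := by
    refine le_trans (le_of_eq ?_) hloss
    rw [hL, ← fib J.toFinset ((Sm.toFinset ∩ K) \ Cr) e
      (fun j => if χ (e j) < z then 2 * (d j (e j) : ℝ) else 0)]
    refine Finset.sum_congr rfl fun s _ => ?_
    split_ifs with hs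
    · rw [Finset.mul_sum]
      refine Finset.sum_congr rfl fun j hj => ?_
      rw [(Finset.mem_filter.1 hj).2, if_pos hs]
    · refine Finset.sum_eq_zero fun j hj => ?_
      rw [(Finset.mem_filter.1 hj).2, if_neg hs]
  -- clients
  have hcli : ∀ j ∈ J, A1.near d x0 S j ∈ Zb →
      2 * (cp [(j, 1)] : ℝ) + 3 * (mo [(j, 1)] : ℝ) ≤
        5 * (d j (e j) : ℝ) + 4 * rr (e j) + 5 * L j := by
    intro j hj hjZ
    have hc : ((j, 1) : X × ℕ) ∈ [((j, 1) : X × ℕ)] := List.mem_singleton_self _
    by_cases hQ : e j ∈ Q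
    · have h1 := elQ _ _ hc (e j) hQ
      have h2 := hLn j
      simp only [Nat.cast_one, one_mul] at h1
      linarith only [h2, h1]
    · have hK : e j ∈ K := (Finset.mem_union.1 (hmem j hj)).resolve_right hQ
      rw [hrr0 _ hQ]
      rcases hKpc (e j) hK with h | ⟨h1, h2⟩
      · have h1 := elB _ _ hc (e j) h
        have h2 := hLn j
        simp only [Nat.cast_one, one_mul] at h1
        linarith only [h2, h1]
      · have h3 : e j ∉ Cr := fun h => absurd (hcr _ h) (not_le.2 h2)
        have h4 : L j = 2 * (d j (e j) : ℝ) := by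
          rw [hL]
          beta_reduce
          rw [if_pos, if_pos h2]
          exact Finset.mem_sdiff.2 ⟨Finset.mem_inter.2 ⟨List.mem_toFinset.2 h1, hK⟩, h3⟩
        have h5 := (hmZ _).1 hjZ
        have h6 : A1.near d x0 S j ∉ Sm := fun h => ((hmSm _).1 h).2 h5.1
        obtain ⟨h7, h8⟩ := hg2 _ h6 ⟨_, hK⟩
        have h9 := elB _ _ hc _ (hgbl _ ((hmBg _).1 h5.1).1 h5.2 h7)
        have h10 := h8 _ hK
        have h11 : d j (g (A1.near d x0 S j)) ≤ 3 * d j (e j) := by
          have h12 := htri j (A1.near d x0 S j) (g (A1.near d x0 S j))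
          have h13 := htri (A1.near d x0 S j) j (e j)
          have h14 := near_le d x0 j (hKS _ hK)
          rw [hsym (A1.near d x0 S j) j] at h13
          omega
        have h12 : (d j (g (A1.near d x0 S j)) : ℝ) ≤ 3 * d j (e j) := by exact_mod_cast h11
        simp only [Nat.cast_one, one_mul] at h9
        rw [h4]
        linarith only [h12, h9]
  -- colors
  have hcolS : ∀ s ∈ Sm.toFinset \ K,
      2 * (cp (colEl (wgt d x0 J S) χ Sm (χ s)) : ℝ) +
        3 * (mo (colEl (wgt d x0 J S) χ Sm (χ s)) : ℝ) ≤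
        ∑ j ∈ J.toFinset.filter (fun j => A1.near d x0 S j = s),
          (5 * (mins d D j S : ℝ) + 5 * (d j (e j) : ℝ) + 4 * rr (e j)) := by
    intro s hs
    obtain ⟨hs1, hsK⟩ := Finset.mem_sdiff.1 hs
    have hs1 := List.mem_toFinset.1 hs1
    have hsS := ((hmSm s).1 hs1).1
    have hc : ((s, wgt d x0 J S s) : X × ℕ) ∈ colEl (wgt d x0 J S) χ Sm (χ s) := by
      unfold colEl
      exact List.mem_map.2 ⟨s, mem_cls.2 ⟨hs1, rfl⟩, rfl⟩
    obtain ⟨hg3, hg4⟩ := hg1 s hs1
    have h1 : 2 * (cp (colEl (wgt d x0 J S) χ Sm (χ s)) : ℝ) +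
        3 * (mo (colEl (wgt d x0 J S) χ Sm (χ s)) : ℝ) ≤
        5 * ((wgt d x0 J S s : ℝ) * ((d s (g s) : ℝ) + 4 / 5 * rr (g s))) := by
      by_cases hQ : g s ∈ Q
      · exact elQ _ _ hc _ hQ
      · have hK : g s ∈ K := (Finset.mem_union.1 hg3).resolve_right hQ
        have h2 := elB _ _ hc _ (hgbl s hsS hsK hK)
        rw [hrr0 _ hQ, mul_zero, add_zero]
        exact h2
    refine h1.trans ?_
    have h2 : (wgt d x0 J S s : ℝ) * ((d s (g s) : ℝ) + 4 / 5 * rr (g s)) =
        ∑ j ∈ J.toFinset.filter (fun j => A1.near d x0 S j = s),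
          ((d s (g s) : ℝ) + 4 / 5 * rr (g s)) := by
      rw [Finset.sum_const, nsmul_eq_mul]
      congr 2
      unfold wgt
      rw [List.countP_eq_length_filter, ← List.toFinset_card_of_nodup (hI.hJ.filter _),
        List.toFinset_filter]
      simp only [decide_eq_true_eq]
    rw [h2, Finset.mul_sum]
    refine Finset.sum_le_sum fun j hj => ?_
    obtain ⟨hj1, hj2⟩ := Finset.mem_filter.1 hj
    have h3 := hg4 _ (hmem j (List.mem_toFinset.1 hj1))
    have h4 := htri s j (e j)
    have h5 := hds j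
    rw [hj2, hsym] at h5
    have h6 : (d s (e j) : ℝ) ≤ mins d D j S + d j (e j) := by
      rw [h5] at h4
      exact_mod_cast h4
    linarith only [h3, h6]
  -- nonempty
  have hBne : Bl ++ os ≠ [] := by
    by_cases hQ : Q.Nonempty
    · obtain ⟨f, hf⟩ := hQ
      exact List.ne_nil_of_mem (List.mem_append_right _ ((hosm f).2 hf))
    · have hQ0 : Q = ∅ := Finset.not_nonempty_iff_eq_empty.1 hQ
      have hKne : K.Nonempty := by
        rw [hQ0, Finset.union_empty] at hne
        exact hne
      suffices h : ∃ b, b ∈ Bl by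
        obtain ⟨b, hb⟩ := h
        exact List.ne_nil_of_mem (List.mem_append_left _ hb)
      by_cases hall : ∀ s ∈ S, s ∈ K
      · obtain ⟨t, ht⟩ := hKne
        rcases hKpc t ht with h | ⟨_, h2⟩
        · exact ⟨t, h⟩
        · exfalso
          have h3 : Sm.toFinset \ K = ∅ := by
            rw [Finset.sdiff_eq_empty_iff_subset]
            intro s hs
            exact hall s ((hmSm s).1 (List.mem_toFinset.1 hs)).1
          rw [h3, Finset.card_empty] at hz
          omega
      · push Not at hall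
        obtain ⟨s, hs, hsK⟩ := hall
        by_cases hsm : s ∈ Sm
        · have h1 := (hg1 s hsm).1
          rw [hQ0, Finset.union_empty] at h1
          exact ⟨_, hgbl s hs hsK h1⟩
        · have h1 := (hg2 s hsm hKne).1
          exact ⟨_, hgbl s hs hsK h1⟩
  -- lengths
  have hlen : (S.filter (fun s => decide (s ∈ Zb))).length + z + K.card = S.length := by
    have h0 : ((S.filter (fun s => decide (s ∈ Zb))).toFinset : Finset X) = Zb.toFinset := by
      ext s
      rw [List.mem_toFinset, List.mem_toFinset, List.mem_filter, decide_eq_true_eq]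
      exact ⟨fun h => h.2, fun h => ⟨((hmBg s).1 ((hmZ s).1 h).1).1, h⟩⟩
    have h1 : Zb.toFinset ∪ (Sm.toFinset \ K) ∪ K = S.toFinset := by
      ext s
      rw [Finset.mem_union, Finset.mem_union, Finset.mem_sdiff, List.mem_toFinset,
        List.mem_toFinset, List.mem_toFinset, hmZ, hmSm]
      constructor
      · rintro ((⟨h1, _⟩ | ⟨⟨h1, _⟩, _⟩) | h1)
        · exact ((hmBg s).1 h1).1
        · exact h1
        · exact hKS s h1
      · intro h1
        by_cases hK : s ∈ K
        · exact Or.inr hK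
        · by_cases hb : s ∈ Bg
          · exact Or.inl (Or.inl ⟨hb, hK⟩)
          · exact Or.inl (Or.inr ⟨⟨h1, hb⟩, hK⟩)
    have h2 : Disjoint Zb.toFinset (Sm.toFinset \ K) := by
      rw [Finset.disjoint_left]
      intro s h3 h4
      rw [List.mem_toFinset, hmZ] at h3
      rw [Finset.mem_sdiff, List.mem_toFinset, hmSm] at h4
      exact h4.1.2 h3.1
    have h3 : Disjoint (Zb.toFinset ∪ (Sm.toFinset \ K)) K := by
      rw [Finset.disjoint_left]
      intro s h3 h4
      rw [Finset.mem_union, List.mem_toFinset, hmZ, Finset.mem_sdiff] at h3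
      rcases h3 with h3 | h3
      · exact h3.2 h4
      · exact h3.2 h4
    rw [← List.toFinset_card_of_nodup hSn, ← h1, Finset.card_union_of_disjoint h3,
      Finset.card_union_of_disjoint h2, ← h0, List.toFinset_card_of_nodup (hSn.filter _), hz]
  -- the bound
  have hA : (cst d D J S : ℝ) = ∑ j ∈ J.toFinset, (mins d D j S : ℝ) := by
    unfold cst
    rw [← List.sum_toFinset _ hI.hJ]
    push_cast
    rfl
  have hA0 : (0 : ℝ) ≤ cst d D J S := Nat.cast_nonneg _
  -- small clusters
  have hsmall : ∑ j ∈ J.toFinset, (if A1.near d x0 S j ∈ Sm.toFinset \ K then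
      (mins d D j S : ℝ) else 0) ≤ (cst d D J S : ℝ) / 2000 := by
    rw [← fib]
    have h3 : (Sm.toFinset \ K).card ≤ tz := by
      refine (Finset.card_le_card ?_).trans hkz
      intro s hs
      rw [Finset.mem_sdiff, List.mem_toFinset] at hs ⊢
      exact ⟨((hmSm s).1 hs.1).1, hs.2⟩
    have h1 : ∀ s ∈ Sm.toFinset \ K, (tz : ℝ) * ∑ j ∈ J.toFinset.filter
        (fun j => A1.near d x0 S j = s), (mins d D j S : ℝ) ≤ (cst d D J S : ℝ) / 2000 := by
      intro s hs
      have h2 := List.mem_toFinset.1 (Finset.mem_sdiff.1 hs).1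
      have h3 := (hmSm s).1 h2
      have h4 : 2000 * tz * cA d x0 J S s < cst d D J S := by
        by_contra h
        exact h3.2 ((hmBg s).2 ⟨h3.1, not_lt.1 h⟩)
      have h5 : (cA d x0 J S s : ℝ) = ∑ j ∈ J.toFinset.filter
          (fun j => A1.near d x0 S j = s), (mins d D j S : ℝ) := by
        unfold cA
        rw [← List.sum_toFinset _ (hI.hJ.filter _), List.toFinset_filter]
        push_cast
        simp only [decide_eq_true_eq]
        refine Finset.sum_congr rfl fun j hj => ?_
        rw [← hds j, (Finset.mem_filter.1 hj).2]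
      have h6 : ((2000 * tz * cA d x0 J S s : ℕ) : ℝ) ≤ cst d D J S := by
        exact_mod_cast h4.le
      push_cast at h6
      rw [← h5]
      linarith only [h6]
    rcases Nat.eq_zero_or_pos tz with h0 | h0
    · rw [h0] at h3
      rw [Finset.card_eq_zero.1 (Nat.le_zero.1 h3), Finset.sum_empty]
      positivity
    · have h2 : (tz : ℝ) * ∑ s ∈ Sm.toFinset \ K, ∑ j ∈ J.toFinset.filter
          (fun j => A1.near d x0 S j = s), (mins d D j S : ℝ) ≤
          tz * ((cst d D J S : ℝ) / 2000) := by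
        rw [Finset.mul_sum]
        refine (Finset.sum_le_sum h1).trans ?_
        rw [Finset.sum_const, nsmul_eq_mul]
        refine mul_le_mul_of_nonneg_right ?_ (by positivity)
        exact_mod_cast h3
      exact le_of_mul_le_mul_left h2 (by exact_mod_cast h0)
  -- saturation
  have hsat := hH.sat (J.toFinset.filter (fun j => A1.near d x0 S j ∈ K)) (Finset.filter_subset _ _)
  rw [Finset.sum_filter, Finset.sum_filter, ← hcS] at hsat
  simp only [← hmS, hI.hd] at hsat
  have hmain := hH.total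
  rw [← hcS] at hmain
  simp only [hI.hd] at hmain
  rw [Finset.sum_filter] at hmain
  -- the sums over the elements
  have hE : ∀ f : List (X × ℕ) → ℕ, (((A2.elts d x0 J S Bg Zb χ z).map f).sum : ℝ) =
      ∑ j ∈ J.toFinset, (if A1.near d x0 S j ∈ Zb then (f [(j, 1)] : ℝ) else 0) +
      ∑ s ∈ Sm.toFinset \ K, (f (colEl (wgt d x0 J S) χ Sm (χ s)) : ℝ) := by
    intro f
    unfold A2.elts
    rw [List.map_append, List.sum_append, List.map_map, List.map_map,
      ← List.sum_toFinset _ (hI.hJ.filter _), ← List.sum_toFinset _ List.nodup_range,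
      List.toFinset_filter, List.toFinset_range]
    push_cast
    congr 1
    · rw [Finset.sum_filter]
      refine Finset.sum_congr rfl fun j _ => ?_
      by_cases h : A1.near d x0 S j ∈ Zb
      · rw [if_pos h, if_pos (by simpa using h)]
        rfl
      · rw [if_neg h, if_neg (by simpa only [decide_eq_true_eq] using h)]
    · symm
      refine Finset.sum_nbij (fun s => χ s) ?_ ?_ ?_ ?_
      · intro s hs
        exact Finset.mem_range.2 (hbij.mapsTo (Finset.mem_coe.2 hs))
      · exact hbij.injOn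
      · intro a ha
        exact hbij.surjOn (Finset.mem_range.1 (Finset.mem_coe.1 ha))
      · intro s _
        rfl
  have hK0 : (((J.filter (fun j => decide (A1.near d x0 S j ∉ Zb))).map
      (fun j => mins d D j S)).sum : ℝ) =
      ∑ j ∈ J.toFinset, (if A1.near d x0 S j ∈ Zb then (0 : ℝ) else mins d D j S) := by
    rw [← List.sum_toFinset _ (hI.hJ.filter _), List.toFinset_filter]
    push_cast
    rw [Finset.sum_filter]
    refine Finset.sum_congr rfl fun j _ => ?_
    by_cases h : A1.near d x0 S j ∈ Zb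
    · rw [if_pos h, if_neg (by simpa using h)]
    · rw [if_neg h, if_pos (by simpa using h)]
  have hfin : ((5 * ((J.filter (fun j => decide (A1.near d x0 S j ∉ Zb))).map
      (fun j => mins d D j S)).sum + (2 * ((A2.elts d x0 J S Bg Zb χ z).map cp).sum +
      3 * ((A2.elts d x0 J S Bg Zb χ z).map mo).sum) : ℕ) : ℝ) ≤
      5 * (199 / 100 * cost J.toFinset T0) := by
    rw [Nat.cast_add, Nat.cast_mul, Nat.cast_add, Nat.cast_mul, Nat.cast_mul, hE, hE, hK0]
    have hcol2 := Finset.sum_le_sum hcolS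
    rw [fib, Finset.sum_add_distrib] at hcol2
    rw [← Finset.mul_sum, ← Finset.mul_sum] at hcol2
    have hcli2 : ∑ j ∈ J.toFinset, (2 * (if A1.near d x0 S j ∈ Zb then
          (cp [(j, 1)] : ℝ) else 0) +
        3 * (if A1.near d x0 S j ∈ Zb then (mo [(j, 1)] : ℝ) else 0)) ≤
        ∑ j ∈ J.toFinset, (if A1.near d x0 S j ∈ Zb then
          5 * (d j (e j) : ℝ) + 4 * rr (e j) + 5 * L j else 0) := by
      refine Finset.sum_le_sum fun j hj => ?_
      split_ifs with h
      · exact hcli j (List.mem_toFinset.1 hj) h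
      · simp
    rw [Finset.sum_add_distrib, ← Finset.mul_sum, ← Finset.mul_sum] at hcli2
    have hpt : ∑ j ∈ J.toFinset, (5 * (if A1.near d x0 S j ∈ Zb then (0 : ℝ) else mins d D j S) +
          (if A1.near d x0 S j ∈ Zb then 5 * (d j (e j) : ℝ) + 4 * rr (e j) + 5 * L j else 0) +
          (if A1.near d x0 S j ∈ Sm.toFinset \ K then
            5 * (mins d D j S : ℝ) + 5 * (d j (e j) : ℝ) + 4 * rr (e j) else 0)) ≤
        ∑ j ∈ J.toFinset, (5 * (if A1.near d x0 S j ∈ K then (mins d D j S : ℝ) else 0) -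
          5 * (if A1.near d x0 S j ∈ K then (d j (e j) : ℝ) else 0) +
          10 * (if A1.near d x0 S j ∈ Sm.toFinset \ K then (mins d D j S : ℝ) else 0) +
          5 * (d j (e j) : ℝ) + 4 * rr (e j) + 5 * L j) := by
      refine Finset.sum_le_sum fun j _ => ?_
      have h1 := hLn j
      have h2 := hrrn (e j)
      have hsS := near_mem d x0 hS j
      by_cases hK : A1.near d x0 S j ∈ K
      · have h3 : A1.near d x0 S j ∉ Zb := fun h => ((hmZ _).1 h).2 hK
        have h4 : A1.near d x0 S j ∉ Sm.toFinset \ K := fun h => (Finset.mem_sdiff.1 h).2 hK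
        rw [if_pos hK, if_pos hK, if_neg h3, if_neg h3, if_neg h4, if_neg h4]
        linarith only [h1, h2]
      · by_cases hb : A1.near d x0 S j ∈ Bg
        · have h3 : A1.near d x0 S j ∈ Zb := (hmZ _).2 ⟨hb, hK⟩
          have h4 : A1.near d x0 S j ∉ Sm.toFinset \ K := fun h =>
            ((hmSm _).1 (List.mem_toFinset.1 (Finset.mem_sdiff.1 h).1)).2 hb
          rw [if_neg hK, if_neg hK, if_pos h3, if_pos h3, if_neg h4, if_neg h4]
          linarith only []
        · have h3 : A1.near d x0 S j ∉ Zb := fun h => hb ((hmZ _).1 h).1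
          have h4 : A1.near d x0 S j ∈ Sm.toFinset \ K :=
            Finset.mem_sdiff.2 ⟨List.mem_toFinset.2 ((hmSm _).2 ⟨hsS, hb⟩), hK⟩
          rw [if_neg hK, if_neg hK, if_neg h3, if_neg h3, if_pos h4, if_pos h4]
          linarith only [h1]
    simp only [sum_add_distrib, ← mul_sum, sum_sub_distrib] at hpt
    have hrre : 231 / 250 * ∑ j ∈ J.toFinset, (if e j ∈ Q then v (e j) else 0) =
        4 / 5 * ∑ j ∈ J.toFinset, rr (e j) := by
      rw [Finset.mul_sum, Finset.mul_sum]
      refine Finset.sum_congr rfl fun j _ => ?_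
      by_cases h : e j ∈ Q
      · rw [if_pos h, hrrQ _ h]; ring
      · rw [if_neg h, hrr0 _ h]; ring
    rw [hrre] at hmain
    push_cast
    norm_num at hmain ⊢
    linarith only [hLsum, hsmall, hsat, hcol2, hcli2, hpt, hmain]
  -- the truncation
  have hT0c : cost J.toFinset T0 ≤ J.length * D := by
    obtain ⟨t, ht⟩ := hT0
    have h1 : ∀ j ∈ J.toFinset, Metric.infDist j (T0 : Set X) ≤ D := by
      intro j _
      refine (Metric.infDist_le_dist_of_mem (Finset.mem_coe.2 ht)).trans ?_
      rw [hI.hd]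
      exact_mod_cast hI.hD j t
    unfold cost
    refine (Finset.sum_le_sum h1).trans ?_
    rw [Finset.sum_const, nsmul_eq_mul, List.toFinset_card_of_nodup hI.hJ]
  have htop : 2 * ((A2.elts d x0 J S Bg Zb χ z).map cp).sum +
      3 * ((A2.elts d x0 J S Bg Zb χ z).map mo).sum < 5 * topOf D J := by
    have h1 : ((2 * ((A2.elts d x0 J S Bg Zb χ z).map cp).sum +
      3 * ((A2.elts d x0 J S Bg Zb χ z).map mo).sum : ℕ) : ℝ) < ((5 * topOf D J : ℕ) : ℝ) := by
      have h2 : (0 : ℝ) ≤ ((5 * ((J.filter (fun j => decide (A1.near d x0 S j ∉ Zb))).map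
        (fun j => mins d D j S)).sum : ℕ) : ℝ) := Nat.cast_nonneg _
      rw [Nat.cast_add] at hfin
      have h3 : (0 : ℝ) ≤ (J.length : ℝ) * D := by (clear * -; positivity)
      have h4 : ((5 * topOf D J : ℕ) : ℝ) = 500 * ((J.length : ℝ) * D + 1) := by
        unfold topOf
        push_cast
        ring
      rw [h4]
      linarith only [hfin, hT0c]
    exact_mod_cast h1
  have hLA := A2.alg2_levelA d hsym htri D (topOf D J) hI.hD x0 J F S Bg Zb hSn hS
    (fun s hs => hSF hs) χ z os p R (fun o ho => hQF o ((hosm o).1 ho))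
    (fun o ho => (hpR o ((hosm o).1 ho)).2.1) (fun s hs => ((hmZ s).1 hs).1) hBne
    (by rw [hmo, hcp] at htop; exact htop)
  obtain ⟨h1, h2, h3, h4⟩ := hLA
  rw [hT]
  refine ⟨h1, h3, ?_, ?_⟩
  · have h5 : os.length = Q.card := by
      rw [← hosQ, List.toFinset_card_of_nodup hosn]
    omega
  · rw [hmo, hcp] at hfin
    have h5 : ((5 * cst d D J (A2.alg2 d D (topOf D J) x0 J F S Bg Zb χ z
        (os.map fun o => (p o, R o))) : ℕ) : ℝ) ≤ 5 * (199 / 100 * cost J.toFinset T0) :=
      le_trans (by exact_mod_cast h4) hfin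
    push_cast at h5
    linarith only [h5]

end Vale.Agent.P334.Alg
end

section

set_option linter.all false

/-!
Probability that given bits are right (specification `BitsSpec`).
-/

namespace Vale.Agent.P334.Alg

open Finset

theorem bitsSpec : BitsSpec := by
  intro X _ S N w B Z hS hN hB hw
  classical
  have hidx : ∀ x : {x // x ∈ B}, S.idxOf x.1 < N := by
    intro x
    have h1 : x.1 ∈ S := by
      have := hB x.2
      rwa [List.mem_toFinset] at this
    exact lt_of_lt_of_le (List.idxOf_lt_length_of_mem h1) hN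
  set pos : {x // x ∈ B} → Fin N := fun x => ⟨S.idxOf x.1, hidx x⟩ with hpos
  have hposinj : Function.Injective pos := by
    intro x y h
    have h1 : S.idxOf x.1 = S.idxOf y.1 := congrArg Fin.val h
    have hx : x.1 ∈ S := by
      have := hB x.2
      rwa [List.mem_toFinset] at this
    exact Subtype.ext ((List.idxOf_inj hx).1 h1)
  set T : Finset ({x // x ∈ B} → ℕ) := {fun v => if v.1 ∈ Z then 1 else 0} with hT
  have hTlt : ∀ f ∈ T, ∀ v, f v < 2 := by
    intro f hf v
    rw [hT, Finset.mem_singleton] at hf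
    subst hf
    simp only
    split_ifs <;> omega
  have hlift := card_mod_lift (V := {x // x ∈ B}) (2 ^ w) (fun _ => 2) T hTlt
  set T2 : Finset ({x // x ∈ B} → Fin (2 ^ w)) :=
    univ.filter (fun r : {x // x ∈ B} → Fin (2 ^ w) => (fun v => (r v : ℕ) % 2) ∈ T) with hT2
  have hcomp := card_comp_mem pos hposinj T2
  have hsub : (univ.filter (fun r : Fin N → Fin (2 ^ w) => (fun v => r (pos v)) ∈ T2)).card
      ≤ Nat.card {r : Fin N → Fin (2 ^ w) //
        ∀ s ∈ B, (extN r (S.idxOf s) % 2 = 1 ↔ s ∈ Z)} := by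
    rw [Nat.card_eq_fintype_card, Fintype.card_subtype]
    apply Finset.card_le_card
    intro r hr
    rw [Finset.mem_filter] at hr ⊢
    refine ⟨Finset.mem_univ _, ?_⟩
    have h1 := hr.2
    rw [hT2, Finset.mem_filter, hT, Finset.mem_singleton] at h1
    intro s hs
    have h2 := congrFun h1.2 ⟨s, hs⟩
    simp only at h2
    have h3 : extN r (S.idxOf s) = (r (pos ⟨s, hs⟩) : ℕ) := by
      unfold extN
      rw [dif_pos (hidx ⟨s, hs⟩)]
    rw [h3, h2]
    by_cases hZ : s ∈ Z
    · simp [hZ]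
    · simp only [hZ, ↓reduceIte, zero_ne_one]
  have hBcard : Fintype.card {x // x ∈ B} = B.card := Fintype.card_coe B
  have hBN : B.card ≤ N := by
    have := Fintype.card_le_of_injective pos hposinj
    rwa [hBcard, Fintype.card_fin] at this
  have hTc : T.card = 1 := Finset.card_singleton _
  rw [Finset.prod_const, Finset.card_univ, hBcard, hTc, mul_one] at hlift
  rw [Fintype.card_fin, Fintype.card_fin, hBcard] at hcomp
  have h2w : 2 * (2 ^ w / 2) = 2 ^ w := by
    obtain ⟨u, rfl⟩ : ∃ u, w = u + 1 := ⟨w - 1, by omega⟩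
    rw [pow_succ]; omega
  calc (2 ^ w) ^ N = (2 * (2 ^ w / 2)) ^ B.card * (2 ^ w) ^ (N - B.card) := by
        rw [h2w, ← pow_add]
        congr 1
        (clear * - hidx hBN; omega)
    _ = 2 ^ B.card * ((2 ^ w / 2) ^ B.card * (2 ^ w) ^ (N - B.card)) := by
        rw [mul_pow, mul_assoc]
    _ ≤ 2 ^ B.card * (T2.card * (2 ^ w) ^ (N - B.card)) :=
        Nat.mul_le_mul_left _ (Nat.mul_le_mul_right _ hlift)
    _ = 2 ^ B.card * (univ.filter (fun r : Fin N → Fin (2 ^ w) => (fun v => r (pos v)) ∈ T2)).card := by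
        rw [hcomp]
    _ ≤ _ := Nat.mul_le_mul_left _ hsub

end Vale.Agent.P334.Alg
end

section

/-!
Independence of the parts of a sequence of chunks.
-/

namespace Vale.Agent.P334.Alg

theorem extN_append_left {m n W : ℕ} (a : Fin m → Fin W) (b : Fin n → Fin W) (i : ℕ)
    (hi : i < m) : extN (Fin.append a b) i = extN a i := by
  unfold extN
  rw [dif_pos hi, dif_pos (by omega)]
  have : (⟨i, by omega⟩ : Fin (m + n)) = Fin.castAdd n ⟨i, hi⟩ := rfl
  rw [this, Fin.append_left]

theorem extN_append_right {m n W : ℕ} (a : Fin m → Fin W) (b : Fin n → Fin W) (i : ℕ)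
    (hi : i < n) : extN (Fin.append a b) (m + i) = extN b i := by
  unfold extN
  rw [dif_pos hi, dif_pos (by omega)]
  have : (⟨m + i, by omega⟩ : Fin (m + n)) = Fin.natAdd m ⟨i, hi⟩ := rfl
  rw [this, Fin.append_right]

theorem append_inj {m n W : ℕ} {a a' : Fin m → Fin W} {b b' : Fin n → Fin W}
    (h : Fin.append a b = Fin.append a' b') : a = a' ∧ b = b' := by
  constructor
  · funext i
    have := congrFun h (Fin.castAdd n i)
    rwa [Fin.append_left, Fin.append_left] at this
  · funext i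
    have := congrFun h (Fin.natAdd m i)
    rwa [Fin.append_right, Fin.append_right] at this

theorem splitSpec : SplitSpec := by
  intro N W P1 P2 P3 h1 h2 h3
  rw [← Nat.card_prod, ← Nat.card_prod]
  refine Nat.card_le_card_of_injective
    (fun x : ({r : Fin N → Fin W // P1 (extN r)} × {r : Fin N → Fin W // P2 (extN r)}) ×
      {r : Fin (N + N) → Fin W // P3 (extN r)} =>
      (⟨Fin.append (Fin.append x.1.1.1 x.1.2.1) x.2.1, ?_, ?_, ?_⟩ :
        {r : Fin ((N + N) + (N + N)) → Fin W //
          P1 (extN r) ∧ P2 (fun i => extN r (N + i)) ∧ P3 (fun i => extN r ((N + N) + i))})) ?_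
  · refine h1 (extN x.1.1.1) _ (fun i hi => ?_) x.1.1.2
    rw [extN_append_left _ _ i (by omega), extN_append_left _ _ i hi]
  · refine h2 (extN x.1.2.1) _ (fun i hi => ?_) x.1.2.2
    rw [extN_append_left _ _ (N + i) (by omega), extN_append_right _ _ i hi]
  · refine h3 (extN x.2.1) _ (fun i hi => ?_) x.2.2
    rw [extN_append_right _ _ i hi]
  · rintro ⟨⟨⟨a, ha⟩, ⟨b, hb⟩⟩, ⟨c, hc⟩⟩ ⟨⟨⟨a', ha'⟩, ⟨b', hb'⟩⟩, ⟨c', hc'⟩⟩ h
    have h4 := congrArg Subtype.val h
    obtain ⟨h5, h6⟩ := append_inj h4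
    obtain ⟨h7, h8⟩ := append_inj h5
    subst h6 h7 h8
    rfl

end Vale.Agent.P334.Alg
end

section

/-!
Every outcome of a trial is a feasible solution.
-/

namespace Vale.Agent.P334.Alg

section

variable {X : Type} [DecidableEq X]

theorem swapStep_subset (d : X → X → ℕ) (l : ℕ) (J F S : List X) (h : S ⊆ F) :
    swapStep d l J F S ⊆ F := by
  unfold swapStep
  cases hf : (S.flatMap (fun s => F.map (fun i => i :: S.erase s))).find?
    (fun S' => decide (cst d l J S' < cst d l J S)) with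
  | none => exact h
  | some R =>
    have h1 := List.mem_of_find?_eq_some hf
    rw [List.mem_flatMap] at h1
    obtain ⟨s, _, h2⟩ := h1
    obtain ⟨i, hi, rfl⟩ := List.mem_map.mp h2
    intro x hx
    rcases List.mem_cons.mp hx with rfl | hx
    · exact hi
    · exact h (List.mem_of_mem_erase hx)

theorem satStep_subset (d : X → X → ℕ) (l b : ℕ) (J F S : List X) (h : S ⊆ F) :
    satStep d l b J F S ⊆ F := by
  unfold satStep
  cases hf : (F.map (fun q => q :: S)).find?
    (fun S' => decide ((b + 1) * cst d l J S' ≤ b * cst d l J S ∧ 0 < cst d l J S)) with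
  | none => exact h
  | some R =>
    have h1 := List.mem_of_find?_eq_some hf
    obtain ⟨i, hi, rfl⟩ := List.mem_map.mp h1
    intro x hx
    rcases List.mem_cons.mp hx with rfl | hx
    · exact hi
    · exact h hx

theorem prep_subset (d : X → X → ℕ) (l b t : ℕ) (J F S : List X) (h : S ⊆ F) :
    prep d l b t J F S ⊆ F := by
  unfold prep saturate swapSearch
  refine iterate_inv (satStep d l b J F) (fun S => S ⊆ F)
    (fun S hS => satStep_subset d l b J F S hS) _ _ ?_
  exact iterate_inv (swapStep d l J F) (fun S => S ⊆ F)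
    (fun S hS => swapStep_subset d l J F S hS) _ _ h

omit [DecidableEq X] in
theorem mem_of_mem_moves {F : List X} : ∀ (parts : List (List X)) (Q Q' : List X),
    (∀ P ∈ parts, P ⊆ F) → Q ⊆ F → Q' ∈ moves parts Q → Q' ⊆ F := by
  intro parts
  induction parts with
  | nil =>
    intro Q Q' _ _ h
    cases Q <;> simp [moves] at h
  | cons P parts ih =>
    intro Q Q' hP hQ h
    cases Q with
    | nil => simp [moves] at h
    | cons q Q =>
      simp only [moves, List.mem_append, List.mem_map] at h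
      rcases h with ⟨x, hx, rfl⟩ | ⟨R, hR, rfl⟩
      · intro y hy
        rcases List.mem_cons.mp hy with rfl | hy
        · exact hP P List.mem_cons_self hx
        · exact hQ (List.mem_cons_of_mem _ hy)
      · intro y hy
        rcases List.mem_cons.mp hy with rfl | hy
        · exact hQ List.mem_cons_self
        · exact ih Q R (fun P' hP' => hP P' (List.mem_cons_of_mem _ hP'))
            (fun z hz => hQ (List.mem_cons_of_mem _ hz)) hR hy

omit [DecidableEq X] in
theorem lsearch_subset {ι : Type} {F : List X} (D : ι → X → ℕ) (b : ι → ℕ) (E : List ι)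
    (parts : List (List X)) (Q : List X) (hP : ∀ P ∈ parts, P ⊆ F) (hQ : Q ⊆ F) :
    lsearch D b E parts Q ⊆ F := by
  unfold lsearch
  refine iterate_inv (lsStep D b E parts) (fun Q => Q ⊆ F) (fun Q hQ => ?_) _ _ hQ
  rcases lsStep_cases D b E parts Q with h1 | h1
  · rw [h1.1]; exact hQ
  · exact mem_of_mem_moves parts Q _ hP hQ h1.1

theorem alg1_subset (d : X → X → ℕ) (l top : ℕ) (x0 : X) (J F S : List X) (hS : S ⊆ F)
    (χ : X → ℕ) (z h : ℕ) : A1.alg1 d l top x0 J F S χ z h ⊆ F := by
  intro x hx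
  rcases List.mem_append.mp hx with hx | hx
  · exact hS (List.mem_filter.mp hx).1
  · exact (dp_spec F z _ _ h).1 x hx

theorem alg2_subset (d : X → X → ℕ) (l top : ℕ) (x0 : X) (J F S big Zb : List X) (hS : S ⊆ F)
    (h0 : x0 ∈ F) (χ : X → ℕ) (z : ℕ) (anch : List (X × ℕ)) :
    A2.alg2 d l top x0 J F S big Zb χ z anch ⊆ F := by
  intro x hx
  rcases List.mem_append.mp hx with hx | hx
  · exact hS (List.mem_filter.mp hx).1
  · refine lsearch_subset (F := F) _ _ _ _ _ ?_ ?_ hx
    · intro P hP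
      obtain ⟨a, _, rfl⟩ := List.mem_map.mp hP
      intro y hy
      exact (A2.mem_part.mp hy).1
    · intro y hy
      obtain ⟨a, _, rfl⟩ := List.mem_map.mp hy
      cases h : A2.part d F a with
      | nil => exact h0
      | cons b L =>
        have : b ∈ A2.part d F a := by rw [h]; exact List.mem_cons_self
        exact (A2.mem_part.mp this).1

theorem cands_spec (d : X → X → ℕ) (D : ℕ) (x0 : X) (J F S : List X) (hS : S ⊆ F) (h0 : x0 ∈ F)
    (tq tz : ℕ) (r1 r2 r3 r4 : ℕ → ℕ) :
    ∀ T ∈ cands d D x0 J F S tq tz r1 r2 r3 r4, T.Nodup ∧ T ⊆ F := by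
  intro T hT
  obtain ⟨z, _, h, _, hT⟩ := (mem_cands d D x0 J F S tq tz r1 r2 r3 r4 T).mp hT
  have key : ∀ Q : List X, Q ⊆ F → (addAll Q []).Nodup ∧ addAll Q [] ⊆ F := by
    intro Q hQ
    obtain ⟨h1, h2, _⟩ := addAll_spec Q ([] : List X) List.nodup_nil
    refine ⟨h1, fun x hx => ?_⟩
    rcases (h2 x).mp hx with h | h
    · exact hQ h
    · exact absurd h List.not_mem_nil
  rcases hT with rfl | rfl
  · exact key _ (alg1_subset d D _ x0 J F S hS _ _ _)
  · exact key _ (alg2_subset d D _ x0 J F S _ _ hS h0 _ _ _)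

theorem trial_valid (d : X → X → ℕ) (D : ℕ) (J F : List X) (hF : F.Nodup) (hF0 : F ≠ [])
    (k : ℕ) (hk : 1 ≤ k) (b t tq tz : ℕ) (S0 : List X) (hS0 : S0 ⊆ F) (r1 r2 r3 r4 : ℕ → ℕ) :
    (trial d D J F k b t tq tz S0 r1 r2 r3 r4).Nodup ∧
      trial d D J F k b t tq tz S0 r1 r2 r3 r4 ⊆ F ∧
      trial d D J F k b t tq tz S0 r1 r2 r3 r4 ≠ [] ∧
      (trial d D J F k b t tq tz S0 r1 r2 r3 r4).length ≤ k := by
  have hFt : F.take 1 ⊆ F := List.take_subset 1 F
  unfold trial
  obtain ⟨h1, h2, h3, _, _⟩ := bestOf_spec d D J F k ((F.take 1).flatMap (fun x0 =>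
    cands d D x0 J F (prep d D b t J F S0) tq tz r1 r2 r3 r4)) hk hF0
  rcases h3 with h3 | h3
  · obtain ⟨x0, hx0, hT⟩ := List.mem_flatMap.mp h3
    obtain ⟨h4, h5⟩ := cands_spec d D x0 J F _ (prep_subset d D _ _ J F S0 hS0) (hFt hx0)
      _ _ _ _ _ _ _ hT
    exact ⟨h4, h5, h1, h2⟩
  · refine ⟨?_, ?_, h1, h2⟩
    · rw [h3]; exact hF.sublist (List.take_sublist 1 F)
    · rw [h3]; exact hFt

end

/-- Every outcome of a trial is a feasible solution. -/
theorem validSpec : ValidSpec := by
  intro X _ _ d D J F hI k K3 Kb S0 b hk _ hS0F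
  unfold stableTrial trialR
  exact trial_valid d D J F hI.hF hI.hF0 k hk _ _ _ _ S0 hS0F _ _ _ _

end Vale.Agent.P334.Alg
end

section

/-!
Polynomial time for one trial of the randomized algorithm for stable instances.
-/

namespace Vale.Agent.P334.Alg

open Vale.Agent.Lib.PolyTime Function

variable {A : Set Word} {α X : Type} [Enc α] [Enc X]

/-! ### Random functions and colors -/

theorem PT_ncol {z : α → ℕ} (hz : PT A z) : PT A (fun a => ncol (z a)) := by
  have h : PT A (fun a => Nat.size (12000 * z a)) := PT.natSize (PT.mul (PT.const 12000) hz)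
  refine PT.pow (PT.const 2) h ?_
  exact (PT.mul (PT.const 12000) hz).pbd.mono fun a => (esize_nat _).symm.le

section

variable [DecidableEq X]

theorem PT_col (heq : PT A (fun p : X × X => decide (p.1 = p.2))) {r : α → ℕ → ℕ} {z : α → ℕ}
    {S : α → List X} {s : α → X} (hr : PT A (fun p : α × ℕ => r p.1 p.2)) (hz : PT A z)
    (hS : PT A S) (hs : PT A s) : PT A (fun a => col (r a) (z a) (S a) (s a)) :=
  PT.mod (hr.comp (PT.id.pair (PT_idxOf heq hS hs))) (PT_ncol hz)

omit [Enc X] in
theorem addAll_length_le (Q T : List X) : (addAll Q T).length ≤ Q.length + T.length := by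
  unfold addAll
  induction Q with
  | nil => simp
  | cons q Q ih =>
    rw [List.foldr_cons, List.length_cons]
    split_ifs
    · omega
    · rw [List.length_cons]; omega

omit [Enc X] in
theorem mem_of_mem_addAll {Q T : List X} {x : X} (h : x ∈ addAll Q T) : x ∈ Q ∨ x ∈ T := by
  unfold addAll at h
  induction Q with
  | nil => exact Or.inr h
  | cons q Q ih =>
    rw [List.foldr_cons] at h
    split_ifs at h
    · rcases ih h with h | h
      · exact Or.inl (List.mem_cons_of_mem _ h)
      · exact Or.inr h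
    · rcases List.mem_cons.1 h with rfl | h
      · exact Or.inl List.mem_cons_self
      · rcases ih h with h | h
        · exact Or.inl (List.mem_cons_of_mem _ h)
        · exact Or.inr h

theorem PT_addAll (heq : PT A (fun p : X × X => decide (p.1 = p.2))) {Q T : α → List X}
    (hQ : PT A Q) (hT : PT A T) : PT A (fun a => addAll (Q a) (T a)) := by
  have hB : PBd (fun a => (esize (Q a) + esize (T a)) * (2 * (esize (Q a) + esize (T a)) + 1)) :=
    (hQ.pbd.add hT.pbd).mul (((PBd.const 2).mul (hQ.pbd.add hT.pbd)).add (PBd.const 1))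
  refine PT.foldr (f := fun _ q T' => if q ∈ T' then T' else q :: T') hQ hT
    (PT.ite (p := fun p : α × X × List X => p.2.1 ∈ p.2.2) (PT.mem' heq PT.snd'.snd PT.snd'.fst)
      PT.snd'.snd (PT.cons PT.snd'.fst PT.snd'.snd)) hB fun a i => ?_
  have h1 : (addAll ((Q a).drop i) (T a)).length ≤ esize (Q a) + esize (T a) := by
    have h2 := addAll_length_le ((Q a).drop i) (T a)
    have h3 := length_le_esize (Q a)
    have h4 := length_le_esize (T a)
    rw [List.length_drop] at h2
    omega
  exact esize_le_of_two (F := Q a) (S := T a) h1 fun x hx => by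
    rcases mem_of_mem_addAll hx with h | h
    · exact Or.inl (List.mem_of_mem_drop h)
    · exact Or.inr h

/-! ### Large centers -/

theorem PT_cA (heq : PT A (fun p : X × X => decide (p.1 = p.2))) {dd : α → X → X → ℕ}
    {x0 s : α → X} {J S : α → List X}
    (hd : PT A (fun p : α × X × X => dd p.1 p.2.1 p.2.2)) (hx0 : PT A x0) (hJ : PT A J)
    (hS : PT A S) (hs : PT A s) : PT A (fun a => cA (dd a) (x0 a) (J a) (S a) (s a)) :=
  PT.sum (PT.map (f := fun a j => dd a j (s a))
    (PT.filter (f := fun a j => decide (A1.near (dd a) (x0 a) (S a) j = s a)) hJ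
      (heq.comp ((A1.PT_near (dd := fun p : α × X => dd p.1) (hd.comp (PT.fst'.fst.pair PT.snd'))
        (hx0.comp PT.fst') (hS.comp PT.fst') PT.snd').pair (hs.comp PT.fst'))))
    (hd.comp (PT.fst'.pair (PT.snd'.pair (hs.comp PT.fst')))))

theorem PT_bigS (heq : PT A (fun p : X × X => decide (p.1 = p.2))) {dd : α → X → X → ℕ}
    {D tz : α → ℕ} {x0 : α → X} {J S : α → List X}
    (hd : PT A (fun p : α × X × X => dd p.1 p.2.1 p.2.2)) (hD : PT A D) (hx0 : PT A x0)
    (hJ : PT A J) (hS : PT A S) (htz : PT A tz) :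
    PT A (fun a => bigS (dd a) (D a) (x0 a) (J a) (S a) (tz a)) :=
  PT.filter (f := fun a s => decide (cst (dd a) (D a) (J a) (S a) ≤
      2000 * tz a * cA (dd a) (x0 a) (J a) (S a) s)) hS
    (PT.le ((PT_cst hd hD hJ hS).comp PT.fst') (PT.mul (PT.mul (PT.const 2000)
      (htz.comp PT.fst')) (PT_cA heq (dd := fun p : α × X => dd p.1)
        (hd.comp (PT.fst'.fst.pair PT.snd')) (hx0.comp PT.fst') (hJ.comp PT.fst')
        (hS.comp PT.fst') PT.snd')))

end

/-! ### Anchors -/

theorem PT_bagS {dd : α → X → X → ℕ} {D : α → ℕ} {J S : α → List X}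
    (hd : PT A (fun p : α × X × X => dd p.1 p.2.1 p.2.2)) (hD : PT A D) (hDb : PBd D)
    (hJ : PT A J) (hS : PT A S) : PT A (fun a => bag (dd a) (D a) (J a) (S a)) := by
  have hb : PBd (fun p : α × X => D p.1) := by
    have h : PT A (fun p : α × X => p.1) := PT.fst'
    exact hDb.comp h
  exact PT_bag (f := fun a j => mins (dd a) (D a) j (S a)) hJ
    (PT_mins (dd := fun p : α × X => dd p.1) (hd.comp (PT.fst'.fst.pair PT.snd'))
      (hD.comp PT.fst') PT.snd' (hS.comp PT.fst')) (hb.mono fun p => mins_le_cap _ _ _ _)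

theorem PT_pnt {dd : α → X → X → ℕ} {D r : α → ℕ} {x0 : α → X} {J S : α → List X}
    (hd : PT A (fun p : α × X × X => dd p.1 p.2.1 p.2.2)) (hD : PT A D) (hDb : PBd D)
    (hx0 : PT A x0) (hJ : PT A J) (hS : PT A S) (hr : PT A r) :
    PT A (fun a => pnt (dd a) (D a) (x0 a) (J a) (S a) (r a)) :=
  PT.getD (PT_bagS hd hD hDb hJ hS) (PT.mod hr (PT_bagS hd hD hDb hJ hS).length) hx0

theorem PT_radi {dd : α → X → X → ℕ} {D u : α → ℕ} {p : α → X} {S : α → List X}
    (hd : PT A (fun p : α × X × X => dd p.1 p.2.1 p.2.2)) (hD : PT A D)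
    (hS : PT A S) (hp : PT A p) (hu : PT A u) :
    PT A (fun a => radi (dd a) (D a) (S a) (p a) (u a)) :=
  PT.div (PT.mul (PT.add hu (PT.const 1)) (PT_mins hd hD hp hS)) (PT.const 100)

theorem PT_anch {dd : α → X → X → ℕ} {D h : α → ℕ} {x0 : α → X} {J S : α → List X}
    {r3 r4 : α → ℕ → ℕ}
    (hd : PT A (fun p : α × X × X => dd p.1 p.2.1 p.2.2)) (hD : PT A D) (hDb : PBd D)
    (hx0 : PT A x0) (hJ : PT A J) (hS : PT A S) (hr3 : PT A (fun p : α × ℕ => r3 p.1 p.2))
    (hr4 : PT A (fun p : α × ℕ => r4 p.1 p.2)) (hh : PT A h) (hhb : PBd h) :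
    PT A (fun a => anch (dd a) (D a) (x0 a) (J a) (S a) (r3 a) (r4 a) (h a)) := by
  have hDb' : PBd (fun p : α × ℕ => D p.1) := by
    have h : PT A (fun p : α × ℕ => p.1) := PT.fst'
    exact hDb.comp h
  have hp : PT A (fun p : α × ℕ => pnt (dd p.1) (D p.1) (x0 p.1) (J p.1) (S p.1) (r3 p.1 p.2)) :=
    PT_pnt (dd := fun p : α × ℕ => dd p.1) (hd.comp (PT.fst'.fst.pair PT.snd'))
      (hD.comp PT.fst') hDb' (hx0.comp PT.fst') (hJ.comp PT.fst') (hS.comp PT.fst') hr3
  exact PT.map (f := fun a i => (pnt (dd a) (D a) (x0 a) (J a) (S a) (r3 a i),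
      radi (dd a) (D a) (S a) (pnt (dd a) (D a) (x0 a) (J a) (S a) (r3 a i))
        (r4 a i % 2541000))) (PT.range hh hhb)
    (hp.pair (PT_radi (dd := fun p : α × ℕ => dd p.1) (hd.comp (PT.fst'.fst.pair PT.snd'))
      (hD.comp PT.fst') (hS.comp PT.fst') hp (PT.mod hr4 (PT.const 2541000))))

theorem PT_topOf {D : α → ℕ} {J : α → List X} (hD : PT A D) (hJ : PT A J) :
    PT A (fun a => topOf (D a) (J a)) :=
  PT.mul (PT.const 100) (PT.add (PT.mul hJ.length hD) (PT.const 1))

theorem PBd_topOf {D : α → ℕ} {J : α → List X} (hDb : PBd D) (hJ : PT A J) :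
    PBd (fun a => topOf (D a) (J a)) :=
  (PBd.const 100).mul (((PBd.length hJ).mul hDb).add (PBd.const 1))

/-! ### Candidates -/

section

variable [DecidableEq X]

theorem PT_cand1s (heq : PT A (fun p : X × X => decide (p.1 = p.2))) {dd : α → X → X → ℕ}
    {D z h : α → ℕ} {x0 : α → X} {J F S : α → List X} {r1 : α → ℕ → ℕ}
    (hd : PT A (fun p : α × X × X => dd p.1 p.2.1 p.2.2)) (hD : PT A D)
    (hx0 : PT A x0) (hJ : PT A J) (hF : PT A F) (hS : PT A S)
    (hr1 : PT A (fun p : α × ℕ => r1 p.1 p.2)) (hz : PT A z) (hzb : PBd (fun a => 2 ^ z a))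
    (hh : PT A h) (hhb : PBd h) :
    PT A (fun a => cand1s (dd a) (D a) (x0 a) (J a) (F a) (S a) (r1 a) (z a) (h a)) :=
  PT_addAll heq (A1.PT_alg1 heq (χ := fun a => col (r1 a) (z a) (S a)) hd hD (PT_topOf hD hJ)
    hx0 hJ hF hS (PT_col heq (r := fun p : α × X => r1 p.1) (hr1.comp (PT.fst'.fst.pair PT.snd'))
      (hz.comp PT.fst') (hS.comp PT.fst') PT.snd') hz hzb hh hhb) (PT.const [])

theorem PT_cand2 (heq : PT A (fun p : X × X => decide (p.1 = p.2))) {dd : α → X → X → ℕ}
    {D tz z h : α → ℕ} {x0 : α → X} {J F S : α → List X} {r1 r2 r3 r4 : α → ℕ → ℕ}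
    (hd : PT A (fun p : α × X × X => dd p.1 p.2.1 p.2.2)) (hD : PT A D) (hDb : PBd D)
    (hx0 : PT A x0) (hJ : PT A J) (hF : PT A F) (hS : PT A S) (htz : PT A tz)
    (hr1 : PT A (fun p : α × ℕ => r1 p.1 p.2)) (hr2 : PT A (fun p : α × ℕ => r2 p.1 p.2))
    (hr3 : PT A (fun p : α × ℕ => r3 p.1 p.2)) (hr4 : PT A (fun p : α × ℕ => r4 p.1 p.2))
    (hz : PT A z) (hzb : PBd z) (hh : PT A h) (hhb : PBd h) :
    PT A (fun a => cand2 (dd a) (D a) (x0 a) (J a) (F a) (S a) (tz a) (r1 a) (r2 a) (r3 a)
      (r4 a) (z a) (h a)) := by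
  have hb := PT_bigS heq hd hD hx0 hJ hS htz
  exact PT_addAll heq (A2.PT_alg2 heq (χ := fun a => col (r1 a) (z a) (S a)) hd hD
    (PT_topOf hD hJ) (PBd_topOf hDb hJ) hx0 hJ hF hS hb
    (PT.filter (f := fun a s => decide (r2 a ((S a).idxOf s) % 2 = 1)) hb
      (PT.eqNat (PT.mod (hr2.comp (PT.fst'.pair (PT_idxOf heq (hS.comp PT.fst') PT.snd')))
        (PT.const 2)) (PT.const 1)))
    (PT_col heq (r := fun p : α × X => r1 p.1) (hr1.comp (PT.fst'.fst.pair PT.snd'))
      (hz.comp PT.fst') (hS.comp PT.fst') PT.snd') hz hzb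
    (PT_anch hd hD hDb hx0 hJ hS hr3 hr4 hh hhb)) (PT.const [])

omit [DecidableEq X] [Enc X] in
theorem flatMap_range_min {β : Type} (f : ℕ → List β) (n : ℕ) :
    (List.range (n + 1)).flatMap (fun z => f (min z n)) = (List.range (n + 1)).flatMap f := by
  refine List.flatMap_congr fun z hz => ?_
  rw [min_eq_left (Nat.lt_succ_iff.1 (List.mem_range.1 hz))]

theorem PT_cands (heq : PT A (fun p : X × X => decide (p.1 = p.2))) {dd : α → X → X → ℕ}
    {D tq tz : α → ℕ} {x0 : α → X} {J F S : α → List X} {r1 r2 r3 r4 : α → ℕ → ℕ}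
    (hd : PT A (fun p : α × X × X => dd p.1 p.2.1 p.2.2)) (hD : PT A D) (hDb : PBd D)
    (hx0 : PT A x0) (hJ : PT A J) (hF : PT A F) (hS : PT A S)
    (htq : PT A tq) (htqb : PBd tq) (htz : PT A tz) (htzb : PBd (fun a => 2 ^ tz a))
    (hr1 : PT A (fun p : α × ℕ => r1 p.1 p.2)) (hr2 : PT A (fun p : α × ℕ => r2 p.1 p.2))
    (hr3 : PT A (fun p : α × ℕ => r3 p.1 p.2)) (hr4 : PT A (fun p : α × ℕ => r4 p.1 p.2)) :
    PT A (fun a => cands (dd a) (D a) (x0 a) (J a) (F a) (S a) (tq a) (tz a) (r1 a) (r2 a)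
      (r3 a) (r4 a)) := by
  have htzb' : PBd tz := htzb.mono fun a => Nat.lt_two_pow_self.le
  have hf : PT A (fun p : (α × ℕ) × ℕ => p.1.1) := PT.fst'.fst
  have hz : PT A (fun p : (α × ℕ) × ℕ => min p.1.2 (tz p.1.1)) := PT.min PT.fst'.snd
    (htz.comp PT.fst'.fst)
  have hh : PT A (fun p : (α × ℕ) × ℕ => min p.2 (tq p.1.1)) := PT.min PT.snd'
    (htq.comp PT.fst'.fst)
  have hzb : PBd (fun p : (α × ℕ) × ℕ => 2 ^ min p.1.2 (tz p.1.1)) :=
    (htzb.comp hf).mono fun p => Nat.pow_le_pow_right (by norm_num) (min_le_right _ _)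
  have hzb' : PBd (fun p : (α × ℕ) × ℕ => min p.1.2 (tz p.1.1)) :=
    (htzb'.comp hf).mono fun p => min_le_right _ _
  have hhb : PBd (fun p : (α × ℕ) × ℕ => min p.2 (tq p.1.1)) :=
    (htqb.comp hf).mono fun p => min_le_right _ _
  have h1 := PT_cand1s heq (dd := fun p : (α × ℕ) × ℕ => dd p.1.1)
    (r1 := fun p : (α × ℕ) × ℕ => r1 p.1.1)
    (hd.comp (PT.fst'.fst.fst.pair PT.snd')) (hD.comp hf) (hx0.comp hf) (hJ.comp hf) (hF.comp hf)
    (hS.comp hf) (hr1.comp (PT.fst'.fst.fst.pair PT.snd')) hz hzb hh hhb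
  have h2 := PT_cand2 heq (dd := fun p : (α × ℕ) × ℕ => dd p.1.1)
    (r1 := fun p : (α × ℕ) × ℕ => r1 p.1.1) (r2 := fun p : (α × ℕ) × ℕ => r2 p.1.1)
    (r3 := fun p : (α × ℕ) × ℕ => r3 p.1.1) (r4 := fun p : (α × ℕ) × ℕ => r4 p.1.1)
    (hd.comp (PT.fst'.fst.fst.pair PT.snd')) (hD.comp hf) (hDb.comp hf) (hx0.comp hf)
    (hJ.comp hf) (hF.comp hf) (hS.comp hf) (htz.comp hf)
    (hr1.comp (PT.fst'.fst.fst.pair PT.snd')) (hr2.comp (PT.fst'.fst.fst.pair PT.snd'))
    (hr3.comp (PT.fst'.fst.fst.pair PT.snd')) (hr4.comp (PT.fst'.fst.fst.pair PT.snd'))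
    hz hzb' hh hhb
  have h3 := PT.flatMap (f := fun (q : α × ℕ) (h : ℕ) =>
      [cand1s (dd q.1) (D q.1) (x0 q.1) (J q.1) (F q.1) (S q.1) (r1 q.1) (min q.2 (tz q.1))
        (min h (tq q.1)),
      cand2 (dd q.1) (D q.1) (x0 q.1) (J q.1) (F q.1) (S q.1) (tz q.1) (r1 q.1) (r2 q.1) (r3 q.1)
        (r4 q.1) (min q.2 (tz q.1)) (min h (tq q.1))])
    (l := fun q : α × ℕ => List.range (tq q.1 + 1))
    (PT.range (PT.add (htq.comp PT.fst') (PT.const 1))
      (((htqb.comp (PT.fst' : PT A (fun q : α × ℕ => q.1)))).add (PBd.const 1)))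
    (PT.cons h1 (PT.cons h2 PT.nil))
  refine (PT.flatMap (l := fun a => List.range (tz a + 1))
    (f := fun a z => (List.range (tq a + 1)).flatMap (fun h =>
      [cand1s (dd a) (D a) (x0 a) (J a) (F a) (S a) (r1 a) (min z (tz a)) (min h (tq a)),
      cand2 (dd a) (D a) (x0 a) (J a) (F a) (S a) (tz a) (r1 a) (r2 a) (r3 a)
        (r4 a) (min z (tz a)) (min h (tq a))])) (PT.range (PT.add htz (PT.const 1))
    (htzb'.add (PBd.const 1))) h3).congr fun a => ?_
  unfold cands
  rw [← flatMap_range_min (fun z => (List.range (tq a + 1)).flatMap (fun h =>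
    [cand1s (dd a) (D a) (x0 a) (J a) (F a) (S a) (r1 a) z h,
      cand2 (dd a) (D a) (x0 a) (J a) (F a) (S a) (tz a) (r1 a) (r2 a) (r3 a) (r4 a) z h]))]
  refine List.flatMap_congr fun z _ => ?_
  exact flatMap_range_min (fun h =>
    [cand1s (dd a) (D a) (x0 a) (J a) (F a) (S a) (r1 a) (min z (tz a)) h,
      cand2 (dd a) (D a) (x0 a) (J a) (F a) (S a) (tz a) (r1 a) (r2 a) (r3 a) (r4 a)
        (min z (tz a)) h]) (tq a)

/-- Equality of lists. -/
theorem PT_bestOf (heq : PT A (fun p : X × X => decide (p.1 = p.2))) {dd : α → X → X → ℕ}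
    {D k : α → ℕ} {J F : α → List X} {L : α → List (List X)}
    (hd : PT A (fun p : α × X × X => dd p.1 p.2.1 p.2.2)) (hD : PT A D)
    (hJ : PT A J) (hF : PT A F) (hk : PT A k) (hL : PT A L) :
    PT A (fun a => bestOf (dd a) (D a) (J a) (F a) (k a) (L a)) :=
  PT_argmin1 (X := List X) (f := fun a => cst (dd a) (D a) (J a))
    (PT_cst (dd := fun p : α × List X => dd p.1) (hd.comp (PT.fst'.fst.pair PT.snd'))
      (hD.comp PT.fst') (hJ.comp PT.fst') PT.snd')
    (PT.take hF (PT.const 1))
    (PT.filter (f := fun a T => decide (T.length ≤ k a ∧ T ≠ [])) hL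
      (PT.decide_and (PT.le PT.snd'.length (hk.comp PT.fst'))
        (PT.decide_not (PT_eqList heq PT.snd' (PT.const [])))))

theorem PT_prep (heq : PT A (fun p : X × X => decide (p.1 = p.2))) {dd : α → X → X → ℕ}
    {l b t : α → ℕ} {J F S : α → List X}
    (hd : PT A (fun p : α × X × X => dd p.1 p.2.1 p.2.2)) (hl : PT A l) (hlb : PBd l)
    (hb : PT A b) (ht : PT A t) (htb : PBd t) (hJ : PT A J) (hF : PT A F) (hS : PT A S) :
    PT A (fun a => prep (dd a) (l a) (b a) (t a) (J a) (F a) (S a)) :=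
  PT_saturate hd hl hb hJ hF ht htb (PT_swapSearch heq hd hl hlb hJ hF hS)

theorem PT_trial (heq : PT A (fun p : X × X => decide (p.1 = p.2))) {dd : α → X → X → ℕ}
    {D k b t tq tz : α → ℕ} {J F S0 : α → List X} {r1 r2 r3 r4 : α → ℕ → ℕ}
    (hd : PT A (fun p : α × X × X => dd p.1 p.2.1 p.2.2)) (hD : PT A D) (hDb : PBd D)
    (hJ : PT A J) (hF : PT A F) (hk : PT A k) (hb : PT A b) (ht : PT A t) (htb : PBd t)
    (htq : PT A tq) (htqb : PBd tq) (htz : PT A tz) (htzb : PBd (fun a => 2 ^ tz a))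
    (hS0 : PT A S0)
    (hr1 : PT A (fun p : α × ℕ => r1 p.1 p.2)) (hr2 : PT A (fun p : α × ℕ => r2 p.1 p.2))
    (hr3 : PT A (fun p : α × ℕ => r3 p.1 p.2)) (hr4 : PT A (fun p : α × ℕ => r4 p.1 p.2)) :
    PT A (fun a => trial (dd a) (D a) (J a) (F a) (k a) (b a) (t a) (tq a) (tz a) (S0 a) (r1 a)
      (r2 a) (r3 a) (r4 a)) := by
  have hf : PT A (fun p : α × X => p.1) := PT.fst'
  refine PT_bestOf heq hd hD hJ hF hk (PT.flatMap (f := fun a x0 => cands (dd a) (D a) x0 (J a)
    (F a) (prep (dd a) (D a) (b a) (t a) (J a) (F a) (S0 a)) (tq a) (tz a) (r1 a) (r2 a) (r3 a)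
    (r4 a)) (PT.take hF (PT.const 1)) ?_)
  exact PT_cands heq (dd := fun p : α × X => dd p.1) (r1 := fun p : α × X => r1 p.1)
    (r2 := fun p : α × X => r2 p.1) (r3 := fun p : α × X => r3 p.1)
    (r4 := fun p : α × X => r4 p.1) (hd.comp (PT.fst'.fst.pair PT.snd')) (hD.comp hf)
    (hDb.comp hf) PT.snd' (hJ.comp hf) (hF.comp hf)
    ((PT_prep heq hd hD hDb hb ht htb hJ hF hS0).comp hf) (htq.comp hf) (htqb.comp hf)
    (htz.comp hf) (htzb.comp hf)
    (hr1.comp (PT.fst'.fst.pair PT.snd')) (hr2.comp (PT.fst'.fst.pair PT.snd'))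
    (hr3.comp (PT.fst'.fst.pair PT.snd')) (hr4.comp (PT.fst'.fst.pair PT.snd'))

end

/-! ### Parameters and random bits -/

theorem PT_wid {D : α → ℕ} {J F : α → List X} (hD : PT A D) (hJ : PT A J) (hF : PT A F) :
    PT A (fun a => wid (D a) (J a) (F a)) :=
  PT.natSize (PT.mul (PT.const 12000) (PT.add (PT.add (PT.mul hJ.length hD) hF.length)
    (PT.const 1000)))

theorem PT_chunk {w i : α → ℕ} {bits : α → List Bool} (hw : PT A w) (hi : PT A i)
    (hb : PT A bits) : PT A (fun a => chunk (w a) (i a) (bits a)) :=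
  PT.rawVal (PT.rawOfList (PT.take (PT.drop hb (PT.mul hi hw)) hw))

theorem PT_sizeLen {J : α → List X} (hJ : PT A J) : PT A (fun a => Nat.size (J a).length) :=
  PT.natSize hJ.length

theorem PBd_two_pow_size {J : α → List X} (hJ : PT A J) (c e : ℕ) :
    PBd (fun a => 2 ^ (c * Nat.size (J a).length + e)) := by
  have h1 : PBd (fun a => (2 * (J a).length + 1) ^ c * 2 ^ e) :=
    ((((PBd.const 2).mul (PBd.length hJ)).add (PBd.const 1)).pow c).mul (PBd.const _)
  refine h1.mono fun a => ?_
  rw [pow_add, mul_comm c, pow_mul]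
  refine Nat.mul_le_mul_right _ (Nat.pow_le_pow_left ?_ c)
  rcases Nat.eq_zero_or_pos (J a).length with h | h
  · rw [h]; simp
  · have h2 : Nat.size (J a).length ≠ 0 := by
      rw [Ne, Nat.size_eq_zero]; omega
    obtain ⟨s, hs⟩ := Nat.exists_eq_succ_of_ne_zero h2
    have h3 : 2 ^ s ≤ (J a).length := by
      rw [← Nat.lt_size, hs]
      exact Nat.lt_succ_self s
    rw [hs, Nat.succ_eq_add_one, pow_succ]
    omega

/-! Parameters -/

theorem PT_tauQ (K3 Kb : ℕ) {sz : α → ℕ} (hs : PT A sz) : PT A (fun a => tauQ K3 Kb (sz a)) := by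
  unfold tauQ
  exact PT.mul (PT.const _) hs

theorem PT_satB (K3 Kb : ℕ) {sz : α → ℕ} (hs : PT A sz) : PT A (fun a => satB K3 Kb (sz a)) := by
  unfold satB
  exact PT.mul (PT.const _) (PT_tauQ K3 Kb hs)

theorem PT_satT (K3 Kb : ℕ) {sz : α → ℕ} (hs : PT A sz) : PT A (fun a => satT K3 Kb (sz a)) := by
  unfold satT
  exact PT.mul (PT.const _) (PT.add (PT_satB K3 Kb hs) (PT.const _))

theorem PT_tauZ (K3 Kb : ℕ) {sz : α → ℕ} (hs : PT A sz) : PT A (fun a => tauZ K3 Kb (sz a)) := by
  unfold tauZ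
  exact PT.add (PT.mul (PT.const _) hs) (PT_satT K3 Kb hs)

theorem PBd_two_pow_tauZ (K3 Kb : ℕ) {J : α → List X} (hJ : PT A J) :
    PBd (fun a => 2 ^ tauZ K3 Kb (Nat.size (J a).length)) := by
  refine (PBd_two_pow_size hJ ((2 * K3 + 600000 * Kb) +
    3 * (2000000000 * (K3 + 600000 * Kb))) 3).mono fun a => ?_
  refine Nat.pow_le_pow_right (by norm_num) (le_of_eq ?_)
  unfold tauZ satT satB tauQ
  generalize Nat.size (J a).length = x
  ring

theorem satT_le_tauZ (K3 Kb sz : ℕ) : satT K3 Kb sz ≤ tauZ K3 Kb sz := by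
  unfold tauZ
  generalize satT K3 Kb sz = x
  omega

theorem tauQ_le_satT (K3 Kb sz : ℕ) : tauQ K3 Kb sz ≤ satT K3 Kb sz := by
  unfold satT satB
  generalize tauQ K3 Kb sz = x
  (clear * -; omega)

section

variable [DecidableEq X]

theorem PT_trialR (heq : PT A (fun p : X × X => decide (p.1 = p.2))) {dd : α → X → X → ℕ}
    {D k : α → ℕ} {J F S0 : α → List X} {r : α → ℕ → ℕ} (K3 Kb : ℕ)
    (hd : PT A (fun p : α × X × X => dd p.1 p.2.1 p.2.2)) (hD : PT A D) (hDb : PBd D)
    (hJ : PT A J) (hF : PT A F) (hk : PT A k) (hS0 : PT A S0)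
    (hr : PT A (fun p : α × ℕ => r p.1 p.2)) :
    PT A (fun a => trialR (dd a) (D a) (J a) (F a) (k a) K3 Kb (S0 a) (r a)) := by
  have hs := PT_sizeLen hJ
  have htzb := PBd_two_pow_tauZ K3 Kb hJ
  have htzb' : PBd (fun a => tauZ K3 Kb (Nat.size (J a).length)) :=
    htzb.mono fun a => Nat.lt_two_pow_self.le
  have htb : PBd (fun a => satT K3 Kb (Nat.size (J a).length)) :=
    htzb'.mono fun a => satT_le_tauZ _ _ _
  have htqb : PBd (fun a => tauQ K3 Kb (Nat.size (J a).length)) :=
    htb.mono fun a => tauQ_le_satT _ _ _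
  have hr' : ∀ {g : α × ℕ → ℕ}, PT A g → PT A (fun p : α × ℕ => r p.1 (g p)) := fun {g} hg =>
    hr.comp (PT.fst'.pair hg)
  have hFl : PT A (fun p : α × ℕ => (F p.1).length) := (hF.comp PT.fst').length
  have h2 : PT A (fun p : α × ℕ => r p.1 ((F p.1).length + p.2)) := hr' (PT.add hFl PT.snd')
  have h3 : PT A (fun p : α × ℕ => r p.1 (((F p.1).length + (F p.1).length) + p.2)) :=
    hr' (PT.add (PT.add hFl hFl) PT.snd')
  have h4 : PT A (fun p : α × ℕ => r p.1 (((F p.1).length + (F p.1).length) +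
      ((F p.1).length + p.2))) := hr' (PT.add (PT.add hFl hFl) (PT.add hFl PT.snd'))
  unfold trialR
  exact PT_trial (r1 := r) (r2 := fun a i => r a ((F a).length + i))
    (r3 := fun a i => r a (((F a).length + (F a).length) + i))
    (r4 := fun a i => r a (((F a).length + (F a).length) + ((F a).length + i)))
    heq hd hD hDb hJ hF hk (PT_satB K3 Kb hs) (PT_satT K3 Kb hs) htb (PT_tauQ K3 Kb hs) htqb
    (PT_tauZ K3 Kb hs) htzb hS0 hr h2 h3 h4

/-- One trial, with random bits, is computable in polynomial time. -/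
theorem PT_stableTrial (heq : PT A (fun p : X × X => decide (p.1 = p.2))) {dd : α → X → X → ℕ}
    {D k : α → ℕ} {J F S0 : α → List X} {bits : α → List Bool} (K3 Kb : ℕ)
    (hd : PT A (fun p : α × X × X => dd p.1 p.2.1 p.2.2)) (hD : PT A D) (hDb : PBd D)
    (hJ : PT A J) (hF : PT A F) (hk : PT A k) (hS0 : PT A S0) (hbits : PT A bits) :
    PT A (fun a => stableTrial (dd a) (D a) (J a) (F a) (k a) K3 Kb (S0 a) (bits a)) := by
  have hr : PT A (fun p : α × ℕ => chunk (wid (D p.1) (J p.1) (F p.1)) p.2 (bits p.1)) :=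
    PT_chunk ((PT_wid hD hJ hF).comp PT.fst') PT.snd' (hbits.comp PT.fst')
  unfold stableTrial
  exact PT_trialR (r := fun a i => chunk (wid (D a) (J a) (F a)) i (bits a)) heq K3 Kb hd hD hDb
    hJ hF hk hS0 hr

end

/-- The number of random bits is computable in polynomial time. -/
theorem PT_nbits {D : α → ℕ} {J F : α → List X} (hD : PT A D) (hJ : PT A J) (hF : PT A F) :
    PT A (fun a => nbits (D a) (J a) (F a)) :=
  PT.mul (PT.add (PT.add hF.length hF.length) (PT.add hF.length hF.length)) (PT_wid hD hJ hF)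

end Vale.Agent.P334.Alg
end

section
attribute [-instance] ProperSMul.toContinuousSMul IsTopologicalTorsor.toContinuousSMul IdemSemiring.toCanonicallyOrderedAdd IdemSemiring.toMulLeftMono IdemSemiring.toMulRightMono AddQuantale.instAddLeftMono AddQuantale.instAddRightMono Quantale.instMulLeftMono Quantale.instMulRightMono FiniteDimensional.rclike_to_real IsScalarTower.complexToReal FiniteDimensional.complexToReal

/-!
Part 1: scaling.
-/

namespace Vale.Agent.P334.Alg.One

namespace ScaleAux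

theorem mins_le_top (d : ℕ → ℕ → ℕ) (l v : ℕ) (S : List ℕ) : mins d l v S ≤ l := by
  induction S with
  | nil => exact le_rfl
  | cons s S ih => exact (min_le_right _ _).trans ih

theorem mins_le (d : ℕ → ℕ → ℕ) (l v : ℕ) {S : List ℕ} {s : ℕ} (hs : s ∈ S) :
    mins d l v S ≤ d v s := by
  induction S with
  | nil => simp at hs
  | cons t S ih =>
    rcases List.mem_cons.1 hs with rfl | hs
    · exact min_le_left _ _
    · exact (min_le_right _ _).trans (ih hs)

theorem mins_cases (d : ℕ → ℕ → ℕ) (l v : ℕ) (S : List ℕ) :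
    mins d l v S = l ∨ ∃ s ∈ S, mins d l v S = d v s := by
  induction S with
  | nil => exact Or.inl rfl
  | cons t S ih =>
    have h : mins d l v (t :: S) = min (d v t) (mins d l v S) := rfl
    rcases le_total (d v t) (mins d l v S) with h1 | h1
    · rw [min_eq_left h1] at h
      exact Or.inr ⟨t, by simp, h⟩
    · rw [min_eq_right h1] at h
      rcases ih with ih | ⟨s, hs, ih⟩
      · exact Or.inl (h.trans ih)
      · exact Or.inr ⟨s, by simp [hs], h.trans ih⟩

theorem mins_attained {d : ℕ → ℕ → ℕ} {l v : ℕ} {S : List ℕ} (hS : S ≠ [])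
    (hl : ∀ s ∈ S, d v s ≤ l) : ∃ s ∈ S, mins d l v S = d v s := by
  rcases mins_cases d l v S with h | h
  · obtain ⟨s, hs⟩ := List.exists_mem_of_ne_nil S hS
    refine ⟨s, hs, le_antisymm (mins_le d l v hs) ?_⟩
    rw [h]
    exact hl s hs
  · exact h

theorem sum_map_le {α : Type*} (J : List α) (f g : α → ℕ) (h : ∀ j ∈ J, f j ≤ g j) :
    (J.map f).sum ≤ (J.map g).sum := List.sum_le_sum h

theorem ceil_mul_le {x R : ℕ} : R * ((x + (R - 1)) / R) ≤ x + (R - 1) := Nat.mul_div_le _ _

theorem le_ceil_mul {x R : ℕ} (hR : 0 < R) : x ≤ R * ((x + (R - 1)) / R) := by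
  have h := Nat.lt_mul_div_succ (x + (R - 1)) hR
  rw [mul_add] at h
  omega

theorem ceil_le_of {x q R : ℕ} (hR : 0 < R) (h : x ≤ R * q) : (x + (R - 1)) / R ≤ q := by
  rw [Nat.div_le_iff_le_mul_add_pred hR]
  omega

theorem ceil_add {x y z R : ℕ} (hR : 0 < R) (h : z ≤ x + y) :
    (z + (R - 1)) / R ≤ (x + (R - 1)) / R + (y + (R - 1)) / R := by
  apply ceil_le_of hR
  rw [mul_add]
  have h1 := le_ceil_mul (x := x) hR
  have h2 := le_ceil_mul (x := y) hR
  omega

theorem ceil_pos {x R : ℕ} (hR : 0 < R) (hx : 0 < x) : 0 < (x + (R - 1)) / R := by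
  apply Nat.div_pos _ hR
  omega

end ScaleAux

open ScaleAux

theorem scal_self (D : ℕ → ℕ → ℕ) (N R U cap nu a : ℕ) : scal D N R U cap nu a a = 0 := by
  simp [scal]

theorem scal_in {D : ℕ → ℕ → ℕ} {N R U cap nu a b : ℕ} (h : a ≠ b) (ha : a < N) (hb : b < N) :
    scal D N R U cap nu a b = U * min cap ((nu * D a b + (R - 1)) / R) := by
  rw [scal, if_neg h, if_pos ⟨ha, hb⟩]

theorem scal_out {D : ℕ → ℕ → ℕ} {N R U cap nu a b : ℕ} (h : a ≠ b) (h' : ¬ (a < N ∧ b < N)) :
    scal D N R U cap nu a b = U * cap := by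
  rw [scal, if_neg h, if_neg h']

theorem scal_le (D : ℕ → ℕ → ℕ) (N R U cap nu a b : ℕ) : scal D N R U cap nu a b ≤ U * cap := by
  unfold scal
  split_ifs
  · exact Nat.zero_le _
  · exact Nat.mul_le_mul_left _ (min_le_left _ _)
  · exact le_rfl

theorem dvd_scal (D : ℕ → ℕ → ℕ) (N R U cap nu a b : ℕ) : U ∣ scal D N R U cap nu a b := by
  unfold scal
  split_ifs
  · exact dvd_zero _
  · exact dvd_mul_right _ _
  · exact dvd_mul_right _ _

theorem scal_met {D : ℕ → ℕ → ℕ} {l N R U cap nu : ℕ} (h : MetOn D l N) (hR : 0 < R) (hU : 0 < U)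
    (hc : 0 < cap) (hn : 0 < nu) : Met (scal D N R U cap nu) := by
  refine ⟨fun a b => ⟨fun h0 => ?_, ?_⟩, fun a b => ?_, fun a b c => ?_⟩
  · by_contra hab
    by_cases hN : a < N ∧ b < N
    · rw [scal_in hab hN.1 hN.2] at h0
      have hD : 0 < D a b := Nat.pos_of_ne_zero fun h1 => hab ((h.zero a hN.1 b hN.2).1 h1)
      have h2 : 0 < (nu * D a b + (R - 1)) / R := ceil_pos hR (Nat.mul_pos hn hD)
      have h3 : 0 < U * min cap ((nu * D a b + (R - 1)) / R) := Nat.mul_pos hU (lt_min hc h2)
      omega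
    · rw [scal_out hab hN] at h0
      have := Nat.mul_pos hU hc
      omega
  · rintro rfl
    exact scal_self ..
  · by_cases hab : a = b
    · subst hab
      rfl
    · by_cases hN : a < N ∧ b < N
      · rw [scal_in hab hN.1 hN.2, scal_in (Ne.symm hab) hN.2 hN.1, h.symm a hN.1 b hN.2]
      · rw [scal_out hab hN, scal_out (Ne.symm hab) (fun h' => hN ⟨h'.2, h'.1⟩)]
  · by_cases hac : a = c
    · subst hac
      rw [scal_self]
      exact Nat.zero_le _
    by_cases hab : a = b
    · subst hab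
      rw [scal_self]
      omega
    by_cases hbc : b = c
    · subst hbc
      rw [scal_self]
      omega
    by_cases hN1 : a < N ∧ b < N
    · by_cases hN2 : b < N ∧ c < N
      · rw [scal_in hac hN1.1 hN2.2, scal_in hab hN1.1 hN1.2, scal_in hbc hN2.1 hN2.2, ← mul_add]
        apply Nat.mul_le_mul_left
        have h1 := h.tri a hN1.1 b hN1.2 c hN2.2
        have h2 : (nu * D a c + (R - 1)) / R ≤
            (nu * D a b + (R - 1)) / R + (nu * D b c + (R - 1)) / R := by
          apply ceil_add hR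
          rw [← mul_add]
          exact Nat.mul_le_mul_left _ h1
        generalize (nu * D a c + (R - 1)) / R = x at h2 ⊢
        generalize (nu * D a b + (R - 1)) / R = y at h2 ⊢
        generalize (nu * D b c + (R - 1)) / R = z at h2 ⊢
        (clear * - hc h2; omega)
      · rw [scal_out hbc hN2]
        have := scal_le D N R U cap nu a c
        (clear * - this; omega)
    · rw [scal_out hab hN1]
      have := scal_le D N R U cap nu a c
      omega

/-- Cost of a set all of whose clients are within `R`. -/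
theorem scal_upper {D : ℕ → ℕ → ℕ} {l N R U cap nu : ℕ} {J T : List ℕ} (h : MetOn D l N)
    (hR : 0 < R) (hJ : ∀ j ∈ J, j < N) (hT : ∀ i ∈ T, i < N) (hT0 : T ≠ []) :
    R * cst (scal D N R U cap nu) (U * cap) J T ≤ U * (nu * cst D l J T + J.length * R) := by
  have key : ∀ j ∈ J, R * mins (scal D N R U cap nu) (U * cap) j T ≤
      U * (nu * mins D l j T + R) := by
    intro j hj
    obtain ⟨s, hs, hs'⟩ := mins_attained (d := D) (l := l) (v := j) hT0
      (fun s hs => h.le j (hJ j hj) s (hT s hs))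
    have h1 := ScaleAux.mins_le (scal D N R U cap nu) (U * cap) j hs
    rw [hs']
    have h2 : R * scal D N R U cap nu j s ≤ U * (nu * D j s + R) := by
      by_cases hjs : j = s
      · subst hjs
        rw [scal_self]
        simp only [mul_zero, zero_le]
      · rw [scal_in hjs (hJ j hj) (hT s hs)]
        calc R * (U * min cap ((nu * D j s + (R - 1)) / R))
            ≤ R * (U * ((nu * D j s + (R - 1)) / R)) :=
              Nat.mul_le_mul_left _ (Nat.mul_le_mul_left _ (min_le_right _ _))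
          _ = U * (R * ((nu * D j s + (R - 1)) / R)) := by ring
          _ ≤ U * (nu * D j s + (R - 1)) := Nat.mul_le_mul_left _ ceil_mul_le
          _ ≤ U * (nu * D j s + R) := Nat.mul_le_mul_left _ (by omega)
    exact (Nat.mul_le_mul_left _ h1).trans h2
  clear hJ
  induction J with
  | nil => simp [cst]
  | cons j J ih =>
    have ih' := ih (fun i hi => key i (by simp [hi]))
    have hj := key j (by simp)
    simp only [cst, List.map_cons, List.sum_cons, List.length_cons] at ih' ⊢
    calc R * (mins (scal D N R U cap nu) (U * cap) j T + _)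
        = R * mins (scal D N R U cap nu) (U * cap) j T + R * _ := by rw [mul_add]
      _ ≤ U * (nu * mins D l j T + R) +
          U * (nu * (J.map (fun j => mins D l j T)).sum + J.length * R) := add_le_add hj ih'
      _ = _ := by ring

/-- Lower bound for the cost of a set of small scaled cost. -/
theorem scal_lower {D : ℕ → ℕ → ℕ} {l N R U cap nu : ℕ} {J S : List ℕ} (_h : MetOn D l N)
    (hR : 0 < R) (hU : 0 < U) (hJ : ∀ j ∈ J, j < N) (hS : ∀ i ∈ S, i < N) (hS0 : S ≠ [])
    (hsmall : cst (scal D N R U cap nu) (U * cap) J S < U * cap) :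
    U * (nu * cst D l J S) ≤ R * cst (scal D N R U cap nu) (U * cap) J S := by
  have key : ∀ j ∈ J, mins (scal D N R U cap nu) (U * cap) j S < U * cap →
      U * (nu * mins D l j S) ≤ R * mins (scal D N R U cap nu) (U * cap) j S := by
    intro j hj hlt
    obtain ⟨s, hs, hs'⟩ := mins_attained (d := scal D N R U cap nu) (l := U * cap) (v := j) hS0
      (fun s _ => scal_le D N R U cap nu j s)
    have h1 := ScaleAux.mins_le D l j hs
    rw [hs'] at hlt ⊢
    refine (Nat.mul_le_mul_left _ (Nat.mul_le_mul_left _ h1)).trans ?_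
    by_cases hjs : j = s
    · subst hjs
      have : D j j = 0 := (_h.zero j (hJ j hj) j (hJ j hj)).2 rfl
      rw [this]
      simp only [mul_zero, zero_le]
    · rw [scal_in hjs (hJ j hj) (hS s hs)] at hlt ⊢
      have h2 : min cap ((nu * D j s + (R - 1)) / R) < cap := lt_of_mul_lt_mul_left hlt hU.le
      have h3 : min cap ((nu * D j s + (R - 1)) / R) = (nu * D j s + (R - 1)) / R := by
        rcases min_choice cap ((nu * D j s + (R - 1)) / R) with h | h
        · omega
        · exact h
      rw [h3]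
      calc U * (nu * D j s) ≤ U * (R * ((nu * D j s + (R - 1)) / R)) :=
            Nat.mul_le_mul_left _ (le_ceil_mul hR)
        _ = R * (U * ((nu * D j s + (R - 1)) / R)) := by ring
  clear hJ
  induction J with
  | nil => simp [cst]
  | cons j J ih =>
    simp only [cst, List.map_cons, List.sum_cons] at ih hsmall ⊢
    have ih' := ih (by omega) (fun i hi => key i (by simp [hi]))
    have hj := key j (by simp) (by omega)
    calc U * (nu * (mins D l j S + (J.map (fun j => mins D l j S)).sum))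
        = U * (nu * mins D l j S) + U * (nu * (J.map (fun j => mins D l j S)).sum) := by ring
      _ ≤ _ := add_le_add hj ih'
      _ = _ := by rw [← mul_add]

/-- Approximation ratios carry over from the scaled metric. -/
theorem scale_main {D : ℕ → ℕ → ℕ} {l N R U E k : ℕ} {J F S T : List ℕ} (h : MetOn D l N)
    (hR : 0 < R) (hU : 0 < U) (hE : 0 < E) (hJ0 : J ≠ []) (hJ : ∀ j ∈ J, j < N)
    (hF : ∀ i ∈ F, i < N) (hT : Feas F k T) (hTR : ∀ j ∈ J, mins D l j T ≤ R)
    (hRT : R ≤ cst D l J T) (hS : Feas F k S) {c : ℝ} (hc : 0 ≤ c) (hc4 : c < 4)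
    (hST : (cst (scal D N R U (4 * (E * J.length + 1) * J.length) (E * J.length))
        (U * (4 * (E * J.length + 1) * J.length)) J S : ℝ) ≤
      c * cst (scal D N R U (4 * (E * J.length + 1) * J.length) (E * J.length))
        (U * (4 * (E * J.length + 1) * J.length)) J T) :
    (cst D l J S : ℝ) ≤ c * (1 + 1 / E) * cst D l J T := by
  have hn : 0 < J.length := List.length_pos_iff.2 hJ0
  set n := J.length with hndef
  set nu := E * n with hnu
  set cap := 4 * (nu + 1) * n with hcap
  have hnu0 : 0 < nu := Nat.mul_pos hE hn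
  have hcap0 : 0 < cap := by (clear * - hE hn; positivity)
  have hTN : ∀ i ∈ T, i < N := fun i hi => hF i (hT.2.1 i hi)
  have hSN : ∀ i ∈ S, i < N := fun i hi => hF i (hS.2.1 i hi)
  have hup := scal_upper (U := U) (cap := cap) (nu := nu) h hR hJ hTN hT.1
  have hCT : cst D l J T ≤ n * R := by
    have : (J.map (fun j => mins D l j T)).sum ≤ (J.map (fun _ => R)).sum :=
      sum_map_le J _ _ hTR
    simpa only [cst, ge_iff_le, List.map_const', ← hndef, List.sum_replicate, smul_eq_mul] using this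
  have hsmallT : 4 * cst (scal D N R U cap nu) (U * cap) J T ≤ U * cap := by
    have h1 : R * cst (scal D N R U cap nu) (U * cap) J T ≤ R * (U * (nu * n + n)) := by
      refine hup.trans ?_
      calc U * (nu * cst D l J T + n * R) ≤ U * (nu * (n * R) + n * R) := by
            apply Nat.mul_le_mul_left
            have := Nat.mul_le_mul_left nu hCT
            omega
        _ = R * (U * (nu * n + n)) := by ring
    have h2 := Nat.le_of_mul_le_mul_left h1 hR
    calc 4 * cst (scal D N R U cap nu) (U * cap) J T ≤ 4 * (U * (nu * n + n)) :=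
          Nat.mul_le_mul_left _ h2
      _ = U * cap := by rw [hcap]; ring
  have hsmallS : cst (scal D N R U cap nu) (U * cap) J S < U * cap := by
    have h1 : (cst (scal D N R U cap nu) (U * cap) J S : ℝ) < (U * cap : ℕ) := by
      rcases Nat.eq_zero_or_pos (cst (scal D N R U cap nu) (U * cap) J T) with h0 | h0
      · rw [h0] at hST
        have : (0 : ℝ) < (U * cap : ℕ) := by exact_mod_cast Nat.mul_pos hU hcap0
        simp only [Nat.cast_zero, mul_zero] at hST
        linarith only [this, hST]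
      · have h2 : (0 : ℝ) < cst (scal D N R U cap nu) (U * cap) J T := by exact_mod_cast h0
        have h3 : (4 : ℝ) * cst (scal D N R U cap nu) (U * cap) J T ≤ (U * cap : ℕ) := by
          exact_mod_cast hsmallT
        nlinarith only [hST, h3, hc4, h2]
    exact_mod_cast h1
  have hlow := scal_lower (l := l) h hR hU hJ hSN hS.1 hsmallS
  have hup' : (R : ℝ) * cst (scal D N R U cap nu) (U * cap) J T ≤
      U * (nu * cst D l J T + n * R) := by exact_mod_cast hup
  have hlow' : (U : ℝ) * (nu * cst D l J S) ≤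
      R * cst (scal D N R U cap nu) (U * cap) J S := by exact_mod_cast hlow
  have hRpos : (0 : ℝ) < R := by exact_mod_cast hR
  have hUpos : (0 : ℝ) < U := by exact_mod_cast hU
  have hEpos : (0 : ℝ) < E := by exact_mod_cast hE
  have hnpos : (0 : ℝ) < n := by exact_mod_cast hn
  have hRT' : (R : ℝ) ≤ cst D l J T := by exact_mod_cast hRT
  have h1 : (U : ℝ) * (nu * cst D l J S) ≤ U * (c * (nu * cst D l J T + n * R)) := by
    calc (U : ℝ) * (nu * cst D l J S) ≤ R * cst (scal D N R U cap nu) (U * cap) J S := hlow'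
      _ ≤ R * (c * cst (scal D N R U cap nu) (U * cap) J T) :=
        mul_le_mul_of_nonneg_left hST hRpos.le
      _ = c * (R * cst (scal D N R U cap nu) (U * cap) J T) := by ring
      _ ≤ c * (U * (nu * cst D l J T + n * R)) := mul_le_mul_of_nonneg_left hup' hc
      _ = U * (c * (nu * cst D l J T + n * R)) := by ring
  have h2 := le_of_mul_le_mul_left h1 hUpos
  have hnuE : (nu : ℝ) = E * n := by rw [hnu]; push_cast; ring
  have h3 : (E * n : ℝ) * cst D l J S ≤ (E * n) * (c * (1 + 1 / E) * cst D l J T) := by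
    rw [hnuE] at h2
    calc (E * n : ℝ) * cst D l J S ≤ c * (E * n * cst D l J T + n * R) := h2
      _ ≤ c * (E * n * cst D l J T + n * cst D l J T) := by
        apply mul_le_mul_of_nonneg_left _ hc
        nlinarith only [hRT']
      _ = (E * n) * (c * (1 + 1 / E) * cst D l J T) := by
        (clear * - hE hn; field_simp)
  exact le_of_mul_le_mul_left h3 (by (clear * - hE hn; positivity))

end Vale.Agent.P334.Alg.One
end

section

/-!
Correctness of the assembled algorithm on integral metrics.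
-/

namespace Vale.Agent.P334.Alg.One

theorem Feas.mono {F : List ℕ} {k k' : ℕ} {T : List ℕ} (h : Feas F k T) (hk : k ≤ k') :
    Feas F k' T := ⟨h.1, h.2.1, h.2.2.trans hk⟩

theorem feas_of_zero {d : ℕ → ℕ → ℕ} {l : ℕ} {J F : List ℕ} {k : ℕ} (hJ : J.Nodup) (hJ0 : J ≠ [])
    {T : List ℕ} (hT : Feas F k T) (hle : ∀ j ∈ J, ∀ s ∈ T, d j s ≤ l)
    (hz : ∀ j ∈ J, ∀ s ∈ T, d j s = 0 → j = s) (h : cst d l J T = 0) : Feas F k J := by
  have hsub := subset_of_cst_zero hT.1 hle hz h
  exact ⟨hJ0, fun x hx => hT.2.1 x (hsub hx), (hJ.subperm hsub).length_le.trans hT.2.2⟩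

theorem cst_self {d : ℕ → ℕ → ℕ} {l : ℕ} {J : List ℕ} (h : ∀ j ∈ J, d j j = 0) :
    cst d l J J = 0 := by
  have := cst_le_of_mins (d := d) (l := l) (J := J) (S := J) (b := 0)
    (fun j hj => (mins_le_of_mem hj).trans (h j hj).le)
  omega

theorem kmed_le {P : Data} {D : ℕ → ℕ → ℕ} {l N : ℕ} {J F : List ℕ} {k : ℕ} {r : List Bool}
    {S : List ℕ} (hS : S ∈ P.cands D N J F k r) (hf : Feas F k S) :
    cst D l J (P.kmed D l N J F k r) ≤ cst D l J S := bestOf_le hS hf

theorem mem_cands {P : Data} {D : ℕ → ℕ → ℕ} {N : ℕ} {J F : List ℕ} {k : ℕ} {r : List Bool}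
    {S : List ℕ} {j i : ℕ} (hj : j ∈ J) (hi : i ∈ F) (h0 : D j i ≠ 0)
    (hS : S ∈ P.candsR D N J F k (D j i) r) : S ∈ P.cands D N J F k r := by
  unfold Data.cands
  refine List.mem_cons_of_mem _ (List.mem_append_right _ ?_)
  refine List.mem_flatMap.2 ⟨j, hj, List.mem_flatMap.2 ⟨i, hi, ?_⟩⟩
  rw [if_neg h0]
  exact hS

/-- Splitting of the expectation. -/
theorem sum_split {t : ℕ} {a : (Fin t → Bool) → ℝ} {B : (Fin t → Bool) → Prop} {x y p : ℝ}
    (hx : 0 ≤ x) (hy : 0 ≤ y) (hgood : ∀ r, ¬ B r → a r ≤ x) (hbad : ∀ r, a r ≤ y)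
    (hB : (Nat.card {r // B r} : ℝ) ≤ p * 2 ^ t) :
    ∑ r, a r ≤ (x + p * y) * 2 ^ t := by
  classical
  have h1 : ∀ r, a r ≤ x + if B r then y else 0 := by
    intro r
    by_cases h : B r
    · rw [if_pos h]
      linarith only [hx, hbad r]
    · rw [if_neg h]
      linarith only [hgood r h]
  calc ∑ r, a r ≤ ∑ r : Fin t → Bool, (x + if B r then y else 0) :=
        Finset.sum_le_sum fun r _ => h1 r
    _ = 2 ^ t * x + (Nat.card {r // B r} : ℝ) * y := by
        rw [Finset.sum_add_distrib, Finset.sum_const, Finset.card_univ, Finset.sum_ite,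
          Finset.sum_const_zero, add_zero, Finset.sum_const, nsmul_eq_mul, nsmul_eq_mul,
          Nat.card_eq_fintype_card, Fintype.card_subtype]
        simp only [Fintype.card_pi, Fintype.card_bool, Finset.prod_const, Finset.card_univ, Fintype.card_fin, Nat.cast_pow, Nat.cast_ofNat]
    _ ≤ 2 ^ t * x + (p * 2 ^ t) * y := by (clear * - hB hy; gcongr)
    _ = _ := by ring

/-- Correctness of the algorithm on integral metrics. -/
theorem kmed_spec {P : Data} {c2 c3 : ℝ} {Us3 Us2 : ℕ → ℕ → ℕ}
    (hE : 1 ≤ P.E) (h3 : PseudoSpec c3 P.K3 Us3 P.pseudo)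
    (h2 : TrialSpec c2 P.K3 (2 * P.E * P.K3) P.K2 Us2 P.Lr P.trial)
    (hU3 : ∀ n f, Us3 n f ∣ P.Us n f) (hU2 : ∀ n f, Us2 n f ∣ P.Us n f)
    (hU : ∀ n f, 0 < P.Us n f) {D : ℕ → ℕ → ℕ} {l N : ℕ} {J F : List ℕ} {k t : ℕ}
    (hD : MetOn D l N) (hJ : J.Nodup) (hJN : ∀ j ∈ J, j < N) (hF : F.Nodup)
    (hFN : ∀ i ∈ F, i < N) (hk : 1 ≤ k) (hkF : k ≤ F.length)
    (ht : P.reps J.length F.length * P.len J.length F.length ≤ t) :
    (∀ r, Feas F k (P.kmed D l N J F k r)) ∧
    ∑ r : Fin t → Bool, (cst D l J (P.kmed D l N J F k (List.ofFn r)) : ℝ) ≤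
      (max c2 c3 * (1 + 1 / P.E) * (1 + 1 / P.E) + 2 / P.E) * optN D l J F k * 2 ^ t := by
  have hF0 : F ≠ [] := by
    rintro rfl
    simp only [List.length_nil, nonpos_iff_eq_zero] at hkF
    omega
  refine ⟨fun r => bestOf_feas hF0 hk _, ?_⟩
  have hE0 : (0 : ℝ) < P.E := by exact_mod_cast hE
  have hE1 : (1 : ℝ) ≤ P.E := by exact_mod_cast hE
  have hc1 : 1 ≤ max c2 c3 := le_max_of_le_left h2.one_le
  have hc2' : max c2 c3 < 2 := max_lt h2.lt_two h3.lt_two
  have hinv : 0 < 1 / (P.E : ℝ) := by positivity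
  have hinv1 : 1 / (P.E : ℝ) ≤ 1 := by
    rw [div_le_one hE0]; exact hE1
  have hfac : 0 ≤ max c2 c3 * (1 + 1 / P.E) * (1 + 1 / P.E) + 2 / P.E := by positivity
  by_cases hJ0 : J = []
  · subst hJ0
    simp only [cst, List.map_nil, List.sum_nil, Nat.cast_zero, Finset.sum_const_zero]
    (clear * - hc1 hE; positivity)
  obtain ⟨T, hT, -, hTc⟩ := exists_optN D l J hF0 hk
  have hDT : ∀ j ∈ J, ∀ s ∈ T, D j s ≤ l := fun j hj s hs =>
    hD.le j (hJN j hj) s (hFN s (hT.2.1 s hs))
  have hself : cst D l J J = 0 := cst_self fun j hj => (hD.zero j (hJN j hj) j (hJN j hj)).2 rfl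
  by_cases hopt : optN D l J F k = 0
  · -- optimum zero
    have hfJ : Feas F k J := feas_of_zero hJ hJ0 hT hDT
      (fun j hj s hs h0 => (hD.zero j (hJN j hj) s (hFN s (hT.2.1 s hs))).1 h0) (hTc.trans hopt)
    have : ∀ r : Fin t → Bool, cst D l J (P.kmed D l N J F k (List.ofFn r)) = 0 := by
      intro r
      have := kmed_le (P := P) (D := D) (l := l) (N := N) (J := J) (F := F) (k := k)
        (r := List.ofFn r) (S := J) List.mem_cons_self hfJ
      omega
    simp only [this, CharP.cast_eq_zero, Finset.sum_const_zero, one_div, hopt, mul_zero, zero_mul, Std.le_refl]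
  -- the scale
  have hopt0 : 0 < optN D l J F k := Nat.pos_of_ne_zero hopt
  obtain ⟨j0, hj0, hmax⟩ := Finset.exists_max_image J.toFinset (fun j => mins D l j T)
    (by simpa using hJ0)
  rw [List.mem_toFinset] at hj0
  have hmax' : ∀ j ∈ J, mins D l j T ≤ mins D l j0 T := fun j hj =>
    hmax j (List.mem_toFinset.2 hj)
  obtain ⟨i0, hi0, hR⟩ := exists_mins hT.1 (hDT j0 hj0)
  rw [hR] at hmax'
  have hR0 : D j0 i0 ≠ 0 := by
    intro h0
    rw [h0] at hmax'
    have := cst_le_of_mins hmax'
    rw [hTc] at this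
    omega
  have hRopt : D j0 i0 ≤ cst D l J T := by
    rw [← hR]
    exact mins_le_cst hj0
  have hcand : ∀ r S, S ∈ P.candsR D N J F k (D j0 i0) r → Feas F k S →
      cst D l J (P.kmed D l N J F k r) ≤ cst D l J S := fun r S hS hf =>
    kmed_le (mem_cands hj0 (hT.2.1 i0 hi0) hR0 hS) hf
  set R := D j0 i0 with hRdef
  have hRpos : 0 < R := Nat.pos_of_ne_zero hR0
  set n := J.length with hn
  have hn0 : 0 < n := List.length_pos_iff.2 hJ0
  -- the fallback
  have hfb : ∀ r : List Bool, (cst D l J (P.kmed D l N J F k r) : ℝ) ≤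
      3 * n * optN D l J F k := by
    intro r
    obtain ⟨h4, h5⟩ := fallback_spec hD hJ0 hJN hFN hT hmax'
    have h6 := (hcand r _ List.mem_cons_self h4).trans h5
    have h7 : cst D l J (P.kmed D l N J F k r) ≤ 3 * n * optN D l J F k := by
      refine h6.trans ?_
      rw [← hTc]
      calc 3 * R * n = 3 * n * R := by ring
        _ ≤ 3 * n * cst D l J T := Nat.mul_le_mul_left _ hRopt
    exact_mod_cast h7
  -- the scaled metric
  set d := P.met D N n F.length R with hd
  set L := P.top n F.length with hL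
  have hnu0 : 0 < P.nu n := Nat.mul_pos hE hn0
  have hcap0 : 0 < P.cap n := by unfold Data.cap; (clear * - hnu0 hn0; positivity)
  have hset : Setting d L J F :=
    { met := scal_met hD hRpos (hU _ _) hcap0 hnu0
      le := fun a b => scal_le _ _ _ _ _ _ _ _
      nodupJ := hJ
      nodupF := hF
      neJ := hJ0
      neF := hF0 }
  have hdvd3 : ∀ a b, Us3 J.length F.length ∣ d a b := fun a b =>
    (hU3 _ _).trans (dvd_scal _ _ _ _ _ _ _ _)
  have hdvd2 : ∀ a b, Us2 J.length F.length ∣ d a b := fun a b =>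
    (hU2 _ _).trans (dvd_scal _ _ _ _ _ _ _ _)
  have hpos : ∀ i, 1 ≤ i → i ≤ k → 0 < optN d L J F i := by
    intro i hi hik
    rw [Nat.pos_iff_ne_zero]
    intro h0
    obtain ⟨T', hT', -, hTc'⟩ := exists_optN d L J hF0 hi
    have hfJ : Feas F i J := feas_of_zero hJ hJ0 hT' (fun j _ s _ => hset.le j s)
      (fun j _ s _ h0 => (hset.met.zero j s).1 h0) (hTc'.trans h0)
    have := optN_le (d := D) (l := l) (J := J) (hfJ.mono hik)
    omega
  -- good solutions
  set c' := max c2 c3 * (1 + 1 / (P.E : ℝ)) with hc'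
  have hc'0 : 0 ≤ c' := by (clear * - hc1 hE; positivity)
  have hc'4 : c' < 4 := by nlinarith only [hc2', hinv1, hc1]
  have hTopt : (optN d L J F k : ℝ) ≤ cst d L J T := by exact_mod_cast optN_le hT
  have hgood : ∀ S, Feas F k S → (cst d L J S : ℝ) ≤ c' * optN d L J F k →
      (cst D l J S : ℝ) ≤ c' * (1 + 1 / P.E) * optN D l J F k := by
    intro S hS hSc
    rw [← hTc]
    exact scale_main (U := P.Us n F.length) hD hRpos (hU _ _) hE hJ0 hJN hFN hT hmax' hRopt hS
      hc'0 hc'4 (hSc.trans (mul_le_mul_of_nonneg_left hTopt hc'0))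
  have hcandD : ∀ r S, S ∈ P.candsD d L J F k r → Feas F k S →
      (cst d L J S : ℝ) ≤ c' * optN d L J F k →
      (cst D l J (P.kmed D l N J F k r) : ℝ) ≤ c' * (1 + 1 / P.E) * optN D l J F k := by
    intro r S hS hf hc
    have h4 := hcand r S (List.mem_cons_of_mem _ hS) hf
    have h5 : (cst D l J (P.kmed D l N J F k r) : ℝ) ≤ cst D l J S := by exact_mod_cast h4
    exact h5.trans (hgood S hf hc)
  -- conclusion in the deterministic cases
  have hdet : (∀ r : List Bool, (cst D l J (P.kmed D l N J F k r) : ℝ) ≤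
      c' * (1 + 1 / P.E) * optN D l J F k) →
      ∑ r : Fin t → Bool, (cst D l J (P.kmed D l N J F k (List.ofFn r)) : ℝ) ≤
      (c' * (1 + 1 / P.E) + 2 / P.E) * optN D l J F k * 2 ^ t := by
    intro h
    calc ∑ r : Fin t → Bool, (cst D l J (P.kmed D l N J F k (List.ofFn r)) : ℝ)
        ≤ ∑ r : Fin t → Bool, c' * (1 + 1 / P.E) * optN D l J F k :=
          Finset.sum_le_sum fun r _ => h _
      _ = c' * (1 + 1 / P.E) * optN D l J F k * 2 ^ t := by
          rw [Finset.sum_const, Finset.card_univ, nsmul_eq_mul]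
          simp only [Fintype.card_pi, Fintype.card_bool, Finset.prod_const, Finset.card_univ, Fintype.card_fin, Nat.cast_pow, Nat.cast_ofNat, one_div, mul_comm]
      _ ≤ (c' * (1 + 1 / P.E) + 2 / P.E) * optN D l J F k * 2 ^ t := by
          have : 0 ≤ 2 / (P.E : ℝ) := by positivity
          gcongr
          linarith only [this]
  -- the dichotomy
  have hsz : 0 < Nat.size n := Nat.size_pos.2 hn0
  have hm : 1 ≤ P.K3 * Nat.size n := Nat.mul_pos h3.pos hsz
  have hβ : (0 : ℝ) < 1 / (2 * (P.E : ℝ) * (P.K3 * Nat.size n : ℕ)) := by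
    have : (0 : ℝ) < (P.K3 * Nat.size n : ℕ) := by exact_mod_cast hm
    (clear * - hE hm; positivity)
  have hpb := pow_bound hm hE
  have hscale : ∀ x : ℝ, ∀ i, x ≤ max c2 c3 * optN d L J F i →
      (optN d L J F i : ℝ) ≤ (1 + 1 / (2 * (P.E : ℝ) * (P.K3 * Nat.size n : ℕ))) ^
        (P.K3 * Nat.size n) * optN d L J F k → x ≤ c' * optN d L J F k := by
    intro x i h4 h5
    calc x ≤ max c2 c3 * optN d L J F i := h4
      _ ≤ max c2 c3 * ((1 + 1 / (P.E : ℝ)) * optN d L J F k) := by
          refine mul_le_mul_of_nonneg_left (h5.trans ?_) (by linarith only [hc1])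
          exact mul_le_mul_of_nonneg_right hpb (Nat.cast_nonneg _)
      _ = _ := by rw [hc']; ring
  rcases dichotomy (o := fun i => (optN d L J F i : ℝ)) hβ (m := P.K3 * Nat.size n) hk hm
    (fun i hi hik => by exact_mod_cast hpos i hi hik)
    (fun i hi _ => by exact_mod_cast optN_anti d L J hF0 hi (Nat.le_succ i)) with ⟨h4, h5⟩ | ⟨i, hi1, hik, h5, h6⟩
  · -- pseudo-approximation with fewer centers
    refine hdet fun r => ?_
    obtain ⟨h6, -, h7⟩ := h3.spec d L J F (k - P.K3 * Nat.size n) hset (by (clear * - h4; omega)) (by omega) hdvd3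
    rw [← hn, Nat.sub_add_cancel h4.le] at h6
    refine hcandD r _ List.mem_cons_self h6 ?_
    refine hscale _ _ (h7.trans ?_) h5
    exact mul_le_mul_of_nonneg_right (le_max_right _ _) (Nat.cast_nonneg _)
  · rcases Nat.eq_or_lt_of_le hi1 with hi1' | hi2
    · -- one center
      refine hdet fun r => ?_
      obtain ⟨x, hx, hxc⟩ := exists_optN_one d L J hF0
      have hfx : Feas F k [x] := ⟨by simp, by simpa only [List.mem_cons, List.not_mem_nil, or_false, forall_eq] using hx, by simpa only [List.length_cons, List.length_nil, zero_add] using hk⟩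
      have hmem : [x] ∈ P.cands D N J F k r :=
        List.mem_cons_of_mem _ (List.mem_append_left _ (List.mem_map.2 ⟨x, hx, rfl⟩))
      have h8 : (cst D l J (P.kmed D l N J F k r) : ℝ) ≤ cst D l J [x] := by
        exact_mod_cast kmed_le hmem hfx
      refine h8.trans (hgood _ hfx ?_)
      refine hscale _ 1 ?_ (hi1' ▸ h5)
      rw [hxc]
      nlinarith only [hc1]
    · -- a stable instance
      have h6' : (1 + 1 / (2 * (P.E : ℝ) * (P.K3 * Nat.size n : ℕ))) * optN d L J F i ≤
          optN d L J F (i - 1) := by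
        rcases h6 with h6 | h6
        · omega
        · exact h6
      obtain ⟨h8, h9, h10⟩ := h3.spec d L J F i hset hi1 (hik.trans hkF) hdvd3
      set S0 := P.pseudo d L J F i with hS0
      have h11 := h2.spec d L J F i S0 hset hi2 (hik.trans hkF) hdvd2 (hpos i hi1 hik)
        (by
          convert h6' using 3
          push_cast
          ring) h8 h9
        (h10.trans (mul_le_mul_of_nonneg_right h3.lt_two.le (Nat.cast_nonneg _)))
      set G : Set (List Bool) := {ρ | Feas F i (P.trial d L J F i S0 ρ) ∧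
        (cst d L J (P.trial d L J F i S0 ρ) : ℝ) ≤ c2 * optN d L J F i} with hG
      have hA : 0 < (2 * (n + F.length)) ^ P.K2 := by (clear * - hn0; positivity)
      have hbad := card_bad (t := t) (m := P.reps n F.length) (L := P.len n F.length) ht hA
        (G := G) h11
      have hexp : -((P.reps n F.length : ℕ) : ℝ) / ((2 * (n + F.length)) ^ P.K2 : ℕ) =
          -((P.E : ℝ) * n) := by
        have h12 : (((2 * (n + F.length)) ^ P.K2 : ℕ) : ℝ) ≠ 0 := by exact_mod_cast hA.ne'
        rw [div_eq_iff h12]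
        unfold Data.reps
        push_cast
        ring
      rw [hexp] at hbad
      have hsum := sum_split (t := t)
        (a := fun r => (cst D l J (P.kmed D l N J F k (List.ofFn r)) : ℝ))
        (x := c' * (1 + 1 / P.E) * optN D l J F k) (y := 3 * n * optN D l J F k)
        (by (clear * - hc1 hE hopt; positivity)) (by (clear * - hn0 hopt; positivity)) ?_ (fun r => hfb _) hbad
      · refine hsum.trans ?_
        have h12 := exp_small (n := n) (E := P.E) hn0 hE
        have h13 : c' * (1 + 1 / P.E) * optN D l J F k +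
            Real.exp (-((P.E : ℝ) * n)) * (3 * n * optN D l J F k) ≤
            (c' * (1 + 1 / P.E) + 2 / P.E) * optN D l J F k := by
          have h14 : Real.exp (-((P.E : ℝ) * n)) * (3 * n * optN D l J F k) =
            (3 * n * Real.exp (-((P.E : ℝ) * n))) * optN D l J F k := by ring
          rw [h14, ← add_mul]
          exact mul_le_mul_of_nonneg_right (by linarith only [h12]) (Nat.cast_nonneg _)
        exact mul_le_mul_of_nonneg_right h13 (by positivity)
      · -- one block is good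
        intro r hr
        push Not at hr
        obtain ⟨q, hq, hqG⟩ := hr
        refine hcandD _ _ ?_ (hqG.1.mono hik) ?_
        · refine List.mem_cons_of_mem _ (List.mem_flatMap.2 ⟨i - 1, List.mem_range.2 (by omega), ?_⟩)
          refine List.mem_map.2 ⟨_, List.mem_map.2 ⟨q, List.mem_range.2 hq, rfl⟩, ?_⟩
          rw [Nat.sub_add_cancel hi1]
        · refine hscale _ i (hqG.2.trans ?_) h5
          exact mul_le_mul_of_nonneg_right (le_max_left _ _) (Nat.cast_nonneg _)

end Vale.Agent.P334.Alg.One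
end
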