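import Vale.Agent.P334.MathlibUsed
import Vale.Agent.P334.Bdl.B2
import Vale.Agent.P334.Bdl.B6
import Vale.Agent.P334.Bdl.B4
import Vale.Agent.P334.Bdl.B3
import Vale.Agent.P334.Bdl.B5

set_option linter.all false

section

/-!
Assembly of the pseudo-approximation algorithm: the best candidate is good.
-/

namespace Vale.Agent.P334.Alg

section

variable {X : Type} [MetricSpace X] [DecidableEq X]

/-! ### The relaxation is a lower bound -/

omit [DecidableEq X] in
/-- An integral solution gives a fractional one of the same cost. -/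
theorem lpVal_le_cost {J F S : Finset X} {k : ℕ} (h1 : S ⊆ F) (h2 : S.Nonempty)
    (h3 : S.card ≤ k) : lpVal J F k ≤ cost J S := by
  classical
  choose ν hν1 hν2 using fun j : X => exists_nearest h2 j
  have hfr : IsFrac J F (k : ℝ) (fun i j => if i = ν j then 1 else 0)
      (fun i => if i ∈ S then 1 else 0) := by
    refine ⟨?_, ?_, ?_, ?_, ?_, ?_⟩
    · intro i _ j _
      split_ifs <;> norm_num
    · intro i _ j _
      by_cases h : i = ν j
      · rw [if_pos h, if_pos (h ▸ hν1 j)]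
      · rw [if_neg h]
        split_ifs <;> norm_num
    · intro i _
      split_ifs <;> norm_num
    · intro i _
      split_ifs <;> norm_num
    · intro j _
      rw [Finset.sum_ite_eq' F (ν j) (fun _ => (1 : ℝ)), if_pos (h1 (hν1 j))]
    · rw [← Finset.sum_filter]
      rw [Finset.sum_const, nsmul_eq_mul, mul_one]
      have : F.filter (fun i => i ∈ S) = S := by
        ext i
        simp only [Finset.mem_filter]
        exact ⟨fun h => h.2, fun h => ⟨h1 h, h⟩⟩
      rw [this]
      exact_mod_cast h3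
  refine (lpVal_le J F hfr).trans (le_of_eq ?_)
  unfold fracCost cost
  refine Finset.sum_congr rfl fun j _ => ?_
  have : ∀ i ∈ F, (if i = ν j then (1 : ℝ) else 0) * dist i j =
      if i = ν j then dist (ν j) j else 0 := by
    intro i _
    by_cases h : i = ν j
    · rw [if_pos h, if_pos h, h, one_mul]
    · rw [if_neg h, if_neg h, zero_mul]
  rw [Finset.sum_congr rfl this, Finset.sum_ite_eq' F (ν j) (fun _ => dist (ν j) j),
    if_pos (h1 (hν1 j)), hν2, dist_comm]

omit [DecidableEq X] in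
theorem lpVal_le_opt {J F : Finset X} (hF : F.Nonempty) {k : ℕ} (hk : 1 ≤ k) :
    lpVal J F k ≤ opt J F k := by
  obtain ⟨i, hi⟩ := hF
  refine le_csInf ⟨_, {i}, Finset.singleton_subset_iff.2 hi, Finset.singleton_nonempty i,
    by simpa only [Finset.card_singleton] using hk, rfl⟩ ?_
  rintro c ⟨S, h1, h2, h3, rfl⟩
  exact lpVal_le_cost h1 h2 h3

/-! ### Parameters of the fractional solution -/

/-- Units found by the local search with the parameter `w`. -/
def UW (d : X → X → ℕ) (D k : ℕ) (J F : List X) (w : ℕ) : List X :=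
  lmSearch d (D + 1) (nP J.length F.length D) k w (gP J.length D) (mP J.length F.length D) J F

/-- The numerator of the price. -/
def ggW (d : X → X → ℕ) (D k : ℕ) (J F : List X) (w : ℕ) : ℕ :=
  gfm k w (nP J.length F.length D) (gP J.length D) (mP J.length F.length D)
    ((UW d D k J F w).length - 1)

/-- The price. -/
noncomputable def gW (d : X → X → ℕ) (D k : ℕ) (J F : List X) (w : ℕ) : ℝ :=
  (ggW d D k J F w : ℝ) / (mP J.length F.length D : ℕ)

/-- The assignment. -/
noncomputable def xW (d : X → X → ℕ) (D k : ℕ) (J F : List X) (w : ℕ) (i j : X) : ℝ :=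
  ((nearU d (D + 1) (nP J.length F.length D) (UW d D k J F w) j).count i : ℝ) /
    (nP J.length F.length D : ℕ)

/-- The openings. -/
noncomputable def yW (d : X → X → ℕ) (D k : ℕ) (J F : List X) (w : ℕ) (i : X) : ℝ :=
  ((UW d D k J F w).count i : ℝ) / (nP J.length F.length D : ℕ)

/-- The radii. -/
noncomputable def rW (d : X → X → ℕ) (D k : ℕ) (J F : List X) (w : ℕ) (p : X) : ℝ :=
  (radN d (D + 1) (nP J.length F.length D) (UW d D k J F w) p : ℝ)

/-- The centers of the clusters. -/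
def ccW (d : X → X → ℕ) (D k : ℕ) (J F : List X) (w : ℕ) : List X :=
  ccL d (D + 1) (nP J.length F.length D) (mP J.length F.length D) (ggW d D k J F w) J F
    (UW d D k J F w)

/-- Facts about the fractional solution. -/
structure LpFacts (d : X → X → ℕ) (D k : ℕ) (J F : List X) (w : ℕ) : Prop where
  rad : Rad J.toFinset F.toFinset (gW d D k J F w) (xW d D k J F w) (yW d D k J F w)
    (rW d D k J F w)
  cost : fracCost J.toFinset F.toFinset (xW d D k J F w) ≤ lpVal J.toFinset F.toFinset k + w + 1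
  price : 49 / 50 * (w : ℝ) ≤ gW d D k J F w * (k - ∑ i ∈ F.toFinset, yW d D k J F w i)

/-- The first case. -/
def Case1W (κ0 : ℝ) (d : X → X → ℕ) (D k : ℕ) (J F : List X) (w : ℕ) : Prop :=
  κ0 * fracCost J.toFinset F.toFinset (xW d D k J F w) ≤
    ∑ c ∈ (ccW d D k J F w).toFinset, ain J.toFinset F.toFinset (gW d D k J F w)
      (xW d D k J F w) (yW d D k J F w) (rW d D k J F w) c
    + ∑ i ∈ restF J.toFinset F.toFinset (gW d D k J F w) (xW d D k J F w) (yW d D k J F w)
      (rW d D k J F w) (ccW d D k J F w).toFinset, fcl J.toFinset (xW d D k J F w) i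

/-- The choice of the parameter `w` is good for the value `L`. -/
structure GoodW (κ : ℝ) (e M C D k n φ : ℕ) (L : ℝ) (w : ℕ) : Prop where
  mem : w ∈ List.range (n * (D + 1) + 1)
  ge : 1000 ≤ w
  le : (w : ℝ) + 1 ≤ κ * L
  half : κ / 2 * L ≤ 49 / 50 * w
  t_ge : dlP M n + 2 ≤ w / (16 * n)
  err1 : (((w / (16 * n) : ℕ) : ℝ) + 1) * n + φ * (2 * dlP M n + 1) * ((M + 3) * mS C n)
    + (2 * dlP M n + 1) * (k + 3 * ((M + 3) * mS C n)) ≤ κ / 16 * L
  err2 : ((w / (16 * n) : ℕ) : ℝ) * n + φ * mS C n + (k + 3 * mS C n + 2) ≤ κ / 16 * L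
  top : 3 * L < tauL (D + 1) (w / (16 * n)) e (mS C n) ∨
    tauL (D + 1) (w / (16 * n)) e (mS C n) = D + 1

/-- A good candidate. -/
def GoodC (b : ℕ) (c : ℝ) (J F : List X) (S : List X) : Prop :=
  S ≠ [] ∧ S.Nodup ∧ (∀ x ∈ S, x ∈ F) ∧ S.length ≤ b ∧ cost J.toFinset S.toFinset ≤ c

/-- A good candidate exists. -/
theorem exists_goodC {d : X → X → ℕ} (hd : ∀ a b, dist a b = (d a b : ℝ)) {D : ℕ}
    (hD : ∀ a b, d a b ≤ D) {J F : List X} (hJ : J.Nodup) (hF : F.Nodup) (hJ0 : J ≠ [])
    (hF0 : F ≠ []) {k : ℕ} (hk : 1 ≤ k) {e M C : ℕ} {κ0 κ ε T2 : ℝ} (hκ0 : κ0 = 1 / 10 ^ 6)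
    (hT2 : T2 = 10 ^ 10 / κ0) (hκ : κ = κ0 / (8 * (2048 * (T2 + 2)))) (hε : ε = κ / 10 ^ 10)
    (hεe : ε = 1 / e) (he : 1 ≤ e) (hM : 1 ≤ M) (hC1 : 1 ≤ C)
    (hC : ∀ n : ℕ, 1 ≤ n → 200 * n / κ ≤ (1 + 1 / (e : ℝ)) ^ (C * Nat.size n - 1))
    (hdiv : ∀ a b, usP e M C J.length F.length ∣ d a b)
    (hsingle : ∀ w, 1000 ≤ w → k < F.length → (UW d D k J F w).length ≤ nP J.length F.length D →
      ∃ i ∈ F, cost J.toFinset {i} ≤ lpVal J.toFinset F.toFinset k + w + 1)
    (hrad : ∀ w, 1000 ≤ w → k < F.length → nP J.length F.length D < (UW d D k J F w).length →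
      LpFacts d D k J F w)
    (h1 : ∀ w (L : ℝ), k < F.length → 0 < L → GoodW κ e M C D k J.length F.length L w →
      nP J.length F.length D < (UW d D k J F w).length → LpFacts d D k J F w →
      fracCost J.toFinset F.toFinset (xW d D k J F w) ≤ (1 + κ) * L →
      κ / 2 * L ≤ gW d D k J F w * (k - ∑ i ∈ F.toFinset, yW d D k J F w i) →
      Case1W κ0 d D k J F w →
      GoodC (k + 3 * ((M + 3) * mS C J.length)) ((2 - κ / 16) * L) J F
        (cand1 d D e M C k (w / (16 * J.length)) J F (nP J.length F.length D)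
          (mP J.length F.length D) (ggW d D k J F w) (UW d D k J F w)))
    (h2 : ∀ w (L : ℝ), k < F.length → 0 < L → GoodW κ e M C D k J.length F.length L w →
      nP J.length F.length D < (UW d D k J F w).length → LpFacts d D k J F w →
      fracCost J.toFinset F.toFinset (xW d D k J F w) ≤ (1 + κ) * L →
      κ / 2 * L ≤ gW d D k J F w * (k - ∑ i ∈ F.toFinset, yW d D k J F w i) →
      ¬ Case1W κ0 d D k J F w →
      ∃ S ∈ cands2 d D e C k (w / (16 * J.length)) J F (nP J.length F.length D)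
          (mP J.length F.length D) (ggW d D k J F w) (UW d D k J F w),
        GoodC (k + 3 * mS C J.length + 2) (13 / 10 * L) J F S) :
    ∃ S ∈ candsP d D e M C k J F, GoodC (k + 3 * ((M + 3) * mS C J.length))
      ((2 - κ / 16) * lpVal J.toFinset F.toFinset k) J F S := by
  have hκpos : 0 < κ := by
    rw [hκ, hT2, hκ0]; positivity
  have hκ1 : κ ≤ 1 / 100 := by
    rw [hκ, hT2, hκ0]; norm_num
  have hn : 1 ≤ J.length := List.length_pos_iff.2 hJ0
  have hφ : 1 ≤ F.length := List.length_pos_iff.2 hF0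
  have hL0 : 0 ≤ lpVal J.toFinset F.toFinset k := lpVal_nonneg _ _ _
  have hFn : F.toFinset.Nonempty := by
    rw [List.toFinset_nonempty_iff]
    exact hF0
  rcases lpVal_gap_nodup hd hJ hF0 hdiv hk with hus | ⟨hJF, hJk⟩
  swap
  · -- all clients can be opened
    refine ⟨J, List.mem_cons_self, hJ0, hJ, fun x hx => hJF hx, by omega, ?_⟩
    have : cost J.toFinset J.toFinset = 0 := by
      unfold cost
      refine Finset.sum_eq_zero fun j hj => ?_
      exact Metric.infDist_zero_of_mem (by exact_mod_cast hj)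
    rw [this]
    have : 0 ≤ 2 - κ / 16 := by linarith only [hκ1]
    (clear * - this hL0; positivity)
  by_cases hkF : F.length ≤ k
  · -- all facilities can be opened
    refine ⟨F, List.mem_cons_of_mem _ List.mem_cons_self, hF0, hF, fun x hx => hx, by omega, ?_⟩
    have h3 : cost J.toFinset F.toFinset ≤ lpVal J.toFinset F.toFinset k := by
      obtain ⟨x, y, hxy⟩ := exists_frac J.toFinset F.toFinset hFn
        (m := (k : ℝ)) (by exact_mod_cast hk)
      refine le_csInf ⟨_, x, y, hxy, rfl⟩ ?_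
      rintro c ⟨x', y', h', rfl⟩
      exact cost_all_le h'
    nlinarith only [hL0, h3, hκ1]
  push Not at hkF
  obtain ⟨L, hLdef⟩ : ∃ L, L = lpVal J.toFinset F.toFinset k := ⟨_, rfl⟩
  rw [← hLdef] at hus hL0 ⊢
  have hLD : L ≤ J.length * D := by
    obtain ⟨i, hi⟩ := hFn
    rw [hLdef]
    refine (lpVal_le_cost (Finset.singleton_subset_iff.2 hi) (Finset.singleton_nonempty i)
      (by simpa only [Finset.card_singleton] using hk)).trans ?_
    unfold cost
    have h3 : ∀ j ∈ J.toFinset, Metric.infDist j (({i} : Finset X) : Set X) ≤ (D : ℝ) := by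
      intro j _
      rw [Finset.coe_singleton, Metric.infDist_singleton, hd]
      exact_mod_cast hD j i
    refine (Finset.sum_le_card_nsmul _ _ _ h3).trans ?_
    rw [nsmul_eq_mul]
    exact mul_le_mul_of_nonneg_right (by exact_mod_cast List.toFinset_card_le J)
      (Nat.cast_nonneg _)
  have hLpos : 0 < L := by
    refine lt_of_lt_of_le ?_ hus
    have : 0 < usP e M C J.length F.length := by
      unfold usP
      (clear * - he hn hφ hM; positivity)
    exact_mod_cast this
  obtain ⟨w, hw1, hw2, hw3, hw4, hw5, hw6, hw7, hw8⟩ :=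
    arith_w hκ0 hT2 hκ hε hεe he hM hC1 hC hn hφ hkF.le hus hLD
  have hG : GoodW κ e M C D k J.length F.length L w := ⟨hw1, hw2, hw3, hw4, hw5, hw6, hw7, hw8⟩
  have hmemW : ∀ S, S ∈ candsW d D e M C k J F w → S ∈ candsP d D e M C k J F := by
    intro S hS
    exact List.mem_cons_of_mem _ (List.mem_cons_of_mem _ (List.mem_append_right _
      (List.mem_flatMap.2 ⟨w, hw1, hS⟩)))
  by_cases hU : (UW d D k J F w).length ≤ nP J.length F.length D
  · -- a single facility
    obtain ⟨i, hi, hc⟩ := hsingle w hw2 hkF hU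
    refine ⟨[i], ?_, by simp, by simp, by simpa using hi, by simp only [List.length_cons, List.length_nil, zero_add]; omega, ?_⟩
    · exact List.mem_cons_of_mem _ (List.mem_cons_of_mem _ (List.mem_append_left _
        (List.mem_map.2 ⟨i, hi, rfl⟩)))
    · have e1 : [i].toFinset = {i} := by simp
      rw [e1]
      refine hc.trans ?_
      rw [← hLdef]
      nlinarith only [hκ1, hw3, hκpos]
  · push Not at hU
    have hf := hrad w hw2 hkF hU
    have hfc : fracCost J.toFinset F.toFinset (xW d D k J F w) ≤ (1 + κ) * L := by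
      refine hf.cost.trans ?_
      rw [← hLdef]
      linarith only [hw3]
    have hpr := hw4.trans hf.price
    by_cases hcase : Case1W κ0 d D k J F w
    · exact ⟨_, hmemW _ List.mem_cons_self, h1 w L hkF hLpos hG hU hf hfc hpr hcase⟩
    · obtain ⟨S, hS, h3, h4, h5, h6, h7⟩ := h2 w L hkF hLpos hG hU hf hfc hpr hcase
      refine ⟨S, hmemW _ (List.mem_cons_of_mem _ hS), h3, h4, h5, ?_, ?_⟩
      · refine h6.trans ?_
        have hms : 1 ≤ mS C J.length := Nat.mul_pos hC1 (Nat.size_pos.2 hn)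
        have h8 : 1 * mS C J.length + 1 ≤ (M + 3) * mS C J.length := by nlinarith only [hms]
        omega
      · refine h7.trans ?_
        exact mul_le_mul_of_nonneg_right (by linarith only [hκ1]) hL0

/-- The output of the algorithm is good if there is a good candidate. -/
theorem pseudoP_good {d : X → X → ℕ} (hd : ∀ a b, dist a b = (d a b : ℝ)) {D : ℕ}
    (hD : ∀ a b, d a b ≤ D) {J F : List X} (hJ : J.Nodup) {k e M C : ℕ} {c : ℝ}
    (h : ∃ S ∈ candsP d D e M C k J F, GoodC (k + 3 * ((M + 3) * mS C J.length)) c J F S) :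
    GoodC (k + 3 * ((M + 3) * mS C J.length)) c J F (pseudoP e M C d D J F k) := by
  obtain ⟨S, hS, h1, h2, h3, h4, h5⟩ := h
  have hmem : S ∈ (candsP d D e M C k J F).filter
      (validP (k + 3 * ((M + 3) * mS C J.length)) F) := by
    rw [List.mem_filter]
    refine ⟨hS, ?_⟩
    unfold validP
    rw [decide_eq_true_iff]
    exact ⟨h1, h2, h3, h4⟩
  have h6 : pseudoP e M C d D J F k ∈ (candsP d D e M C k J F).filter
      (validP (k + 3 * ((M + 3) * mS C J.length)) F) :=
    A1.argmin_mem (cst d D J) (F.take 1) (List.ne_nil_of_mem hmem)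
  have h7 : cst d D J (pseudoP e M C d D J F k) ≤ cst d D J S :=
    A1.argmin_le (cst d D J) (F.take 1) hmem
  obtain ⟨-, h8⟩ := List.mem_filter.1 h6
  unfold validP at h8
  rw [decide_eq_true_iff] at h8
  refine ⟨h8.1, h8.2.1, h8.2.2.1, h8.2.2.2, ?_⟩
  rw [← cst_real hd hJ h8.1 (fun j _ s _ => hD j s)]
  rw [← cst_real hd hJ h1 (fun j _ s _ => hD j s)] at h5
  exact le_trans (by exact_mod_cast h7) h5

end

end Vale.Agent.P334.Alg
end

section

/-!
The specification of the pseudo-approximation algorithm, from its pieces.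
-/

namespace Vale.Agent.P334.Alg

/-- One facility suffices if there are few units. -/
def LmSingleSpec : Prop :=
  ∀ {X : Type} [MetricSpace X] [DecidableEq X] {d : X → X → ℕ},
    (∀ a b, dist a b = (d a b : ℝ)) → ∀ {D : ℕ}, (∀ a b, d a b ≤ D) → ∀ {J F : List X}, J.Nodup →
    F.Nodup → J ≠ [] → F ≠ [] → ∀ {k w : ℕ}, 1 ≤ k → k < F.length → 1000 ≤ w →
    (UW d D k J F w).length ≤ nP J.length F.length D →
    ∃ i ∈ F, cost J.toFinset {i} ≤ lpVal J.toFinset F.toFinset k + w + 1

/-- Facts about the fractional solution, in the main case. -/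
def LmRadSpec : Prop :=
  ∀ {X : Type} [MetricSpace X] [DecidableEq X] {d : X → X → ℕ},
    (∀ a b, dist a b = (d a b : ℝ)) → ∀ {D : ℕ}, (∀ a b, d a b ≤ D) → ∀ {J F : List X}, J.Nodup →
    F.Nodup → J ≠ [] → F ≠ [] → ∀ {k w : ℕ}, 1 ≤ k → k < F.length → 1000 ≤ w →
    nP J.length F.length D < (UW d D k J F w).length → LpFacts d D k J F w

/-- The constants. -/
structure Consts (e M C : ℕ) (κ0 κ ε T1 T2 : ℝ) : Prop where
  hκ0 : κ0 = 1 / 10 ^ 6
  hT2 : T2 = 10 ^ 10 / κ0
  hκ : κ = κ0 / (8 * (2048 * (T2 + 2)))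
  hT1 : T1 = 10 ^ 6 / κ
  hε : ε = κ / 10 ^ 10
  hεe : ε = 1 / e
  he : 1 ≤ e
  hM : 1 ≤ M
  hMε : 1 ≤ ε * M
  hC1 : 1 ≤ C
  hC : ∀ n : ℕ, 1 ≤ n → 200 * n / κ ≤ (1 + 1 / (e : ℝ)) ^ (C * Nat.size n - 1)

/-- The first case. -/
def Cand1Spec : Prop :=
  ∀ {e M C : ℕ} {κ0 κ ε T1 T2 : ℝ}, Consts e M C κ0 κ ε T1 T2 →
  ∀ {X : Type} [MetricSpace X] [DecidableEq X] {d : X → X → ℕ},
    (∀ a b, dist a b = (d a b : ℝ)) → ∀ {D : ℕ}, (∀ a b, d a b ≤ D) → ∀ {J F : List X}, J.Nodup →
    F.Nodup → J ≠ [] → F ≠ [] → ∀ {k w : ℕ}, 1 ≤ k → k < F.length →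
    ∀ {L : ℝ}, 0 < L → GoodW κ e M C D k J.length F.length L w →
      nP J.length F.length D < (UW d D k J F w).length → LpFacts d D k J F w →
      fracCost J.toFinset F.toFinset (xW d D k J F w) ≤ (1 + κ) * L →
      κ / 2 * L ≤ gW d D k J F w * (k - ∑ i ∈ F.toFinset, yW d D k J F w i) →
      Case1W κ0 d D k J F w →
      GoodC (k + 3 * ((M + 3) * mS C J.length)) ((2 - κ / 16) * L) J F
        (cand1 d D e M C k (w / (16 * J.length)) J F (nP J.length F.length D)
          (mP J.length F.length D) (ggW d D k J F w) (UW d D k J F w))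

/-- The second case. -/
def Cands2Spec : Prop :=
  ∀ {e M C : ℕ} {κ0 κ ε T1 T2 : ℝ}, Consts e M C κ0 κ ε T1 T2 →
  ∀ {X : Type} [MetricSpace X] [DecidableEq X] {d : X → X → ℕ},
    (∀ a b, dist a b = (d a b : ℝ)) → ∀ {D : ℕ}, (∀ a b, d a b ≤ D) → ∀ {J F : List X}, J.Nodup →
    F.Nodup → J ≠ [] → F ≠ [] → ∀ {k w : ℕ}, 1 ≤ k → k < F.length →
    ∀ {L : ℝ}, 0 < L → GoodW κ e M C D k J.length F.length L w →
      nP J.length F.length D < (UW d D k J F w).length → LpFacts d D k J F w →
      fracCost J.toFinset F.toFinset (xW d D k J F w) ≤ (1 + κ) * L →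
      κ / 2 * L ≤ gW d D k J F w * (k - ∑ i ∈ F.toFinset, yW d D k J F w i) →
      ¬ Case1W κ0 d D k J F w →
      ∃ S ∈ cands2 d D e C k (w / (16 * J.length)) J F (nP J.length F.length D)
          (mP J.length F.length D) (ggW d D k J F w) (UW d D k J F w),
        GoodC (k + 3 * mS C J.length + 2) (13 / 10 * L) J F S

/-- The pseudo-approximation in metric spaces. -/
theorem pseudoP_spec (hS : LmSingleSpec) (hR : LmRadSpec) (h1 : Cand1Spec) (h2 : Cands2Spec)
    {e M C : ℕ} {κ0 κ ε T1 T2 : ℝ} (hc : Consts e M C κ0 κ ε T1 T2)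
    {X : Type} [MetricSpace X] [DecidableEq X] {d : X → X → ℕ}
    (hd : ∀ a b, dist a b = (d a b : ℝ)) {D : ℕ} (hD : ∀ a b, d a b ≤ D) {J F : List X}
    (hJ : J.Nodup) (hF : F.Nodup) (hJ0 : J ≠ []) (hF0 : F ≠ []) {k : ℕ} (hk : 1 ≤ k)
    (hdiv : ∀ a b, usP e M C J.length F.length ∣ d a b) :
    GoodC (k + 3 * ((M + 3) * mS C J.length)) ((2 - κ / 16) * lpVal J.toFinset F.toFinset k) J F
      (pseudoP e M C d D J F k) := by
  refine pseudoP_good hd hD hJ (exists_goodC hd hD hJ hF hJ0 hF0 hk hc.hκ0 hc.hT2 hc.hκ hc.hε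
    hc.hεe hc.he hc.hM hc.hC1 hc.hC hdiv ?_ ?_ ?_ ?_)
  · intro w hw hkF hU
    exact hS hd hD hJ hF hJ0 hF0 hk hkF hw hU
  · intro w hw hkF hU
    exact hR hd hD hJ hF hJ0 hF0 hk hkF hw hU
  · intro w L hkF hL hG hU hf hfc hpr hcase
    exact h1 hc hd hD hJ hF hJ0 hF0 hk hkF hL hG hU hf hfc hpr hcase
  · intro w L hkF hL hG hU hf hfc hpr hcase
    exact h2 hc hd hD hJ hF hJ0 hF0 hk hkF hL hG hU hf hfc hpr hcase

end Vale.Agent.P334.Alg
end

section
attribute [-instance] ProperSMul.toContinuousSMul IsTopologicalTorsor.toContinuousSMul IdemSemiring.toCanonicallyOrderedAdd IdemSemiring.toMulLeftMono IdemSemiring.toMulRightMono AddQuantale.instAddLeftMono AddQuantale.instAddRightMono Quantale.instMulLeftMono Quantale.instMulRightMono FiniteDimensional.rclike_to_real IsScalarTower.complexToReal FiniteDimensional.complexToReal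

set_option linter.all false

/-!
[LP-1]: a list of more than `N` units is a fractional solution with radii.
-/

namespace Vale.Agent.P334.Alg

section nat

variable {X : Type} [DecidableEq X] {d : X → X → ℕ} {D D1 N : ℕ} {U : List X}

omit [DecidableEq X] in
lemma radN_lt (hD : ∀ a b, d a b ≤ D) (hD1 : D < D1) (hNU : N < U.length) (p : X) :
    radN d D1 N U p < D1 := by
  have h1 := lt_radN d D1 N U p hD1
  rw [ballN_all hD p le_rfl] at h1
  omega

omit [DecidableEq X] in
lemma lt_ballN_radN (hD : ∀ a b, d a b ≤ D) (hD1 : D < D1) (hNU : N < U.length) (p : X) :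
    N < ballN d U p (radN d D1 N U p) := by
  have h1 := lt_radN d D1 N U p (radN_lt hD hD1 hNU p)
  omega

omit [DecidableEq X] in
lemma countP_lt_radN (hD : ∀ a b, d a b ≤ D) (hD1 : D < D1) (hNU : N < U.length) (p : X) :
    U.countP (fun u => decide (d u p < radN d D1 N U p)) ≤ N := by
  have h0 := radN_lt hD hD1 hNU p
  rcases Nat.eq_zero_or_pos (radN d D1 N U p) with h | h
  · rw [h]
    have : U.countP (fun u => decide (d u p < 0)) = 0 := by
      rw [List.countP_eq_zero]
      intro u _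
      simp
    omega
  · have h1 := (lt_radN d D1 N U p (show radN d D1 N U p - 1 < D1 by omega)).2 (by omega)
    refine le_trans (le_of_eq ?_) h1
    unfold ballN
    refine List.countP_congr fun u _ => ?_
    simp only [decide_eq_true_eq]
    omega

omit [DecidableEq X] in
lemma countP_split (p : X) (r : ℕ) :
    U.countP (fun u => decide (d u p < r)) + U.countP (fun u => decide (d u p = r)) =
      ballN d U p r := by
  unfold ballN
  induction U with
  | nil => simp only [List.countP_nil, add_zero]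
  | cons a L ih =>
    rw [List.countP_cons, List.countP_cons, List.countP_cons, ← ih]
    simp only [decide_eq_true_eq]
    split_ifs <;> omega

omit [DecidableEq X] in
lemma length_nearU (hD : ∀ a b, d a b ≤ D) (hD1 : D < D1) (hNU : N < U.length) (p : X) :
    (nearU d D1 N U p).length = N := by
  have h1 := lt_ballN_radN hD hD1 hNU p
  have h2 := countP_lt_radN hD hD1 hNU p
  have h3 := countP_split (d := d) (U := U) p (radN d D1 N U p)
  unfold nearU
  rw [List.length_append, List.length_take, ← List.countP_eq_length_filter,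
    ← List.countP_eq_length_filter]
  omega

lemma count_nearU_le (i j : X) : (nearU d D1 N U j).count i ≤ U.count i := by
  unfold nearU
  rw [List.count_append]
  have h1 := (List.take_sublist (N - (U.filter (fun u => decide (d u j < radN d D1 N U j))).length)
    (U.filter (fun u => decide (d u j = radN d D1 N U j)))).count_le i
  have h2 : (U.filter (fun u => decide (d u j < radN d D1 N U j))).count i +
      (U.filter (fun u => decide (d u j = radN d D1 N U j))).count i ≤ U.count i := by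
    by_cases h : d i j < radN d D1 N U j
    · have h3 : (U.filter (fun u => decide (d u j = radN d D1 N U j))).count i = 0 := by
        rw [List.count_eq_zero]
        intro hm
        have := (List.mem_filter.1 hm).2
        simp only [decide_eq_true_eq] at this
        omega
      have h4 := (List.filter_sublist (p := fun u => decide (d u j < radN d D1 N U j))
        (l := U)).count_le i
      omega
    · have h3 : (U.filter (fun u => decide (d u j < radN d D1 N U j))).count i = 0 := by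
        rw [List.count_eq_zero]
        intro hm
        have := (List.mem_filter.1 hm).2
        simp only [decide_eq_true_eq] at this
        omega
      have h4 := (List.filter_sublist (p := fun u => decide (d u j = radN d D1 N U j))
        (l := U)).count_le i
      omega
  omega

lemma count_nearU_eq {i j : X} (h : d i j < radN d D1 N U j) :
    (nearU d D1 N U j).count i = U.count i := by
  refine le_antisymm (count_nearU_le i j) ?_
  unfold nearU
  rw [List.count_append, List.count_filter (by simpa using h)]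
  omega

lemma count_nearU_zero {i j : X} (h : radN d D1 N U j < d i j) :
    (nearU d D1 N U j).count i = 0 := by
  rw [List.count_eq_zero]
  intro hm
  unfold nearU at hm
  rcases List.mem_append.1 hm with h1 | h1
  · have := (List.mem_filter.1 h1).2
    simp only [decide_eq_true_eq] at this
    omega
  · have := (List.mem_filter.1 (List.mem_of_mem_take h1)).2
    simp only [decide_eq_true_eq] at this
    omega

omit [DecidableEq X] in
lemma nearU_le {u j : X} (hu : u ∈ nearU d D1 N U j) : d u j ≤ radN d D1 N U j := by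
  unfold nearU at hu
  rcases List.mem_append.1 hu with h1 | h1
  · have := (List.mem_filter.1 h1).2
    simp only [decide_eq_true_eq] at this
    omega
  · have := (List.mem_filter.1 (List.mem_of_mem_take h1)).2
    simp only [decide_eq_true_eq] at this
    omega

omit [DecidableEq X] in
/-- The deficits of the balls give the cost of the nearest units. -/
lemma sum_def_eq (hD : ∀ a b, d a b ≤ D) (hD1 : D < D1) (hNU : N < U.length) (j : X) :
    ((List.range D1).map (fun r => N - ballN d U j r)).sum = clN d D1 N U j := by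
  have h1 := LpS.sum_ballN d D1 j (fun a => (hD a j).trans hD1.le) (nearU d D1 N U j) N
    (length_nearU hD hD1 hNU j).le
  rw [length_nearU hD hD1 hNU j, Nat.sub_self, Nat.zero_mul, Nat.zero_add] at h1
  unfold clN
  rw [← h1]
  congr 1
  refine List.map_congr_left fun r hr => ?_
  have hr' : r < D1 := List.mem_range.1 hr
  rcases Nat.lt_or_ge r (radN d D1 N U j) with h2 | h2
  · have h3 : ballN d (nearU d D1 N U j) j r = ballN d U j r := by
      unfold ballN nearU
      rw [List.countP_append]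
      have h4 : ((U.filter (fun u => decide (d u j = radN d D1 N U j))).take
          (N - (U.filter (fun u => decide (d u j < radN d D1 N U j))).length)).countP
          (fun u => decide (d u j ≤ r)) = 0 := by
        rw [List.countP_eq_zero]
        intro u hu
        have := (List.mem_filter.1 (List.mem_of_mem_take hu)).2
        simp only [decide_eq_true_eq] at this ⊢
        omega
      rw [h4, Nat.add_zero, List.countP_filter]
      refine List.countP_congr fun u _ => ?_
      simp only [Bool.and_eq_true, decide_eq_true_eq]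
      omega
    rw [h3]
  · have h3 : N < ballN d U j r :=
      lt_of_lt_of_le (lt_ballN_radN hD hD1 hNU j) (ballN_mono d U j h2)
    have h4 : ballN d (nearU d D1 N U j) j r = N := by
      refine Eq.trans ?_ (length_nearU (N := N) hD hD1 hNU j)
      unfold ballN
      rw [List.countP_eq_length]
      intro u hu
      simp only [decide_eq_true_eq]
      exact (nearU_le hu).trans h2
    omega

end nat

section real

variable {X : Type} [MetricSpace X] [DecidableEq X] {d : X → X → ℕ} {D D1 N : ℕ}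
  {J F U : List X} {x : X → X → ℝ} {y r : X → ℝ}

/-- Total mass. -/
theorem lp_mass (hU : ∀ u ∈ U, u ∈ F) (hy : ∀ i, y i = (U.count i : ℝ) / N) :
    ∑ i ∈ F.toFinset, y i = (U.length : ℝ) / N := by
  have h := mass_eq (N := N) hU (fun _ => True)
  simp only [Finset.filter_true] at h
  rw [Finset.sum_congr rfl (fun i _ => hy i), h]
  congr 2
  rw [List.countP_eq_length]
  intro u _
  simp

/-- [LP-1]: the fractional solution. -/
theorem lp_sol (hD : ∀ a b, d a b ≤ D) (hD1 : D < D1) (hN : 0 < N)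
    (hU : ∀ u ∈ U, u ∈ F) (hcap : ∀ i, U.count i ≤ N) (hNU : N < U.length)
    (hx : ∀ i j, x i j = ((nearU d D1 N U j).count i : ℝ) / N)
    (hy : ∀ i, y i = (U.count i : ℝ) / N) :
    Sol J.toFinset F.toFinset x y := by
  have hN' : (0 : ℝ) < N := by exact_mod_cast hN
  refine ⟨?_, ?_, ?_, ?_, ?_, le_rfl⟩
  · intro i _ j _
    rw [hx]; (clear * - hN; positivity)
  · intro i _ j _
    rw [hx, hy]
    have : ((nearU d D1 N U j).count i : ℝ) ≤ U.count i := by
      exact_mod_cast count_nearU_le i j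
    (clear * - this hN; gcongr)
  · intro i _
    rw [hy]; (clear * - hN; positivity)
  · intro i _
    rw [hy, div_le_one hN']
    exact_mod_cast hcap i
  · intro j _
    have h1 := sum_count_mul F.toFinset (fun _ => (1 : ℝ) / N) (nearU d D1 N U j)
      (fun u hu => List.mem_toFinset.2 (hU u (mem_nearU hu)))
    have h2 : ∀ i ∈ F.toFinset, x i j = ((nearU d D1 N U j).count i : ℝ) * ((1 : ℝ) / N) := by
      intro i _
      rw [hx]; ring
    rw [Finset.sum_congr rfl h2, h1, List.map_const', List.sum_replicate,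
      length_nearU hD hD1 hNU j, nsmul_eq_mul]
    (clear * - hN; field_simp)

theorem lp_gt (hd : ∀ a b, dist a b = (d a b : ℝ)) (hD : ∀ a b, d a b ≤ D) (hD1 : D < D1)
    (hN : 0 < N) (hU : ∀ u ∈ U, u ∈ F) (hNU : N < U.length)
    (hy : ∀ i, y i = (U.count i : ℝ) / N) (hr : ∀ p, r p = (radN d D1 N U p : ℝ)) (p : X) :
    1 < ∑ i ∈ F.toFinset with dist i p ≤ r p, y i := by
  classical
  have hN' : (0 : ℝ) < N := by exact_mod_cast hN
  rw [Finset.sum_congr rfl (fun i _ => hy i), mass_eq hU (fun i => dist i p ≤ r p),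
    lt_div_iff₀ hN', one_mul, Nat.cast_lt]
  refine lt_of_lt_of_le (lt_ballN_radN hD hD1 hNU p) (le_of_eq ?_)
  unfold ballN
  refine List.countP_congr fun u _ => ?_
  simp only [decide_eq_true_eq]
  rw [hd, hr]
  exact Nat.cast_le.symm

theorem lp_le (hd : ∀ a b, dist a b = (d a b : ℝ)) (hD : ∀ a b, d a b ≤ D) (hD1 : D < D1)
    (hN : 0 < N) (hU : ∀ u ∈ U, u ∈ F) (hNU : N < U.length)
    (hy : ∀ i, y i = (U.count i : ℝ) / N) (hr : ∀ p, r p = (radN d D1 N U p : ℝ)) (p : X) :
    ∑ i ∈ F.toFinset with dist i p < r p, y i ≤ 1 := by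
  classical
  have hN' : (0 : ℝ) < N := by exact_mod_cast hN
  rw [Finset.sum_congr rfl (fun i _ => hy i), mass_eq hU (fun i => dist i p < r p),
    div_le_one hN', Nat.cast_le]
  refine le_trans (le_of_eq ?_) (countP_lt_radN hD hD1 hNU p)
  refine List.countP_congr fun u _ => ?_
  simp only [decide_eq_true_eq]
  rw [hd, hr]
  exact Nat.cast_lt

theorem lp_eq (hd : ∀ a b, dist a b = (d a b : ℝ))
    (hx : ∀ i j, x i j = ((nearU d D1 N U j).count i : ℝ) / N)
    (hy : ∀ i, y i = (U.count i : ℝ) / N) (hr : ∀ p, r p = (radN d D1 N U p : ℝ))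
    {i j : X} (h : dist i j < r j) : x i j = y i := by
  rw [hd, hr, Nat.cast_lt] at h
  rw [hx, hy, count_nearU_eq h]

theorem lp_zero (hd : ∀ a b, dist a b = (d a b : ℝ))
    (hx : ∀ i j, x i j = ((nearU d D1 N U j).count i : ℝ) / N)
    (hr : ∀ p, r p = (radN d D1 N U p : ℝ))
    {i j : X} (h : r j < dist i j) : x i j = 0 := by
  rw [hd, hr, Nat.cast_lt] at h
  rw [hx, count_nearU_zero h]
  simp only [CharP.cast_eq_zero, zero_div]

/-- The cost of the fractional solution. -/
theorem lp_cost (hd : ∀ a b, dist a b = (d a b : ℝ)) (hD : ∀ a b, d a b ≤ D) (hD1 : D < D1)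
    (hJ : J.Nodup) (hU : ∀ u ∈ U, u ∈ F) (hNU : N < U.length)
    (hx : ∀ i j, x i j = ((nearU d D1 N U j).count i : ℝ) / N) :
    fracCost J.toFinset F.toFinset x =
      (((J.map (fun j => ((List.range D1).map (fun r => N - ballN d U j r)).sum)).sum : ℕ) : ℝ) /
        N := by
  have h1 : ∀ j ∈ J.toFinset, ∑ i ∈ F.toFinset, x i j * dist i j = (clN d D1 N U j : ℝ) / N :=
    fun j _ => cl_eq hd hU hx j
  unfold fracCost
  rw [Finset.sum_congr rfl h1, List.sum_toFinset _ hJ, cast_sum_map, ← sum_map_div]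
  congr 1
  refine List.map_congr_left fun j _ => ?_
  rw [sum_def_eq hD hD1 hNU j]

end real

end Vale.Agent.P334.Alg
end

section

set_option linter.all false

/-!
[LP-4]: the result of the local search has the structure `Rad`.
-/

namespace Vale.Agent.P334.Alg

open Finset

section

variable {X : Type} [MetricSpace X] [DecidableEq X]

/-- [LP-4]: structure and slack of the local optimum. -/
theorem lm_rad {d : X → X → ℕ} (hd : ∀ a b, dist a b = (d a b : ℝ)) {D : ℕ}
    (hD : ∀ a b, d a b ≤ D) {J F : List X} (hJ : J.Nodup) (hF : F.Nodup) (hJ0 : J ≠ [])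
    (hF0 : F ≠ []) {k w : ℕ} (hk : 1 ≤ k) (hkF : k < F.length) (hw : 1000 ≤ w)
    {N m G gg : ℕ} {U : List X} (hN : N = nP J.length F.length D)
    (hm : m = mP J.length F.length D) (hG : G = gP J.length D)
    (hU : U = lmSearch d (D + 1) N k w G m J F)
    (hgg : gg = gfm k w N G m (U.length - 1)) (hL : N < U.length)
    {g : ℝ} {x : X → X → ℝ} {y r : X → ℝ} (hg : g = (gg : ℝ) / m)
    (hx : ∀ i j, x i j = ((nearU d (D + 1) N U j).count i : ℝ) / N)
    (hy : ∀ i, y i = (U.count i : ℝ) / N) (hr : ∀ p, r p = (radN d (D + 1) N U p : ℝ)) :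
    Rad J.toFinset F.toFinset g x y r ∧
      49 / 50 * (w : ℝ) ≤ g * (k - ∑ i ∈ F.toFinset, y i) := by
  classical
  have hn : 1 ≤ J.length := List.length_pos_of_ne_nil hJ0
  have hφ : 1 ≤ F.length := List.length_pos_of_ne_nil hF0
  have hGe : G = J.length * (D + 1) + 1 := hG
  have hme : m = 200 * F.length * J.length * (D + 1) := hm
  have hNe : N = 400 * F.length * G * G * m := by rw [hN, hG, hm]; rfl
  have hm0 : 0 < m := by
    rw [hme]
    exact Nat.mul_pos (Nat.mul_pos (Nat.mul_pos (by norm_num) hφ) hn) (Nat.succ_pos D)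
  have hG0 : 0 < G := by omega
  have hN0 : 0 < N := by
    rw [hNe]; (clear * - hφ hG0 hm0; positivity)
  have hN8 : 8 * F.length * m ≤ N := by
    rw [hNe]
    calc 8 * F.length * m = 8 * F.length * 1 * 1 * m := by ring
      _ ≤ 400 * F.length * G * G * m := by
        gcongr
        · norm_num
        · exact hG0
        · exact hG0
  have hNR : (0 : ℝ) < N := by exact_mod_cast hN0
  have hmR : (0 : ℝ) < m := by exact_mod_cast hm0
  obtain ⟨hfe, hlo⟩ := lmSearch_spec d (D + 1) N k w G m J F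
  rw [← hU] at hfe hlo
  have hUF : ∀ u ∈ U, u ∈ F := hfe.1
  have hcount : ∀ i, U.count i ≤ N := hfe.2
  have hD1 : D < D + 1 := Nat.lt_succ_self D
  have hcap : gfm k w N G m (U.length - 1) < m * G := by
    obtain ⟨i, hi⟩ : ∃ i, i ∈ U := List.exists_mem_of_length_pos (by (clear * - hN hL hNe hN0; omega))
    refine lt_of_le_of_lt ((lm_del hlo (hUF i hi) hi).trans
      (lmM_le_cap d (D + 1) N m J U i)) ?_
    rw [hGe]
    calc J.length * (D + 1) * m = m * (J.length * (D + 1)) := by ring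
      _ < m * (J.length * (D + 1) + 1) := Nat.mul_lt_mul_of_pos_left (Nat.lt_succ_self _) hm0
  obtain ⟨hs1, hs2, hs3, hs4⟩ := gfm_spec hn hφ (Nat.succ_pos D) hGe hme hNe hw hkF.le hcap
  have hL1 : U.length - 1 + 1 = U.length := by omega
  rw [hL1] at hs2
  rw [← hgg] at hs2 hs3 hs4
  have hggR : (0 : ℝ) < gg := by exact_mod_cast hs4
  have hsum := lp_mass (N := N) hUF hy
  refine ⟨⟨?_, lp_sol hD hD1 hN0 hUF hcount hL hx hy, lp_gt hd hD hD1 hN0 hUF hL hy hr,
    lp_le hd hD hD1 hN0 hUF hL hy hr, fun j _ i _ h => lp_eq hd hx hy hr h,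
    fun j _ i _ h => lp_zero hd hx hr h, ?_, ?_⟩, ?_⟩
  · rw [hg]; exact div_pos hggR hmR
  · intro i hi hyi
    have hiU : i ∈ U := by
      rw [hy] at hyi
      have h6 : (0 : ℝ) < (U.count i : ℝ) := (div_pos_iff_of_pos_right hNR).1 hyi
      exact List.count_pos_iff.1 (by exact_mod_cast h6)
    have h7 := lp_gain hd hJ hm0 hlo (List.mem_toFinset.1 hi) hiU
    rw [← hgg, ← hg] at h7
    refine h7.trans (le_of_eq (Finset.sum_congr rfl fun j _ => ?_))
    rw [hr]
  · intro i hi q hq
    have h8 := lp_loss hd hD hD1 hJ hF hm0 hN8 hUF hL hcount hlo (List.mem_toFinset.1 hi) q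
      (fun j hj => by
        refine le_trans (le_of_eq ?_) (hq j hj)
        exact Finset.sum_congr rfl fun b _ => (hy b).symm)
    refine h8.trans ?_
    rw [hg, ← mul_div_assoc]
    exact div_le_div_of_nonneg_right hs2 hmR.le
  · rw [hsum, hg]
    have e1 : (((U.length - 1 : ℕ) : ℝ) + 1) = U.length := by
      rw [← hL1]; push_cast; simp only
    rw [e1] at hs3
    exact hs3

end

end Vale.Agent.P334.Alg
end

section
attribute [-instance] ProperSMul.toContinuousSMul IsTopologicalTorsor.toContinuousSMul IdemSemiring.toCanonicallyOrderedAdd IdemSemiring.toMulLeftMono IdemSemiring.toMulRightMono AddQuantale.instAddLeftMono AddQuantale.instAddRightMono Quantale.instMulLeftMono Quantale.instMulRightMono FiniteDimensional.rclike_to_real IsScalarTower.complexToReal FiniteDimensional.complexToReal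

/-!
Near-optimality of the local optimum ([LP-3]).
-/

namespace Vale.Agent.P334.Alg

open Finset

section

/-! ### The smoothed hinge -/

lemma sh_le_mul (m u : ℕ) : sh m u ≤ u * min u m := by
  induction u with
  | zero => simp only [sh_zero, zero_le, inf_of_le_left, mul_zero, Std.le_refl]
  | succ u ih =>
    rw [sh_succ]
    have h1 : u * min u m ≤ u * min (u + 1) m :=
      Nat.mul_le_mul_left _ (min_le_min_right _ (Nat.le_succ u))
    have h2 : (u + 1) * min (u + 1) m = u * min (u + 1) m + min (u + 1) m := by ring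
    omega

lemma mul_le_sh (m u : ℕ) : m * u ≤ sh m u + m * m := by
  induction u with
  | zero => simp only [mul_zero, zero_le]
  | succ u ih =>
    rw [sh_succ]
    rcases Nat.lt_or_ge (u + 1) m with h | h
    · have h1 : m * (u + 1) ≤ m * m := Nat.mul_le_mul_left _ h.le
      omega
    · rw [min_eq_right h]
      have h1 : m * (u + 1) = m * u + m := by ring
      omega

/-- The convexity inequality. -/
lemma sh_conv (m N b : ℕ) (z : ℝ) :
    (sh m (N - b) : ℝ) + (min (N - b) m : ℕ) * ((b : ℝ) - z) ≤ m * max 0 ((N : ℝ) - z) := by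
  rcases Nat.lt_or_ge N b with h | h
  · have h1 : N - b = 0 := by omega
    rw [h1, sh_zero]
    simp only [Nat.cast_zero, Nat.zero_min, zero_mul, add_zero]
    (clear * -; positivity)
  · have h1 : (sh m (N - b) : ℝ) ≤ ((N - b : ℕ) : ℝ) * (min (N - b) m : ℕ) := by
      exact_mod_cast sh_le_mul m (N - b)
    rw [Nat.cast_sub h] at h1
    have h2 : ((min (N - b) m : ℕ) : ℝ) ≤ m := by exact_mod_cast min_le_right _ _
    have h3 : (0 : ℝ) ≤ ((min (N - b) m : ℕ) : ℝ) := Nat.cast_nonneg _
    have h4 : (sh m (N - b) : ℝ) + (min (N - b) m : ℕ) * ((b : ℝ) - z) ≤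
        (min (N - b) m : ℕ) * ((N : ℝ) - z) := by linarith
    refine h4.trans ?_
    calc ((min (N - b) m : ℕ) : ℝ) * ((N : ℝ) - z)
        ≤ (min (N - b) m : ℕ) * max 0 ((N : ℝ) - z) :=
          mul_le_mul_of_nonneg_left (le_max_right _ _) h3
      _ ≤ m * max 0 ((N : ℝ) - z) := mul_le_mul_of_nonneg_right h2 (le_max_left _ _)

/-! ### Prices -/

lemma gfm_mul_le {k w N G m v : ℕ} (hv : v < k * N) :
    (gfm k w N G m v : ℝ) * ((k : ℝ) * N - v) ≤ m * w * N := by
  unfold gfm
  rw [if_pos hv]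
  have h1 : min (m * G) (m * w * N / (k * N - v)) * (k * N - v) ≤ m * w * N :=
    (Nat.mul_le_mul_right _ (min_le_right _ _)).trans (Nat.div_mul_le_self _ _)
  have h2 : ((k * N - v : ℕ) : ℝ) = (k : ℝ) * N - v := by
    rw [Nat.cast_sub hv.le]; push_cast; ring
  rw [← h2]
  exact_mod_cast h1

lemma gfm_step {k w N G m v : ℕ} (hG : 1 ≤ G) (hm : 1 ≤ m) (hw : 1 ≤ w)
    (hN : 4 * G * G * m ≤ N) (hv : gfm k w N G m v < m * G) :
    v + 1 < k * N ∧ (gfm k w N G m (v + 1) : ℝ) ≤ gfm k w N G m v + 2 := by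
  have hv1 : v < k * N := by
    by_contra h
    unfold gfm at hv
    rw [if_neg h] at hv
    exact lt_irrefl _ hv
  set q : ℕ := k * N - v with hq
  have hq1 : 1 ≤ q := by omega
  have hg : gfm k w N G m v = m * w * N / q := by
    unfold gfm at hv ⊢
    rw [if_pos hv1] at hv ⊢
    rw [← hq] at hv ⊢
    exact min_eq_right (by (clear * - hv1 hv; omega))
  rw [hg] at hv
  have h1 : m * w * N < m * G * q := (Nat.div_lt_iff_lt_mul (by omega)).1 hv
  have h2 : w * N < G * q := by
    have : m * (w * N) < m * (G * q) := by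
      calc m * (w * N) = m * w * N := by ring
        _ < m * G * q := h1
        _ = m * (G * q) := by ring
    exact lt_of_mul_lt_mul_left this (Nat.zero_le m)
  have hN4 : 4 * G ≤ N := by
    refine le_trans ?_ hN
    nlinarith only [Nat.mul_le_mul (Nat.mul_le_mul le_rfl hG : 4 * G * 1 ≤ 4 * G * G) hm]
  have h3 : 4 ≤ q := by
    by_contra hc
    have : q ≤ 3 := by (clear * - hq1 hc; omega)
    have h5 : G * q ≤ G * 3 := Nat.mul_le_mul_left _ this
    have h6 : N ≤ w * N := Nat.le_mul_of_pos_left _ (by omega)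
    (clear * - h2 hN4 h5 h6; omega)
  have hv2 : v + 1 < k * N := by omega
  refine ⟨hv2, ?_⟩
  have hq' : k * N - (v + 1) = q - 1 := by (clear * - h3 hv2; omega)
  have h4 : (gfm k w N G m (v + 1) : ℝ) ≤ (m * w * N : ℝ) / (q - 1) := by
    unfold gfm
    rw [if_pos hv2, hq']
    have h5 : ((min (m * G) (m * w * N / (q - 1)) : ℕ) : ℝ) ≤ ((m * w * N / (q - 1) : ℕ) : ℝ) := by
      exact_mod_cast min_le_right _ _
    refine h5.trans ((Nat.cast_div_le).trans ?_)
    push_cast [Nat.cast_sub hq1]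
    exact le_rfl
  have h5 : (m * w * N : ℝ) / q - 1 ≤ gfm k w N G m v := by
    rw [hg]
    have h6 := Nat.lt_floor_add_one ((m * w * N : ℝ) / q)
    have h7 : ⌊((m * w * N : ℕ) : ℝ) / (q : ℕ)⌋₊ = m * w * N / q := Nat.floor_div_eq_div _ _
    push_cast at h7
    rw [h7] at h6
    linarith only [h6]
  have hqR : (4 : ℝ) ≤ q := by exact_mod_cast h3
  have hGR : (1 : ℝ) ≤ G := by exact_mod_cast hG
  have hmR : (1 : ℝ) ≤ m := by exact_mod_cast hm
  have hwR : (1 : ℝ) ≤ w := by exact_mod_cast hw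
  have hNR : 4 * (G : ℝ) * G * m ≤ N := by exact_mod_cast hN
  have hNp : (0 : ℝ) < N := by (clear * - hNR hGR hmR; nlinarith [mul_pos (mul_pos (by linarith : (0:ℝ) < G) (by linarith : (0:ℝ) < G)) (by linarith : (0:ℝ) < m)])
  have h2R : (w : ℝ) * N < G * q := by exact_mod_cast h2
  have h6 : (m * w * N : ℝ) / (q - 1) - (m * w * N : ℝ) / q = (m * w * N) / (q * (q - 1)) := by
    have : (q : ℝ) ≠ 0 := by positivity
    have : (q : ℝ) - 1 ≠ 0 := by linarith only [hqR]
    field_simp
    ring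
  have h7 : (m * w * N : ℝ) / (q * (q - 1)) ≤ 1 := by
    rw [div_le_one (by nlinarith only [hqR])]
    have h8 : (q : ℝ) * q ≤ 2 * (q * (q - 1)) := by nlinarith only [hqR]
    have h9 : ((w : ℝ) * N) * (w * N) ≤ (G * q) * (G * q) := by
      have : (0 : ℝ) ≤ w * N := by (clear * - hw hNp; positivity)
      exact mul_le_mul h2R.le h2R.le this (by positivity)
    -- `m w N * 2 G² ≤ (w N)² ≤ G² q²`
    have h10 : (m * w * N : ℝ) * (2 * (G * G)) ≤ (w * N) * (w * N) := by
      have h11 : 2 * (G * G) * (m : ℝ) ≤ w * N := by nlinarith only [hNR, hwR]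
      have h12 : (0 : ℝ) ≤ w * N := by (clear * - hw hNp; positivity)
      nlinarith only [h11, h12]
    have h13 : (m * w * N : ℝ) * (2 * (G * G)) ≤ (G * G) * (2 * (q * (q - 1))) := by
      calc (m * w * N : ℝ) * (2 * (G * G)) ≤ (w * N) * (w * N) := h10
        _ ≤ (G * q) * (G * q) := h9
        _ = (G * G) * (q * q) := by ring
        _ ≤ (G * G) * (2 * (q * (q - 1))) := mul_le_mul_of_nonneg_left h8 (by positivity)
    have hGG : (0 : ℝ) < G * G := by positivity
    nlinarith only [hGR, h9, h10, hqR, h8, h13]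
  linarith only [h4, h5, h6, h7]

end

section

variable {X : Type} [MetricSpace X] [DecidableEq X]

omit [MetricSpace X] in
lemma lsum_toFinset {J : List X} (hJ : J.Nodup) (f : X → ℕ) :
    (J.map f).sum = ∑ j ∈ J.toFinset, f j := (List.sum_toFinset f hJ).symm

/-- The number of units in a ball as a sum. -/
lemma ballN_sum (d : X → X → ℕ) {F U : List X} (hU : ∀ u ∈ U, u ∈ F) (j : X) (r : ℕ) :
    (ballN d U j r : ℝ) = ∑ i ∈ F.toFinset, if d i j ≤ r then (U.count i : ℝ) else 0 := by
  have h := mass_eq (N := 1) (F := F) hU (fun u => d u j ≤ r)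
  simp only [Nat.cast_one, div_one] at h
  rw [← Finset.sum_filter, h]
  rfl

omit [DecidableEq X] in
/-- The smoothed cost of a fractional solution. -/
lemma client_hinge {d : X → X → ℕ} (hd : ∀ a b, dist a b = (d a b : ℝ)) {D1 : ℕ}
    (hD : ∀ a b, d a b ≤ D1) {J F : Finset X} {m : ℝ} {x : X → X → ℝ} {y : X → ℝ}
    (h : IsFrac J F m x y) {N : ℝ} (hN : 0 ≤ N) {j : X} (hj : j ∈ J) :
    ∑ r ∈ range D1, max 0 (N - N * ∑ i ∈ F, if d i j ≤ r then y i else 0) ≤
      N * ∑ i ∈ F, x i j * dist i j := by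
  have h1 : ∀ r ∈ range D1, max 0 (N - N * ∑ i ∈ F, if d i j ≤ r then y i else 0) ≤
      N * ∑ i ∈ F, if d i j ≤ r then 0 else x i j := by
    intro r _
    refine max_le ?_ ?_
    · refine mul_nonneg hN (Finset.sum_nonneg fun i hi => ?_)
      split_ifs
      · exact le_rfl
      · exact h.x_nonneg i hi j hj
    · have h2 : (∑ i ∈ F, if d i j ≤ r then 0 else x i j) +
          (∑ i ∈ F, if d i j ≤ r then x i j else 0) = 1 := by
        rw [← Finset.sum_add_distrib, ← h.assign j hj]
        refine Finset.sum_congr rfl fun i _ => ?_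
        split_ifs <;> simp
      have h3 : (∑ i ∈ F, if d i j ≤ r then x i j else 0) ≤
          ∑ i ∈ F, if d i j ≤ r then y i else 0 := by
        refine Finset.sum_le_sum fun i hi => ?_
        split_ifs
        · exact h.x_le i hi j hj
        · exact le_rfl
      have h4 : (1 : ℝ) - ∑ i ∈ F, (if d i j ≤ r then y i else 0) ≤
          ∑ i ∈ F, if d i j ≤ r then 0 else x i j := by linarith only [h2, h3]
      calc N - N * ∑ i ∈ F, (if d i j ≤ r then y i else 0)
          = N * (1 - ∑ i ∈ F, (if d i j ≤ r then y i else 0)) := by ring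
        _ ≤ _ := mul_le_mul_of_nonneg_left h4 hN
  refine (Finset.sum_le_sum h1).trans ?_
  rw [← Finset.mul_sum, Finset.sum_comm]
  refine mul_le_mul_of_nonneg_left (le_of_eq ?_) hN
  refine Finset.sum_congr rfl fun i _ => ?_
  have h5 : ∀ r ∈ range D1, (if d i j ≤ r then (0 : ℝ) else x i j) =
      if r ∈ range (d i j) then x i j else 0 := by
    intro r _
    by_cases hr : d i j ≤ r
    · rw [if_pos hr, if_neg (by rw [Finset.mem_range]; omega)]
    · rw [if_neg hr, if_pos (by rw [Finset.mem_range]; omega)]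
  rw [Finset.sum_congr rfl h5, Finset.sum_ite_mem, Finset.sum_const, hd, nsmul_eq_mul, mul_comm]
  congr 1
  rw [Finset.inter_eq_right.2 (Finset.range_subset_range.2 (hD i j)), Finset.card_range]

omit [MetricSpace X] in
lemma lmP_cast {d : X → X → ℕ} {D1 N m : ℕ} {J U : List X} (hJ : J.Nodup) (i : X) :
    (lmP d D1 N m J U i : ℝ) = ∑ j ∈ J.toFinset, ∑ r ∈ range D1,
      if d i j ≤ r then ((min (N - ballN d U j r) m : ℕ) : ℝ) else 0 := by
  unfold lmP
  rw [lsum_toFinset hJ, Nat.cast_sum]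
  refine Finset.sum_congr rfl fun j _ => ?_
  rw [lsum_range, Nat.cast_sum]
  refine Finset.sum_congr rfl fun r _ => ?_
  split_ifs <;> simp

omit [MetricSpace X] [DecidableEq X] in
lemma lmM_le_lmP (d : X → X → ℕ) (D1 N m : ℕ) (J U : List X) (i : X) :
    lmM d D1 N m J U i ≤ lmP d D1 N m J U i + J.length * D1 := by
  unfold lmM lmP
  have h1 : ∀ j : X, ((List.range D1).map (fun r =>
      if d i j ≤ r then min (N + 1 - ballN d U j r) m else 0)).sum ≤
      ((List.range D1).map (fun r =>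
        if d i j ≤ r then min (N - ballN d U j r) m else 0)).sum + D1 := by
    intro j
    rw [lsum_range, lsum_range]
    have h2 : D1 = ∑ _r ∈ range D1, 1 := by simp
    rw [show (∑ r ∈ range D1, if d i j ≤ r then min (N - ballN d U j r) m else 0) + D1 =
      (∑ r ∈ range D1, if d i j ≤ r then min (N - ballN d U j r) m else 0) +
        ∑ _r ∈ range D1, 1 by rw [← h2], ← Finset.sum_add_distrib]
    refine Finset.sum_le_sum fun r _ => ?_
    split_ifs
    · (clear * -; omega)
    · omega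
  induction J with
  | nil => simp only [List.map_nil, List.sum_nil, List.length_nil, zero_mul, add_zero, Std.le_refl]
  | cons a J ih =>
    simp only [List.map_cons, List.sum_cons, List.length_cons]
    have := h1 a
    rw [add_mul, one_mul]
    omega

omit [MetricSpace X] in
/-- Exchange of sums. -/
lemma lmP_exchange {d : X → X → ℕ} {D1 N m : ℕ} {J F U : List X} (hJ : J.Nodup) (z : X → ℝ) :
    ∑ j ∈ J.toFinset, ∑ r ∈ range D1, ((min (N - ballN d U j r) m : ℕ) : ℝ) *
      (∑ i ∈ F.toFinset, if d i j ≤ r then z i else 0) =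
    ∑ i ∈ F.toFinset, z i * (lmP d D1 N m J U i : ℝ) := by
  have h1 : ∀ j ∈ J.toFinset, ∑ r ∈ range D1, ((min (N - ballN d U j r) m : ℕ) : ℝ) *
      (∑ i ∈ F.toFinset, if d i j ≤ r then z i else 0) =
      ∑ i ∈ F.toFinset, z i * ∑ r ∈ range D1,
        if d i j ≤ r then ((min (N - ballN d U j r) m : ℕ) : ℝ) else 0 := by
    intro j _
    simp_rw [Finset.mul_sum]
    rw [Finset.sum_comm]
    refine Finset.sum_congr rfl fun i _ => Finset.sum_congr rfl fun r _ => ?_
    split_ifs <;> ring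
  rw [Finset.sum_congr rfl h1, Finset.sum_comm]
  refine Finset.sum_congr rfl fun i _ => ?_
  rw [lmP_cast hJ, Finset.mul_sum]

lemma length_eq_sum_count {F U : List X} (hU : ∀ u ∈ U, u ∈ F) :
    (U.length : ℝ) = ∑ i ∈ F.toFinset, (U.count i : ℝ) := by
  have h := mass_eq (N := 1) (F := F) hU (fun _ => True)
  simp only [Nat.cast_one, div_one, Finset.filter_true, decide_true] at h
  rw [h]
  congr 1
  simp

omit [MetricSpace X] in
lemma lmC_cast {d : X → X → ℕ} {D1 N m : ℕ} {J U : List X} (hJ : J.Nodup) :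
    (lmC d D1 N m J U : ℝ) = ∑ j ∈ J.toFinset, ∑ r ∈ range D1,
      (sh m (N - ballN d U j r) : ℝ) := by
  unfold lmC
  rw [lsum_toFinset hJ, Nat.cast_sum]
  refine Finset.sum_congr rfl fun j _ => ?_
  rw [lsum_range, Nat.cast_sum]

/-- Comparison of a local optimum with a fractional solution. -/
theorem lm_frac {d : X → X → ℕ} (hd : ∀ a b, dist a b = (d a b : ℝ)) {D1 : ℕ}
    (hD : ∀ a b, d a b ≤ D1) {J F : List X} (hJ : J.Nodup) {k w N G m : ℕ}
    (hG : J.length * D1 < G) (hm : 1 ≤ m) (hw : 1 ≤ w) (hN : 4 * G * G * m ≤ N) {U : List X}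
    (hU : UFeas N F U) (hloc : LocOpt d D1 N k w G m J F U) {x : X → X → ℝ} {y : X → ℝ}
    (h : IsFrac J.toFinset F.toFinset k x y) :
    (lmC d D1 N m J U : ℝ) ≤ m * (N * fracCost J.toFinset F.toFinset x) + m * w * N +
      (2 + J.length * D1) * (F.length * N) := by
  have hG1 : 1 ≤ G := by omega
  have hNp : 0 < N := lt_of_lt_of_le (by (clear * - hG1 hm; positivity)) hN
  have hNR : (0 : ℝ) < N := by exact_mod_cast hNp
  have hmR : (0 : ℝ) < m := by exact_mod_cast hm
  set g1 : ℝ := (gfm k w N G m U.length : ℝ) with hg1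
  have hg1n : 0 ≤ g1 := Nat.cast_nonneg _
  set err : ℝ := 2 + J.length * D1 with herr
  have herr0 : 0 ≤ err := by (clear * -; positivity)
  -- one facility
  have hfac : ∀ i ∈ F.toFinset, (N * y i - U.count i) * (lmP d D1 N m J U i : ℝ) ≤
      g1 * (N * y i - U.count i) + err * U.count i := by
    intro i hi
    have hiF : i ∈ F := List.mem_toFinset.1 hi
    have hy0 := h.y_nonneg i hi
    have hy1 := h.y_le_one i hi
    have hP0 : (0 : ℝ) ≤ (lmP d D1 N m J U i : ℝ) := Nat.cast_nonneg _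
    have hNy : 0 ≤ (N : ℝ) * y i := by (clear * - hNp hy0; positivity)
    by_cases hc : i ∈ U
    · have hcount : 0 < U.count i := List.count_pos_iff.2 hc
      have hUpos : 0 < U.length := List.length_pos_of_mem hc
      have h1 := lm_del hloc hiF hc
      have h2 := lmM_le_cap d D1 N m J U i
      have h3 : gfm k w N G m (U.length - 1) < m * G := by
        refine lt_of_le_of_lt (h1.trans h2) ?_
        rw [mul_comm m G]
        exact Nat.mul_lt_mul_of_pos_right hG hm
      have h4 := (gfm_step hG1 hm hw hN h3).2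
      have h5 : U.length - 1 + 1 = U.length := by omega
      rw [h5] at h4
      have h6 : (lmM d D1 N m J U i : ℝ) ≤ (lmP d D1 N m J U i : ℝ) + J.length * D1 := by
        exact_mod_cast lmM_le_lmP d D1 N m J U i
      have h7 : (gfm k w N G m (U.length - 1) : ℝ) ≤ (lmM d D1 N m J U i : ℝ) := by
        exact_mod_cast h1
      have hlow : g1 - (lmP d D1 N m J U i : ℝ) ≤ err := by
        rw [hg1, herr]; linarith only [h4, h6, h7]
      have hcR : (0 : ℝ) ≤ (U.count i : ℝ) := Nat.cast_nonneg _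
      rcases lt_or_eq_of_le (hU.2 i) with h8 | h8
      · have h9 : (lmP d D1 N m J U i : ℝ) ≤ g1 := by
          rw [hg1]; exact_mod_cast lm_add hloc hiF h8
        have h10 : 0 ≤ (N : ℝ) * y i * (g1 - lmP d D1 N m J U i) :=
          mul_nonneg hNy (by linarith only [h9])
        nlinarith only [h10, hlow]
      · have h9 : (U.count i : ℝ) = N := by exact_mod_cast h8
        have h10 : (N : ℝ) * y i ≤ N := by nlinarith only [hy1]
        rw [h9]
        rcases le_total g1 (lmP d D1 N m J U i : ℝ) with h11 | h11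
        · nlinarith only [h10, h11, herr0]
        · have h12 : 0 ≤ (N : ℝ) * y i * (g1 - lmP d D1 N m J U i) :=
            mul_nonneg hNy (by linarith only [h11])
          nlinarith only [h12, hlow]
    · have hcount : U.count i = 0 := List.count_eq_zero.2 hc
      have h9 : (lmP d D1 N m J U i : ℝ) ≤ g1 := by
        rw [hg1]; exact_mod_cast lm_add hloc hiF (by (clear * - hNp hcount; omega))
      rw [hcount]
      simp only [Nat.cast_zero, sub_zero, mul_zero, add_zero]
      rw [mul_comm g1]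
      exact mul_le_mul_of_nonneg_left h9 hNy
  -- the convexity inequality
  have hconv : (lmC d D1 N m J U : ℝ) + ∑ i ∈ F.toFinset, (U.count i - N * y i) *
      (lmP d D1 N m J U i : ℝ) ≤ m * (N * fracCost J.toFinset F.toFinset x) := by
    rw [lmC_cast hJ, ← lmP_exchange hJ, ← Finset.sum_add_distrib]
    have h1 : (m : ℝ) * (N * fracCost J.toFinset F.toFinset x) =
        ∑ j ∈ J.toFinset, (m : ℝ) * (N * ∑ i ∈ F.toFinset, x i j * dist i j) := by
      unfold fracCost
      rw [Finset.mul_sum, Finset.mul_sum]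
    rw [h1]
    refine Finset.sum_le_sum fun j hj => ?_
    rw [← Finset.sum_add_distrib]
    refine le_trans ?_ (mul_le_mul_of_nonneg_left (client_hinge hd hD h hNR.le hj) hmR.le)
    rw [Finset.mul_sum]
    refine Finset.sum_le_sum fun r _ => ?_
    refine le_trans (le_of_eq ?_)
      (sh_conv m N (ballN d U j r) (N * ∑ i ∈ F.toFinset, if d i j ≤ r then y i else 0))
    congr 2
    rw [ballN_sum d hU.1, Finset.mul_sum, ← Finset.sum_sub_distrib]
    refine Finset.sum_congr rfl fun i _ => ?_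
    split_ifs <;> simp
  -- sum over all facilities
  have hsum : ∑ i ∈ F.toFinset, (N * y i - U.count i) * (lmP d D1 N m J U i : ℝ) ≤
      g1 * (N * ∑ i ∈ F.toFinset, y i - U.length) + err * U.length := by
    refine (Finset.sum_le_sum hfac).trans (le_of_eq ?_)
    rw [Finset.sum_add_distrib, ← Finset.mul_sum, ← Finset.mul_sum, Finset.sum_sub_distrib,
      ← Finset.mul_sum, ← length_eq_sum_count hU.1]
  have hneg : ∑ i ∈ F.toFinset, (U.count i - N * y i) * (lmP d D1 N m J U i : ℝ) =
      - ∑ i ∈ F.toFinset, (N * y i - U.count i) * (lmP d D1 N m J U i : ℝ) := by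
    rw [← Finset.sum_neg_distrib]
    exact Finset.sum_congr rfl fun i _ => by ring
  have hprice : g1 * ((k : ℝ) * N - U.length) ≤ m * w * N := by
    rcases Nat.lt_or_ge U.length (k * N) with h1 | h1
    · exact gfm_mul_le h1
    · have h2 : (k : ℝ) * N ≤ U.length := by exact_mod_cast h1
      have h3 : g1 * ((k : ℝ) * N - U.length) ≤ 0 :=
        mul_nonpos_of_nonneg_of_nonpos hg1n (by linarith only [h2])
      have : (0 : ℝ) ≤ m * w * N := by (clear * - hm hw hNp; positivity)
      linarith only [h3, this]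
  have hlen : (U.length : ℝ) ≤ F.length * N := by
    rw [length_eq_sum_count hU.1]
    calc ∑ i ∈ F.toFinset, (U.count i : ℝ) ≤ ∑ _i ∈ F.toFinset, (N : ℝ) :=
          Finset.sum_le_sum fun i _ => by exact_mod_cast hU.2 i
      _ = (F.toFinset.card : ℝ) * N := by rw [Finset.sum_const, nsmul_eq_mul]
      _ ≤ (F.length : ℝ) * N :=
        mul_le_mul_of_nonneg_right (by exact_mod_cast List.toFinset_card_le F) hNR.le
  have hbud := h.budget
  have h20 : g1 * (N * ∑ i ∈ F.toFinset, y i - U.length) ≤ g1 * ((k : ℝ) * N - U.length) := by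
    refine mul_le_mul_of_nonneg_left ?_ hg1n
    have := mul_le_mul_of_nonneg_left hbud hNR.le
    linarith only [this]
  have h21 : err * U.length ≤ err * (F.length * N) := mul_le_mul_of_nonneg_left hlen herr0
  linarith only [hconv, hsum, hneg, hprice, h20, h21]

omit [MetricSpace X] [DecidableEq X] in
/-- The unsmoothed cost. -/
lemma lmC_lower {d : X → X → ℕ} {D1 N m : ℕ} {J U : List X} :
    (m * (J.map (fun j => ((List.range D1).map (fun r => N - ballN d U j r)).sum)).sum : ℕ) ≤
      lmC d D1 N m J U + J.length * D1 * (m * m) := by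
  unfold lmC
  have h1 : ∀ j : X, m * ((List.range D1).map (fun r => N - ballN d U j r)).sum ≤
      ((List.range D1).map (fun r => sh m (N - ballN d U j r))).sum + D1 * (m * m) := by
    intro j
    rw [lsum_range, lsum_range]
    have h2 : D1 * (m * m) = ∑ _r ∈ range D1, m * m := by simp
    rw [h2, Finset.mul_sum, ← Finset.sum_add_distrib]
    exact Finset.sum_le_sum fun r _ => mul_le_sh m _
  induction J with
  | nil => simp only [List.map_nil, List.sum_nil, mul_zero, List.length_nil, zero_mul, add_zero, Std.le_refl]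
  | cons a J ih =>
    simp only [List.map_cons, List.sum_cons, List.length_cons]
    have h2 := h1 a
    have h3 : (J.length + 1) * D1 * (m * m) = J.length * D1 * (m * m) + D1 * (m * m) := by ring
    rw [mul_add, h3]
    omega

/-- [LP-3]: near-optimality of the local optimum. -/
theorem lm_near_opt {d : X → X → ℕ} (hd : ∀ a b, dist a b = (d a b : ℝ)) {D : ℕ}
    (hD : ∀ a b, d a b ≤ D) {J F : List X} (hJ : J.Nodup) (hJ0 : J ≠ []) (hF0 : F ≠ [])
    {k w : ℕ} (hk : 1 ≤ k) (hw : 1 ≤ w) {U : List X}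
    (hU : UFeas (nP J.length F.length D) F U)
    (hloc : LocOpt d (D + 1) (nP J.length F.length D) k w (gP J.length D)
      (mP J.length F.length D) J F U) :
    (((J.map (fun j => ((List.range (D + 1)).map
      (fun r => nP J.length F.length D - ballN d U j r)).sum)).sum : ℕ) : ℝ) /
        (nP J.length F.length D : ℕ) ≤ lpVal J.toFinset F.toFinset k + w + 1 := by
  have hn : 1 ≤ J.length := List.length_pos_iff.2 hJ0
  have hφ : 1 ≤ F.length := List.length_pos_iff.2 hF0
  have hFne : F.toFinset.Nonempty := by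
    obtain ⟨i, hi⟩ := List.exists_mem_of_ne_nil F hF0
    exact ⟨i, List.mem_toFinset.2 hi⟩
  obtain ⟨x, y, hxy, hc⟩ := lpVal_approx (J := J.toFinset) hFne (m := (k : ℝ))
    (by exact_mod_cast hk) (by norm_num : (0 : ℝ) < 1 / 2)
  set n := J.length with hn'
  set φ := F.length with hφ'
  set m := mP n φ D with hm'
  set N := nP n φ D with hN'
  set G := gP n D with hG'
  have hmv : m = 200 * φ * n * (D + 1) := rfl
  have hNv : N = 400 * φ * G * G * m := rfl
  have hGv : G = n * (D + 1) + 1 := rfl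
  have hnD : 1 ≤ n * (D + 1) := Nat.mul_pos hn (Nat.succ_pos D)
  have hm1 : 1 ≤ m := by
    have : m = 200 * (φ * (n * (D + 1))) := by rw [hmv]; ring
    have h2 : 1 ≤ φ * (n * (D + 1)) := Nat.mul_pos hφ hnD
    omega
  have hN4 : 4 * G * G * m ≤ N := by
    rw [hNv]
    have : 4 * G * G * m * 1 ≤ 4 * G * G * m * (100 * φ) := Nat.mul_le_mul_left _ (by omega)
    calc 4 * G * G * m = 4 * G * G * m * 1 := by ring
      _ ≤ 4 * G * G * m * (100 * φ) := this
      _ = 400 * φ * G * G * m := by ring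
  have hNp : 0 < N := lt_of_lt_of_le (by have : 1 ≤ G := by omega
                                         (clear * - this hm1; positivity)) hN4
  have h1 := lm_frac hd (fun a b => (hD a b).trans (Nat.le_succ D)) hJ
    (by rw [← hn']; omega : J.length * (D + 1) < G) hm1 hw hN4 hU hloc hxy
  have h2 := lmC_lower (d := d) (D1 := D + 1) (N := N) (m := m) (J := J) (U := U)
  set S : ℕ := (J.map (fun j => ((List.range (D + 1)).map
      (fun r => N - ballN d U j r)).sum)).sum with hS
  have h2R : (m : ℝ) * S ≤ lmC d (D + 1) N m J U + n * (D + 1 : ℕ) * (m * m) := by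
    exact_mod_cast h2
  rw [← hn', ← hφ'] at h1
  set fc := fracCost J.toFinset F.toFinset x with hfc
  have hmR : (1 : ℝ) ≤ m := by exact_mod_cast hm1
  have hNR : (0 : ℝ) < N := by exact_mod_cast hNp
  -- the error terms
  have h3 : (2 + (n : ℝ) * ((D + 1 : ℕ) : ℝ)) * (φ * N) ≤ 3 / 200 * (m * N) := by
    have h4 : 200 * ((2 + n * (D + 1)) * φ) ≤ 3 * m := by
      rw [hmv]
      calc 200 * ((2 + n * (D + 1)) * φ) ≤ 200 * ((3 * (n * (D + 1))) * φ) := by
            refine Nat.mul_le_mul_left _ (Nat.mul_le_mul_right _ ?_)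
            omega
        _ = 3 * (200 * φ * n * (D + 1)) := by ring
    have h5 : 200 * ((2 + (n : ℝ) * ((D + 1 : ℕ) : ℝ)) * φ) ≤ 3 * m := by exact_mod_cast h4
    nlinarith only [h5]
  have h6 : (n : ℝ) * ((D + 1 : ℕ) : ℝ) * (m * m) ≤ 1 / 400 * (m * N) := by
    have h7 : 400 * (n * (D + 1) * m) ≤ N := by
      rw [hNv]
      calc 400 * (n * (D + 1) * m) ≤ 400 * (G * m) := by
            refine Nat.mul_le_mul_left _ (Nat.mul_le_mul_right _ ?_)
            omega
        _ ≤ 400 * (G * m) * (φ * G) := by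
            refine Nat.le_mul_of_pos_right _ ?_
            have : 1 ≤ G := by omega
            (clear * - hφ this; positivity)
        _ = 400 * φ * G * G * m := by ring
    have h8 : 400 * ((n : ℝ) * ((D + 1 : ℕ) : ℝ) * m) ≤ N := by exact_mod_cast h7
    have h9 : (0 : ℝ) ≤ m := by linarith only []
    nlinarith only [h8]
  have h10 : (m : ℝ) * S ≤ m * (N * (fc + w + 1 / 2)) := by
    have h11 : 0 ≤ (m : ℝ) * N := by (clear * - hm1 hNp; positivity)
    (clear * - h2R h1 h3 h6 h11; nlinarith)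
  have h12 : (S : ℝ) ≤ N * (fc + w + 1 / 2) := le_of_mul_le_mul_left h10 (by linarith only [hmR])
  rw [div_le_iff₀ hNR]
  nlinarith only [h12, hc]

end

end Vale.Agent.P334.Alg
end

section
attribute [-instance] ProperSMul.toContinuousSMul IsTopologicalTorsor.toContinuousSMul IdemSemiring.toCanonicallyOrderedAdd IdemSemiring.toMulLeftMono IdemSemiring.toMulRightMono AddQuantale.instAddLeftMono AddQuantale.instAddRightMono Quantale.instMulLeftMono Quantale.instMulRightMono FiniteDimensional.rclike_to_real IsScalarTower.complexToReal FiniteDimensional.complexToReal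

/-!
The candidate of the first case.
-/

namespace Vale.Agent.P334.Alg

open Finset

namespace As1

/-! ### Removing duplicates -/

section Ddp

variable {X : Type} [DecidableEq X]

theorem mem_ddp (L : List X) (x : X) : x ∈ ddp L ↔ x ∈ L := by
  induction L with
  | nil => exact Iff.rfl
  | cons a L ih =>
    have e : ddp (a :: L) = if a ∈ ddp L then ddp L else a :: ddp L := rfl
    rw [e]
    split_ifs with h
    · rw [ih, List.mem_cons]
      constructor
      · exact Or.inr
      · rintro (rfl | h1)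
        · exact ih.1 (by rwa [ih] at h ⊢)
        · exact h1
    · rw [List.mem_cons, List.mem_cons, ih]

theorem ddp_nodup (L : List X) : (ddp L).Nodup := by
  induction L with
  | nil => exact List.nodup_nil
  | cons a L ih =>
    have e : ddp (a :: L) = if a ∈ ddp L then ddp L else a :: ddp L := rfl
    rw [e]
    split_ifs with h
    · exact ih
    · exact List.nodup_cons.2 ⟨h, ih⟩

theorem ddp_length (L : List X) : (ddp L).length ≤ L.length := by
  induction L with
  | nil => exact le_rfl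
  | cons a L ih =>
    have e : ddp (a :: L) = if a ∈ ddp L then ddp L else a :: ddp L := rfl
    rw [e, List.length_cons]
    split_ifs with h
    · omega
    · rw [List.length_cons]; omega

end Ddp

/-! ### Counting -/

theorem countP_split {X : Type} (U : List X) (p a b : X → Bool)
    (hab : ∀ u, a u = true → b u = true → False) :
    (U.filter a).countP p + (U.filter b).countP p ≤ U.countP p := by
  induction U with
  | nil => simp
  | cons u U ih =>
    by_cases h1 : a u = true
    · have h2 : ¬ b u = true := fun h => hab u h1 h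
      rw [List.filter_cons_of_pos h1, List.filter_cons_of_neg h2, List.countP_cons,
        List.countP_cons]
      omega
    · rw [List.filter_cons_of_neg h1]
      by_cases h2 : b u = true
      · rw [List.filter_cons_of_pos h2, List.countP_cons, List.countP_cons]
        omega
      · rw [List.filter_cons_of_neg h2, List.countP_cons]
        omega

theorem countP_nearU {X : Type} (d : X → X → ℕ) (D1 N : ℕ) (U : List X) (l : X) (p : X → Bool) :
    (nearU d D1 N U l).countP p ≤ U.countP p := by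
  unfold nearU
  rw [List.countP_append]
  have h1 := countP_split U p (fun u => decide (d u l < radN d D1 N U l))
    (fun u => decide (d u l = radN d D1 N U l)) (fun u h1 h2 => by
      rw [decide_eq_true_iff] at h1 h2
      omega)
  have h2 : ((U.filter (fun u => decide (d u l = radN d D1 N U l))).take
      (N - (U.filter (fun u => decide (d u l < radN d D1 N U l))).length)).countP p
      ≤ (U.filter (fun u => decide (d u l = radN d D1 N U l))).countP p :=
    (List.take_sublist _ _).countP_le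
  omega

/-! ### The quantities of the clusters -/

section Clus

variable {X : Type} [MetricSpace X] [DecidableEq X] {d : X → X → ℕ}
  {J F U : List X} {D1 N m gg : ℕ} {g : ℝ} {x : X → X → ℝ} {y r : X → ℝ}

theorem prj_eq (hd : ∀ a b, dist a b = (d a b : ℝ)) (hJ : J.Nodup) (hN : 0 < N)
    (hm : 0 < m) (hg : g = (gg : ℝ) / m)
    (hx : ∀ i j, x i j = ((nearU d D1 N U j).count i : ℝ) / N)
    (hy : ∀ i, y i = (U.count i : ℝ) / N)
    (hr : ∀ p, r p = (radN d D1 N U p : ℝ))
    (h : Clu J.toFinset F.toFinset g x y r (ccL d D1 N m gg J F U).toFinset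
      (rhoL d D1 N m gg J F U)) (i : X) :
    snapL (ccL d D1 N m gg J F U) (nearL d D1 N m gg J F U) (rhoL d D1 N m gg J F U) i
      = prj J.toFinset F.toFinset g x y r (ccL d D1 N m gg J F U).toFinset
        (rhoL d D1 N m gg J F U) i := by
  have hmem : ∀ c i, i ∈ near J.toFinset F.toFinset g x y r c ↔ i ∈ nearL d D1 N m gg J F U c := by
    intro c i
    rw [← near_eq hd hJ hN hm hg hx hy hr c, List.mem_toFinset]
  refine C2.snapL_eq ?_ (fun c _ i => hmem c i) i
  intro c hc c' hc' i hi hi'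
  exact h.near_disj c (List.mem_toFinset.2 hc) c' (List.mem_toFinset.2 hc') i
    ((hmem c i).2 hi) ((hmem c' i).2 hi')

theorem ps_eq (hd : ∀ a b, dist a b = (d a b : ℝ))
    (hr : ∀ p, r p = (radN d D1 N U p : ℝ))
    (h : Clu J.toFinset F.toFinset g x y r (ccL d D1 N m gg J F U).toFinset
      (rhoL d D1 N m gg J F U)) (i : X) :
    snapL (ccL d D1 N m gg J F U) (itrL d D1 N J U) (rhoL d D1 N m gg J F U) i
      = ps J.toFinset r (ccL d D1 N m gg J F U).toFinset
        (rhoL d D1 N m gg J F U) i := by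
  have hmem : ∀ c i, i ∈ itr J.toFinset r c ↔ i ∈ itrL d D1 N J U c := by
    intro c i
    rw [← itr_eq hd hr c, List.mem_toFinset]
  refine C2.snapL_eq ?_ (fun c _ i => hmem c i) i
  intro c hc c' hc' i hi hi'
  exact h.itr_disj c (List.mem_toFinset.2 hc) c' (List.mem_toFinset.2 hc') i
    ((hmem c i).2 hi) ((hmem c' i).2 hi')

variable {CC : Finset X} {ρ pos pr : X → X}

/-- Number of clients at a representative. -/
theorem nq_eq (hJ : J.Nodup) (h : Clu J.toFinset F.toFinset g x y r CC ρ)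
    (hpos : ∀ j, pos j = ps J.toFinset r CC ρ j) {c : X} (hc : c ∈ CC) :
    nq J pos (ρ c) = (itr J.toFinset r c).card := by
  classical
  unfold nq
  rw [List.countP_eq_length_filter, ← List.toFinset_card_of_nodup (hJ.filter _)]
  congr 1
  ext j
  rw [List.mem_toFinset, List.mem_filter, decide_eq_true_iff, hpos]
  constructor
  · rintro ⟨h1, h2⟩
    exact (h.ps_eq_iff hc (List.mem_toFinset.2 h1)).1 h2
  · intro h1
    have h2 := itr_sub h1
    exact ⟨List.mem_toFinset.1 h2, (h.ps_eq_iff hc h2).2 h1⟩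

theorem count_near (h : Clu J.toFinset F.toFinset g x y r CC ρ)
    (hpr : ∀ j, pr j = prj J.toFinset F.toFinset g x y r CC ρ j) {c : X} (hc : c ∈ CC)
    {L : List X} (hL : ∀ u ∈ L, u ∈ F) :
    ∑ i ∈ near J.toFinset F.toFinset g x y r c, L.count i
      = L.countP (fun u => decide (pr u = ρ c)) := by
  classical
  rw [C2.sum_count]
  refine List.countP_congr (fun u hu => ?_)
  rw [decide_eq_true_iff, decide_eq_true_iff, hpr, ← h.fiber_rep hc, Finset.mem_filter]
  exact ⟨fun h1 => h1.2, fun h1 => ⟨List.mem_toFinset.2 (hL u hu), h1⟩⟩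

/-- Units at a representative. -/
theorem bq_eq (hU : ∀ u ∈ U, u ∈ F) (h : Clu J.toFinset F.toFinset g x y r CC ρ)
    (hy : ∀ i, y i = (U.count i : ℝ) / N)
    (hpr : ∀ j, pr j = prj J.toFinset F.toFinset g x y r CC ρ j) {c : X} (hc : c ∈ CC) :
    ∑ i ∈ near J.toFinset F.toFinset g x y r c, y i = (bq U pr (ρ c) : ℝ) / N := by
  unfold bq
  rw [← count_near h hpr hc hU, Nat.cast_sum, Finset.sum_div]
  exact Finset.sum_congr rfl (fun i _ => hy i)

/-- Outer units of a representative. -/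
theorem aq_eq (hJ : J.Nodup) (hU : ∀ u ∈ U, u ∈ F)
    (h : Clu J.toFinset F.toFinset g x y r CC ρ)
    (hx : ∀ i j, x i j = ((nearU d D1 N U j).count i : ℝ) / N)
    (hpos : ∀ j, pos j = ps J.toFinset r CC ρ j)
    (hpr : ∀ j, pr j = prj J.toFinset F.toFinset g x y r CC ρ j) {c : X} (hc : c ∈ CC)
    [DecidablePred fun l => ps J.toFinset r CC ρ l ≠ ρ c] :
    ∑ l ∈ J.toFinset with ps J.toFinset r CC ρ l ≠ ρ c,
      ∑ i ∈ near J.toFinset F.toFinset g x y r c, x i l = (aq d D1 N J U pos pr (ρ c) : ℝ) / N := by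
  classical
  unfold aq
  have e1 : J.toFinset.filter (fun l => ps J.toFinset r CC ρ l ≠ ρ c)
      = (J.filter (fun l => decide (pos l ≠ ρ c))).toFinset := by
    ext l
    rw [Finset.mem_filter, List.mem_toFinset, List.mem_toFinset, List.mem_filter,
      decide_eq_true_iff, hpos]
  have e2 : ∀ l, ∑ i ∈ near J.toFinset F.toFinset g x y r c, x i l
      = (((nearU d D1 N U l).countP (fun u => decide (pr u = ρ c)) : ℕ) : ℝ) / N := by
    intro l
    rw [← count_near h hpr hc (fun u hu => hU u (mem_nearU hu)), Nat.cast_sum, Finset.sum_div]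
    exact Finset.sum_congr rfl (fun i _ => hx i l)
  rw [e1, List.sum_toFinset _ (hJ.filter _), cast_sum_map, ← sum_map_div]
  congr 1
  exact List.map_congr_left (fun l _ => e2 l)

theorem omg_eq (hJ : J.Nodup) (hU : ∀ u ∈ U, u ∈ F) (hN : 0 < N)
    (h : Clu J.toFinset F.toFinset g x y r CC ρ)
    (hx : ∀ i j, x i j = ((nearU d D1 N U j).count i : ℝ) / N)
    (hy : ∀ i, y i = (U.count i : ℝ) / N)
    (hpos : ∀ j, pos j = ps J.toFinset r CC ρ j)
    (hpr : ∀ j, pr j = prj J.toFinset F.toFinset g x y r CC ρ j) {c : X} (hc : c ∈ CC) :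
    omg J.toFinset F.toFinset g x y r CC ρ c
      = (aq d D1 N J U pos pr (ρ c) : ℝ) / (bq U pr (ρ c) : ℝ) := by
  classical
  have hN' : (0 : ℝ) < N := by exact_mod_cast hN
  have h1 := aq_eq hJ hU h hx hpos hpr hc
  unfold omg
  rw [bq_eq hU h hy hpr hc]
  have h2 := div_div_div_cancel_right₀ hN'.ne' (aq d D1 N J U pos pr (ρ c) : ℝ)
    (bq U pr (ρ c) : ℝ)
  rw [← h2, ← h1]
  congr!

omit [MetricSpace X] in
theorem aq_le (v : X) : aq d D1 N J U pos pr v ≤ bq U pr v * J.length := by
  unfold aq bq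
  refine (sum_map_le_mul _ _ (c := U.countP (fun u => decide (pr u = v)))
    (fun l _ => countP_nearU d D1 N U l _)).trans ?_
  rw [mul_comm]
  exact Nat.mul_le_mul_left _ (List.length_filter_le _ _)

end Clus

end As1

open As1

/-- The candidate of the first case. -/
theorem cand1_spec {X : Type} [MetricSpace X] [DecidableEq X] {d : X → X → ℕ}
    (hd : ∀ a b, dist a b = (d a b : ℝ)) {D : ℕ} (hD : ∀ a b, d a b ≤ D)
    {J F U : List X} (hJ : J.Nodup) (hF : F.Nodup) (hJ0 : J ≠ []) (hU : ∀ u ∈ U, u ∈ F)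
    {N m gg : ℕ} (hN : 0 < N) (hm : 0 < m) {g : ℝ} {x : X → X → ℝ} {y r : X → ℝ}
    (hg : g = (gg : ℝ) / m)
    (hx : ∀ i j, x i j = ((nearU d (D + 1) N U j).count i : ℝ) / N)
    (hy : ∀ i, y i = (U.count i : ℝ) / N)
    (hr : ∀ p, r p = (radN d (D + 1) N U p : ℝ))
    (h : Rad J.toFinset F.toFinset g x y r)
    {κ0 κ ε T1 T2 L : ℝ} {e M C k t : ℕ}
    (hκ0 : 0 < κ0) (hκ01 : κ0 ≤ 1 / 100) (hT2 : T2 = 10 ^ 10 / κ0)
    (hκ : κ = κ0 / (8 * (2048 * (T2 + 2)))) (hT1 : T1 = 10 ^ 6 / κ) (hε : ε = κ / 10 ^ 10)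
    (he : ε = 1 / e) (he1 : 1 ≤ e) (hM : 1 ≤ M) (hMε : 1 ≤ ε * M) (hL : 0 < L)
    (hC : fracCost J.toFinset F.toFinset x ≤ (1 + κ) * L)
    (hk : κ / 2 * L ≤ g * (k - ∑ i ∈ F.toFinset, y i))
    (hcase : κ0 * fracCost J.toFinset F.toFinset x
      ≤ ∑ c ∈ (ccL d (D + 1) N m gg J F U).toFinset, ain J.toFinset F.toFinset g x y r c
        + ∑ i ∈ restF J.toFinset F.toFinset g x y r (ccL d (D + 1) N m gg J F U).toFinset,
          fcl J.toFinset x i)
    (ht : dlP M J.length + 2 ≤ t)
    (herr : ((t : ℝ) + 1) * J.length + F.length * (2 * dlP M J.length + 1)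
        * ((M + 3) * mS C J.length)
      + (2 * dlP M J.length + 1) * (k + 3 * ((M + 3) * mS C J.length)) ≤ κ / 16 * L)
    (htop : 3 * L < tauL (D + 1) t e (mS C J.length) ∨ tauL (D + 1) t e (mS C J.length) = D + 1)
    (hC1 : 1 ≤ mS C J.length) :
    let S := cand1 d D e M C k t J F N m gg U
    S ≠ [] ∧ S.Nodup ∧ (∀ x ∈ S, x ∈ F) ∧ S.length ≤ k + 3 * ((M + 3) * mS C J.length) ∧
      cost J.toFinset S.toFinset ≤ (2 - κ / 16) * L := by
  classical
  intro S
  have hclu := clu_spec hd hJ hF hU hN hm hg hx hy hr h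
  have hpr := prj_eq hd hJ hN hm hg hx hy hr hclu
  have hpos := ps_eq hd hr hclu
  obtain ⟨CC, hCC⟩ : ∃ CC, CC = ccL d (D + 1) N m gg J F U := ⟨_, rfl⟩
  obtain ⟨ρ, hρ⟩ : ∃ ρ, ρ = rhoL d (D + 1) N m gg J F U := ⟨_, rfl⟩
  obtain ⟨pr, hprd⟩ : ∃ pr, pr = snapL CC (nearL d (D + 1) N m gg J F U) ρ := ⟨_, rfl⟩
  obtain ⟨pos, hposd⟩ : ∃ pos, pos = snapL CC (itrL d (D + 1) N J U) ρ := ⟨_, rfl⟩
  have hSdef : S = run1 d D e M C k t J F pos (ddp (F.map pr)) (CC.map ρ) (nq J pos)
      (aq d (D + 1) N J U pos pr) (bq U pr) := by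
    rw [hposd, hprd, hCC, hρ]; rfl
  clear_value S
  rw [← hCC, ← hρ] at hclu hpr hpos
  rw [← hCC] at hcase
  rw [← hprd] at hpr
  rw [← hposd] at hpos
  clear hCC hρ hprd hposd
  obtain ⟨F1, hF1⟩ : ∃ F1, F1 = ddp (F.map pr) := ⟨_, rfl⟩
  obtain ⟨R, hR⟩ : ∃ R, R = CC.map ρ := ⟨_, rfl⟩
  obtain ⟨δ, hδ⟩ : ∃ δ, δ = dlP M J.length := ⟨_, rfl⟩
  obtain ⟨mm, hmm⟩ : ∃ mm, mm = mS C J.length := ⟨_, rfl⟩
  rw [← hδ] at ht herr
  rw [← hmm] at herr htop hC1 ⊢
  have hF1nd : F1.Nodup := by rw [hF1]; exact ddp_nodup _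
  have hF1im : F1.toFinset = F.toFinset.image (prj J.toFinset F.toFinset g x y r CC.toFinset ρ) := by
    ext i
    rw [hF1, List.mem_toFinset, mem_ddp, List.mem_map, Finset.mem_image]
    constructor
    · rintro ⟨a, ha, rfl⟩
      exact ⟨a, List.mem_toFinset.2 ha, (hpr a).symm⟩
    · rintro ⟨a, ha, rfl⟩
      exact ⟨a, List.mem_toFinset.1 ha, hpr a⟩
  have hF1F : ∀ i ∈ F1, i ∈ F := by
    intro i hi
    rw [hF1, mem_ddp, List.mem_map] at hi
    obtain ⟨a, ha, rfl⟩ := hi
    rw [hpr]
    by_cases h1 : ∃ c ∈ CC.toFinset, a ∈ near J.toFinset F.toFinset g x y r c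
    · obtain ⟨c, hc, hac⟩ := h1
      rw [hclu.prj_near hc hac]
      exact List.mem_toFinset.1 (near_sub (hclu.rep c hc))
    · push Not at h1
      rw [Clu.prj_rest (mem_restF.2 ⟨List.mem_toFinset.2 ha, h1⟩)]
      exact ha
  have hF1len : F1.length ≤ F.length := by
    rw [hF1]
    exact (ddp_length _).trans_eq (List.length_map _)
  have hF0 : F ≠ [] := by
    intro h0
    obtain ⟨j, hj⟩ := List.exists_mem_of_ne_nil J hJ0
    have h1 := h.sol.assign j (List.mem_toFinset.2 hj)
    rw [h0, List.toFinset_nil, Finset.sum_empty] at h1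
    exact zero_ne_one h1
  have hF10 : F1 ≠ [] := by
    intro h0
    obtain ⟨i, hi⟩ := List.exists_mem_of_ne_nil F hF0
    have h1 : pr i ∈ F1 := by
      rw [hF1, mem_ddp]
      exact List.mem_map_of_mem hi
    rw [h0] at h1
    exact List.not_mem_nil h1
  obtain ⟨n', hn'⟩ : ∃ n', n' = nq J pos := ⟨_, rfl⟩
  obtain ⟨a, ha⟩ : ∃ a, a = aq d (D + 1) N J U pos pr := ⟨_, rfl⟩
  obtain ⟨b, hb⟩ : ∃ b, b = bq U pr := ⟨_, rfl⟩
  have hN' : (0 : ℝ) < N := by exact_mod_cast hN
  have hcard : ∀ c ∈ CC.toFinset, n' (ρ c) = (itr J.toFinset r c).card := by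
    intro c hc
    rw [hn']; exact nq_eq hJ hclu hpos hc
  have hbmass : ∀ c ∈ CC.toFinset, 0 < b (ρ c) := by
    intro c hc
    have h1 := hclu.mass c hc
    rw [bq_eq hU hclu hy hpr hc, ← hb] at h1
    by_contra hcon
    have h2 : b (ρ c) = 0 := by (clear * - hcon; omega)
    rw [h2] at h1
    norm_num at h1
  have hn0 : ∀ c ∈ CC.toFinset, 0 < n' (ρ c) := by
    intro c hc
    have h1 := hclu.card_pos hc
    rw [hcard c hc]
    exact_mod_cast h1
  have homg : ∀ c ∈ CC.toFinset, omg J.toFinset F.toFinset g x y r CC.toFinset ρ c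
      = (a (ρ c) : ℝ) / b (ρ c) := by
    intro c hc
    rw [ha, hb]
    exact omg_eq hJ hU hN hclu hx hy hpos hpr hc
  have hab : ∀ v, a v ≤ b v * J.length := fun v => by rw [ha, hb]; exact aq_le v
  have hRmem : ∀ v ∈ R, ∃ c ∈ CC.toFinset, v = ρ c := by
    intro v hv
    rw [hR, List.mem_map] at hv
    obtain ⟨c, hc, rfl⟩ := hv
    exact ⟨c, List.mem_toFinset.2 hc, rfl⟩
  have hRim : R.toFinset = CC.toFinset.image ρ := by
    ext v
    rw [hR, List.mem_toFinset, List.mem_map, Finset.mem_image]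
    exact exists_congr (fun c => by rw [List.mem_toFinset])
  obtain ⟨lv, hlvd⟩ : ∃ lv : ℕ → ℕ → X → ℕ, lv = fun f q v => wlL (tauL (D + 1) t e) M R
      (fun v s => capL M t f (n' v) (a v) (b v) s) (q + 1) v := ⟨_, rfl⟩
  have hlv : ∀ f q v, lv f q v ≤ D + 1 := fun f q v => by
    rw [hlvd]
    exact wlL_le_top (tauL_le_top _ _ _) _ _
  have hl1 : ∀ f q v, lv (f + 1) q v ≤ lv f q v + (1 + (M + 1) * J.length) := by
    intro f q v
    rw [hlvd]
    refine wlL_lip (fun s hs hv => ?_)
    obtain ⟨c, hc, rfl⟩ := hRmem v hv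
    refine (capL_price_step M t f (n' (ρ c)) (a (ρ c)) (b (ρ c)) (hbmass c hc) (hn0 c hc)
      (by omega) (hab _) s).trans ?_
    have : s * J.length ≤ (M + 1) * J.length := Nat.mul_le_mul_right _ hs
    (clear * - this; omega)
  have hl2 : ∀ f q v, lv f q v ≤ lv (f + 1) q v + (1 + (M + 1) * J.length) := by
    intro f q v
    rw [hlvd]
    refine (wlL_cap_mono (fun s _ _ => ?_)).trans (Nat.le_add_right _ _)
    exact capL_price_mono M t f _ _ _ s
  have hT : 2 * (J.length * (D + 1) + J.length * (D + 1) * (F1.length + 1))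
      + (F1.length + 1) * (2 * (J.length * (D + 1)) + 4) + F1.length + 3
      ≤ tP J.length F.length D := by
    unfold tP
    (clear * - hF1len; gcongr)
  have hSmach : S = machine (fun f q => mgP d J pos (lv f q)) F1 []
      (k + 3 * ((M + 3) * mm)) ((M + 3) * mm) (J.length * (D + 1))
      (tP J.length F.length D) δ := by
    rw [hSdef, hlvd, hδ, hmm, hn', ha, hb, hR, hF1]
    rfl
  have hm1 : 1 ≤ (M + 3) * mm := Nat.one_le_iff_ne_zero.2 (by (clear * - hM hC1; positivity))
  obtain ⟨hSn, hSF, hSlen, f, Sq, hS0, hSm, hSsub, hSF1, hmax, htot, hNN⟩ :=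
    machine_real hd hJ hF1nd List.nodup_nil (by simp) lv hlv
      (fun f q j _ => hl1 f q (pos j)) (fun f q j _ => hl2 f q (pos j))
      (N := k + 3 * ((M + 3) * mm)) (m := (M + 3) * mm) (by rw [List.length_nil]; omega) hm1
      (δ := δ) (by rw [hδ]; exact le_rfl) hT hSmach
  have hlast : ∀ v, lv 0 ((M + 3) * mm - 1) v = tauL (D + 1) t e mm := by
    intro v
    rw [hlvd]
    show wlL _ _ _ _ ((M + 3) * mm - 1 + 1) v = _
    rw [Nat.sub_add_cancel hm1]
    exact wlL_mul _ _ _ _ mm v
  have htop' : 3 * L < tauL (D + 1) t e mm ∨ ((Sq ((M + 3) * mm)).Nonempty ∧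
      ∀ a b : X, dist a b < tauL (D + 1) t e mm) := by
    rcases htop with htop | htop
    · exact Or.inl htop
    · right
      refine ⟨?_, fun a b => ?_⟩
      · rcases hNN with h1 | ⟨-, h1⟩
        · rw [← Finset.card_pos, h1]; omega
        · have h2 := h1 ((M + 3) * mm - 1) (by omega)
          rw [Nat.sub_add_cancel hm1] at h2
          refine pos_nonempty hd hJ0 hF10 (lv := lv 0 ((M + 3) * mm - 1)) (fun a b => ?_) h2
          rw [hlast, htop]
          have := hD a b
          omega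
      · rw [htop, hd]
        have h1 := hD a b
        exact_mod_cast Nat.lt_succ_of_le h1
  have hpe : pos = ps J.toFinset r CC.toFinset ρ := funext hpos
  have hwl : ∀ q, (fun v => (lv f q v : ℝ)) = wl (CC.toFinset.image ρ)
      (fun p => (tauL (D + 1) t e p : ℝ)) M
      (fun v s => (capL M t f (n' v) (a v) (b v) s : ℝ)) (q + 1) := by
    intro q
    funext v
    rw [hlvd, ← hRim]
    exact wlL_cast _ _ _ _ _ _
  have hδ0 : (0 : ℝ) ≤ δ := Nat.cast_nonneg δ
  have hf0 : (0 : ℝ) ≤ f := Nat.cast_nonneg f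
  have hlo1 : (f : ℝ) - δ ≤ ((f - δ : ℕ) : ℝ) := by
    rw [sub_le_iff_le_add]
    exact_mod_cast Nat.le_add_of_sub_le le_rfl
  have hlo2 : ((f - δ : ℕ) : ℝ) ≤ f := by exact_mod_cast Nat.sub_le f δ
  have hepos : (0 : ℝ) < e := by exact_mod_cast he1
  have hMpos : (0 : ℝ) < M := by exact_mod_cast hM
  have hεpos : 0 < ε := by rw [he]; positivity
  have hfin := hclu.case1_final (κ0 := κ0) (κ := κ) (ε := ε) (T1 := T1) (T2 := T2) (L := L)
    (k := k) (m := mm) (M := M) (t := t) (cst := (t : ℝ) + 1)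
    (lo := ((f - δ : ℕ) : ℝ)) (hi := (f : ℝ) + 1 + δ) (E0 := F1.length * (2 * δ + 1))
    (Δ := 2 * δ + 1) (τ := fun p => (tauL (D + 1) t e p : ℝ))
    (cap := fun v s => (capL M t f (n' v) (a v) (b v) s : ℝ)) (S := Sq)
    hκ0 hκ01 hT2 hκ hT1 hε hL hC hk hcase
    (by
      rw [List.toFinset_card_of_nodup hJ]
      exact List.length_pos_iff.2 hJ0)
    (Nat.cast_nonneg t) (by linarith only []) (Nat.cast_nonneg _) (by linarith only [hlo2]) (by linarith only [hlo1])
    (by (clear * -; positivity)) (by simp [tauL_zero]) (fun p => by exact_mod_cast tauL_step _ _ _ p)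
    (fun p => by
      have h1 := tauL_succ_le_real (D + 1) t e p
      rw [he]
      have h2 : (1 + 1 / (e : ℝ)) * (tauL (D + 1) t e p : ℝ) + t
        = tauL (D + 1) t e p + (tauL (D + 1) t e p : ℝ) / e + t := by ring
      exact h1.trans_eq h2.symm)
    (fun c _ s => by exact_mod_cast capL_mono_step _ _ _ _ _ _ s)
    (fun c hc => by
      have hn := hn0 c hc
      have hbp := hbmass c hc
      have hnR : (0 : ℝ) < n' (ρ c) := by exact_mod_cast hn
      have hbR : (0 : ℝ) < b (ρ c) := by exact_mod_cast hbp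
      have haR : (0 : ℝ) ≤ a (ρ c) := Nat.cast_nonneg _
      refine ⟨(f : ℝ) * a (ρ c) / (b (ρ c) * n' (ρ c) * n' (ρ c) * M) + 1 + t, by (clear * - hbp hn hM; positivity), ?_,
        fun s _ => capL_succ_le _ _ _ _ _ _ s⟩
      rw [← hcard c hc, homg c hc]
      have e1 : (n' (ρ c) : ℝ) * ((f : ℝ) * a (ρ c) / (b (ρ c) * n' (ρ c) * n' (ρ c) * M) + 1 + t)
          = (f / M) * (a (ρ c) / (b (ρ c) * n' (ρ c))) + (t + 1) * n' (ρ c) := by
        field_simp
        ring
      have e2 : ε * (((f : ℝ) + 1 + δ) / n' (ρ c)) * (a (ρ c) / b (ρ c))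
          = (ε * ((f : ℝ) + 1 + δ)) * (a (ρ c) / (b (ρ c) * n' (ρ c))) := by
        (clear * - hbp hn hεpos; field_simp)
      rw [e1, e2]
      have h3 : (f : ℝ) / M ≤ ε * ((f : ℝ) + 1 + δ) := by
        rw [div_le_iff₀ hMpos]
        have h4 : (f : ℝ) + 1 + δ ≤ ((f : ℝ) + 1 + δ) * (ε * M) :=
          le_mul_of_one_le_right (by linarith only []) hMε
        calc (f : ℝ) ≤ (f : ℝ) + 1 + δ := by linarith only []
          _ ≤ ((f : ℝ) + 1 + δ) * (ε * M) := h4
          _ = ε * ((f : ℝ) + 1 + δ) * M := by ring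
      have h5 : (0 : ℝ) ≤ a (ρ c) / (b (ρ c) * n' (ρ c)) := by (clear * - hbp hn; positivity)
      have h6 := mul_le_mul_of_nonneg_right h3 h5
      linarith only [h6])
    (fun c hc => by
      rw [← hcard c hc]
      exact lt_capL _ _ _ _ _ _ (hbmass c hc) (hn0 c hc) (by (clear * - hM; omega)) ht)
    (fun c hc => by
      have hnR : (0 : ℝ) < n' (ρ c) := by exact_mod_cast hn0 c hc
      have hbR : (0 : ℝ) < b (ρ c) := by exact_mod_cast hbmass c hc
      rw [← hcard c hc, homg c hc]
      refine (capL_zero_le _ _ _ _ _ _ (hbmass c hc) (hn0 c hc)).trans ?_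
      have e1 : (f : ℝ) / n' (ρ c) - f * a (ρ c) / (b (ρ c) * n' (ρ c) * n' (ρ c))
          = f * ((1 - a (ρ c) / (b (ρ c) * n' (ρ c))) / n' (ρ c)) := by
        (clear * - hbR hnR; field_simp)
      have e2 : ((f : ℝ) + 1 + δ) / n' (ρ c)
          - ((f : ℝ) + 1 + δ) / n' (ρ c) * (a (ρ c) / b (ρ c)) / n' (ρ c)
          = (f + 1 + δ) * ((1 - a (ρ c) / (b (ρ c) * n' (ρ c))) / n' (ρ c)) := by
        (clear * - hbR hnR; field_simp)
      rw [e1, e2]
      refine max_le (le_max_left _ _) ?_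
      rcases le_total 0 ((1 - (a (ρ c) : ℝ) / (b (ρ c) * n' (ρ c))) / n' (ρ c)) with h1 | h1
      · refine le_trans ?_ (le_max_right _ _)
        exact mul_le_mul_of_nonneg_right (by linarith only []) h1
      · refine le_trans ?_ (le_max_left _ _)
        exact mul_nonpos_of_nonneg_of_nonpos hf0 h1)
    (by rw [hS0]; rfl) hSsub
    (fun q hq => by
      have h1 := hmax q hq
      rw [hwl q, hpe, hF1im] at h1
      exact h1)
    (fun q hq => by
      have h1 := htot q hq
      rw [hwl q, hpe] at h1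
      exact h1)
    (by
      rcases hNN with h1 | ⟨h1, -⟩
      · left; exact h1
      · right
        rw [h1, Nat.zero_sub, Nat.cast_zero])
    (by
      rw [List.toFinset_card_of_nodup hJ]
      refine le_trans ?_ herr
      have h1 : (F1.length : ℝ) ≤ F.length := by exact_mod_cast hF1len
      (clear * - h1 hM hC1; gcongr))
    htop'
  rw [hSm] at hfin
  refine ⟨fun h0 => ?_, hSn, fun i hi => hF1F i (hSF i hi), hSlen, hfin.2⟩
  rw [h0] at hfin
  exact Finset.not_nonempty_empty hfin.1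

end Vale.Agent.P334.Alg
end

section

/-!
The chain of the second case.
-/

namespace Vale.Agent.P334.Alg

open Finset

section

variable {X : Type} [MetricSpace X] [DecidableEq X] {d : X → X → ℕ}

/-- Potentials at the positions of the clients. -/
lemma posPot_id (J : Finset X) (lev : X → ℝ) : posPot J (fun j => j) lev = trPot J lev := rfl

/-- The chain of the second case. -/
theorem run2_final (hd : ∀ a b, dist a b = (d a b : ℝ)) {D : ℕ} (hD : ∀ a b, d a b ≤ D)
    {J F : List X} (hJ : J.Nodup) (hF : F.Nodup) (hJ0 : J ≠ []) (hF0 : F ≠ [])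
    {g : ℝ} {x : X → X → ℝ} {y r : X → ℝ} {CC : Finset X} {ρ : X → X}
    (h : Clu J.toFinset F.toFinset g x y r CC ρ) {κ0 κ ε T1 T2 L : ℝ} {e C k t : ℕ}
    (hκ0 : κ0 = 1 / 10 ^ 6) (hT2 : T2 = 10 ^ 10 / κ0)
    (hκ : κ = κ0 / (8 * (2048 * (T2 + 2)))) (hT1 : T1 = 10 ^ 6 / κ) (hε : ε = κ / 10 ^ 10)
    (he : ε = 1 / e)
    (hL : 0 < L) (hC : fracCost J.toFinset F.toFinset x ≤ (1 + κ) * L)
    (hk : κ / 2 * L ≤ g * (k - ∑ i ∈ F.toFinset, y i))
    (hcase : ∑ c ∈ CC, ain J.toFinset F.toFinset g x y r c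
      + ∑ i ∈ restF J.toFinset F.toFinset g x y r CC, fcl J.toFinset x i
        ≤ κ0 * fracCost J.toFinset F.toFinset x)
    (herr : (t : ℝ) * J.length + F.length * mS C J.length + (k + 3 * mS C J.length + 2)
      ≤ κ / 16 * L)
    (htop : 3 * L < tauL (D + 1) t e (mS C J.length) ∨ tauL (D + 1) t e (mS C J.length) = D + 1)
    (hm : 1 ≤ mS C J.length) {Z : Finset X} {π : X → X}
    (hZE : Z ⊆ CC \ IbS F.toFinset y r CC ρ)
    (hπ1 : ∀ c ∈ CC, ¬ Iso r CC ρ c → π c ∈ CC ∧ π c ≠ c)
    (hnear : ∀ c ∈ CC, ¬ Iso r CC ρ c → ∀ c' ∈ CC, c' ≠ c →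
      dist (ρ c) (ρ (π c)) ≤ dist (ρ c) (ρ c'))
    (hZπ : ∀ c ∈ Z, π c ≠ c → π c ∉ Z)
    (hZc : ∑ c ∈ CC \ IbS F.toFinset y r CC ρ, sc F.toFinset y r c - 1 ≤ Z.card)
    (hZL : (1 - 2 * (1 / 10 ^ 4)) * ∑ c ∈ Z, Lam J.toFinset F.toFinset x r CC ρ π c
      ≤ ∑ c ∈ CC \ IbS F.toFinset y r CC ρ,
        sc F.toFinset y r c * Lam J.toFinset F.toFinset x r CC ρ π c)
    {O : List X} (hO : O.Nodup) (hOF : ∀ i ∈ O, i ∈ F) (hOe : O.toFinset = (CC \ Z).image ρ)
    {A : List X} (hA : A = run2 d D e C k t J F O) :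
    A ≠ [] ∧ A.Nodup ∧ (∀ i ∈ A, i ∈ F) ∧ A.length ≤ k + 3 * mS C J.length + 2 ∧
      cost J.toFinset A.toFinset ≤ 13 / 10 * L := by
  classical
  obtain ⟨hκpos, hκ1, hT1', hT2', hδ2, hδ21, hδκ, hεpos, h90, hεδ1, hεδ2, hεs, he1, he2, he2'⟩ :=
    const1 (by rw [hκ0]; norm_num) (by rw [hκ0]; norm_num) hT2 hκ hT1 hε
  have hg := h.rad.g_pos
  -- the number of open facilities
  have hOc : O.length < k + 3 * mS C J.length + 2 := by
    obtain ⟨_, xh, yy, hx0, hxy, hy0, hasg, hmass, hY, hW⟩ :=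
      h.residual_of hZE hπ1 hnear hZπ hZc hZL
    have hY0 : 0 ≤ ∑ i ∈ F.toFinset \ (CC \ Z).image ρ, yy i :=
      Finset.sum_nonneg (fun i hi => hy0 i (Finset.mem_sdiff.mp hi).1)
    have hspare : 0 < (k : ℝ) - ∑ i ∈ F.toFinset, y i := by
      have h1 : 0 < g * (k - ∑ i ∈ F.toFinset, y i) := lt_of_lt_of_le (by (clear * - hκpos hL; positivity)) hk
      exact (mul_pos_iff_of_pos_left hg).mp h1
    have h1 : O.length = ((CC \ Z).image ρ).card := by
      rw [← hOe, List.toFinset_card_of_nodup hO]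
    have h2 : (O.length : ℝ) < k + 2 := by rw [h1]; linarith only [hmass, hY0, hspare]
    have h3 : O.length < k + 2 := by exact_mod_cast h2
    omega
  obtain ⟨hAn, hAF, hAl, f, S, hS0, hSm, hS, hSF, hmax, htot, hN⟩ :=
    machine_real hd hJ hF hO hOF (pos := fun j => j)
      (fun _ q _ => tauL (D + 1) t e (q + 1)) (top := D + 1) (e0 := 0)
      (fun _ q _ => tauL_le_top _ _ _ _) (fun _ _ _ _ => le_rfl) (fun _ _ _ _ => le_rfl)
      (N := k + 3 * mS C J.length + 2) (m := mS C J.length) (T := tP J.length F.length D)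
      (δ := 0) hOc hm (by omega) le_rfl (A := A) hA
  have hn : J.toFinset.card = J.length := List.toFinset_card_of_nodup hJ
  have hn1 : 1 ≤ J.toFinset.card := by
    rw [hn]; exact List.length_pos_iff.mpr hJ0
  set τ : ℕ → ℝ := fun p => (tauL (D + 1) t e p : ℝ) with hτdef
  have hτs : ∀ p, τ (p + 1) ≤ (1 + ε) * τ p + t := by
    intro p
    have := tauL_succ_le_real (D + 1) t e p
    rw [he]
    simp only [hτdef]
    have e2 : (1 + 1 / (e : ℝ)) * (tauL (D + 1) t e p : ℝ)
      = tauL (D + 1) t e p + (tauL (D + 1) t e p : ℝ) / e := by ring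
    rw [e2]
    exact this
  obtain ⟨hne, hcost⟩ := h.case2_final (k := k) (m := mS C J.length) (t := t) (lo := (f : ℝ))
    (hi := (f : ℝ) + 1) (E0 := F.length) (Δ := 1) (τ := τ) (S := S) hκ0 hT2 hκ hT1 hε hL hC hk
    hcase hn1 (by (clear * -; positivity)) (by (clear * -; positivity)) (by linarith only []) (by linarith only []) (by (clear * -; positivity)) hZE hπ1
    hnear hZπ hZc hZL (by simp [hτdef, tauL_zero])
    (fun p => by simp only [hτdef]; exact_mod_cast tauL_step _ _ _ p) hτs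
    (by rw [hS0, hOe]) hS hSF (fun q hq => by
      have := hmax q hq
      rw [posPot_id] at this
      simpa [hτdef] using this)
    (fun q hq => by
      have := htot q hq
      rw [posPot_id] at this
      simpa [hτdef] using this)
    (by
      rcases hN with hN | hN
      · left; exact hN
      · right; rw [hN.1]; simp only [CharP.cast_eq_zero])
    (by
      rw [hn]
      have : (1 : ℝ) * (k + 3 * mS C J.length + 2) = k + 3 * mS C J.length + 2 := one_mul _
      linarith only [herr])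
    (by
      rcases htop with htop | htop
      · left; exact htop
      · right
        have htop' : ∀ a b : X, d a b < tauL (D + 1) t e (mS C J.length) := fun a b => by
          rw [htop]; exact Nat.lt_succ_of_le (hD a b)
        refine ⟨?_, fun a b => ?_⟩
        · rcases hN with hN | hN
          · rw [← Finset.card_pos, hN]; omega
          · obtain ⟨q0, hq0⟩ : ∃ q0, mS C J.length = q0 + 1 := ⟨mS C J.length - 1, by omega⟩
            have := hN.2 q0 (by omega)
            rw [hq0]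
            exact pos_nonempty hd hJ0 hF0 (fun a b => by rw [← hq0]; exact htop' a b) this
        · simp only [hτdef]
          rw [hd]
          exact_mod_cast htop' a b)
  rw [hSm] at hne hcost
  refine ⟨?_, hAn, hAF, hAl, hcost⟩
  rintro rfl
  simp at hne

end

end Vale.Agent.P334.Alg
end

section

/-!
The candidates of the second case.
-/

namespace Vale.Agent.P334.Alg

open Finset

/-- One of the candidates of the second case is good. -/
theorem cands2_spec {X : Type} [MetricSpace X] [DecidableEq X] {d : X → X → ℕ}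
    (hd : ∀ a b, dist a b = (d a b : ℝ)) {D : ℕ} (hD : ∀ a b, d a b ≤ D) {J F U : List X}
    (hJ : J.Nodup) (hF : F.Nodup) (hJ0 : J ≠ []) (hF0 : F ≠ [])
    (hU : ∀ u ∈ U, u ∈ F) {N m gg : ℕ} (hN : 0 < N) (hm : 0 < m)
    {g : ℝ} {x : X → X → ℝ} {y r : X → ℝ} (hg : g = (gg : ℝ) / m)
    (hx : ∀ i j, x i j = ((nearU d (D + 1) N U j).count i : ℝ) / N)
    (hy : ∀ i, y i = (U.count i : ℝ) / N)
    (hr : ∀ p, r p = (radN d (D + 1) N U p : ℝ)) (h : Rad J.toFinset F.toFinset g x y r)
    {κ0 κ ε T1 T2 L : ℝ} {e C k t : ℕ}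
    (hκ0 : κ0 = 1 / 10 ^ 6) (hT2 : T2 = 10 ^ 10 / κ0)
    (hκ : κ = κ0 / (8 * (2048 * (T2 + 2)))) (hT1 : T1 = 10 ^ 6 / κ) (hε : ε = κ / 10 ^ 10)
    (he : ε = 1 / e)
    (hL : 0 < L) (hC : fracCost J.toFinset F.toFinset x ≤ (1 + κ) * L)
    (hk : κ / 2 * L ≤ g * (k - ∑ i ∈ F.toFinset, y i))
    (hcase : ∑ c ∈ (ccL d (D + 1) N m gg J F U).toFinset, ain J.toFinset F.toFinset g x y r c
      + ∑ i ∈ restF J.toFinset F.toFinset g x y r (ccL d (D + 1) N m gg J F U).toFinset,
          fcl J.toFinset x i ≤ κ0 * fracCost J.toFinset F.toFinset x)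
    (herr : (t : ℝ) * J.length + F.length * mS C J.length + (k + 3 * mS C J.length + 2)
      ≤ κ / 16 * L)
    (htop : 3 * L < tauL (D + 1) t e (mS C J.length) ∨ tauL (D + 1) t e (mS C J.length) = D + 1)
    (hmS : 1 ≤ mS C J.length) :
    ∃ S ∈ cands2 d D e C k t J F N m gg U, S ≠ [] ∧ S.Nodup ∧ (∀ i ∈ S, i ∈ F) ∧
      S.length ≤ k + 3 * mS C J.length + 2 ∧ cost J.toFinset S.toFinset ≤ 13 / 10 * L := by
  have hclu := clu_spec hd hJ hF hU hN hm hg hx hy hr h
  obtain ⟨Z, hZ, hZn, hZE, hπ1, hnear, hZπ, hZc, hZL, hO1, hO2, hO3⟩ :=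
    closeZ_spec hd hD hJ hF hU hN hm hg hx hy hr h rfl rfl rfl
  refine ⟨_, List.mem_map_of_mem hZ, ?_⟩
  exact run2_final hd hD hJ hF hJ0 hF0 hclu hκ0 hT2 hκ hT1 hε he hL hC hk hcase herr htop hmS
    hZE hπ1 hnear hZπ hZc hZL hO1 hO2 hO3 rfl

end Vale.Agent.P334.Alg
end

section

/-!
The four pieces of the pseudo-approximation algorithm.
-/

namespace Vale.Agent.P334.Alg

section

variable {X : Type} [MetricSpace X] [DecidableEq X]

omit [MetricSpace X] in
theorem UW_sub {d : X → X → ℕ} {D k w : ℕ} {J F : List X} : ∀ u ∈ UW d D k J F w, u ∈ F :=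
  (lmSearch_spec d (D + 1) (nP J.length F.length D) k w (gP J.length D)
    (mP J.length F.length D) J F).1.1

theorem mP_pos {J F : List X} {D : ℕ} (hJ0 : J ≠ []) (hF0 : F ≠ []) :
    0 < mP J.length F.length D := by
  have h1 : 0 < J.length := List.length_pos_iff.2 hJ0
  have h2 : 0 < F.length := List.length_pos_iff.2 hF0
  unfold mP
  (clear * - h2 h1; positivity)

theorem nP_pos {J F : List X} {D : ℕ} (hJ0 : J ≠ []) (hF0 : F ≠ []) :
    0 < nP J.length F.length D := by
  have h1 : 0 < J.length := List.length_pos_iff.2 hJ0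
  have h2 : 0 < F.length := List.length_pos_iff.2 hF0
  have h3 := mP_pos (D := D) hJ0 hF0
  unfold nP gP
  (clear * - h2 h1 h3; positivity)

/-- Near-optimality for the units. -/
theorem UW_near {d : X → X → ℕ} (hd : ∀ a b, dist a b = (d a b : ℝ)) {D : ℕ}
    (hD : ∀ a b, d a b ≤ D) {J F : List X} (hJ : J.Nodup) (hJ0 : J ≠ []) (hF0 : F ≠ [])
    {k w : ℕ} (hk : 1 ≤ k) (hw : 1000 ≤ w) :
    (((J.map (fun j => ((List.range (D + 1)).map
      (fun r => nP J.length F.length D - ballN d (UW d D k J F w) j r)).sum)).sum : ℕ) : ℝ) /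
        (nP J.length F.length D : ℕ) ≤ lpVal J.toFinset F.toFinset k + w + 1 := by
  obtain ⟨h1, h2⟩ := lmSearch_spec d (D + 1) (nP J.length F.length D) k w (gP J.length D)
    (mP J.length F.length D) J F
  exact lm_near_opt hd hD hJ hJ0 hF0 hk (by (clear * - hw; omega)) h1 h2

end

theorem lmSingleSpec : LmSingleSpec := by
  intro X _ _ d hd D hD J F hJ hF hJ0 hF0 k w hk hkF hw hU
  obtain ⟨i, hi, hc⟩ := lp_single hd hD (Nat.le_succ D) hJ (U := UW d D k J F w)
    (fun u hu => UW_sub u hu) hF0 (nP_pos hJ0 hF0) hU (UW_near hd hD hJ hJ0 hF0 hk hw)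
  exact ⟨i, List.mem_toFinset.1 hi, hc⟩

theorem lmRadSpec : LmRadSpec := by
  intro X _ _ d hd D hD J F hJ hF hJ0 hF0 k w hk hkF hw hU
  obtain ⟨h1, h2⟩ := lm_rad hd hD hJ hF hJ0 hF0 hk hkF hw rfl rfl rfl
    (U := UW d D k J F w) rfl (gg := ggW d D k J F w) rfl hU (g := gW d D k J F w)
    (x := xW d D k J F w) (y := yW d D k J F w) (r := rW d D k J F w) rfl (fun _ _ => rfl)
    (fun _ => rfl) (fun _ => rfl)
  refine ⟨h1, ?_, h2⟩
  exact (lp_cost (D1 := D + 1) (x := xW d D k J F w) hd hD (Nat.lt_succ_self D) hJ UW_sub hU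
    (fun i j => rfl)).trans_le (UW_near hd hD hJ hJ0 hF0 hk hw)

theorem cand1Spec : Cand1Spec := by
  intro e M C κ0 κ ε T1 T2 hc X _ _ d hd D hD J F hJ hF hJ0 hF0 k w hk hkF L hL hG hU hf hfc hpr
    hcase
  have hn : 1 ≤ J.length := List.length_pos_iff.2 hJ0
  exact cand1_spec hd hD hJ hF hJ0 UW_sub (nP_pos hJ0 hF0) (mP_pos hJ0 hF0)
    (g := gW d D k J F w) (x := xW d D k J F w) (y := yW d D k J F w) (r := rW d D k J F w) rfl
    (fun _ _ => rfl) (fun _ => rfl) (fun _ => rfl) hf.rad (by rw [hc.hκ0]; norm_num)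
    (by rw [hc.hκ0]; norm_num) hc.hT2 hc.hκ hc.hT1 hc.hε hc.hεe hc.he hc.hM hc.hMε hL hfc hpr
    hcase hG.t_ge hG.err1 hG.top (Nat.mul_pos hc.hC1 (Nat.size_pos.2 hn))

theorem cands2Spec : Cands2Spec := by
  intro e M C κ0 κ ε T1 T2 hc X _ _ d hd D hD J F hJ hF hJ0 hF0 k w hk hkF L hL hG hU hf hfc hpr
    hcase
  have hn : 1 ≤ J.length := List.length_pos_iff.2 hJ0
  unfold Case1W at hcase
  push Not at hcase
  exact cands2_spec hd hD hJ hF hJ0 hF0 UW_sub (nP_pos hJ0 hF0) (mP_pos hJ0 hF0)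
    (g := gW d D k J F w) (x := xW d D k J F w) (y := yW d D k J F w) (r := rW d D k J F w) rfl
    (fun _ _ => rfl) (fun _ => rfl) (fun _ => rfl) hf.rad hc.hκ0 hc.hT2 hc.hκ hc.hT1 hc.hε hc.hεe
    hL hfc hpr hcase.le hG.err2 hG.top (Nat.mul_pos hc.hC1 (Nat.size_pos.2 hn))

end Vale.Agent.P334.Alg
end

section

/-!
Assembly of part 2.
-/

namespace Vale.Agent.P334.Alg

section nat

variable {X : Type} [MetricSpace X] {d : X → X → ℕ} {D : ℕ} {J F : List X}

theorem Inst.symm (I : Inst d D J F) (a b : X) : d a b = d b a := by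
  have h : (d a b : ℝ) = d b a := by rw [← I.hd, ← I.hd, dist_comm]
  exact_mod_cast h

theorem Inst.tri (I : Inst d D J F) (a b c : X) : d a c ≤ d a b + d b c := by
  have h : (d a c : ℝ) ≤ d a b + d b c := by
    rw [← I.hd, ← I.hd, ← I.hd]
    exact dist_triangle a b c
  exact_mod_cast h

theorem Inst.cst_real [DecidableEq X] (I : Inst d D J F) {S : List X} (hS : S ≠ []) :
    (cst d D J S : ℝ) = cost J.toFinset S.toFinset :=
  Alg.cst_real I.hd I.hJ hS fun j _ s _ => I.hD j s

theorem Inst.cst_toList [DecidableEq X] (I : Inst d D J F) {T : Finset X} (hT : T.Nonempty) :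
    (cst d D J T.toList : ℝ) = cost J.toFinset T := by
  have h1 : T.toList ≠ [] := by
    obtain ⟨x, hx⟩ := hT
    exact List.ne_nil_of_mem (Finset.mem_toList.2 hx)
  rw [I.cst_real h1, Finset.toList_toFinset]

theorem Inst.mins_real [DecidableEq X] (I : Inst d D J F) {S : List X} (hS : S ≠ []) (v : X) :
    (mins d D v S : ℝ) = Metric.infDist v (S.toFinset : Set X) :=
  Alg.mins_real I.hd hS fun s _ => I.hD v s

end nat

section fin

variable {X : Type} [DecidableEq X]

theorem addAll_nil (T : List X) :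
    (addAll T []).Nodup ∧ (∀ x, x ∈ addAll T [] ↔ x ∈ T) ∧ (addAll T []).length ≤ T.length := by
  obtain ⟨h1, h2, h3⟩ := addAll_spec T [] List.nodup_nil
  refine ⟨h1, fun x => by rw [h2]; simp, by simpa only [List.length_nil, add_zero] using h3⟩

/-- A candidate is as good as the list it is made from. -/
theorem addAll_good (d : X → X → ℕ) (D : ℕ) (J T : List X) (hT : T ≠ []) :
    addAll T [] ≠ [] ∧ cst d D J (addAll T []) = cst d D J T := by
  obtain ⟨h1, h2, h3⟩ := addAll_nil T
  constructor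
  · obtain ⟨x, hx⟩ := List.exists_mem_of_ne_nil _ hT
    exact List.ne_nil_of_mem ((h2 x).2 hx)
  · exact cst_congr d D J h2

/-- The result of a trial is at least as good as every feasible candidate. -/
theorem trial_le (d : X → X → ℕ) (D : ℕ) (J F : List X) (k b t tq tz : ℕ) (S0 : List X)
    (r1 r2 r3 r4 : ℕ → ℕ) (hk : 1 ≤ k) (x0 : X) (F' : List X) (hF : F = x0 :: F') (T : List X)
    (hT : T ∈ cands d D x0 J F (prep d D b t J F S0) tq tz r1 r2 r3 r4) (hT0 : T ≠ [])
    (hTk : T.length ≤ k) :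
    trial d D J F k b t tq tz S0 r1 r2 r3 r4 ≠ [] ∧
    cst d D J (trial d D J F k b t tq tz S0 r1 r2 r3 r4) ≤ cst d D J T := by
  have hF0 : F ≠ [] := by rw [hF]; exact List.cons_ne_nil _ _
  obtain ⟨h1, -, -, -, h2⟩ := bestOf_spec d D J F k ((F.take 1).flatMap (fun x0 =>
    cands d D x0 J F (prep d D b t J F S0) tq tz r1 r2 r3 r4)) hk hF0
  refine ⟨h1, h2 T ?_ hT0 hTk⟩
  have : F.take 1 = [x0] := by rw [hF]; rfl
  rw [this]
  simpa using hT

end fin

section case1

variable {X : Type} [MetricSpace X] [DecidableEq X] {d : X → X → ℕ} {D : ℕ} {J F : List X}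

/-- Algorithm 1 with a good coloring. -/
theorem case1 (I : Inst d D J F) {S : List X} {T0 : Finset X} (x0 : X) (hSn : S.Nodup)
    (hSF : S ⊆ F) (hS : S ≠ []) (hTF : T0 ⊆ F.toFinset) (hT0 : T0.Nonempty) :
    ∃ Cr : Finset X, Cr ⊆ S.toFinset ∧ Disjoint (S.toFinset \ T0) Cr ∧
      Cr.card ≤ (S.toFinset \ T0).card ∧
      ∀ (χ : X → ℕ) (z h : ℕ), z = (S.toFinset \ T0).card → h = (T0 \ S.toFinset).card →
        Set.BijOn χ (S.toFinset \ T0 : Finset X) {a | a < z} → (∀ s ∈ Cr, z ≤ χ s) →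
        ∀ T, T = addAll (A1.alg1 d D (topOf D J) x0 J F S χ z h) [] →
        T ≠ [] ∧ T.length ≤ T0.card ∧ cst d D J T ≤ 2 * cst d D J S + cst d D J T0.toList := by
  have hTl : T0.toList ≠ [] := by
    obtain ⟨x, hx⟩ := hT0
    exact List.ne_nil_of_mem (Finset.mem_toList.2 hx)
  have hex : ∀ s : X, ∃ t ∈ T0, d s t = mins d D s T0.toList := by
    intro s
    obtain ⟨t, ht, h⟩ := exists_mins d D s hTl (fun t _ => I.hD s t)
    exact ⟨t, Finset.mem_toList.1 ht, h.symm⟩
  choose g hgm hg using hex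
  refine ⟨((S.toFinset \ T0).image g) ∩ S.toFinset, Finset.inter_subset_right, ?_, ?_, ?_⟩
  · rw [Finset.disjoint_left]
    intro x hx hx'
    rw [Finset.mem_inter, Finset.mem_image] at hx'
    obtain ⟨⟨s, _, rfl⟩, _⟩ := hx'
    exact (Finset.mem_sdiff.1 hx).2 (hgm s)
  · exact (Finset.card_le_card Finset.inter_subset_left).trans Finset.card_image_le
  · intro χ z h hz hh hbij hCr T hT
    obtain ⟨h1, h2, h3, h4⟩ := A1.alg1_spec d I.symm I.tri D (topOf D J) I.hD x0 J F S T0.toList
      hSn hS (by unfold topOf; omega) hSF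
      (fun t ht => List.mem_toFinset.1 (hTF (Finset.mem_toList.1 ht))) hTl χ z h
      (by
        intro a ha
        obtain ⟨s, hs, hsa⟩ := hbij.surjOn ha
        rw [Finset.mem_coe, Finset.mem_sdiff, List.mem_toFinset] at hs
        exact ⟨s, hs.1, fun h => hs.2 (Finset.mem_toList.1 h), hsa⟩)
      (by
        intro s hs hsT
        refine ⟨g s, Finset.mem_toList.2 (hgm s), hg s, fun hgS => hCr _ ?_⟩
        rw [Finset.mem_inter, Finset.mem_image, List.mem_toFinset]
        refine ⟨⟨s, ?_, rfl⟩, hgS⟩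
        rw [Finset.mem_sdiff, List.mem_toFinset]
        exact ⟨hs, fun h => hsT (Finset.mem_toList.2 h)⟩)
      (by
        rw [hh]
        have e1 : (T0.toList.filter (fun t => decide (t ∉ S))).toFinset = T0 \ S.toFinset := by
          ext x
          simp only [decide_not, List.toFinset_filter, Bool.not_eq_eq_eq_not, Bool.not_true, decide_eq_false_iff_not, Finset.toList_toFinset, Finset.mem_filter, Finset.mem_sdiff, List.mem_toFinset]
        rw [← e1, List.toFinset_card_of_nodup (T0.nodup_toList.filter _)])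
    obtain ⟨g1, g2⟩ := addAll_good d D J _ h3
    obtain ⟨g3, g4, g5⟩ := addAll_nil (A1.alg1 d D (topOf D J) x0 J F S χ z h)
    rw [hT]
    refine ⟨g1, ?_, by rw [g2]; exact h4⟩
    have e1 : S.length = S.toFinset.card := (List.toFinset_card_of_nodup hSn).symm
    have e2 := Finset.card_sdiff_add_card_inter S.toFinset T0
    have e3 := Finset.card_sdiff_add_card_inter T0 S.toFinset
    rw [Finset.inter_comm] at e3
    (clear * - hz hh h2 g5 e1 e2 e3; omega)

end case1

section bits

variable {X : Type} [DecidableEq X]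

open Classical in
theorem natCard_subtype {α : Type} [Fintype α] (P : α → Prop) :
    Nat.card {a // P a} = (Finset.univ.filter P).card := by
  rw [Nat.card_eq_fintype_card, Fintype.card_subtype]

theorem natCard_mono {α : Type} [Finite α] {P Q : α → Prop} (h : ∀ a, P a → Q a) :
    Nat.card {a // P a} ≤ Nat.card {a // Q a} :=
  Nat.card_le_card_of_injective (fun x : {a // P a} => (⟨x.1, h _ x.2⟩ : {a // Q a}))
    (fun x y hxy => Subtype.ext (by simpa only [Subtype.mk.injEq] using hxy))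

theorem natCard_all (N W : ℕ) (P : (ℕ → ℕ) → Prop) (h : ∀ r, P r) :
    Nat.card {r : Fin N → Fin W // P (extN r)} = W ^ N := by
  rw [Nat.card_congr (Equiv.subtypeUnivEquiv fun r => h (extN r))]
  simp only [Nat.card_eq_fintype_card, Fintype.card_pi, Fintype.card_fin, Finset.prod_const, Finset.card_univ]

/-- From chunks to bits. -/
theorem card_bits (d : X → X → ℕ) (D : ℕ) (J F : List X) (k K3 Kb : ℕ) (S0 : List X)
    (P : (ℕ → ℕ) → Prop) (Good : List X → Prop)
    (hdep : ∀ r r' : ℕ → ℕ, (∀ i < nchunk F, r i = r' i) → P r → P r')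
    (hP : ∀ r, P r → Good (trialR d D J F k K3 Kb S0 r)) :
    Nat.card {r : Fin (nchunk F) → Fin (2 ^ wid D J F) // P (extN r)} ≤
    Nat.card {b : List.Vector Bool (nbits D J F) //
      Good (stableTrial d D J F k K3 Kb S0 b.toList)} := by
  classical
  have h1 := card_seed (nchunk F) (wid D J F) P hdep
  calc Nat.card {r : Fin (nchunk F) → Fin (2 ^ wid D J F) // P (extN r)}
      = Nat.card {b : List.Vector Bool (nbits D J F) //
          P (fun i => chunk (wid D J F) i b.toList)} := by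
        rw [natCard_subtype, natCard_subtype]
        exact h1.symm
    _ ≤ _ := natCard_mono fun b hb => hP _ hb

end bits

section big

variable {X : Type} [MetricSpace X] [DecidableEq X] {d : X → X → ℕ} {D : ℕ} {J F : List X}

theorem Inst.d_near (I : Inst d D J F) (x0 : X) {S : List X} (hS : S ≠ []) (j : X) :
    d j (A1.near d x0 S j) = mins d D j S := A1.d_near d D x0 hS I.hD j

theorem sum_cA (I : Inst d D J F) (x0 : X) {S : List X} (hS : S ≠ []) :
    ∑ s ∈ S.toFinset, cA d x0 J S s = cst d D J S := by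
  have h1 : ∀ s, cA d x0 J S s = ∑ j ∈ J.toFinset.filter (fun j => A1.near d x0 S j = s),
      mins d D j S := by
    intro s
    unfold cA
    have h2 : (J.filter (fun j => decide (A1.near d x0 S j = s))).toFinset =
        J.toFinset.filter (fun j => A1.near d x0 S j = s) := by
      ext x
      simp only [List.toFinset_filter, decide_eq_true_eq, Finset.mem_filter, List.mem_toFinset]
    rw [← h2, List.sum_toFinset _ (I.hJ.filter _)]
    congr 1
    refine List.map_congr_left fun j hj => ?_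
    have h3 : A1.near d x0 S j = s := by simpa using (List.mem_filter.1 hj).2
    rw [← I.d_near x0 hS j, h3]
  calc ∑ s ∈ S.toFinset, cA d x0 J S s
      = ∑ s ∈ S.toFinset, ∑ j ∈ J.toFinset.filter (fun j => A1.near d x0 S j = s),
        mins d D j S := Finset.sum_congr rfl fun s _ => h1 s
    _ = ∑ j ∈ J.toFinset, mins d D j S :=
        Finset.sum_fiberwise_of_maps_to
          (fun j _ => List.mem_toFinset.2 (A1.near_mem d x0 hS j)) _
    _ = cst d D J S := List.sum_toFinset _ I.hJ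

/-- There are few large centers. -/
theorem card_bigS (I : Inst d D J F) (x0 : X) {S : List X} (hS : S ≠ []) (tz : ℕ)
    (hA : 0 < cst d D J S) : (bigS d D x0 J S tz).toFinset.card ≤ 2000 * tz := by
  have h1 : (bigS d D x0 J S tz).toFinset.card * cst d D J S ≤
      ∑ s ∈ (bigS d D x0 J S tz).toFinset, 2000 * tz * cA d x0 J S s := by
    rw [← smul_eq_mul]
    refine Finset.card_nsmul_le_sum _ _ _ fun s hs => ?_
    have h2 := List.mem_filter.1 (List.mem_toFinset.1 hs)
    simpa only [ge_iff_le, decide_eq_true_eq] using h2.2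
  have h2 : ∑ s ∈ (bigS d D x0 J S tz).toFinset, 2000 * tz * cA d x0 J S s ≤
      2000 * tz * cst d D J S := by
    rw [← Finset.mul_sum, ← sum_cA I x0 hS]
    refine Nat.mul_le_mul_left _ (Finset.sum_le_sum_of_subset ?_)
    intro s hs
    exact List.mem_toFinset.2 (List.mem_filter.1 (List.mem_toFinset.1 hs)).1
  exact Nat.le_of_mul_le_mul_right (h1.trans h2) hA

end big

section anchors

variable {X : Type} [MetricSpace X] [DecidableEq X] {d : X → X → ℕ} {D : ℕ} {J F : List X}

theorem length_bag (J S : List X) : (bag d D J S).length = cst d D J S := length_urn _ _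

theorem countP_bag (I : Inst d D J F) (S : List X) (G : Finset X) (hG : G ⊆ J.toFinset) :
    (bag d D J S).countP (fun x => decide (x ∈ G)) = ∑ p ∈ G, mins d D p S := by
  unfold bag
  rw [countP_urn]
  have h1 : (J.map (fun x => if x ∈ G then mins d D x S else 0)).sum
      = ∑ x ∈ J.toFinset, (if x ∈ G then mins d D x S else 0) :=
    (List.sum_toFinset _ I.hJ).symm
  rw [h1, ← Finset.sum_filter]
  refine Finset.sum_congr ?_ fun _ _ => rfl
  ext x
  rw [Finset.mem_filter]
  exact ⟨fun h => h.2, fun h => ⟨hG h, h⟩⟩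

/-- The list of anchors in terms of the new centers. -/
theorem anch_eq (x0 : X) (J S : List X) (r3 r4 : ℕ → ℕ) (Q : Finset X)
    (o : Fin Q.card ≃ {x // x ∈ Q}) :
    ∃ (os : List X) (p : X → X) (R : X → ℕ), os.Nodup ∧ os.toFinset = Q ∧
      anch d D x0 J S r3 r4 Q.card = os.map (fun o => (p o, R o)) ∧
      ∀ i : Fin Q.card, p (o i) = pnt d D x0 J S (r3 i) ∧
        R (o i) = radi d D S (pnt d D x0 J S (r3 i)) (r4 i % 2541000) := by
  classical
  set p : X → X := fun x => if h : x ∈ Q then pnt d D x0 J S (r3 (o.symm ⟨x, h⟩)) else x0 with hp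
  set R : X → ℕ := fun x => if h : x ∈ Q then
    radi d D S (pnt d D x0 J S (r3 (o.symm ⟨x, h⟩))) (r4 (o.symm ⟨x, h⟩) % 2541000) else 0 with hR
  have hpo : ∀ i : Fin Q.card, p (o i) = pnt d D x0 J S (r3 i) := by
    intro i
    simp only [hp, (o i).2, dif_pos, Subtype.coe_eta, Equiv.symm_apply_apply]
  have hRo : ∀ i : Fin Q.card, R (o i) =
      radi d D S (pnt d D x0 J S (r3 i)) (r4 i % 2541000) := by
    intro i
    simp only [hR, (o i).2, dif_pos, Subtype.coe_eta, Equiv.symm_apply_apply]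
  refine ⟨List.ofFn (fun i => (o i : X)), p, R, ?_, ?_, ?_, fun i => ⟨hpo i, hRo i⟩⟩
  · rw [List.nodup_ofFn]
    intro i j hij
    exact o.injective (Subtype.ext hij)
  · ext x
    rw [List.mem_toFinset, List.mem_ofFn]
    constructor
    · rintro ⟨i, rfl⟩
      exact (o i).2
    · intro hx
      exact ⟨o.symm ⟨x, hx⟩, by simp only [Equiv.apply_symm_apply]⟩
  · unfold anch
    rw [List.map_ofFn]
    apply List.ext_getElem
    · simp only [List.length_map, List.length_range, List.length_ofFn]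
    · intro n h1 h2
      simp only [List.getElem_map, List.getElem_range, List.getElem_ofFn, Function.comp_apply]
      rw [hpo ⟨n, by simpa only [List.length_map, List.length_range] using h1⟩, hRo ⟨n, by simpa only [List.length_map, List.length_range] using h1⟩]

end anchors

end Vale.Agent.P334.Alg
end

section

/-!
Algorithm 2: the event of good random choices and its probability.
-/

namespace Vale.Agent.P334.Alg

section

variable {X : Type} [MetricSpace X] [DecidableEq X] {d : X → X → ℕ} {D : ℕ} {J F : List X}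

theorem length_le_of_subset {S F : List X} (hSn : S.Nodup) (hSF : S ⊆ F) :
    S.length ≤ F.length := (hSn.subperm hSF).length_le

theorem card_le_length {Q : Finset X} {F : List X} (hQ : Q ⊆ F.toFinset) :
    Q.card ≤ F.length := (Finset.card_le_card hQ).trans (List.toFinset_card_le F)

theorem col_congr {N z : ℕ} {S : List X} (hSN : S.length ≤ N) {r r' : ℕ → ℕ}
    (h : ∀ i < N, r i = r' i) {s : X} (hs : s ∈ S) : col r z S s = col r' z S s := by
  unfold col
  rw [h _ (lt_of_lt_of_le (List.idxOf_lt_length_iff.2 hs) hSN)]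

/-- The event on colors. -/
def Ev1 (S : List X) (z : ℕ) (Z Cr V : Finset X) (loss : X → ℝ) (r : ℕ → ℕ) : Prop :=
  Set.BijOn (col r z S) (Z : Set X) {a | a < z} ∧ (∀ s ∈ Cr, z ≤ col r z S s) ∧
    ∑ s ∈ (V \ Z) \ Cr, (if col r z S s < z then loss s else 0) ≤
      2 / 12000 * ∑ s ∈ (V \ Z) \ Cr, loss s

theorem Ev1_congr {N z : ℕ} {S : List X} {Z Cr V : Finset X} {loss : X → ℝ}
    (hSN : S.length ≤ N) (hV : V ⊆ S.toFinset) (hZ : Z ⊆ V) (hCr : Cr ⊆ V) (r r' : ℕ → ℕ)
    (h : ∀ i < N, r i = r' i) (hr : Ev1 S z Z Cr V loss r) : Ev1 S z Z Cr V loss r' := by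
  have hm : ∀ s ∈ V, col r z S s = col r' z S s := fun s hs =>
    col_congr hSN h (List.mem_toFinset.1 (hV hs))
  refine ⟨hr.1.congr fun s hs => hm s (hZ (Finset.mem_coe.1 hs)), fun s hs => ?_, ?_⟩
  · rw [← hm s (hCr hs)]; exact hr.2.1 s hs
  · refine le_trans (le_of_eq ?_) hr.2.2
    refine Finset.sum_congr rfl fun s hs => ?_
    rw [hm s (Finset.mem_sdiff.1 (Finset.mem_sdiff.1 hs).1).1]

/-- The event on the guesses for the large centers. -/
def Ev2 (S : List X) (B Z : Finset X) (r : ℕ → ℕ) : Prop :=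
  ∀ s ∈ B, (r (S.idxOf s) % 2 = 1 ↔ s ∈ Z)

theorem Ev2_congr {N : ℕ} {S : List X} {B Z : Finset X} (hSN : S.length ≤ N)
    (hB : B ⊆ S.toFinset) (r r' : ℕ → ℕ) (h : ∀ i < N, r i = r' i) (hr : Ev2 S B Z r) :
    Ev2 S B Z r' := by
  intro s hs
  rw [← h _ (lt_of_lt_of_le (List.idxOf_lt_length_iff.2 (List.mem_toFinset.1 (hB hs))) hSN)]
  exact hr s hs

/-- The event on the anchors. -/
def Ev3 (N : ℕ) (L : List X) (x0 : X) (M : ℕ) (Q : Finset X) (G : X → Finset X)
    (rad : X → X → ℕ) (r : ℕ → ℕ) : Prop :=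
  ∃ o : Fin Q.card ≃ {x // x ∈ Q}, ∀ i : Fin Q.card,
    L.getD (r i % L.length) x0 ∈ G (o i) ∧
    r (N + i) % M = rad (o i) (L.getD (r i % L.length) x0)

omit [MetricSpace X] [DecidableEq X] in
theorem Ev3_congr {N : ℕ} {L : List X} {x0 : X} {M : ℕ} {Q : Finset X} {G : X → Finset X}
    {rad : X → X → ℕ} (hQ : Q.card ≤ N) (r r' : ℕ → ℕ) (h : ∀ i < N + N, r i = r' i)
    (hr : Ev3 N L x0 M Q G rad r) : Ev3 N L x0 M Q G rad r' := by
  obtain ⟨o, ho⟩ := hr
  refine ⟨o, fun i => ?_⟩
  have h1 : (i : ℕ) < N := lt_of_lt_of_le i.2 hQ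
  rw [← h i (by omega), ← h (N + i) (by omega)]
  exact ho i

/-- The exponent in the bound for the probability of good anchors. -/
def cAn : ℕ := 5813808000000000

theorem exp_le_two_pow (n : ℕ) : Real.exp n ≤ 2 ^ (2 * n) := by
  have h1 : Real.exp 1 ≤ 4 := by
    have := Real.exp_one_lt_d9
    linarith
  calc Real.exp n = Real.exp 1 ^ n := by rw [← Real.exp_nat_mul]; simp
    _ ≤ 4 ^ n := pow_le_pow_left₀ (Real.exp_pos 1).le h1 n
    _ = 2 ^ (2 * n) := by rw [pow_mul]; norm_num

/-- Product of the three probability bounds. -/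
theorem prob_all (hSp : SplitSpec) (N W : ℕ) (P1 P2 P3 : (ℕ → ℕ) → Prop) (c1 c2 c3 : ℝ)
    (hc1 : 0 ≤ c1) (hc2 : 0 ≤ c2) (hc3 : 0 ≤ c3)
    (hd1 : ∀ r s : ℕ → ℕ, (∀ i < N, r i = s i) → P1 r → P1 s)
    (hd2 : ∀ r s : ℕ → ℕ, (∀ i < N, r i = s i) → P2 r → P2 s)
    (hd3 : ∀ r s : ℕ → ℕ, (∀ i < N + N, r i = s i) → P3 r → P3 s)
    (h1 : (W : ℝ) ^ N ≤ c1 * (Nat.card {r : Fin N → Fin W // P1 (extN r)} : ℝ))
    (h2 : (W : ℝ) ^ N ≤ c2 * (Nat.card {r : Fin N → Fin W // P2 (extN r)} : ℝ))
    (h3 : (W : ℝ) ^ (N + N) ≤ c3 * (Nat.card {r : Fin (N + N) → Fin W // P3 (extN r)} : ℝ)) :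
    (W : ℝ) ^ ((N + N) + (N + N)) ≤ c1 * c2 * c3 *
      (Nat.card {r : Fin ((N + N) + (N + N)) → Fin W //
        P1 (extN r) ∧ P2 (fun i => extN r (N + i)) ∧ P3 (fun i => extN r ((N + N) + i))} : ℝ) := by
  have h := hSp N W P1 P2 P3 hd1 hd2 hd3
  set n1 := Nat.card {r : Fin N → Fin W // P1 (extN r)}
  set n2 := Nat.card {r : Fin N → Fin W // P2 (extN r)}
  set n3 := Nat.card {r : Fin (N + N) → Fin W // P3 (extN r)}
  set n4 := Nat.card {r : Fin ((N + N) + (N + N)) → Fin W //
        P1 (extN r) ∧ P2 (fun i => extN r (N + i)) ∧ P3 (fun i => extN r ((N + N) + i))}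
  have h' : (n1 : ℝ) * n2 * n3 ≤ n4 := by exact_mod_cast h
  have hW : (0 : ℝ) ≤ W := Nat.cast_nonneg _
  calc (W : ℝ) ^ ((N + N) + (N + N)) = (W : ℝ) ^ N * (W : ℝ) ^ N * (W : ℝ) ^ (N + N) := by ring
    _ ≤ (c1 * n1) * (c2 * n2) * (c3 * n3) := by
        apply mul_le_mul (mul_le_mul h1 h2 (by (clear * -; positivity)) (by (clear * - hc1; positivity))) h3 (by positivity)
        (clear * - hc1 hc2; positivity)
    _ = c1 * c2 * c3 * (n1 * n2 * n3) := by ring
    _ ≤ c1 * c2 * c3 * n4 := mul_le_mul_of_nonneg_left h' (by (clear * - hc1 hc2 hc3; positivity))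

/-- Algorithm 2: there is an event of good random choices, of large probability, on which the
candidate with the right parameters is good. -/
theorem case2 (hB : LevelBSpec) (hR : RadSpec) (hC : ColorSpec) (hBi : BitsSpec)
    (hAn : AnchorSpec) (hSp : SplitSpec) (I : Inst d D J F)
    (hdiv : ∀ x y, 4000 * J.length ∣ d x y) {S : List X} {T0 : Finset X} (x0 : X)
    (hSn : S.Nodup) (hSF : S ⊆ F) (hS : S ≠ []) (hTF : T0 ⊆ F.toFinset) (hT0 : T0.Nonempty)
    {tq tz : ℕ} (htq : 1 ≤ tq) (h1 : (T0 \ S.toFinset).card ≤ tq)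
    (h2 : (S.toFinset \ T0).card ≤ tz)
    (hsat : ∀ q ∈ F.toFinset, cost J.toFinset S.toFinset ≤
      cost J.toFinset (insert q S.toFinset) +
        cost J.toFinset S.toFinset / (2 * 10 ^ 9 * (tq : ℝ)))
    (hA : cost J.toFinset T0 < 5 * cost J.toFinset S.toFinset) :
    ∃ P : (ℕ → ℕ) → Prop,
      (∀ r r' : ℕ → ℕ, (∀ i < nchunk F, r i = r' i) → P r → P r') ∧
      (∀ r, P r → ∃ z ≤ tz, ∃ h ≤ tq, ∀ T, T = cand2 d D x0 J F S tz r
        (fun i => r (F.length + i)) (fun i => r ((F.length + F.length) + i))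
        (fun i => r ((F.length + F.length) + (F.length + i))) z h →
        T ≠ [] ∧ T.length ≤ T0.card ∧ (cst d D J T : ℝ) ≤ 199 / 100 * cost J.toFinset T0) ∧
      ((2 ^ wid D J F : ℕ) : ℝ) ^ nchunk F ≤ 2 ^ (1 + 2018 * tz + 2 * (cAn * tq)) *
        (Nat.card {r : Fin (nchunk F) → Fin (2 ^ wid D J F) // P (extN r)} : ℝ) := by
  classical
  obtain ⟨N, hN⟩ : ∃ N, N = F.length := ⟨_, rfl⟩
  have hSne : (S.toFinset).Nonempty := by
    obtain ⟨x, hx⟩ := List.exists_mem_of_ne_nil _ hS
    exact ⟨x, List.mem_toFinset.2 hx⟩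
  have hJpos : 0 < J.length := List.length_pos_of_ne_nil I.hJ0
  have hA0 : 0 < cost J.toFinset S.toFinset := by
    have : 0 ≤ cost J.toFinset T0 := cost_nonneg _ _
    linarith only [hA, this]
  have hcst : (cst d D J S : ℝ) = cost J.toFinset S.toFinset := I.cst_real hS
  have hcst0 : 0 < cst d D J S := by
    rw [← hcst] at hA0
    exact_mod_cast hA0
  obtain ⟨K, Q, e, v, G, tgt⟩ := exists_target (J := J.toFinset) hSne hT0 hTF
    (τ := (tq : ℝ)) (by exact_mod_cast h1) (by exact_mod_cast htq) hsat hA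
  obtain ⟨Cr, hCr1, hCr2, hCr3⟩ := hB d D J F I x0 S T0 (tq : ℝ) tz K Q e v G hSn hSF hS hcst0
    hTF hT0 h2 tgt
  set V := (A2.small (bigS d D x0 J S tz) S).toFinset with hV
  have hVS : V ⊆ S.toFinset := by
    intro s hs
    rw [hV, List.mem_toFinset, A2.mem_small] at hs
    exact List.mem_toFinset.2 hs.1
  -- cardinalities
  have hSN : S.length ≤ N := by rw [hN]; exact length_le_of_subset hSn hSF
  have hQF : Q ⊆ F.toFinset := fun x hx => hTF (Finset.mem_sdiff.1 (tgt.Q_sub hx)).1
  have hQN : Q.card ≤ N := by rw [hN]; exact card_le_length hQF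
  have hQq : Q.card ≤ tq := (Finset.card_le_card tgt.Q_sub).trans h1
  have hSK : S.toFinset \ K ⊆ S.toFinset \ T0 := by
    intro x hx
    rw [Finset.mem_sdiff] at hx ⊢
    exact ⟨hx.1, fun h => hx.2 (tgt.inter_sub (Finset.mem_inter.2 ⟨hx.1, h⟩))⟩
  have hzt : (V \ K).card ≤ tz :=
    ((Finset.card_le_card (Finset.sdiff_subset_sdiff hVS (Finset.Subset.refl _))).trans
      (Finset.card_le_card hSK)).trans h2
  -- radii
  have hinf : ∀ p, Metric.infDist p (S.toFinset : Set X) = (mins d D p S : ℝ) := fun p =>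
    (I.mins_real hS p).symm
  have hvbig : ∀ o ∈ Q, 4000 ≤ v o := by
    intro o ho
    obtain ⟨j, _, hj1, hj2⟩ := tgt.v_big o ho
    rw [I.hd] at hj1 hj2
    have e1 : 4000 * J.length ≤ d j o := Nat.le_of_dvd (by exact_mod_cast hj1) (hdiv j o)
    have e2 : (4000 : ℝ) * J.length ≤ d j o := by exact_mod_cast e1
    have e3 : (J.toFinset.card : ℝ) = J.length := by
      rw [List.toFinset_card_of_nodup I.hJ]
    rw [e3] at hj2
    have e4 : (0 : ℝ) < J.length := by exact_mod_cast hJpos
    have e5 : (J.length : ℝ) * 4000 ≤ J.length * v o := by linarith only [hj2, e2]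
    exact le_of_mul_le_mul_left e5 e4
  have hrad : ∀ o p, ∃ u, o ∈ Q → p ∈ G o → u < 2541000 ∧ d p o ≤ radi d D S p u ∧
      (radi d D S p u : ℝ) ≤ 231 / 200 * v o := by
    intro o p
    by_cases ho : o ∈ Q
    · by_cases hp : p ∈ G o
      · obtain ⟨u, hu1, hu2, hu3⟩ := hR (d p o) (mins d D p S) (v o) (hvbig o ho)
          (by rw [← I.hd]; exact tgt.G_dist o ho p hp)
          (by rw [← hinf]; exact tgt.G_lo o ho p hp)
          (by rw [← hinf]; exact tgt.G_hi o ho p hp)
        exact ⟨u, fun _ _ => ⟨hu1, hu2, hu3⟩⟩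
      · exact ⟨0, fun _ h => absurd h hp⟩
    · exact ⟨0, fun h => absurd h ho⟩
  choose rad hrad using hrad
  -- the events
  set loss : X → ℝ := fun s => 2 * ∑ j ∈ J.toFinset.filter (fun j => e j = s), (d j s : ℝ)
    with hloss
  set Bg := (bigS d D x0 J S tz).toFinset with hBg
  have hBgS : Bg ⊆ S.toFinset := by
    intro s hs
    rw [hBg, List.mem_toFinset] at hs
    exact List.mem_toFinset.2 (List.mem_filter.1 hs).1
  set L := bag d D J S with hL
  have hLlen : L.length = cst d D J S := length_bag J S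
  set z := (V \ K).card with hz
  refine ⟨fun r => Ev1 S z (V \ K) Cr V loss r ∧
    Ev2 S Bg (S.toFinset \ K) (fun i => r (N + i)) ∧
    Ev3 N L x0 2541000 Q G rad (fun i => r ((N + N) + i)), ?_, ?_, ?_⟩
  · -- dependence
    rintro r r' hrr ⟨g1, g2, g3⟩
    have hn : nchunk F = (N + N) + (N + N) := by rw [hN]; rfl
    rw [hn] at hrr
    refine ⟨Ev1_congr hSN hVS Finset.sdiff_subset (hCr1.trans Finset.inter_subset_left) r r'
      (fun i hi => hrr i (by (clear * - hN hi; omega))) g1, Ev2_congr hSN hBgS _ _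
      (fun i hi => hrr (N + i) (by omega)) g2, Ev3_congr hQN _ _
      (fun i hi => hrr ((N + N) + i) (by omega)) g3⟩
  · -- consequence
    rintro r ⟨⟨g1, g2, g3⟩, g4, o, g5⟩
    refine ⟨z, hzt, Q.card, hQq, ?_⟩
    intro T hT
    obtain ⟨os, p, R, ho1, ho2, ho3, ho4⟩ := anch_eq (d := d) (D := D) x0 J S
      (fun i => r ((F.length + F.length) + i))
      (fun i => r ((F.length + F.length) + (F.length + i))) Q o
    have hZb : (bigS d D x0 J S tz).filter (fun s => decide
        (r (F.length + S.idxOf s) % 2 = 1)) =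
        (bigS d D x0 J S tz).filter (fun s => decide (s ∉ K)) := by
      apply List.filter_congr
      intro s hs
      have e1 := g4 s (List.mem_toFinset.2 hs)
      have e2 : s ∈ S := (List.mem_filter.1 hs).1
      rw [Finset.mem_sdiff, List.mem_toFinset, hN] at e1
      rw [decide_eq_decide]
      exact e1.trans ⟨fun h => h.2, fun h => ⟨e2, h⟩⟩
    obtain ⟨q1, q2, q3, q4⟩ := hCr3 z (col r z S) _ os p R hz g1 g2 (by
        refine g3.trans ?_
        have e1 : ∑ s ∈ (V \ (V \ K)) \ Cr, loss s ≤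
            ∑ s ∈ K, loss s := by
          refine Finset.sum_le_sum_of_subset_of_nonneg ?_ ?_
          · intro s hs
            rw [Finset.mem_sdiff, Finset.mem_sdiff, Finset.mem_sdiff] at hs
            by_contra h
            exact hs.1.2 ⟨hs.1.1, h⟩
          · intro s _ _
            rw [hloss]
            (clear * -; positivity)
        have e2 : ∑ s ∈ K, loss s ≤ 2 * ∑ j ∈ J.toFinset, (d j (e j) : ℝ) := by
          rw [hloss, ← Finset.mul_sum]
          refine mul_le_mul_of_nonneg_left ?_ (by norm_num)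
          have e3 : ∀ s ∈ K, ∑ j ∈ J.toFinset.filter (fun j => e j = s), (d j s : ℝ) =
              ∑ j ∈ J.toFinset.filter (fun j => e j = s), (d j (e j) : ℝ) := by
            intro s _
            refine Finset.sum_congr rfl fun j hj => ?_
            rw [(Finset.mem_filter.1 hj).2]
          rw [Finset.sum_congr rfl e3]
          have e4 : ∀ s, ∑ j ∈ J.toFinset.filter (fun j => e j = s), (d j (e j) : ℝ) =
              ∑ j ∈ (J.toFinset.filter (fun j => e j ∈ K)).filter (fun j => e j = s),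
                (d j (e j) : ℝ) ∨ s ∉ K := by
            intro s
            by_cases hs : s ∈ K
            · left
              congr 1
              rw [Finset.filter_filter]
              refine Finset.filter_congr fun j _ => ?_
              constructor
              · intro h
                exact ⟨by rw [h]; exact hs, h⟩
              · exact fun h => h.2
            · exact Or.inr hs
          have e5 : ∑ s ∈ K, ∑ j ∈ J.toFinset.filter (fun j => e j = s), (d j (e j) : ℝ) =
              ∑ j ∈ J.toFinset.filter (fun j => e j ∈ K), (d j (e j) : ℝ) := by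
            rw [← Finset.sum_fiberwise_of_maps_to (s := J.toFinset.filter (fun j => e j ∈ K))
              (t := K) (g := e) (fun j hj => (Finset.mem_filter.1 hj).2)]
            refine Finset.sum_congr rfl fun s hs => ?_
            exact (e4 s).resolve_right (fun h => h hs)
          rw [e5]
          exact Finset.sum_le_sum_of_subset_of_nonneg (Finset.filter_subset _ _)
            (fun _ _ _ => Nat.cast_nonneg _)
        linarith only [e1, e2]) hZb ho1 ho2 (by
        intro x hx
        obtain ⟨i, hi⟩ : ∃ i, o i = ⟨x, hx⟩ := ⟨o.symm ⟨x, hx⟩, by simp⟩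
        have hix : ((o i : {x // x ∈ Q}) : X) = x := by rw [hi]
        obtain ⟨e1, e2⟩ := ho4 i
        obtain ⟨e3, e4⟩ := g5 i
        rw [hix] at e1 e2 e3 e4
        rw [hN] at e3 e4
        have e5 : pnt d D x0 J S (r ((F.length + F.length) + i)) ∈ G x := e3
        obtain ⟨e6, e7, e8⟩ := hrad x _ hx e5
        have e9 : r ((F.length + F.length) + (F.length + i)) % 2541000 =
          rad x (pnt d D x0 J S (r ((F.length + F.length) + i))) := e4
        rw [e1, e2, e9]
        exact ⟨e5, e7, e8⟩) _ rfl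
    have hne := q2
    obtain ⟨w1, w2⟩ := addAll_good d D J _ q2
    obtain ⟨w3, w4, w5⟩ := addAll_nil (A2.alg2 d D (topOf D J) x0 J F S (bigS d D x0 J S tz)
      ((bigS d D x0 J S tz).filter (fun s => decide (r (F.length + S.idxOf s) % 2 = 1)))
      (col r z S) z (os.map fun o => (p o, R o)))
    have hT' : T = addAll (A2.alg2 d D (topOf D J) x0 J F S (bigS d D x0 J S tz)
      ((bigS d D x0 J S tz).filter (fun s => decide (r (F.length + S.idxOf s) % 2 = 1)))
      (col r z S) z (os.map fun o => (p o, R o))) [] := by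
      rw [hT, ← ho3]
      rfl
    rw [hT']
    refine ⟨w1, w5.trans (q3.trans tgt.card_le), ?_⟩
    rw [w2]
    exact q4
  · -- probability
    have hn : nchunk F = (N + N) + (N + N) := by rw [hN]; rfl
    rw [hn]
    set W := 2 ^ wid D J F with hW
    have hwid : 12000 * (J.length * D + F.length + 1000) < W := Nat.lt_size_self _
    have hw1 : 1 ≤ wid D J F := by
      rcases Nat.eq_zero_or_pos (wid D J F) with h | h
      · rw [hW, h] at hwid; omega
      · exact h
    have hVc : Disjoint (V \ K) Cr := by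
      rw [Finset.disjoint_left]
      intro x hx hx'
      exact (Finset.mem_sdiff.1 hx).2 (Finset.mem_inter.1 (hCr1 hx')).2
    have hzF : z ≤ F.length := by
      rw [hz]
      calc (V \ K).card ≤ S.toFinset.card :=
            Finset.card_le_card (Finset.sdiff_subset.trans hVS)
        _ = S.length := List.toFinset_card_of_nodup hSn
        _ ≤ F.length := by rw [← hN]; exact hSN
    have p1 := hC S N (wid D J F) z (V \ K) Cr V loss hSn hSN hVS Finset.sdiff_subset
      (hCr1.trans Finset.inter_subset_left) hVc hz.symm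
      (fun s => by rw [hloss]; (clear * -; positivity))
      (Nat.size_le_size (by omega))
    have p2 := hBi S N (wid D J F) Bg (S.toFinset \ K) hSn hSN hBgS hw1
    have hAD : cst d D J S ≤ J.length * D := A1.cst_le_mul d D J S
    have p3 := hAn L x0 N (wid D J F) 2541000 Q G rad (1 / 572000000) tq
      (by rw [hLlen]; exact hcst0) (by rw [hLlen]; (clear * - hLlen hwid hzF hAD; omega)) (by norm_num) (by omega) hQN
      (by norm_num) (by exact_mod_cast htq) tgt.G_disj
      (fun o ho p hp => (hrad o p ho hp).1)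
      (by
        intro o ho
        have e1 := tgt.G_wt o ho
        have e2 : G o ⊆ J.toFinset := tgt.G_sub o ho
        rw [hL, countP_bag I S (G o) e2, ← hL, hLlen, hcst]
        push_cast
        have e3 : ∑ p ∈ G o, Metric.infDist p (S.toFinset : Set X) =
            ∑ p ∈ G o, (mins d D p S : ℝ) := Finset.sum_congr rfl fun p _ => hinf p
        rw [← e3]
        refine le_trans (le_of_eq ?_) e1
        (clear * - htq hA0; field_simp))
    have p2' : (W : ℝ) ^ N ≤ (2 : ℝ) ^ Bg.card *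
        (Nat.card {r : Fin N → Fin W // Ev2 S Bg (S.toFinset \ K) (extN r)} : ℝ) := by
      exact_mod_cast p2
    have hall := prob_all hSp N W (Ev1 S z (V \ K) Cr V loss) (Ev2 S Bg (S.toFinset \ K))
      (Ev3 N L x0 2541000 Q G rad) _ _ _ (by positivity) (by positivity) (by positivity)
      (Ev1_congr hSN hVS Finset.sdiff_subset (hCr1.trans Finset.inter_subset_left))
      (Ev2_congr hSN hBgS) (Ev3_congr hQN) p1 p2' p3
    refine hall.trans (mul_le_mul_of_nonneg_right ?_ (Nat.cast_nonneg _))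
    have hBgc : Bg.card ≤ 2000 * tz := card_bigS I x0 hS tz hcst0
    have hexp : Real.exp (4 * (2541000 : ℕ) * (tq : ℝ) / (1 / 572000000)) ≤
        2 ^ (2 * (cAn * tq)) := by
      refine le_trans (le_of_eq ?_) (exp_le_two_pow (cAn * tq))
      congr 1
      unfold cAn
      push_cast
      ring
    have hz9 : (90000 : ℝ) ^ z ≤ 2 ^ (17 * tz) := by
      calc (90000 : ℝ) ^ z ≤ (2 ^ 17) ^ z := pow_le_pow_left₀ (by norm_num) (by norm_num) z
        _ = 2 ^ (17 * z) := by rw [← pow_mul]
        _ ≤ 2 ^ (17 * tz) := pow_le_pow_right₀ (by norm_num) (by omega)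
    have hcr : (2 : ℝ) ^ Cr.card ≤ 2 ^ tz := pow_le_pow_right₀ (by norm_num) hCr2
    have hbg : (2 : ℝ) ^ Bg.card ≤ 2 ^ (2000 * tz) := pow_le_pow_right₀ (by norm_num) hBgc
    calc 2 * (90000 : ℝ) ^ z * 2 ^ Cr.card * 2 ^ Bg.card *
          Real.exp (4 * (2541000 : ℕ) * (tq : ℝ) / (1 / 572000000))
        ≤ 2 * 2 ^ (17 * tz) * 2 ^ tz * 2 ^ (2000 * tz) * 2 ^ (2 * (cAn * tq)) := by
          (clear * - hz9 hcr hbg hexp; gcongr)
      _ = 2 ^ (1 + 2018 * tz + 2 * (cAn * tq)) := by
          rw [show 1 + 2018 * tz + 2 * (cAn * tq) =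
            1 + 17 * tz + tz + 2000 * tz + 2 * (cAn * tq) by ring]
          rw [pow_add, pow_add, pow_add, pow_add, pow_one]

end

end Vale.Agent.P334.Alg
end

section

/-!
Assembly of part 2: `StableSpec` from the specifications of the pieces.
-/

namespace Vale.Agent.P334.Alg

section

variable {X : Type} [MetricSpace X] [DecidableEq X] {d : X → X → ℕ} {D : ℕ} {J F : List X}

/-- Algorithm 1: there is an event of good colorings, of large probability, on which the candidate
with the right parameters is good. -/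
theorem case1' (hC : ColorSpec) (hSp : SplitSpec) (I : Inst d D J F) {S : List X}
    {T0 : Finset X} (x0 : X) (hSn : S.Nodup) (hSF : S ⊆ F) (hS : S ≠ []) (hTF : T0 ⊆ F.toFinset)
    (hT0 : T0.Nonempty) {tq tz : ℕ} (h1 : (T0 \ S.toFinset).card ≤ tq)
    (h2 : (S.toFinset \ T0).card ≤ tz)
    (hA : 5 * cost J.toFinset S.toFinset ≤ cost J.toFinset T0) :
    ∃ P : (ℕ → ℕ) → Prop,
      (∀ r r' : ℕ → ℕ, (∀ i < nchunk F, r i = r' i) → P r → P r') ∧
      (∀ r, P r → ∃ z ≤ tz, ∃ h ≤ tq, ∀ T, T = cand1s d D x0 J F S r z h →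
        T ≠ [] ∧ T.length ≤ T0.card ∧ (cst d D J T : ℝ) ≤ 199 / 100 * cost J.toFinset T0) ∧
      ((2 ^ wid D J F : ℕ) : ℝ) ^ nchunk F ≤ 2 ^ (1 + 2018 * tz + 2 * (cAn * tq)) *
        (Nat.card {r : Fin (nchunk F) → Fin (2 ^ wid D J F) // P (extN r)} : ℝ) := by
  classical
  obtain ⟨N, hN⟩ : ∃ N, N = F.length := ⟨_, rfl⟩
  obtain ⟨Cr, hCr1, hCr2, hCr3, hCr4⟩ := case1 I x0 hSn hSF hS hTF hT0
  have hSN : S.length ≤ N := by rw [hN]; exact length_le_of_subset hSn hSF
  set z := (S.toFinset \ T0).card with hz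
  have hn : nchunk F = (N + N) + (N + N) := by rw [hN]; rfl
  refine ⟨fun r => Ev1 S z (S.toFinset \ T0) Cr S.toFinset (fun _ => 0) r ∧
    (fun _ : ℕ → ℕ => True) (fun i => r (N + i)) ∧
    (fun _ : ℕ → ℕ => True) (fun i => r ((N + N) + i)), ?_, ?_, ?_⟩
  · rintro r r' hrr ⟨g1, -, -⟩
    rw [hn] at hrr
    exact ⟨Ev1_congr hSN (Finset.Subset.refl _) Finset.sdiff_subset hCr1 r r'
      (fun i hi => hrr i (by (clear * - hN hi; omega))) g1, trivial, trivial⟩
  · rintro r ⟨⟨g1, g2, -⟩, -, -⟩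
    refine ⟨z, h2, (T0 \ S.toFinset).card, h1, ?_⟩
    intro T hT
    obtain ⟨q1, q2, q3⟩ := hCr4 (col r z S) z _ hz rfl g1 g2 T hT
    refine ⟨q1, q2, ?_⟩
    have q4 : (cst d D J T : ℝ) ≤ 2 * cst d D J S + cst d D J T0.toList := by exact_mod_cast q3
    rw [I.cst_real hS, I.cst_toList hT0] at q4
    have : 0 ≤ cost J.toFinset T0 := cost_nonneg _ _
    linarith only [hA, q4]
  · rw [hn]
    set W := 2 ^ wid D J F with hW
    have hzF : z ≤ F.length := by
      rw [hz]
      calc (S.toFinset \ T0).card ≤ S.toFinset.card := Finset.card_le_card Finset.sdiff_subset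
        _ = S.length := List.toFinset_card_of_nodup hSn
        _ ≤ F.length := by rw [← hN]; exact hSN
    have p1 := hC S N (wid D J F) z (S.toFinset \ T0) Cr S.toFinset (fun _ => 0) hSn hSN
      (Finset.Subset.refl _) Finset.sdiff_subset hCr1 hCr2 hz.symm (fun _ => le_rfl)
      (Nat.size_le_size (by omega))
    have p2 : (W : ℝ) ^ N ≤ 1 *
        (Nat.card {r : Fin N → Fin W // (fun _ : ℕ → ℕ => True) (extN r)} : ℝ) := by
      rw [natCard_all N W (fun _ => True) (fun _ => trivial)]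
      push_cast
      rw [one_mul]
    have p3 : (W : ℝ) ^ (N + N) ≤ 1 *
        (Nat.card {r : Fin (N + N) → Fin W // (fun _ : ℕ → ℕ => True) (extN r)} : ℝ) := by
      rw [natCard_all (N + N) W (fun _ => True) (fun _ => trivial)]
      push_cast
      rw [one_mul]
    have hall := prob_all hSp N W (Ev1 S z (S.toFinset \ T0) Cr S.toFinset (fun _ => 0))
      (fun _ => True) (fun _ => True) _ _ _ (by positivity) (by positivity) (by positivity)
      (Ev1_congr hSN (Finset.Subset.refl _) Finset.sdiff_subset hCr1)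
      (fun _ _ _ _ => trivial) (fun _ _ _ _ => trivial) p1 p2 p3
    refine hall.trans (mul_le_mul_of_nonneg_right ?_ (Nat.cast_nonneg _))
    have hz9 : (90000 : ℝ) ^ z ≤ 2 ^ (17 * tz) := by
      calc (90000 : ℝ) ^ z ≤ (2 ^ 17) ^ z := pow_le_pow_left₀ (by norm_num) (by norm_num) z
        _ = 2 ^ (17 * z) := by rw [← pow_mul]
        _ ≤ 2 ^ (17 * tz) := pow_le_pow_right₀ (by norm_num) (by omega)
    have hcr : (2 : ℝ) ^ Cr.card ≤ 2 ^ tz :=
      pow_le_pow_right₀ (by norm_num) (hCr3.trans h2)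
    calc 2 * (90000 : ℝ) ^ z * 2 ^ Cr.card * 1 * 1
        ≤ 2 * 2 ^ (17 * tz) * 2 ^ tz * 1 * 1 := by (clear * - hz9 hcr; gcongr)
      _ = 2 ^ (1 + 18 * tz) := by
          rw [show 1 + 18 * tz = 1 + 17 * tz + tz by ring, pow_add, pow_add, pow_one]; ring
      _ ≤ 2 ^ (1 + 2018 * tz + 2 * (cAn * tq)) :=
          pow_le_pow_right₀ (by norm_num) (by
            have : 0 ≤ 2 * (cAn * tq) := Nat.zero_le _
            omega)

end

/-- The exponents are of order `sz`. -/
theorem exp_bound (K3 Kb sz c : ℕ) (h : 1 ≤ sz) :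
    1 + 2018 * tauZ K3 Kb sz + 2 * (c * tauQ K3 Kb sz) ≤
      sz * (1 + 2018 * (2 * K3 + 600000 * Kb + 6000000000 * (K3 + 600000 * Kb) + 3) +
        2 * (c * (K3 + 600000 * Kb))) := by
  obtain ⟨q, hq⟩ : ∃ q, q = K3 + 600000 * Kb := ⟨_, rfl⟩
  obtain ⟨p, hp⟩ : ∃ p, p = 2 * K3 + 600000 * Kb := ⟨_, rfl⟩
  have h1 : tauQ K3 Kb sz = q * sz := by rw [hq]; rfl
  have h2 : tauZ K3 Kb sz = p * sz + 3 * (2000000000 * (q * sz) + 1) := by rw [hp, hq]; rfl
  rw [h1, h2, ← hq, ← hp]
  have h3 : 2018 * 3 + 1 ≤ (2018 * 3 + 1) * sz := Nat.le_mul_of_pos_right _ h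
  calc 1 + 2018 * (p * sz + 3 * (2000000000 * (q * sz) + 1)) + 2 * (c * (q * sz))
      = (2018 * 3 + 1) + 2018 * (p * sz + 6000000000 * (q * sz)) + 2 * (c * (q * sz)) := by ring
    _ ≤ (2018 * 3 + 1) * sz + 2018 * (p * sz + 6000000000 * (q * sz)) + 2 * (c * (q * sz)) := by
        omega
    _ = sz * (1 + 2018 * (p + 6000000000 * q + 3) + 2 * (c * q)) := by ring

/-- Part 2 from its pieces. -/
theorem stableSpec_of (hB : LevelBSpec) (hR : RadSpec) (hC : ColorSpec) (hBi : BitsSpec)
    (hAn : AnchorSpec) (hSp : SplitSpec) : StableSpec := by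
  intro K3 Kb hKb
  set κq := K3 + 600000 * Kb with hκq
  set κz := 2 * K3 + 600000 * Kb + 6000000000 * κq + 3 with hκz
  refine ⟨1 + 2018 * κz + 2 * (cAn * κq), ?_⟩
  intro X _ _ d D J F I k S0 hk hdiv hopt hstab hS0n hS0F hS0 hS0l hS0c
  set sz := Nat.size J.length with hsz
  have hJpos : 0 < J.length := List.length_pos_of_ne_nil I.hJ0
  have hsz1 : 1 ≤ sz := Nat.size_pos.2 hJpos
  have hszr : (1 : ℝ) ≤ sz := by exact_mod_cast hsz1
  have hKbr : (1 : ℝ) ≤ Kb := by exact_mod_cast hKb
  obtain ⟨x0, F', hF⟩ := List.exists_cons_of_ne_nil I.hF0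
  set tq := tauQ K3 Kb sz with htq
  set tz := tauZ K3 Kb sz with htz
  set b := satB K3 Kb sz with hb
  set t := satT K3 Kb sz with ht
  have htqv : tq = κq * sz := rfl
  have hbv : b = 2000000000 * tq := rfl
  have htv : t = 3 * (b + 1) := rfl
  have htzv : tz = (2 * K3 + 600000 * Kb) * sz + t := rfl
  have htq1 : 1 ≤ tq := by
    rw [htqv]
    exact Nat.mul_pos (by (clear * - hKb; omega)) hsz1
  have hβ : (0 : ℝ) < 1 / ((Kb : ℝ) * sz) := by (clear * - hKb hsz1; positivity)
  obtain ⟨g1, g2, g3, g4, g5, ⟨T0, g6, g7, g8, g9, g10, g11⟩, g12⟩ :=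
    prep_spec (b := b) (t := t) (m := K3 * sz) (B := 2) (η := 1 / 100000) I.hd I.hD I.hJ hS0n
      hS0F hS0 hk hβ (by norm_num) (by norm_num) hopt hstab hS0c hS0l
  set S := prep d D b t J F S0 with hSdef
  have hval : 2 * ((1 + 2 : ℝ) / (1 / 100000 * (1 / ((Kb : ℝ) * sz)))) =
      600000 * Kb * sz := by
    field_simp
    ring
  rw [hval] at g10 g11
  have h1 : (T0 \ S.toFinset).card ≤ tq := by
    have e1 : ((T0 \ S.toFinset).card : ℝ) ≤ ((tq : ℕ) : ℝ) := by
      refine g10.trans (le_of_eq ?_)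
      rw [htqv, hκq]
      push_cast
      ring
    exact_mod_cast e1
  have h2 : (S.toFinset \ T0).card ≤ tz := by
    have e1 : ((S.toFinset \ T0).card : ℝ) ≤ ((tz : ℕ) : ℝ) := by
      refine g11.trans (le_of_eq ?_)
      rw [htzv]
      push_cast
      ring
    exact_mod_cast e1
  have hoptT : opt J.toFinset F.toFinset k ≤ cost J.toFinset T0 := opt_le_cost _ g6 g7 g8
  have hT0c : cost J.toFinset T0 ≤ (1 + 24 / 100000) * opt J.toFinset F.toFinset k := by
    refine g9.trans (le_of_eq ?_)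
    ring
  -- the event
  have hev : ∃ P : (ℕ → ℕ) → Prop,
      (∀ r r' : ℕ → ℕ, (∀ i < nchunk F, r i = r' i) → P r → P r') ∧
      (∀ r, P r → ∃ T, T ∈ cands d D x0 J F S tq tz r
        (fun i => r (F.length + i)) (fun i => r ((F.length + F.length) + i))
        (fun i => r ((F.length + F.length) + (F.length + i))) ∧
        T ≠ [] ∧ T.length ≤ T0.card ∧ (cst d D J T : ℝ) ≤ 199 / 100 * cost J.toFinset T0) ∧
      ((2 ^ wid D J F : ℕ) : ℝ) ^ nchunk F ≤ 2 ^ (1 + 2018 * tz + 2 * (cAn * tq)) *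
        (Nat.card {r : Fin (nchunk F) → Fin (2 ^ wid D J F) // P (extN r)} : ℝ) := by
    by_cases hA : cost J.toFinset T0 < 5 * cost J.toFinset S.toFinset
    · have hsat : ∀ q ∈ F.toFinset, cost J.toFinset S.toFinset ≤
          cost J.toFinset (insert q S.toFinset) +
          cost J.toFinset S.toFinset / (2 * 10 ^ 9 * (tq : ℝ)) := by
        rcases g12 with g12 | g12
        · intro q hq
          have e1 := g12 q (List.mem_toFinset.1 hq)
          have e2 : (b : ℝ) = 2 * 10 ^ 9 * (tq : ℝ) := by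
            rw [hbv]; push_cast; norm_num
          rw [← e2]
          have e3 : (0 : ℝ) < b := by
            have : 0 < b := by rw [hbv]; omega
            exact_mod_cast this
          have e4 : 0 ≤ cost J.toFinset (insert q S.toFinset) := cost_nonneg _ _
          have e5 : cost J.toFinset (insert q S.toFinset) ≤ cost J.toFinset S.toFinset := by
            refine Finset.sum_le_sum fun j _ => ?_
            obtain ⟨x, hx⟩ := List.exists_mem_of_ne_nil _ g3
            exact Metric.infDist_le_infDist_of_subset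
              (by exact_mod_cast Finset.subset_insert q S.toFinset)
              ⟨x, by exact_mod_cast List.mem_toFinset.2 hx⟩
          have e6 : cost J.toFinset S.toFinset - cost J.toFinset (insert q S.toFinset) ≤
              cost J.toFinset S.toFinset / b := by
            rw [le_div_iff₀ e3]
            nlinarith only [e1, e5]
          linarith only [e6]
        · exfalso
          have e1 : Real.exp (-((t : ℝ) / ((b : ℝ) + 1))) ≤ 1 / 10 :=
            exp_neg_div_le (by rw [htv])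
          have e2 : cost J.toFinset S.toFinset ≤
              1 / 10 * (2 * opt J.toFinset F.toFinset k) :=
            g12.trans (mul_le_mul_of_nonneg_right e1 (by linarith only [hopt]))
          linarith only [hoptT, hA, e2]
      obtain ⟨P, w1, w2, w3⟩ := case2 hB hR hC hBi hAn hSp I hdiv x0 g1 g2 g3 g6 g7 htq1 h1 h2
        hsat hA
      refine ⟨P, w1, fun r hr => ?_, w3⟩
      obtain ⟨z, hz, h, hh, hT⟩ := w2 r hr
      exact ⟨_, (mem_cands d D x0 J F S tq tz _ _ _ _ _).2 ⟨z, hz, h, hh, Or.inr rfl⟩, hT _ rfl⟩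
    · obtain ⟨P, w1, w2, w3⟩ := case1' hC hSp I x0 g1 g2 g3 g6 g7 h1 h2 (not_lt.1 hA)
      refine ⟨P, w1, fun r hr => ?_, w3⟩
      obtain ⟨z, hz, h, hh, hT⟩ := w2 r hr
      exact ⟨_, (mem_cands d D x0 J F S tq tz _ _ _ _ _).2 ⟨z, hz, h, hh, Or.inl rfl⟩, hT _ rfl⟩
  obtain ⟨P, hP1, hP2, hP3⟩ := hev
  have hgood : ∀ r, P r → cost J.toFinset (trialR d D J F k K3 Kb S0 r).toFinset ≤
      1995 / 1000 * opt J.toFinset F.toFinset k := by
    intro r hr
    obtain ⟨T, hT1, hT2, hT3, hT4⟩ := hP2 r hr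
    obtain ⟨w1, w2⟩ := trial_le d D J F k b t tq tz S0 r _ _ _ (by (clear * - hk; omega)) x0 F' hF T hT1 hT2
      (hT3.trans g8)
    have e0 : trialR d D J F k K3 Kb S0 r = trial d D J F k b t tq tz S0 r
      (fun i => r (F.length + i)) (fun i => r ((F.length + F.length) + i))
      (fun i => r ((F.length + F.length) + (F.length + i))) := rfl
    rw [e0, ← I.cst_real w1]
    have e1 : (cst d D J (trial d D J F k b t tq tz S0 r
      (fun i => r (F.length + i)) (fun i => r ((F.length + F.length) + i))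
      (fun i => r ((F.length + F.length) + (F.length + i)))) : ℝ) ≤ cst d D J T := by
      exact_mod_cast w2
    linarith only [g9, hT4, e1]
  have hbits := card_bits d D J F k K3 Kb S0 P (fun T => cost J.toFinset T.toFinset ≤
      1995 / 1000 * opt J.toFinset F.toFinset k) hP1 hgood
  have hE : 1 + 2018 * tz + 2 * (cAn * tq) ≤ sz * (1 + 2018 * κz + 2 * (cAn * κq)) :=
    exp_bound K3 Kb sz cAn hsz1
  have hpow : (2 : ℕ) ^ (1 + 2018 * tz + 2 * (cAn * tq)) ≤
      (2 * J.length) ^ (1 + 2018 * κz + 2 * (cAn * κq)) := by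
    calc (2 : ℕ) ^ (1 + 2018 * tz + 2 * (cAn * tq))
        ≤ 2 ^ (sz * (1 + 2018 * κz + 2 * (cAn * κq))) := Nat.pow_le_pow_right (by norm_num) hE
      _ = (2 ^ sz) ^ (1 + 2018 * κz + 2 * (cAn * κq)) := by rw [pow_mul]
      _ ≤ _ := Nat.pow_le_pow_left (two_pow_size_le hJpos) _
  have hP3' : (2 ^ wid D J F) ^ nchunk F ≤ 2 ^ (1 + 2018 * tz + 2 * (cAn * tq)) *
      Nat.card {r : Fin (nchunk F) → Fin (2 ^ wid D J F) // P (extN r)} := by
    exact_mod_cast hP3
  calc 2 ^ nbits D J F = (2 ^ wid D J F) ^ nchunk F := by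
        unfold nbits
        rw [← pow_mul, mul_comm]
    _ ≤ 2 ^ (1 + 2018 * tz + 2 * (cAn * tq)) *
        Nat.card {r : Fin (nchunk F) → Fin (2 ^ wid D J F) // P (extN r)} := hP3'
    _ ≤ _ := Nat.mul_le_mul hpow hbits

end Vale.Agent.P334.Alg
end

section

/-!
The radius grid.
-/

namespace Vale.Agent.P334.Alg

/-- A radius on the grid of multiples of `D / 100`. -/
lemma exists_grid {v : ℝ} {m p : ℕ} (hv : 0 < v) (h1 : v / 22000 ≤ m) (h2 : (m : ℝ) ≤ 21 / 10 * v)
    (h3 : (p : ℝ) ≤ 11 / 10 * v) :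
    ∃ u < 2541000, p ≤ (u + 1) * m / 100 ∧ (((u + 1) * m / 100 : ℕ) : ℝ) ≤ 231 / 200 * v := by
  have hm : (0 : ℝ) < m := lt_of_lt_of_le (by positivity) h1
  set w : ℕ := ⌈110 * v / m⌉₊ with hw
  have h4 : 110 * v / m ≤ w := Nat.le_ceil _
  have h5 : (w : ℝ) < 110 * v / m + 1 := Nat.ceil_lt_add_one (by (clear * - hv hm; positivity))
  have h6 : 110 * v ≤ w * m := by
    rw [div_le_iff₀ hm] at h4
    exact h4
  have h7 : (w : ℝ) * m ≤ 110 * v + m := by
    have := mul_le_mul_of_nonneg_right h5.le hm.le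
    rw [add_mul, div_mul_cancel₀ _ hm.ne', one_mul] at this
    exact this
  have h8 : 110 * v / m ≤ 2420000 := by
    rw [div_le_iff₀ hm]
    linarith only [h1]
  have hw0 : 0 < w := by
    have : (0 : ℝ) < w := lt_of_lt_of_le (by positivity) h4
    exact_mod_cast this
  have hw1 : w < 2541001 := by
    have : (w : ℝ) < 2541001 := by linarith only [h5, h8]
    exact_mod_cast this
  refine ⟨w - 1, by omega, ?_, ?_⟩
  · have e : w - 1 + 1 = w := by omega
    rw [e, Nat.le_div_iff_mul_le (by norm_num)]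
    have : ((p * 100 : ℕ) : ℝ) ≤ ((w * m : ℕ) : ℝ) := by
      push_cast
      linarith only [h3, h6]
    exact_mod_cast this
  · have e : w - 1 + 1 = w := by omega
    rw [e]
    have h9 : (((w * m / 100 : ℕ)) : ℝ) ≤ ((w * m : ℕ) : ℝ) / ((100 : ℕ) : ℝ) := Nat.cast_div_le
    push_cast at h9
    linarith only [h2, h7, h9]

theorem radSpec : RadSpec := fun _ _ _ hv h1 h2 h3 => exists_grid (by linarith only [hv]) h2 h3 h1

end Vale.Agent.P334.Alg
end

section

set_option linter.all false

/-!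
Probability of a good coloring (specification `ColorSpec`).
-/

namespace Vale.Agent.P334.Alg

open Finset

theorem ncol_pos (z : ℕ) : 0 < ncol z := by unfold ncol; (clear * -; positivity)

theorem lt_ncol (z : ℕ) : 12000 * z < ncol z := Nat.lt_size_self _

theorem ncol_le (z : ℕ) (hz : z ≠ 0) : ncol z ≤ 24000 * z := by
  unfold ncol
  have h1 : 12000 * z ≠ 0 := by omega
  have h2 : 0 < Nat.size (12000 * z) := Nat.size_pos.2 (Nat.pos_of_ne_zero h1)
  have h3 : 2 ^ (Nat.size (12000 * z) - 1) ≤ 12000 * z := by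
    apply Nat.lt_size.1
    omega
  have h4 : 2 ^ Nat.size (12000 * z) = 2 * 2 ^ (Nat.size (12000 * z) - 1) := by
    rw [← pow_succ']
    congr 1
    omega
  rw [h4]; omega

theorem colorSpec : ColorSpec := by
  intro X _ S N w z Z Cr V loss hS hN hVS hZV hCrV hdisj hZ hloss hw
  classical
  have hB0 : 0 < ncol z := ncol_pos z
  have hdvd : ncol z ∣ 2 ^ w := pow_dvd_pow 2 hw
  have hZ' : (Z.subtype (· ∈ V)).card = z := by
    rw [Finset.card_subtype, Finset.filter_true_of_mem (fun x hx => hZV hx), hZ]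
  have hCr' : (Cr.subtype (· ∈ V)).card = Cr.card := by
    rw [Finset.card_subtype, Finset.filter_true_of_mem (fun x hx => hCrV hx)]
  have hdisj' : Disjoint (Z.subtype (· ∈ V)) (Cr.subtype (· ∈ V)) := by
    rw [Finset.disjoint_left]
    intro x h1 h2
    rw [Finset.mem_subtype] at h1 h2
    exact (Finset.disjoint_left.1 hdisj h1) h2
  have hcompl : ((Z.subtype (· ∈ V)) ∪ (Cr.subtype (· ∈ V)))ᶜ
      = ((V \ Z) \ Cr).subtype (· ∈ V) := by
    ext ⟨x, hx⟩
    simp only [Finset.mem_compl, Finset.mem_union, Finset.mem_subtype, Finset.mem_sdiff]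
    (clear * - hx; tauto)
  have hsum : ∀ f : X → ℝ, ∑ s ∈ ((Z.subtype (· ∈ V)) ∪ (Cr.subtype (· ∈ V)))ᶜ, f s.1
      = ∑ s ∈ (V \ Z) \ Cr, f s := by
    intro f
    rw [hcompl]
    exact Finset.sum_subtype_of_mem f (fun x hx => by
      rw [Finset.mem_sdiff, Finset.mem_sdiff] at hx; exact hx.1.1)
  have hzr : (z : ℝ) ≤ 1 / 12000 * (ncol z : ℝ) := by
    have := lt_ncol z
    have h2 : ((12000 * z : ℕ) : ℝ) < (ncol z : ℝ) := by exact_mod_cast this
    push_cast at h2
    linarith only [h2]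
  have hBz : z = 0 ∨ (ncol z : ℝ) ≤ 2 * z / (1 / 12000) := by
    by_cases h0 : z = 0
    · exact Or.inl h0
    · right
      have h2 : (ncol z : ℝ) ≤ ((24000 * z : ℕ) : ℝ) := by exact_mod_cast ncol_le z h0
      push_cast at h2
      linarith only [h2]
  have hprob := prob_goodCol (V := {x // x ∈ V}) (ncol z) z (1 / 12000) (by norm_num)
    (by norm_num) hB0 hzr hBz (Z.subtype (· ∈ V)) (Cr.subtype (· ∈ V)) hZ' hdisj'
    (fun x => loss x.1) (fun x => hloss x.1)
  set Gd : Finset ({x // x ∈ V} → Fin (ncol z)) := univ.filter (fun χ =>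
    GoodCol (ncol z) z (Z.subtype (· ∈ V)) (Cr.subtype (· ∈ V)) (fun x => loss x.1) χ) with hGd
  set T : Finset ({x // x ∈ V} → ℕ) := Gd.image (fun χ v => (χ v : ℕ)) with hT
  have hTcard : T.card = Gd.card := by
    apply Finset.card_image_of_injective
    intro χ χ' h
    funext v
    exact Fin.ext (congrFun h v)
  have hTlt : ∀ f ∈ T, ∀ v, f v < ncol z := by
    intro f hf v
    rw [hT, Finset.mem_image] at hf
    obtain ⟨χ, _, rfl⟩ := hf
    exact (χ v).2
  have hlift := card_mod_lift (V := {x // x ∈ V}) (2 ^ w) (fun _ => ncol z) T hTlt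
  set T2 : Finset ({x // x ∈ V} → Fin (2 ^ w)) :=
    univ.filter (fun r : {x // x ∈ V} → Fin (2 ^ w) => (fun v => (r v : ℕ) % ncol z) ∈ T) with hT2
  have hidx : ∀ x : {x // x ∈ V}, S.idxOf x.1 < N := by
    intro x
    have h1 : x.1 ∈ S := by
      have := hVS x.2
      rwa [List.mem_toFinset] at this
    exact lt_of_lt_of_le (List.idxOf_lt_length_of_mem h1) hN
  set pos : {x // x ∈ V} → Fin N := fun x => ⟨S.idxOf x.1, hidx x⟩ with hpos
  have hposinj : Function.Injective pos := by
    intro x y h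
    have h1 : S.idxOf x.1 = S.idxOf y.1 := congrArg Fin.val h
    have hx : x.1 ∈ S := by
      have := hVS x.2
      rwa [List.mem_toFinset] at this
    exact Subtype.ext ((List.idxOf_inj hx).1 h1)
  have hcomp := card_comp_mem pos hposinj T2
  have hsub : (univ.filter (fun r : Fin N → Fin (2 ^ w) => (fun v => r (pos v)) ∈ T2)).card
      ≤ Nat.card {r : Fin N → Fin (2 ^ w) //
        Set.BijOn (col (extN r) z S) (Z : Set X) {a | a < z} ∧
        (∀ s ∈ Cr, z ≤ col (extN r) z S s) ∧
        ∑ s ∈ (V \ Z) \ Cr, (if col (extN r) z S s < z then loss s else 0) ≤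
          2 / 12000 * ∑ s ∈ (V \ Z) \ Cr, loss s} := by
    rw [Nat.card_eq_fintype_card, Fintype.card_subtype]
    apply Finset.card_le_card
    intro r hr
    rw [Finset.mem_filter] at hr ⊢
    refine ⟨Finset.mem_univ _, ?_⟩
    have h1 := hr.2
    rw [hT2, Finset.mem_filter, hT, Finset.mem_image] at h1
    obtain ⟨χ, hχ, hχr⟩ := h1.2
    rw [hGd, Finset.mem_filter] at hχ
    have hcol : ∀ x (hx : x ∈ V), col (extN r) z S x = (χ ⟨x, hx⟩ : ℕ) := by
      intro x hx
      have h2 := congrFun hχr ⟨x, hx⟩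
      simp only at h2
      rw [h2]
      unfold col extN
      rw [dif_pos (hidx ⟨x, hx⟩)]
    obtain ⟨hb, hc, hl⟩ := hχ.2
    refine ⟨⟨?_, ?_, ?_⟩, ?_, ?_⟩
    · intro x hx
      have hxV : x ∈ V := hZV hx
      have := hb.1 (show (⟨x, hxV⟩ : {x // x ∈ V}) ∈ ((Z.subtype (· ∈ V) : Finset _) : Set _) by
        rw [Finset.mem_coe, Finset.mem_subtype]; exact hx)
      rw [Set.mem_setOf_eq, hcol x hxV]
      exact this
    · intro x hx y hy hxy
      have hxV : x ∈ V := hZV hx
      have hyV : y ∈ V := hZV hy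
      rw [hcol x hxV, hcol y hyV] at hxy
      have := hb.2.1 (show (⟨x, hxV⟩ : {x // x ∈ V}) ∈ ((Z.subtype (· ∈ V) : Finset _) : Set _) by
        rw [Finset.mem_coe, Finset.mem_subtype]; exact hx)
        (show (⟨y, hyV⟩ : {x // x ∈ V}) ∈ ((Z.subtype (· ∈ V) : Finset _) : Set _) by
        rw [Finset.mem_coe, Finset.mem_subtype]; exact hy) hxy
      exact congrArg Subtype.val this
    · intro a ha
      obtain ⟨x, hx, hxa⟩ := hb.2.2 ha
      rw [Finset.mem_coe, Finset.mem_subtype] at hx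
      exact ⟨x.1, hx, by rw [hcol x.1 x.2]; exact hxa⟩
    · intro s hs
      have hsV : s ∈ V := hCrV hs
      rw [hcol s hsV]
      exact hc ⟨s, hsV⟩ (by rw [Finset.mem_subtype]; exact hs)
    · have e1 : ∑ s ∈ (V \ Z) \ Cr, (if col (extN r) z S s < z then loss s else 0)
          = ∑ s ∈ ((Z.subtype (· ∈ V)) ∪ (Cr.subtype (· ∈ V)))ᶜ,
            (if (χ s : ℕ) < z then loss s.1 else 0) := by
        rw [← hsum (fun s => if col (extN r) z S s < z then loss s else 0)]
        apply Finset.sum_congr rfl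
        intro s _
        rw [hcol s.1 s.2]
      rw [e1]
      refine hl.trans ?_
      rw [hsum loss]
      apply mul_le_mul_of_nonneg_right _ (Finset.sum_nonneg (fun s _ => hloss s))
      have : (0 : ℝ) < ncol z := by exact_mod_cast hB0
      have h5 : (z : ℝ) / ncol z ≤ 1 / 12000 := by
        rw [div_le_iff₀ this]; exact hzr
      linarith only [h5]
  -- the final computation
  set M : ℝ := (Nat.card {r : Fin N → Fin (2 ^ w) //
        Set.BijOn (col (extN r) z S) (Z : Set X) {a | a < z} ∧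
        (∀ s ∈ Cr, z ≤ col (extN r) z S s) ∧
        ∑ s ∈ (V \ Z) \ Cr, (if col (extN r) z S s < z then loss s else 0) ≤
          2 / 12000 * ∑ s ∈ (V \ Z) \ Cr, loss s} : ℝ) with hM
  have hVcard : Fintype.card {x // x ∈ V} = V.card := Fintype.card_coe V
  have hVN : V.card ≤ N := by
    have := Fintype.card_le_of_injective pos hposinj
    rwa [hVcard, Fintype.card_fin] at this
  have h1 : (((2 ^ w / ncol z) ^ V.card * T.card * (2 ^ w) ^ (N - V.card) : ℕ) : ℝ) ≤ M := by
    have h2 : (2 ^ w / ncol z) ^ V.card * T.card * (2 ^ w) ^ (N - V.card)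
        ≤ (univ.filter (fun r : Fin N → Fin (2 ^ w) => (fun v => r (pos v)) ∈ T2)).card := by
      have e1 : (univ.filter (fun r : Fin N → Fin (2 ^ w) => (fun v => r (pos v)) ∈ T2)).card
          = T2.card * (2 ^ w) ^ (N - V.card) := by
        have := hcomp
        rw [Fintype.card_fin, Fintype.card_fin, hVcard] at this
        exact this
      rw [e1]
      apply Nat.mul_le_mul_right
      rw [Finset.prod_const, Finset.card_univ, hVcard] at hlift
      exact hlift
    rw [hM]
    exact Nat.cast_le.2 (h2.trans hsub)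
  have hq : ((2 ^ w / ncol z : ℕ) : ℝ) * (ncol z : ℝ) = ((2 ^ w : ℕ) : ℝ) := by
    exact_mod_cast Nat.div_mul_cancel hdvd
  have h3 : ((2 ^ w : ℕ) : ℝ) ^ N
      = (((2 ^ w / ncol z : ℕ) : ℝ)) ^ V.card * (ncol z : ℝ) ^ V.card
        * ((2 ^ w : ℕ) : ℝ) ^ (N - V.card) := by
    rw [← mul_pow, hq, ← pow_add]
    congr 1
    (clear * - hidx hVN; omega)
  rw [h3]
  rw [hVcard, hCr', ← hTcard] at hprob
  have he : Real.exp 1 < 3 := by
    have := Real.exp_one_lt_d9
    linarith only [this]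
  have h5 : (2 * Real.exp 1 / (1 / 12000)) ^ z ≤ (90000 : ℝ) ^ z := by
    apply pow_le_pow_left₀ (by positivity)
    have := Real.exp_one_lt_d9
    linarith only [he]
  have h6 : (1 / (1 - 1 / 12000) : ℝ) ^ Cr.card ≤ 2 ^ Cr.card := by
    apply pow_le_pow_left₀ (by norm_num)
    norm_num
  have h7 : (ncol z : ℝ) ^ V.card ≤ 2 * 90000 ^ z * 2 ^ Cr.card * (T.card : ℝ) := by
    refine hprob.trans ?_
    apply mul_le_mul_of_nonneg_right _ (Nat.cast_nonneg _)
    apply mul_le_mul _ h6 (by (clear * -; positivity)) (by positivity)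
    linarith only [h5]
  push_cast at h1
  calc (((2 ^ w / ncol z : ℕ) : ℝ)) ^ V.card * (ncol z : ℝ) ^ V.card
        * ((2 ^ w : ℕ) : ℝ) ^ (N - V.card)
      ≤ (((2 ^ w / ncol z : ℕ) : ℝ)) ^ V.card * (2 * 90000 ^ z * 2 ^ Cr.card * (T.card : ℝ))
        * ((2 ^ w : ℕ) : ℝ) ^ (N - V.card) := by
        apply mul_le_mul_of_nonneg_right _ (by positivity)
        exact mul_le_mul_of_nonneg_left h7 (by (clear * -; positivity))
    _ = 2 * 90000 ^ z * 2 ^ Cr.card * ((((2 ^ w / ncol z : ℕ) : ℝ)) ^ V.card * (T.card : ℝ)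
        * ((2 ^ w : ℕ) : ℝ) ^ (N - V.card)) := by ring
    _ ≤ 2 * 90000 ^ z * 2 ^ Cr.card * M := by
        apply mul_le_mul_of_nonneg_left _ (by positivity)
        push_cast
        exact h1

end Vale.Agent.P334.Alg
end

section

/-!
The probability of good anchors.
-/

namespace Vale.Agent.P334.Alg

open Finset

theorem anchorSpec : AnchorSpec := by
  intro X _ L x0 N w M Q G rad q τ hL hLW hM hMW hQN hq hτ hdis hrad hw
  classical
  obtain ⟨h, hh⟩ : ∃ h, h = Q.card := ⟨_, rfl⟩
  obtain ⟨W, hW⟩ : ∃ W, W = 2 ^ w := ⟨_, rfl⟩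
  rw [← hh] at hQN ⊢
  rw [← hW] at hLW hMW ⊢
  have e : Fin h ≃ {x // x ∈ Q} := (finCongr hh).trans Q.equivFin.symm
  have key := prob_anchorMod L x0 W M h (fun i => G (e i))
    (fun i j hij => hdis _ (e i).2 _ (e j).2 (fun he => hij (e.injective (Subtype.ext he))))
    (fun i => rad (e i)) (fun i => hrad _ (e i).2) hL hLW hM hMW q τ hq hτ
    (fun i => hw _ (e i).2)
  obtain ⟨H, hH⟩ : ∃ H, H = hitTuples (fun i => anchorMod L x0 W M (G (e i)) (rad (e i))) :=
    ⟨_, rfl⟩
  rw [← hH] at key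
  let pos : Fin h ⊕ Fin h → Fin (N + N) :=
    Sum.elim (fun i => ⟨(i : ℕ), by omega⟩) (fun i => ⟨N + (i : ℕ), by omega⟩)
  have hpos : Function.Injective pos := by
    rintro (a | a) (b | b) hab
    · have h1 : (a : ℕ) = b := congrArg (fun x : Fin (N + N) => (x : ℕ)) hab
      rw [Fin.ext h1]
    · exfalso
      have h1 : (a : ℕ) = N + (b : ℕ) := congrArg (fun x : Fin (N + N) => (x : ℕ)) hab
      (clear * - hQN hh h1; omega)
    · exfalso
      have h1 : N + (a : ℕ) = (b : ℕ) := congrArg (fun x : Fin (N + N) => (x : ℕ)) hab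
      omega
    · have h1 : N + (a : ℕ) = N + (b : ℕ) := congrArg (fun x : Fin (N + N) => (x : ℕ)) hab
      have h2 : (a : ℕ) = b := by omega
      rw [Fin.ext h2]
  let j : (Fin h → Fin W × Fin W) → (Fin h ⊕ Fin h → Fin W) :=
    fun f => Sum.elim (fun i => (f i).1) (fun i => (f i).2)
  have hj : Function.Injective j := by
    intro f g hfg
    funext i
    exact Prod.ext (congrFun hfg (Sum.inl i)) (congrFun hfg (Sum.inr i))
  have hcard := card_comp_mem pos hpos (H.map ⟨j, hj⟩)
  rw [Finset.card_map, Fintype.card_fin, Fintype.card_fin, Fintype.card_sum, Fintype.card_fin]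
    at hcard
  have hsub : (univ.filter (fun r : Fin (N + N) → Fin W => (fun v => r (pos v)) ∈ H.map ⟨j, hj⟩)).card
      ≤ Nat.card {r : Fin (N + N) → Fin W //
        ∃ o : Fin h ≃ {x // x ∈ Q}, ∀ i : Fin h,
          L.getD (extN r i % L.length) x0 ∈ G (o i) ∧
          extN r (N + i) % M = rad (o i) (L.getD (extN r i % L.length) x0)} := by
    rw [Nat.card_eq_fintype_card, Fintype.card_subtype]
    apply Finset.card_le_card
    intro r hr
    rw [Finset.mem_filter, Finset.mem_map] at hr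
    obtain ⟨_, f, hf, hfr⟩ := hr
    rw [hH, mem_hitTuples] at hf
    obtain ⟨s, hs⟩ := hf
    rw [Finset.mem_filter]
    refine ⟨Finset.mem_univ _, s.trans e, fun i => ?_⟩
    have h1 : (f i).1 = r ⟨(i : ℕ), by omega⟩ := congrFun hfr (Sum.inl i)
    have h2 : (f i).2 = r ⟨N + (i : ℕ), by omega⟩ := congrFun hfr (Sum.inr i)
    have e1 : extN r i = ((f i).1 : ℕ) := by
      rw [h1]
      have h6 : (i : ℕ) < N + N := by omega
      exact dif_pos h6
    have e2 : extN r (N + i) = ((f i).2 : ℕ) := by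
      rw [h2]
      have h6 : N + (i : ℕ) < N + N := by omega
      exact dif_pos h6
    have h3 := hs i
    rw [anchorMod, Finset.mem_filter] at h3
    rw [e1, e2]
    exact h3.2
  have hNN : (h + h) + (N + N - (h + h)) = N + N := by (clear * - hQN hh hj; omega)
  have h5 : ((W : ℕ) : ℝ) ^ (N + N) = ((W * W : ℕ) : ℝ) ^ h * (W : ℝ) ^ (N + N - (h + h)) := by
    rw [← hNN, pow_add, pow_add, ← mul_pow, hNN]
    push_cast
    ring
  rw [h5]
  calc ((W * W : ℕ) : ℝ) ^ h * (W : ℝ) ^ (N + N - (h + h))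
      ≤ (Real.exp (4 * M * τ / q) * (H.card : ℝ)) * (W : ℝ) ^ (N + N - (h + h)) :=
        mul_le_mul_of_nonneg_right key (by (clear * -; positivity))
    _ = Real.exp (4 * M * τ / q) * ((H.card * W ^ (N + N - (h + h)) : ℕ) : ℝ) := by
        push_cast; ring
    _ ≤ _ := by
        rw [← hcard]
        apply mul_le_mul_of_nonneg_left _ (Real.exp_pos _).le
        exact_mod_cast hsub

end Vale.Agent.P334.Alg
end

section

/-!
The result of part 2.
-/

namespace Vale.Agent.P334.Alg

theorem stableSpec : StableSpec :=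
  stableSpec_of levelBSpec radSpec colorSpec bitsSpec anchorSpec splitSpec

end Vale.Agent.P334.Alg
end

section

/-!
The procedure for stable instances: specification and polynomial time.
-/

namespace Vale.Agent.P334.Alg.One

open Vale.Agent.Lib.PolyTime

theorem pn_len {α : Type} [Enc α] {n f l : α → ℕ} (hn : PT ∅ n) (hnb : PBd n) (hf : PT ∅ f)
    (hfb : PBd f) (hl : PT ∅ l) (hlb : PBd l) :
    PT ∅ (fun a => ((f a + f a) + (f a + f a)) * Nat.size (12000 * (n a * l a + f a + 1000))) ∧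
      PBd (fun a => ((f a + f a) + (f a + f a)) *
        Nat.size (12000 * (n a * l a + f a + 1000))) := by
  refine ⟨PT.mul (PT.add (PT.add hf hf) (PT.add hf hf)) (PT.natSize (PT.mul (PT.const 12000)
    (PT.add (PT.add (PT.mul hn hl) hf) (PT.const 1000)))), ?_⟩
  have h1 : PBd (fun a => ((f a + f a) + (f a + f a)) *
      (12000 * (n a * l a + f a + 1000))) :=
    ((hfb.add hfb).add (hfb.add hfb)).mul ((PBd.const 12000).mul
      (((hnb.mul hlb).add hfb).add (PBd.const 1000)))
  refine h1.mono fun a => Nat.mul_le_mul_left _ ?_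
  exact Nat.size_le.2 Nat.lt_two_pow_self

/-- Part 2, complete. -/
theorem stable_exists (K3 Kb : ℕ) (hKb : 1 ≤ Kb) :
    ∃ (K2 : ℕ) (Us2 : ℕ → ℕ → ℕ) (Lr : ℕ → ℕ → ℕ → ℕ)
      (trial : (ℕ → ℕ → ℕ) → ℕ → List ℕ → List ℕ → ℕ → List ℕ → List Bool → List ℕ),
      TrialSpec (1995 / 1000) K3 Kb K2 Us2 Lr trial ∧ PTTrial trial ∧ PTU Us2 ∧ PTL Lr := by
  obtain ⟨K2, hK2⟩ := trialSpec_of stableSpec validSpec K3 Kb hKb
  refine ⟨K2, _, _, _, hK2, ?_, ?_, ?_⟩
  · intro α _ dd l k J F S r hd _ hl hlb hJ hF hk _ hS hr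
    exact PT_stableTrial (PT.eqNat PT.fst' PT.snd') K3 Kb hd hl hlb hJ hF hk hS hr
  · intro α _ n f hn hnb _ _
    refine ⟨PT.mul (PT.const 4000) (PT.max hn (PT.const 1)), ?_⟩
    refine ((PBd.const 4000).mul (hnb.add (PBd.const 1))).mono fun a => ?_
    refine Nat.mul_le_mul_left _ ?_
    omega
  · intro α _ n f l hn hnb hf hfb hl hlb
    exact pn_len hn hnb hf hfb hl hlb

end Vale.Agent.P334.Alg.One
end

section

/-!
The final theorem from the two parts of the algorithm.
-/

namespace Vale.Agent.P334.Alg.One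

open Vale.Agent.Lib.PolyTime

/-- The choice of the precision. -/
theorem exists_E {c q : ℝ} (hc : 0 ≤ c) (h : c < 2) (hq : c < q) :
    ∃ E : ℕ, 1 ≤ E ∧ c * (1 + 1 / E) * (1 + 1 / E) + 2 / E ≤ q := by
  obtain ⟨E, hE⟩ := exists_nat_gt (10 / (q - c))
  have h2c : 0 < q - c := by linarith only [hq]
  have hE0 : (0 : ℝ) < E := lt_trans (by (clear * - hq; positivity)) hE
  have hE1 : 1 ≤ E := by exact_mod_cast hE0
  have hE1' : (1 : ℝ) ≤ E := by exact_mod_cast hE1
  have h1 : 10 / (E : ℝ) < q - c := by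
    rw [div_lt_comm₀ hE0 h2c]
    exact hE
  refine ⟨E, hE1, ?_⟩
  have h3 : 0 < 1 / (E : ℝ) := by positivity
  have h4 : 1 / (E : ℝ) ≤ 1 := by rw [div_le_one hE0]; exact hE1'
  have h5 : 10 / (E : ℝ) = 10 * (1 / E) := by ring
  have h6 : 2 / (E : ℝ) = 2 * (1 / E) := by ring
  rw [h5] at h1
  rw [h6]
  generalize 1 / (E : ℝ) = x at *
  nlinarith only [h1, h, h3, h4, mul_nonneg (mul_nonneg hc h3.le) h3.le]

/-- The final theorem from the two parts. -/
theorem main_of {c3 : ℝ} {K3 : ℕ} {Us3 : ℕ → ℕ → ℕ}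
    {pseudo : (ℕ → ℕ → ℕ) → ℕ → List ℕ → List ℕ → ℕ → List ℕ} (h3 : PseudoSpec c3 K3 Us3 pseudo)
    (hp3 : PTPseudo pseudo) (hu3 : PTU Us3) {c2 : ℝ} (hc2 : c2 < 2)
    (h2 : ∀ Kb : ℕ, 1 ≤ Kb → ∃ (K2 : ℕ) (Us2 : ℕ → ℕ → ℕ) (Lr : ℕ → ℕ → ℕ → ℕ)
      (trial : (ℕ → ℕ → ℕ) → ℕ → List ℕ → List ℕ → ℕ → List ℕ → List Bool → List ℕ),
      TrialSpec c2 K3 Kb K2 Us2 Lr trial ∧ PTTrial trial ∧ PTU Us2 ∧ PTL Lr)
    {q : ℚ} (hq2 : c2 < q) (hq3 : c3 < q) :
    ∃ (A : Final.Input → List ℕ) (T : Polynomial ℕ),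
      (∃ M : Turing.TM2ComputableInPolyTime Final.Input.code (Final.codeList Nat.bits) A,
        ∀ k, Finite (M.tm.Γ k)) ∧
      ∀ I : Final.Inst, I.Valid →
        (∀ r : Fin (T.eval I.code.length) → Bool, I.Feasible (A ⟨I, List.ofFn r⟩).toFinset) ∧
        ∀ S, I.Feasible S →
          (∑ r : Fin (T.eval I.code.length) → Bool, I.cost (A ⟨I, List.ofFn r⟩).toFinset) /
            2 ^ (T.eval I.code.length) ≤ q * I.cost S := by
  have hcc : max c2 c3 < 2 := max_lt hc2 h3.lt_two
  obtain ⟨E, hE, hq⟩ := exists_E (le_trans zero_le_one (le_max_of_le_right h3.one_le)) hcc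
    (max_lt hq2 hq3)
  obtain ⟨K2, Us2, Lr, trial, hT, hpt, hpu, hpl⟩ := h2 (2 * E * K3)
    (Nat.mul_pos (by (clear * - hE; omega)) h3.pos)
  let P : Data := ⟨pseudo, trial, K3, K2, E, fun n f => Us3 n f * Us2 n f, Lr⟩
  have hPU : PTU P.Us := by
    intro α _ n f h4 h5 h6 h7
    obtain ⟨h8, h9⟩ := hu3 α n f h4 h5 h6 h7
    obtain ⟨h10, h11⟩ := hpu α n f h4 h5 h6 h7
    exact ⟨h8.mul h10, h9.mul h11⟩
  obtain ⟨T, hTp⟩ := exists_poly (P := P) hPU hpl
  refine ⟨alg P, T, exists_machine hp3 hpt hPU hpl, ?_⟩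
  intro I hI
  obtain ⟨h4, h5⟩ := kmed_spec (P := P) (t := T.eval I.code.length) hE h3 hT
    (fun n f => Nat.dvd_mul_right _ _) (fun n f => Nat.dvd_mul_left _ _)
    (fun n f => Nat.mul_pos (h3.us_pos n f) (hT.us_pos n f)) (metOn_of_valid hI) hI.nodup_J hI.lt_J
    hI.nodup_F hI.lt_F hI.one_le hI.k_le (hTp I)
  have hmin : min I.k I.F.length = I.k := min_eq_left hI.k_le
  have halg : ∀ r, alg P ⟨I, r⟩ =
      P.kmed (Dint I.M) (lint I.M) I.M.length I.J I.F I.k r := by
    intro r
    simp only [alg, hmin]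
  refine ⟨?_, ?_⟩
  · intro r
    rw [halg]
    obtain ⟨h6, h7, h8⟩ := h4 (List.ofFn r)
    refine ⟨?_, ?_, ?_⟩
    · rw [List.toFinset_nonempty_iff]
      exact h6
    · intro x hx
      rw [List.mem_toFinset] at hx ⊢
      exact h7 x hx
    · exact (List.toFinset_card_le _).trans h8
  · intro S hS
    obtain ⟨h6, h7, h8⟩ := hS
    have hden : (0 : ℝ) < den I.M := by exact_mod_cast den_pos I.M
    have hfS : Feas I.F I.k S.toList := by
      refine ⟨?_, ?_, ?_⟩
      · rw [Ne, Finset.toList_eq_nil]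
        exact h6.ne_empty
      · intro x hx
        rw [Finset.mem_toList] at hx
        exact List.mem_toFinset.1 (h7 hx)
      · rw [Finset.length_toList]
        exact h8
    have h9 : (optN (Dint I.M) (lint I.M) I.J I.F I.k : ℝ) ≤ den I.M * (I.cost S : ℝ) := by
      have h10 := cost_eq hI.nodup_J hfS.1
      rw [Finset.toList_toFinset] at h10
      have h11 : (cst (Dint I.M) (lint I.M) I.J S.toList : ℝ) = den I.M * (I.cost S : ℝ) := by
        exact_mod_cast h10
      rw [← h11]
      exact_mod_cast optN_le hfS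
    have h10 : ∀ r : Fin (T.eval I.code.length) → Bool,
        (cst (Dint I.M) (lint I.M) I.J
          (P.kmed (Dint I.M) (lint I.M) I.M.length I.J I.F I.k (List.ofFn r)) : ℝ) =
        den I.M * (I.cost (alg P ⟨I, List.ofFn r⟩).toFinset : ℝ) := by
      intro r
      rw [halg]
      have := cost_eq hI.nodup_J (h4 (List.ofFn r)).1
      exact_mod_cast this
    simp only [h10] at h5
    rw [← Finset.mul_sum] at h5
    have h11 : (den I.M : ℝ) * ∑ r : Fin (T.eval I.code.length) → Bool,
        (I.cost (alg P ⟨I, List.ofFn r⟩).toFinset : ℝ) ≤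
        den I.M * (q * I.cost S * 2 ^ (T.eval I.code.length)) := by
      refine h5.trans ?_
      have hpow : (0 : ℝ) ≤ 2 ^ (T.eval I.code.length) := by positivity
      calc (max c2 c3 * (1 + 1 / (E : ℝ)) * (1 + 1 / E) + 2 / E) *
            optN (Dint I.M) (lint I.M) I.J I.F I.k * 2 ^ (T.eval I.code.length)
          ≤ q * (den I.M * (I.cost S : ℝ)) * 2 ^ (T.eval I.code.length) := by
            refine mul_le_mul_of_nonneg_right ?_ hpow
            refine mul_le_mul hq h9 (Nat.cast_nonneg _) ?_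
            refine le_trans ?_ hq
            have : 0 ≤ max c2 c3 := le_trans zero_le_one (le_max_of_le_right h3.one_le)
            (clear * - this hE; positivity)
        _ = _ := by ring
    have h12 := le_of_mul_le_mul_left h11 hden
    rw [div_le_iff₀ (by positivity)]
    exact_mod_cast h12

end Vale.Agent.P334.Alg.One
end

section

/-!
The final theorem from the four pieces of the pseudo-approximation algorithm.
-/

namespace Vale.Agent.P334.Alg

namespace One

/-- Part 3. -/
theorem pseudo_exists (hS : LmSingleSpec) (hR : LmRadSpec) (h1 : Cand1Spec) (h2 : Cands2Spec) :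
    ∃ (c3 : ℝ) (K3 : ℕ) (Us3 : ℕ → ℕ → ℕ)
      (pseudo : (ℕ → ℕ → ℕ) → ℕ → List ℕ → List ℕ → ℕ → List ℕ),
      PseudoSpec c3 K3 Us3 pseudo ∧ PTPseudo pseudo ∧ PTU Us3 ∧ c3 < 2 - 1 / 10 ^ 28 := by
  obtain ⟨e, M, C, κ0, κ, ε, T1, T2, g1, g2, g3, g4, g5, g6, g7, g8, g9, g10, g11⟩ := consts_exist
  have hc : Consts e M C κ0 κ ε T1 T2 := ⟨g1, g2, g3, g4, g5, g6, g7, g8, g9, g10, g11⟩
  have hκpos : 0 < κ := by
    rw [g3, g2, g1]; positivity
  have hκ1 : κ ≤ 1 / 100 := by
    rw [g3, g2, g1]; norm_num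
  refine ⟨2 - κ / 16, 3 * ((M + 3) * C), usP e M C, pseudoP e M C, ⟨by (clear * - hκpos hκ1; linarith), by linarith only [hκpos],
    ?_, ?_, ?_⟩, PTPseudo_pseudoP e M C, PTU_usP e M C, ?_⟩
  · have : 1 ≤ (M + 3) * C := Nat.mul_pos (by omega) g10
    (clear * - this; omega)
  · intro n f
    unfold usP
    (clear * - g7 g8; positivity)
  · intro d l J F k hset hk hkF hdvd
    obtain ⟨m, hm⟩ : ∃ m : MetricSpace ℕ, m = hset.met.space := ⟨_, rfl⟩
    have hd : ∀ a b : ℕ, @dist ℕ m.toPseudoMetricSpace.toDist a b = (d a b : ℝ) := by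
      intro a b
      subst hm
      rfl
    have ho := opt_eq hd hset.le hset.nodupJ hset.neF hk
    have key := @pseudoP_spec hS hR h1 h2 e M C κ0 κ ε T1 T2 hc ℕ m _ d hd l hset.le J F
      hset.nodupJ hset.nodupF hset.neJ hset.neF k hk hdvd
    obtain ⟨k1, k2, k3, k4, k5⟩ := key
    refine ⟨⟨k1, k3, ?_⟩, k2, ?_⟩
    · refine k4.trans (le_of_eq ?_)
      unfold mS
      ring
    · rw [cst_real hd hset.nodupJ k1 (fun j _ s _ => hset.le j s), ← ho]
      refine k5.trans (mul_le_mul_of_nonneg_left ?_ (by linarith only [hκ1]))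
      refine lpVal_le_opt ?_ hk
      rw [List.toFinset_nonempty_iff]
      exact hset.neF
  · rw [g3, g2, g1]
    norm_num

/-- The final theorem. -/
theorem final_of (hS : LmSingleSpec) (hR : LmRadSpec) (h1 : Cand1Spec) (h2 : Cands2Spec) :
    ∃ (A : Final.Input → List ℕ) (T : Polynomial ℕ),
      (∃ M : Turing.TM2ComputableInPolyTime Final.Input.code (Final.codeList Nat.bits) A,
        ∀ k, Finite (M.tm.Γ k)) ∧
      ∀ I : Final.Inst, I.Valid →
        (∀ r : Fin (T.eval I.code.length) → Bool, I.Feasible (A ⟨I, List.ofFn r⟩).toFinset) ∧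
        ∀ S, I.Feasible S →
          (∑ r : Fin (T.eval I.code.length) → Bool, I.cost (A ⟨I, List.ofFn r⟩).toFinset) /
            2 ^ (T.eval I.code.length) ≤ (2 - 1 / 10 ^ 28) * I.cost S := by
  obtain ⟨c3, K3, Us3, pseudo, h3, h4, h5, h6⟩ := pseudo_exists hS hR h1 h2
  exact main_of h3 h4 h5 (c2 := 1995 / 1000) (by norm_num)
    (fun Kb hKb => stable_exists K3 Kb hKb) (q := 2 - 1 / 10 ^ 28) (by norm_num)
    (by push_cast; exact h6)

end One

end Vale.Agent.P334.Alg
end

section

/-!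
The final theorem: metric k-median has a randomized polynomial-time approximation algorithm with a
factor below 2.
-/

namespace Vale.Agent.P334.Alg

/-- The final theorem. -/
theorem closed :
    ∃ (A : Final.Input → List ℕ) (T : Polynomial ℕ),
      (∃ M : Turing.TM2ComputableInPolyTime Final.Input.code (Final.codeList Nat.bits) A,
        ∀ k, Finite (M.tm.Γ k)) ∧
      ∀ I : Final.Inst, I.Valid →
        (∀ r : Fin (T.eval I.code.length) → Bool, I.Feasible (A ⟨I, List.ofFn r⟩).toFinset) ∧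
        ∀ S, I.Feasible S →
          (∑ r : Fin (T.eval I.code.length) → Bool, I.cost (A ⟨I, List.ofFn r⟩).toFinset) /
            2 ^ (T.eval I.code.length) ≤ (2 - 1 / 10 ^ 28) * I.cost S :=
  One.final_of lmSingleSpec lmRadSpec cand1Spec cands2Spec

end Vale.Agent.P334.Alg
end
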